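import Vale.Agent.P205.Stage.Invariant

/-!
The statements that connect the modules of a stage, as propositions.
-/

noncomputable section

open Set Finset Real
open scoped ContDiff

namespace Vale.Agent.P205.Stage

open Wave

/-- The least cost of a derivative at the start. -/
def bMin : ℕ := 30
/-- The smallness of the unknowns needed by the steps. -/
def sMin : ℕ := 10

/-- Level `0` is ready. -/
def BaseStep : Prop :=
  ∀ (C : ℕ → ℝ) (C2 : ℕ → ℕ → ℝ) (N N' b : ℕ), bMin ≤ b → b ≤ bExp →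
  ∀ (G : Type) [NormedAddCommGroup G] [NormedSpace ℝ G] [FiniteDimensional ℝ G] (V : Set G)
    (hV : IsOpen V) (T : ℝ) (x : Fam C C2 → Ph × G → Unk),
      ∃ T', T ≤ T' ∧ MapOK N N' b T' V hV x 0

/-- A tiny level keeps everything. -/
def TinyStep : Prop :=
  ∀ (C : ℕ → ℝ) (C2 : ℕ → ℕ → ℝ) (N N' b s j : ℕ), bMin ≤ b → b ≤ bExp → sMin ≤ s → j < 9 →
  ∀ (G : Type) [NormedAddCommGroup G] [NormedSpace ℝ G] [FiniteDimensional ℝ G] (V : Set G)
    (hV : IsOpen V) (T : ℝ) (x : Fam C C2 → Ph × G → Unk),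
      Small N' b s T V hV x → MapOK N N' b T V hV x j →
        ∃ T', T ≤ T' ∧ MapOK N N' b T' V hV x (j + 1)

/-- A free level keeps everything; its bend is known crudely. -/
def FreeStep : Prop :=
  ∀ (C : ℕ → ℝ) (C2 : ℕ → ℕ → ℝ) (N N' b s j : ℕ), bMin ≤ b → b ≤ bExp → sMin ≤ s →
    (j = 9 ∨ j = 10) →
  ∀ (G : Type) [NormedAddCommGroup G] [NormedSpace ℝ G] [FiniteDimensional ℝ G] (V : Set G)
    (hV : IsOpen V) (T : ℝ) (x : Fam C C2 → Ph × G → Unk),
      Small N' b s T V hV x → MapOK N N' b T V hV x j →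
      BendCrude N N' b (cLev j) T V hV x j →
        ∃ T', T ≤ T' ∧ MapCore N N' b T' V hV x (j + 1) ∧
          BendCrude N N' b (cLev (j + 1)) T' V hV x (j + 1)

/-- Before the legal level the area of the first and second derivative along `v` is as crude as
the bend. -/
def KernelStep : Prop :=
  ∀ (C : ℕ → ℝ) (C2 : ℕ → ℕ → ℝ) (N N' b : ℕ), bMin ≤ b → b ≤ bExp →
  ∀ (G : Type) [NormedAddCommGroup G] [NormedSpace ℝ G] [FiniteDimensional ℝ G] (V : Set G)
    (hV : IsOpen V) (T : ℝ) (x : Fam C C2 → Ph × G → Unk),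
      MapCore N N' b T V hV x 11 → BendCrude N N' b (cLev 11) T V hV x 11 →
        ∃ T', T ≤ T' ∧ KernelCrude N N' b (10 * cLev 11) T' V hV x 11

/-- The legal level keeps the area and the bend from below. -/
def LegalStep : Prop :=
  ∀ (C : ℕ → ℝ) (C2 : ℕ → ℕ → ℝ) (N N' b s : ℕ), bMin ≤ b → b ≤ bExp → sMin ≤ s →
  ∀ (G : Type) [NormedAddCommGroup G] [NormedSpace ℝ G] [FiniteDimensional ℝ G] (V : Set G)
    (hV : IsOpen V) (T : ℝ) (x : Fam C C2 → Ph × G → Unk),
      Small N' b s T V hV x → MapOK N N' b T V hV x 11 →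
        ∃ T', T ≤ T' ∧
          (∀ t, ContDiffOn ℝ ∞ (mapAt N t.1 (x t) 12) ((scQ C C2 N' b T' V hV).S t)) ∧
          (∀ a ∈ axes, Cost (scQ C C2 N' b T' V hV) (fun t _ => Kf t ^ mExp 12)
            fun t => d1At N t.1 (x t) 12 a) ∧
          ∀ t, ∀ q ∈ (scQ C C2 N' b T' V hV).S t,
            1 ≤ Kf t ^ 20 * areaAt N t.1 (x t) 12 q ∧ 1 ≤ Kf t ^ 20 * bendAt N t.1 (x t) 12 q

/-- The tensor left by a level is quadratic in the amplitude and one order below its phase; each
level adds the amplitude on its phase, what is prescribed, the slow tensor and, if free, the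
defect on `dx²`; it moves the map by the amplitude one order below its phase. -/
def SizeStep : Prop :=
  ∀ (C : ℕ → ℝ) (C2 : ℕ → ℕ → ℝ) (N N' b s j : ℕ), bMin ≤ b → b ≤ bExp → sMin ≤ s → j < 12 →
  ∀ (G : Type) [NormedAddCommGroup G] [NormedSpace ℝ G] [FiniteDimensional ℝ G] (V : Set G)
    (hV : IsOpen V) (T : ℝ) (x : Fam C C2 → Ph × G → Unk),
      Small N' b s T V hV x → MapOK N N' b T V hV x j →
        ∃ T', T ≤ T' ∧
          Cost (scQ C C2 N' b T' V hV)
            (fun t q => levA (par N) t.1 j q.1.1 ^ 2 *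
              (Kf t ^ (200000 * mExp j) / Kf t ^ eExp j))
            (fun t => slowAt (par N) t.1 (x t) j) ∧
          Cost (scQ C C2 N' b T' V hV)
            (fun t _ => Kf t ^ (200000 * mExp j) * (Kf t ^ (100000 * mExp j) / Kf t ^ eExp j) ^ (N + 1))
            (fun t q => (![ip (d1At N t.1 (x t) (j + 1) (pt 1 0) q)
                (d1At N t.1 (x t) (j + 1) (pt 1 0) q),
              ip (d1At N t.1 (x t) (j + 1) (pt 1 0) q) (d1At N t.1 (x t) (j + 1) (pt 0 1) q),
              ip (d1At N t.1 (x t) (j + 1) (pt 0 1) q) (d1At N t.1 (x t) (j + 1) (pt 0 1) q)] : Sym2)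
              - (![ip (d1At N t.1 (x t) j (pt 1 0) (trunc j q))
                  (d1At N t.1 (x t) j (pt 1 0) (trunc j q)),
                ip (d1At N t.1 (x t) j (pt 1 0) (trunc j q))
                  (d1At N t.1 (x t) j (pt 0 1) (trunc j q)),
                ip (d1At N t.1 (x t) j (pt 0 1) (trunc j q))
                  (d1At N t.1 (x t) j (pt 0 1) (trunc j q))] : Sym2)
              - amp (par N) t.1 (x t) j (restAt N t.1 (x t) j) (trunc j q) ^ 2 •
                  sqForm (levCov j).1 (levCov j).2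
              - slowAt (par N) t.1 (x t) j q
              - (restAt N t.1 (x t) (j + 1) q - restAt N t.1 (x t) j (trunc j q)) • sqForm 1 0
              - (if h : j < 11 then (levA (par N) t.1 j q.1.1 / (par N).k t.1 j ^ 2) •
                  (x t (put j (slot j q) (trunc j q))).1 ⟨j, by omega⟩ else 0)) ∧
          Cost (scQ C C2 N' b T' V hV)
            (fun t q => levA (par N) t.1 j q.1.1 * (Kf t ^ (200000 * mExp j) / Kf t ^ eExp j))
            fun t q => mapAt N t.1 (x t) (j + 1) q - mapAt N t.1 (x t) j (trunc j q)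

/-- The levels commute with affine substitutions of the parameter, with periods of the phases
and with the phase of a tiny level where that level is switched off. -/
def NaturalStep : Prop :=
  ∀ (C : ℕ → ℝ) (C2 : ℕ → ℕ → ℝ) (N N' b s j : ℕ), bMin ≤ b → b ≤ bExp → sMin ≤ s → j ≤ 12 →
  ∀ (G G' : Type) [NormedAddCommGroup G] [NormedSpace ℝ G] [FiniteDimensional ℝ G]
    [NormedAddCommGroup G'] [NormedSpace ℝ G'] [FiniteDimensional ℝ G']
    (V : Set G) (_ : IsOpen V) (V' : Set G') (hV' : IsOpen V')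
    (L : G →L[ℝ] G') (c : Fam C C2 → G') (u : Fam C C2 → Fin 12 → ℝ) (T : ℝ)
    (U : Fam C C2 → Set R2) (x : Fam C C2 → Ph × G → Unk) (x' : Fam C C2 → Ph × G' → Unk),
    (∀ t, IsOpen (U t)) → (∀ t, T ≤ Kf t → MapsTo (fun g => L g + c t) V V') →
    (∀ t, ∀ i : Fin 12, (∃ m : ℤ, u t i = m * (2 * π)) ∨ ((i : ℕ) < 9 ∧ U t ⊆ offZone i t)) →
    Small N' b s T V' hV' x' → (∀ i, i < j → MapOK N N' b T V' hV' x' i) →
    (∀ t, T ≤ Kf t → ∀ p : Ph, p.1 ∈ dom N' t ∩ U t → ∀ g ∈ V,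
      x t (p, g) = x' t ((p.1, p.2 + u t), L g + c t)) →
    ∃ T', T ≤ T' ∧ ∀ t, T' ≤ Kf t → ∀ p : Ph, p.1 ∈ dom N' t ∩ U t → ∀ g ∈ V, ∀ i : ℕ, i ≤ j →
      mapAt N t.1 (x t) i (p, g) = mapAt N t.1 (x' t) i ((p.1, p.2 + u t), L g + c t) ∧
      restAt N t.1 (x t) i (p, g) = restAt N t.1 (x' t) i ((p.1, p.2 + u t), L g + c t) ∧
      (i < j → slowAt (par N) t.1 (x t) i (p, g) =
        slowAt (par N) t.1 (x' t) i ((p.1, p.2 + u t), L g + c t))

/-- The smallness of the unknowns in the run of a stage. -/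
def sRun : ℕ := 4 * bExp

/-- All levels are ready for small unknowns. -/
def ReadyStep : Prop :=
  ∀ (C : ℕ → ℝ) (C2 : ℕ → ℕ → ℝ) (N N' s : ℕ), sRun ≤ s →
  ∀ (G : Type) [NormedAddCommGroup G] [NormedSpace ℝ G] [FiniteDimensional ℝ G] (V : Set G)
    (hV : IsOpen V) (T : ℝ) (x : Fam C C2 → Ph × G → Unk),
      Small N' bExp s T V hV x → ∃ T', T ≤ T' ∧ ∀ j ≤ 11, MapOK N N' bExp T' V hV x j

/-- The equation of the stage is solved up to any power of the scale. -/
def SolveStep : Prop :=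
  ∀ (C : ℕ → ℝ) (C2 : ℕ → ℕ → ℝ) (N N' n : ℕ),
    ∃ (T : ℝ) (x : Fam C C2 → Ph × (Fin 0 → ℝ) → Unk),
      Small N' bExp sRun T univ isOpen_univ x ∧
        Cost (scQ C C2 N' bExp T univ isOpen_univ) (fun t _ => (Kf t ^ n)⁻¹)
          fun t q => x t q - stageOp (par N) t.1 (x t) q

end Vale.Agent.P205.Stage
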