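import Vale.Agent.P205.Stage.Weights
import Vale.Agent.P205.Stage.Specs

/-!
The map before the stage satisfies the hypotheses of level zero.
-/

noncomputable section

open Set Finset Real
open scoped ContDiff

namespace Vale.Agent.P205.Stage

open Wave (V4 ip D gram2 Scale Cost)

variable {C : ℕ → ℝ} {C2 : ℕ → ℕ → ℝ}

theorem D_at_base (p : Par) (I : Input) {G : Type} [NormedAddCommGroup G] [NormedSpace ℝ G]
    (a : R2) {F : Type} [NormedAddCommGroup F] [NormedSpace ℝ F] {f : R2 → F} {Ω : Set R2}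
    (hΩ : IsOpen Ω) (hf : ContDiffOn ℝ ∞ f Ω) {q : Ph × G} (hq : q.1.1 ∈ Ω) :
    D (vec p I G 0 a) (fun q : Ph × G => f q.1.1) q = D a f q.1.1 := by
  set L : Ph × G →L[ℝ] R2 :=
    (ContinuousLinearMap.fst ℝ R2 (Fin 12 → ℝ)).comp (ContinuousLinearMap.fst ℝ Ph G)
  have h : HasFDerivAt (fun q : Ph × G => f q.1.1) ((fderiv ℝ f q.1.1).comp L) q :=
    ((hf.differentiableOn (by simp)).differentiableAt (hΩ.mem_nhds hq)).hasFDerivAt.comp q
      L.hasFDerivAt
  simp [D, h.fderiv, L, vec]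

/-- The bend before the stage has relative cost and is at least `K ^ -2`. -/
theorem bendSq_cost (N' : ℕ) {b : ℕ} (hb : 25 ≤ b) {T : ℝ} (hT : cT C ≤ T) :
    Cost (scZ C C2 N' b T) (fun t => bendSq t.1.Z) (fun t => bendSq t.1.Z) ∧
      ∀ t, ∀ z ∈ (scZ C C2 N' b T).S t, 1 ≤ Kf t ^ 2 * bendSq t.1.Z z := by
  have hs := sff_cost (C := C) (C2 := C2) N' (le_refl 7) hT (pt 0 1) (pt 0 1)
  have hlo : ∀ t, ∀ z ∈ (scZ C C2 N' 7 T).S t, 1 ≤ Kf t ^ 2 * bendSq t.1.Z z := fun t z hz => by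
    have h := (K_pos_of_low hz.2).2
    have hb0 : 0 < bendSq t.1.Z z := t.2.1.bend z hz.2.1
    have hC : C 0 ≤ Kf t := (le_max_right _ _).trans (hT.trans hz.1)
    calc 1 ≤ C 0 * Kf t * bendSq t.1.Z z := h
      _ ≤ Kf t * Kf t * bendSq t.1.Z z := by
          have := Kf_pos t
          gcongr
      _ = _ := by rw [pow_two]
  have hn : Cost (scZ C C2 N' 7 T) (fun t _ => Kf t ^ 16) fun t => bendSq t.1.Z :=
    (hs.ip hs).mono zero_le_one (fun t _ _ => zero_le_one.trans (one_le_pow_K t 16))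
      fun t x _ => le_of_eq (by ring)
  refine ⟨Cost.rescale (rel_of_lower (L := fun t => Kf t ^ 18) (fun t => one_le_pow_K t 18) hn
    (fun t z hz => ?_) (fun t z hz => (t.2.1.bend z hz.2.1).le)
    (scZ C C2 N' 25 T) (fun t => ?_) fun t => (scZ_le (by omega) le_rfl).2 t) _
    (scZ_le hb le_rfl).1 fun t => (scZ_le hb le_rfl).2 t,
    fun t z hz => hlo t z ((scZ_le (by omega) le_rfl).2 t hz)⟩
  · calc Kf t ^ 16 = Kf t ^ 16 * 1 := (mul_one _).symm
      _ ≤ Kf t ^ 16 * (Kf t ^ 2 * bendSq t.1.Z z) :=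
          mul_le_mul_of_nonneg_left (hlo t z hz) (zero_le_one.trans (one_le_pow_K t 16))
      _ = _ := by ring
  · show Kf t ^ 7 * Kf t ^ 18 ≤ Kf t ^ 25
    rw [← pow_add]

section level0

variable {G : Type} [NormedAddCommGroup G] [NormedSpace ℝ G]

/-- Derivatives, area and bend of the map of level zero. -/
theorem base_eq (N : ℕ) (t : Fam C C2) (x : Ph × G → Unk) {q : Ph × G} (hq : q.1.1 ∈ t.1.Ω) :
    (∀ a, d1At N t.1 x 0 a q = D a t.1.Z q.1.1) ∧
      (∀ a a', d2At N t.1 x 0 a a' q = D a (D a' t.1.Z) q.1.1) ∧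
      areaAt N t.1 x 0 q = area t.1.Z q.1.1 ∧ bendAt N t.1 x 0 q = bendSq t.1.Z q.1.1 := by
  have e1 : ∀ a, ∀ r : Ph × G, r.1.1 ∈ t.1.Ω → d1At N t.1 x 0 a r = D a t.1.Z r.1.1 :=
    fun a r hr => D_at_base (par N) t.1 a t.2.1.open_ t.2.1.smoothZ hr
  have e2 : ∀ a a', d2At N t.1 x 0 a a' q = D a (D a' t.1.Z) q.1.1 := fun a a' => by
    have h : d1At N t.1 x 0 a' =ᶠ[nhds q] fun r => D a' t.1.Z r.1.1 := by
      filter_upwards [(t.2.1.open_.preimage (continuous_fst.fst)).mem_nhds hq] with r hr using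
        e1 a' r hr
    show D _ (d1At N t.1 x 0 a') q = _
    rw [Legal.D_congr h _]
    exact D_at_base (par N) t.1 a t.2.1.open_ (Wave.contDiffOn_D t.2.1.open_ t.2.1.smoothZ a') hq
  refine ⟨fun a => e1 a q hq, e2, ?_, ?_⟩
  · rw [areaAt, e1 _ q hq, e1 _ q hq]; rfl
  · rw [bendAt, bendVec, e1 _ q hq, e1 _ q hq, e2]; rfl

theorem base_rest_zero (N : ℕ) (t : Fam C C2) (x : Ph × G → Unk) :
    restAt N t.1 x 0 = fun _ => 0 := rfl

theorem base_map (N : ℕ) (t : Fam C C2) (x : Ph × G → Unk) :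
    mapAt N t.1 x 0 = fun q => t.1.Z q.1.1 := rfl

theorem mem_dom_of_scQ {N' b : ℕ} {T : ℝ} {V : Set G} {hV : IsOpen V} {t : Fam C C2} {q : Ph × G}
    (hq : q ∈ (scQ C C2 N' b T V hV).S t) :
    q.1.1 ∈ t.1.Ω ∧ q.1.1 ∈ (scZ C C2 N' b T).S t :=
  ⟨hq.1.2.1.1, hq.1.1, hq.1.2.1⟩

variable (N N' : ℕ) {b : ℕ} {T : ℝ} {V : Set G} {hV : IsOpen V} (x : Fam C C2 → Ph × G → Unk)

/-- The first derivatives cost `K`. -/
theorem base_d1 (hb : 25 ≤ b) (a : R2) :
    Cost (scQ C C2 N' b T V hV) (fun t _ => Kf t ^ 1) fun t => d1At N t.1 (x t) 0 a :=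
  (cost_of_plane (hV := hV) ((Z_cost N' T a 0).1.rescale (scZ C C2 N' b T)
    (scZ_le (by omega) le_rfl).1 fun t => (scZ_le (by omega) le_rfl).2 t)).congr
    fun t q hq => (base_eq N t (x t) (mem_dom_of_scQ hq).1).1 a

/-- The second derivatives cost `K ^ 2`. -/
theorem base_d2 (hb : 25 ≤ b) (a a' : R2) :
    Cost (scQ C C2 N' b T V hV) (fun t _ => Kf t ^ 2) fun t => d2At N t.1 (x t) 0 a a' :=
  (cost_of_plane (hV := hV) ((Z_cost N' T a a').2.rescale (scZ C C2 N' b T)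
    (scZ_le (by omega) le_rfl).1 fun t => (scZ_le (by omega) le_rfl).2 t)).congr
    fun t q hq => (base_eq N t (x t) (mem_dom_of_scQ hq).1).2.1 a a'

/-- The area. -/
theorem base_area (hb : 25 ≤ b) (hT : cT C ≤ T) :
    Cost (scQ C C2 N' b T V hV) (fun t => areaAt N t.1 (x t) 0)
        (fun t => areaAt N t.1 (x t) 0) ∧
      ∀ t, ∀ q ∈ (scQ C C2 N' b T V hV).S t, 1 ≤ Kf t ^ 4 * areaAt N t.1 (x t) 0 q := by
  obtain ⟨h, hlo⟩ := area_cost (C := C) (C2 := C2) N' (b := b) (by omega) hT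
  have e : ∀ t, ∀ q ∈ (scQ C C2 N' b T V hV).S t,
      areaAt N t.1 (x t) 0 q = area t.1.Z q.1.1 := fun t q hq =>
    (base_eq N t (x t) (mem_dom_of_scQ hq).1).2.2.1
  have hp : ∀ t, ∀ q ∈ (scQ C C2 N' b T V hV).S t, 0 ≤ area t.1.Z q.1.1 := fun t q hq =>
    (t.2.1.imm _ (mem_dom_of_scQ hq).1).le
  refine ⟨?_, fun t q hq => ?_⟩
  · have k := cost_of_plane (G := G) (hV := hV) h
    exact (k.congr (g := fun (t : Fam C C2) => areaAt N t.1 (x t) 0) e).mono zero_le_one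
      (fun t q hq => le_of_le_of_eq (hp t q hq) (e t q hq).symm)
      fun t q hq => le_of_eq ((e t q hq).symm.trans (one_mul _).symm)
  · rw [e t q hq]
    exact (hlo t _ (mem_dom_of_scQ hq).2).trans (mul_le_mul_of_nonneg_right
      (pow_le_pow_right₀ (one_le_Kf t) (by omega)) (hp t q hq))

/-- The bend. -/
theorem base_bend (hb : 25 ≤ b) (hT : cT C ≤ T) :
    Cost (scQ C C2 N' b T V hV) (fun t => bendAt N t.1 (x t) 0)
        (fun t => bendAt N t.1 (x t) 0) ∧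
      ∀ t, ∀ q ∈ (scQ C C2 N' b T V hV).S t, 1 ≤ Kf t ^ 4 * bendAt N t.1 (x t) 0 q := by
  obtain ⟨h, hlo⟩ := bendSq_cost (C := C) (C2 := C2) N' hb hT
  have e : ∀ t, ∀ q ∈ (scQ C C2 N' b T V hV).S t,
      bendAt N t.1 (x t) 0 q = bendSq t.1.Z q.1.1 := fun t q hq =>
    (base_eq N t (x t) (mem_dom_of_scQ hq).1).2.2.2
  have hp : ∀ t, ∀ q ∈ (scQ C C2 N' b T V hV).S t, 0 ≤ bendSq t.1.Z q.1.1 := fun t q hq =>
    (t.2.1.bend _ (mem_dom_of_scQ hq).1).le
  refine ⟨?_, fun t q hq => ?_⟩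
  · have k := cost_of_plane (G := G) (hV := hV) h
    exact (k.congr (g := fun (t : Fam C C2) => bendAt N t.1 (x t) 0) e).mono zero_le_one
      (fun t q hq => le_of_le_of_eq (hp t q hq) (e t q hq).symm)
      fun t q hq => le_of_eq ((e t q hq).symm.trans (one_mul _).symm)
  · rw [e t q hq]
    exact (hlo t _ (mem_dom_of_scQ hq).2).trans (mul_le_mul_of_nonneg_right
      (pow_le_pow_right₀ (one_le_Kf t) (by omega)) (hp t q hq))

/-- Nothing has moved. -/
theorem base_close (a a' : R2) :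
    Cost (scQ C C2 N' b T V hV) (fun t _ => (Kf t ^ (4 * bExp))⁻¹)
        (fun t q => d1At N t.1 (x t) 0 a q - D a t.1.Z q.1.1) ∧
      Cost (scQ C C2 N' b T V hV) (fun t _ => (Kf t ^ (4 * bExp))⁻¹)
        fun t q => d2At N t.1 (x t) 0 a a' q - D a (D a' t.1.Z) q.1.1 := by
  have hp : ∀ t : Fam C C2, ∀ q ∈ (scQ C C2 N' b T V hV).S t, 0 ≤ (Kf t ^ (4 * bExp))⁻¹ :=
    fun t q _ => inv_nonneg.2 (zero_le_one.trans (one_le_pow_K t _))
  exact ⟨(Cost.zero hp).congr fun t q hq =>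
      sub_eq_zero.2 ((base_eq N t (x t) (mem_dom_of_scQ hq).1).1 a),
    (Cost.zero hp).congr fun t q hq =>
      sub_eq_zero.2 ((base_eq N t (x t) (mem_dom_of_scQ hq).1).2.1 a a')⟩

/-- What remains is zero. -/
theorem base_rest :
    Cost (scQ C C2 N' b T V hV) (fun t q => t.1.χ q.1.1 ^ 2 * (Kf t ^ bExp)⁻¹)
      fun t => restAt N t.1 (x t) 0 := by
  simp only [base_rest_zero]
  exact Cost.zero fun t q _ => mul_nonneg (sq_nonneg _)
    (inv_nonneg.2 (zero_le_one.trans (one_le_pow_K t _)))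

/-- The map is smooth. -/
theorem base_smooth (t : Fam C C2) :
    ContDiffOn ℝ ∞ (mapAt N t.1 (x t) 0) ((scQ C C2 N' b T V hV).S t) := by
  rw [base_map]
  exact t.2.1.smoothZ.comp ((contDiff_fst.comp contDiff_fst).contDiffOn) fun q hq =>
    (mem_dom_of_scQ hq).1

end level0

/-- **Level zero is ready.** -/
theorem baseStep : BaseStep := by
  intro C C2 N N' b hb _ G _ _ _ V hV T x
  have hb' : 30 ≤ b := hb
  have hb25 : 25 ≤ b := by omega
  refine ⟨max T (cT C), le_max_left _ _, ?_⟩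
  have hT : cT C ≤ max T (cT C) := le_max_right _ _
  have hp : ∀ n : ℕ, ∀ t, ∀ q ∈ (scQ C C2 N' b (max T (cT C)) V hV).S t, (0 : ℝ) ≤ Kf t ^ n :=
    fun n t _ _ => zero_le_one.trans (one_le_pow_K t n)
  have up : ∀ (m n : ℕ) (t : Fam C C2), m ≤ n → Kf t ^ m ≤ 1 * Kf t ^ n := fun m n t h => by
    rw [one_mul]; exact pow_le_pow_right₀ (one_le_Kf t) h
  have hm : 2 ≤ mExp 0 := by simp [mExp, tinyM, bExp]
  have hc : 2 ≤ cLev 0 := by simp [cLev]
  refine ⟨⟨fun t => base_smooth N N' x t,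
    fun a _ => (base_d1 N N' x hb25 a).mono zero_le_one (hp _) fun t _ _ => up _ _ t (by omega),
    fun a _ a' _ => (base_d2 N N' x hb25 a a').mono zero_le_one (hp _) fun t _ _ =>
      up _ _ t (by omega),
    fun a _ => (base_d1 N N' x hb25 a).mono zero_le_one (hp _) fun t _ _ => up _ _ t (by omega),
    ?_, (base_area N N' x hb25 hT).1, (base_area N N' x hb25 hT).2,
    (base_bend N N' x hb25 hT).2, base_rest N N' x, fun h => absurd h (by omega), fun _ a _ => (base_close N N' x a a).1,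
    fun _ a _ a' _ => (base_close N N' x a a').2⟩, (base_bend N N' x hb25 hT).1,
    fun h => absurd h (by omega)⟩
  have hw : ∀ t q, bendWeight (G := G) N (t : Fam C C2).1 0 q = 1 := fun t q => by
    simp [bendWeight]
  refine (base_d2 N N' x hb25 _ _).mono zero_le_one (fun t q hq => ?_) fun t q hq => ?_
  · rw [hw, mul_one]; exact hp _ t q hq
  · rw [hw, mul_one]; exact up _ _ t hc

end Vale.Agent.P205.Stage
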