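import Vale.Agent.P205.Tame.Eval

/-!
Evaluation of sized families at the phases, and finite expansions in `1 / k`.
-/

noncomputable section

open Set Finset
open scoped ContDiff

namespace Vale.Agent.P205.Stage

open Wave

variable {ι X Y : Type} [NormedAddCommGroup X] [NormedSpace ℝ X] [NormedAddCommGroup Y]
  [NormedSpace ℝ Y]
variable {F : Type} [NormedAddCommGroup F] [NormedSpace ℝ F]

/-- A scalar depending on the index only. -/
theorem cost_smul_index {σ : Scale ι X} {w : ι → X → ℝ} {f : ι → X → F} (hf : Cost σ w f)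
    (c : ι → ℝ) : Cost σ (fun t x => |c t| * w t x) fun t x => c t • f t x := by
  refine ⟨fun t => (hf.smooth t).const_smul (c t),
    fun t x hx => mul_nonneg (abs_nonneg _) (hf.nonneg t x hx), fun i => ?_⟩
  obtain ⟨C, hC0, hC⟩ := hf.bound i
  refine ⟨C, hC0, fun t x hx => ?_⟩
  rw [show (fun y => c t • f t y) = c t • f t from rfl,
    iteratedFDeriv_const_smul_apply (hf.contDiffAt hx i), norm_smul, Real.norm_eq_abs]
  refine (mul_le_mul_of_nonneg_left (hC t x hx) (abs_nonneg _)).trans (le_of_eq ?_)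
  ring

/-- The map `z ↦ (z, k φ z)` into the charts with a fast variable. -/
def graph (φ : X →L[ℝ] ℝ) (k : ℝ) : X →L[ℝ] X × ℝ :=
  (ContinuousLinearMap.id ℝ X).prod (k • φ)

theorem graph_apply (φ : X →L[ℝ] ℝ) (k : ℝ) (z : X) : graph φ k z = (z, k * φ z) := by
  simp [graph]

theorem norm_graph_le (φ : X →L[ℝ] ℝ) (k : ℝ) : ‖graph φ k‖ ≤ 1 + |k| * ‖φ‖ :=
  ContinuousLinearMap.opNorm_le_bound _ (by positivity) fun z => by
    rw [graph_apply, Prod.norm_def]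
    have h1 : 0 ≤ |k| * ‖φ‖ * ‖z‖ := by positivity
    have h2 : ‖k * φ z‖ ≤ |k| * ‖φ‖ * ‖z‖ := by
      rw [norm_mul, Real.norm_eq_abs k, mul_assoc]
      exact mul_le_mul_of_nonneg_left (φ.le_opNorm z) (abs_nonneg k)
    refine max_le ?_ ?_ <;> nlinarith [norm_nonneg z]

section eval

variable {μ : Mag ι X} {ν : Mag ι Y} {d m : ℕ} {f : ι → X → F}

/-- A sized family under an affine substitution: one derivative costs `B ‖L‖`. -/
theorem sz_comp_affine (hf : Sz μ d m f) (L : ι → Y →L[ℝ] X) (c : ι → X)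
    (hL : ∀ t, μ.B t * ‖L t‖ ≤ ν.B t) (hmap : ∀ t, ∀ y ∈ ν.S t, L t y + c t ∈ μ.S t)
    (hM : ∀ t, μ.M t ≤ ν.M t) (hA : ∀ t, ∀ y ∈ ν.S t, μ.A t (L t y + c t) ≤ ν.A t y) :
    Sz ν d m fun t y => f t (L t y + c t) :=
  (Cost.comp_affine hf ν.toScale L c hL hmap).sz zero_le_one fun t y hy => by
    rw [one_mul]
    exact mul_le_mul (pow_le_pow_left₀ (μ.A_nonneg t _ (hmap t y hy)) (hA t y hy) d)
      (pow_le_pow_left₀ (zero_le_one.trans (μ.one_le_M t)) (hM t) m)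
      (pow_nonneg (zero_le_one.trans (μ.one_le_M t)) m) (pow_nonneg (ν.A_nonneg t y hy) d)

/-- **Evaluation at the phase.** A family with a fast variable, at `s = k φ z`. -/
theorem sz_eval {μ : Mag ι X} {ν : Mag ι X} {f : ι → X × ℝ → F} (hf : Sz μ.fast d m f)
    (φ : ι → X →L[ℝ] ℝ) (k : ι → ℝ) (hB : ∀ t, μ.B t * (1 + |k t| * ‖φ t‖) ≤ ν.B t)
    (hS : ∀ t, ν.S t ⊆ μ.S t) (hM : ∀ t, μ.M t ≤ ν.M t)
    (hA : ∀ t, ∀ z ∈ ν.S t, μ.A t z ≤ ν.A t z) :
    Sz ν d m fun t z => f t (z, k t * φ t z) := by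
  have e : ∀ t z, graph (φ t) (k t) z + (0 : X × ℝ) = (z, k t * φ t z) := fun t z => by
    rw [add_zero, graph_apply]
  refine (sz_comp_affine hf (fun t => graph (φ t) (k t)) (fun _ => 0)
    (fun t => (mul_le_mul_of_nonneg_left (norm_graph_le _ _)
      (zero_le_one.trans (μ.one_le t))).trans (hB t))
    (fun t z hz => ?_) hM fun t z hz => ?_).congr fun t z _ => by rw [e]
  · rw [e]; exact ⟨hS t hz, trivial⟩
  · rw [e]; exact hA t z hz

end eval

/-- **A finite expansion.** Terms of size `A ^ d M ^ (a j + b)` in order `j ≥ j₀` sum to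
`A ^ d M ^ b (M ^ a / k) ^ j₀` when `k ≥ M ^ a`. -/
theorem series {μ : Mag ι X} {d a b j₀ : ℕ} (s : Finset ℕ) (hs : ∀ j ∈ s, j₀ ≤ j)
    {f : ℕ → ι → X → F} (hf : ∀ j ∈ s, Sz μ d (a * j + b) (f j)) (k : ι → ℝ)
    (hk : ∀ t, μ.M t ^ a ≤ k t) :
    Cost μ.toScale (fun t x => μ.A t x ^ d * μ.M t ^ b * (μ.M t ^ a / k t) ^ j₀)
      fun t x => ∑ j ∈ s, (k t)⁻¹ ^ j • f j t x := by
  have hM : ∀ t, 0 < μ.M t := fun t => zero_lt_one.trans_le (μ.one_le_M t)
  have hk0 : ∀ t, 0 < k t := fun t => (pow_pos (hM t) a).trans_le (hk t)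
  have hw : ∀ t, ∀ x ∈ μ.S t, 0 ≤ μ.A t x ^ d * μ.M t ^ b * (μ.M t ^ a / k t) ^ j₀ :=
    fun t x hx => mul_nonneg (μ.weight_nonneg d b t x hx)
      (pow_nonneg (div_nonneg (pow_nonneg (hM t).le a) (hk0 t).le) j₀)
  refine Cost.sum s hw (f := fun j t x => (k t)⁻¹ ^ j • f j t x) fun j hj => ?_
  refine (cost_smul_index (hf j hj) fun t => (k t)⁻¹ ^ j).mono zero_le_one hw fun t x hx => ?_
  rw [one_mul, abs_of_nonneg (pow_nonneg (inv_nonneg.2 (hk0 t).le) j)]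
  have hr : μ.M t ^ a / k t ≤ 1 := (div_le_one (hk0 t)).2 (hk t)
  have := pow_le_pow_of_le_one (div_nonneg (pow_nonneg (hM t).le a) (hk0 t).le) hr (hs j hj)
  calc (k t)⁻¹ ^ j * (μ.A t x ^ d * μ.M t ^ (a * j + b))
      = μ.A t x ^ d * μ.M t ^ b * (μ.M t ^ a / k t) ^ j := by
        rw [div_pow, inv_pow, pow_add, pow_mul]; ring
    _ ≤ _ := mul_le_mul_of_nonneg_left this (μ.weight_nonneg d b t x hx)

end Vale.Agent.P205.Stage
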