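import Vale.Agent.P205.Stage.Lift
import Vale.Agent.P205.Wave.CostCoef
import Vale.Agent.P205.Free.Profile

/-!
Naturality of the waves under affine maps of the parameter space, and the map of a level on the
space where its phase is a linear coordinate.
-/

noncomputable section

open Set Finset Filter
open scoped ContDiff Topology

namespace Vale.Agent.P205.Stage

open Wave Wave.Data

variable {E E' : Type} [NormedAddCommGroup E] [NormedSpace ℝ E] [NormedAddCommGroup E']
  [NormedSpace ℝ E']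

theorem D_comp_affine {G : Type} [NormedAddCommGroup G] [NormedSpace ℝ G] {f : E → G}
    {h : E' → G} (g : E' →L[ℝ] E) (c : E) (a : E') {y : E'}
    (hd : DifferentiableAt ℝ f (g y + c)) (he : h =ᶠ[𝓝 y] fun z => f (g z + c)) :
    D a h y = D (g a) f (g y + c) := by
  have h1 : HasFDerivAt (fun z => f (g z + c)) _ y :=
    hd.hasFDerivAt.comp (f := fun z => g z + c) y (g.hasFDerivAt.add_const c)
  simp only [D]
  rw [he.fderiv_eq, h1.fderiv]
  rfl

/-- `W'` is the pullback of `W` by `y ↦ g y + c` on `U`. -/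
structure Pullback (W : Wave.Data E) (W' : Wave.Data E') (g : E' →L[ℝ] E) (c : E) (U : Set E') :
    Prop where
  open_ : IsOpen U
  maps : ∀ y ∈ U, g y + c ∈ W.Ω
  e : g W'.e = W.e
  v : g W'.v = W.v
  Z : ∀ y ∈ U, W'.Z y = W.Z (g y + c)
  rho : ∀ y ∈ U, W'.rho y = W.rho (g y + c)
  Err : ∀ n, ∀ y ∈ U, W'.Err n y = W.Err n (g y + c)

namespace Pullback

variable {W : Wave.Data E} {W' : Wave.Data E'} {g : E' →L[ℝ] E} {c : E} {U : Set E'}
  (P : Pullback W W' g c U)
include P

theorem deriv_eq {G : Type} [NormedAddCommGroup G] [NormedSpace ℝ G] {f : E → G} {h : E' → G}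
    (hΩ : IsOpen W.Ω) (hf : ContDiffOn ℝ ∞ f W.Ω) (he : ∀ y ∈ U, h y = f (g y + c)) (a : E')
    {y : E'} (hy : y ∈ U) : D a h y = D (g a) f (g y + c) :=
  D_comp_affine g c a
    ((hf.differentiableOn (by simp)).differentiableAt (hΩ.mem_nhds (P.maps y hy)))
    (eventuallyEq_of_mem (P.open_.mem_nhds hy) he)

theorem ze (hΩ : IsOpen W.Ω) (hZ : ContDiffOn ℝ ∞ W.Z W.Ω) {y : E'} (hy : y ∈ U) :
    W'.Ze y = W.Ze (g y + c) := by
  rw [Ze, P.deriv_eq hΩ hZ P.Z _ hy, P.e]; rfl

theorem zv (hΩ : IsOpen W.Ω) (hZ : ContDiffOn ℝ ∞ W.Z W.Ω) {y : E'} (hy : y ∈ U) :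
    W'.Zv y = W.Zv (g y + c) := by
  rw [Zv, P.deriv_eq hΩ hZ P.Z _ hy, P.v]; rfl

theorem zee (hΩ : IsOpen W.Ω) (hZ : ContDiffOn ℝ ∞ W.Z W.Ω) {y : E'} (hy : y ∈ U) :
    W'.Zee y = W.Zee (g y + c) := by
  rw [Zee, P.deriv_eq hΩ (contDiffOn_D hΩ hZ W.e) (fun z hz => P.ze hΩ hZ hz) _ hy, P.e]; rfl

section level

variable {Y : ℕ → E → ℝ → V4} {Y' : ℕ → E' → ℝ → V4} (hΩ : IsOpen W.Ω)
  (hZ : ContDiffOn ℝ ∞ W.Z W.Ω) (hY : ∀ j, Smooth2 W.Ω (Y j))
  (hYY : ∀ j, ∀ y ∈ U, Y' j y = Y j (g y + c))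
include hΩ hZ hY hYY

theorem de_dv {y : E'} (hy : y ∈ U) (i : ℕ) (s : ℝ) :
    W'.de Y' i y s = W.de Y i (g y + c) s ∧ W'.dv Y' i y s = W.dv Y i (g y + c) s := by
  have h : ∀ a, D a (fun z => Y' i z s) y = D (g a) (fun x => Y i x s) (g y + c) := fun a =>
    P.deriv_eq hΩ ((hY i).comp (contDiff_prodMk_left s).contDiffOn fun _ hx => ⟨hx, trivial⟩)
      (fun z hz => congrFun (hYY i z hz) s) a hy
  constructor
  · rcases Nat.eq_zero_or_pos i with rfl | hi
    · simp [de, P.ze hΩ hZ hy]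
    · simp [de, hi.ne', h, P.e]
  · rcases Nat.eq_zero_or_pos i with rfl | hi
    · simp [dv, P.zv hΩ hZ hy, hYY 1 y hy]
    · simp [dv, hi.ne', h, P.v, hYY (i + 1) y hy]

theorem coef {y : E'} (hy : y ∈ U) (n : ℕ) :
    W'.coefEE Y' n y = W.coefEE Y n (g y + c) ∧ W'.coefVE Y' n y = W.coefVE Y n (g y + c) ∧
      W'.coefVV Y' n y = W.coefVV Y n (g y + c) := by
  have h := fun i s => P.de_dv hΩ hZ hY hYY hy i s
  refine ⟨funext fun s => ?_, funext fun s => ?_, funext fun s => ?_⟩ <;>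
    simp only [coefEE, coefVE, coefVV, (h _ s).1, (h _ s).2]

theorem u1 {y : E'} (hy : y ∈ U) (n : ℕ) :
    W'.du1 Y' n y = W.du1 Y n (g y + c) ∧ W'.u1 Y' n y = W.u1 Y n (g y + c) := by
  have r : W'.res1 Y' n y = W.res1 Y n (g y + c) := funext fun s => by
    simp only [res1, P.Err n y hy, (P.coef hΩ hZ hY hYY hy n).2.1]
  have d : W'.du1 Y' n y = W.du1 Y n (g y + c) := funext fun s => by simp only [du1, r]
  exact ⟨d, by simp only [Data.u1, d]⟩

end level

variable [FiniteDimensional ℝ E]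

theorem frame_eq (hW : W.Good) {y : E'} (hy : y ∈ U) :
    W'.bb y = W.bb (g y + c) ∧ W'.aa y = W.aa (g y + c) ∧ W'.tau y = W.tau (g y + c) ∧
      W'.nu y = W.nu (g y + c) ∧ W'.ell y = W.ell (g y + c) ∧ W'.cs y = W.cs (g y + c) ∧
      W'.sn y = W.sn (g y + c) := by
  have e1 := P.ze hW.open_ hW.smoothZ hy
  have e2 := P.zv hW.open_ hW.smoothZ hy
  have e3 := P.zee hW.open_ hW.smoothZ hy
  have b : W'.bb y = W.bb (g y + c) := by simp only [bb, Data.lift, e1, e2, e3]
  have a : W'.aa y = W.aa (g y + c) := by simp only [aa, b, e2]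
  have t : W'.tau y = W.tau (g y + c) := by simp only [tau, a, b, e2]
  have n : W'.nu y = W.nu (g y + c) := by simp only [nu, e1, e3, t]
  have l : W'.ell y = W.ell (g y + c) := by simp only [ell, a, P.rho y hy]
  have m : W'.amp y = W.amp (g y + c) := by simp only [amp, a, l, P.rho y hy]
  exact ⟨b, a, t, n, l, funext fun s => by simp only [cs, m], funext fun s => by simp only [sn, m]⟩

theorem step_eq (hW : W.Good) {Y : ℕ → E → ℝ → V4} {Y' : ℕ → E' → ℝ → V4}
    (hY : ∀ j, SP W.Ω (Y j)) (hYY : ∀ j, ∀ y ∈ U, Y' j y = Y j (g y + c)) (n : ℕ) {y : E'}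
    (hy : y ∈ U) : W'.step Y' n y = W.step Y n (g y + c) := by
  have hs : ∀ j, Smooth2 W.Ω (Y j) := fun j => (hY j).smooth
  obtain ⟨hb, -, ht, hn, hl, hc, hsn⟩ := P.frame_eq hW hy
  obtain ⟨d1, u⟩ := P.u1 hW.open_ hW.smoothZ hs hYY hy n
  have hu : ∀ s, D W'.e (fun z => W'.u1 Y' n z s) y = D W.e (fun x => W.u1 Y n x s) (g y + c) :=
    fun s => by
      rw [P.deriv_eq hW.open_ ((sp_u1 hW hY n).smooth.comp (contDiff_prodMk_left s).contDiffOn
        fun _ hx => ⟨hx, trivial⟩)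
        (fun z hz => congrFun (P.u1 hW.open_ hW.smoothZ hs hYY hz n).2 s) _ hy, P.e]
      rfl
  have lift : ∀ a b, W'.lift y a b = W.lift (g y + c) a b := fun a b => by
    simp only [Data.lift, P.ze hW.open_ hW.smoothZ hy, P.zee hW.open_ hW.smoothZ hy]
  have r0 : W'.res0 Y' n y = W.res0 Y n (g y + c) := funext fun s => by
    simp only [res0, (P.coef hW.open_ hW.smoothZ hs hYY hy (n + 1)).1, hu, P.Err (n + 1) y hy]
  have u2 : W'.u2 Y' n y = W.u2 Y n (g y + c) := funext fun s => by simp only [Data.u2, r0]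
  have gv : W'.gvv Y' n y = W.gvv Y n (g y + c) := funext fun s => by
    simp only [gvv, (P.coef hW.open_ hW.smoothZ hs hYY hy n).2.2, P.Err n y hy, hb, lift, d1, u2]
  have mv : W'.mvv Y' n y = W.mvv Y n (g y + c) := by simp only [mvv, gv, hc]
  have wv : W'.wvv Y' n y = W.wvv Y n (g y + c) := funext fun s => by simp only [wvv, gv, mv, hl]
  have cv : W'.cvv Y' n y = W.cvv Y n (g y + c) := by simp only [cvv, wv, hsn, hc]
  have dq : W'.dq Y' n y = W.dq Y n (g y + c) := funext fun s => by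
    simp only [Data.dq, wv, cv, hc, hsn, ht, hn]
  funext s
  simp only [step, lift, u, u2, dq]

/-- **The correctors of a legal wave are natural.** -/
theorem upTo_eq (hW : W.Good) :
    ∀ m j, ∀ y ∈ U, W'.upTo (m + 1) j y = W.upTo (m + 1) j (g y + c) := by
  intro m
  induction m with
  | zero =>
    intro j y hy
    obtain ⟨hb, ha, ht, hn, hl, hc, hs⟩ := P.frame_eq hW hy
    rcases eq_or_ne j 1 with rfl | hj
    · rw [show W.upTo 1 1 = W.Y1 from Function.update_self _ _ _,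
        show W'.upTo 1 1 = W'.Y1 from Function.update_self _ _ _]
      have d : W'.dY1 y = W.dY1 (g y + c) := funext fun s => by
        simp only [dY1, ha, ht, hn, hl, hc, hs]
      simp only [Y1, d]
    · rw [show W.upTo 1 j = fun _ _ => 0 from Function.update_of_ne hj _ _,
        show W'.upTo 1 j = fun _ _ => 0 from Function.update_of_ne hj _ _]
  | succ m ih =>
    intro j y hy
    rw [show W.upTo (m + 1 + 1) = Function.update (W.upTo (m + 1)) (m + 2)
      (W.step (W.upTo (m + 1)) (m + 1)) from rfl, show W'.upTo (m + 1 + 1) =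
      Function.update (W'.upTo (m + 1)) (m + 2) (W'.step (W'.upTo (m + 1)) (m + 1)) from rfl]
    rcases eq_or_ne j (m + 2) with rfl | hj
    · rw [Function.update_self, Function.update_self]
      exact P.step_eq hW (inv_upTo hW m).sp ih (m + 1) hy
    · rw [Function.update_of_ne hj, Function.update_of_ne hj]; exact ih j y hy

/-- **The coefficients of a legal wave are natural.** -/
theorem coef_upTo (hW : W.Good) (N n : ℕ) {y : E'} (hy : y ∈ U) :
    W'.coefEE (W'.upTo (N + 1)) n y = W.coefEE (W.upTo (N + 1)) n (g y + c) ∧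
      W'.coefVE (W'.upTo (N + 1)) n y = W.coefVE (W.upTo (N + 1)) n (g y + c) ∧
      W'.coefVV (W'.upTo (N + 1)) n y = W.coefVV (W.upTo (N + 1)) n (g y + c) :=
  P.coef hW.open_ hW.smoothZ (fun j => ((inv_upTo hW N).sp j).smooth) (P.upTo_eq hW N) hy n

end Pullback

/-- A pullback of free waves. -/
structure FreePullback (W : Free.Data E) (W' : Free.Data E') (g : E' →L[ℝ] E) (c : E)
    (U : Set E') : Prop extends Pullback W.toData W'.toData g c U where
  T : ∀ y ∈ U, W'.T y = W.T (g y + c)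
  Phi : ∀ i, ∀ y ∈ U, W'.Phi i y = W.Phi i (g y + c)

namespace FreePullback

variable [FiniteDimensional ℝ E] {W : Free.Data E} {W' : Free.Data E'} {g : E' →L[ℝ] E} {c : E}
  {U : Set E'} (P : FreePullback W W' g c U)
include P

/-- **The correctors of a free wave are natural.** -/
theorem upTo_eq (hW : W.Good) :
    ∀ m j, ∀ y ∈ U, W'.upTo (m + 1) j y = W.upTo (m + 1) j (g y + c) := by
  have hP := P.toPullback
  have ez := fun {y} (hy : y ∈ U) => hP.ze hW.open_ hW.smoothZ hy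
  have ev := fun {y} (hy : y ∈ U) => hP.zv hW.open_ hW.smoothZ hy
  intro m
  induction m with
  | zero =>
    intro j y hy
    rcases eq_or_ne j 1 with rfl | hj
    · rw [show W.upTo 1 1 = W.Y1 from Function.update_self _ _ _,
        show W'.upTo 1 1 = W'.Y1 from Function.update_self _ _ _]
      simp only [Free.Data.Y1, Free.Data.pv, Free.Data.zz, P.T y hy, ez hy, ev hy]
    · rw [show W.upTo 1 j = fun _ _ => 0 from Function.update_of_ne hj _ _,
        show W'.upTo 1 j = fun _ _ => 0 from Function.update_of_ne hj _ _]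
  | succ m ih =>
    intro j y hy
    rw [show W.upTo (m + 1 + 1) = Function.update (W.upTo (m + 1)) (m + 2)
      (W.step (W.upTo (m + 1)) (m + 1)) from rfl, show W'.upTo (m + 1 + 1) =
      Function.update (W'.upTo (m + 1)) (m + 2) (W'.step (W'.upTo (m + 1)) (m + 1)) from rfl]
    rcases eq_or_ne j (m + 2) with rfl | hj
    swap
    · rw [Function.update_of_ne hj, Function.update_of_ne hj]; exact ih j y hy
    rw [Function.update_self, Function.update_self]
    have hs : ∀ j, Smooth2 W.Ω (W.upTo (m + 1) j) :=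
      fun j => ((Free.Data.inv_upTo hW m).sp j).smooth
    obtain ⟨d1, u⟩ := hP.u1 hW.open_ hW.smoothZ hs ih hy (m + 1)
    obtain ⟨-, -, cvv⟩ := hP.coef hW.open_ hW.smoothZ hs ih hy (m + 1)
    have l : W'.lsq y = W.lsq (g y + c) := by simp only [Free.Data.lsq, P.T y hy]
    have gv : W'.gvv (W'.upTo (m + 1)) (m + 1) y =
        W.gvv (W.upTo (m + 1)) (m + 1) (g y + c) := funext fun s => by
      simp only [Free.Data.gvv, cvv, P.Err (m + 1) y hy, Free.Data.zz, ez hy, ev hy, d1]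
    have mv : W'.mvec (W'.upTo (m + 1)) (m + 1) y =
        W.mvec (W.upTo (m + 1)) (m + 1) (g y + c) := by
      simp only [Free.Data.mvec, l, gv, P.T y hy]
    have dq : W'.dq (W'.upTo (m + 1)) (m + 1) y =
        W.dq (W.upTo (m + 1)) (m + 1) (g y + c) := funext fun s => by
      simp only [Free.Data.dq, l, gv, mv, P.T y hy, P.Phi _ y hy]
    funext s
    simp only [Free.Data.step, u, dq, Free.Data.zz, ez hy]

/-- **The coefficients of a free wave and what it leaves are natural.** -/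
theorem coef_upTo (hW : W.Good) (N n : ℕ) {y : E'} (hy : y ∈ U) :
    W'.coefEE (W'.upTo (N + 1)) n y = W.coefEE (W.upTo (N + 1)) n (g y + c) ∧
      W'.coefVE (W'.upTo (N + 1)) n y = W.coefVE (W.upTo (N + 1)) n (g y + c) ∧
      W'.coefVV (W'.upTo (N + 1)) n y = W.coefVV (W.upTo (N + 1)) n (g y + c) ∧
      W'.oscEE N n y = W.oscEE N n (g y + c) := by
  obtain ⟨h1, h2, h3⟩ := P.toPullback.coef hW.open_ hW.smoothZ
    (fun j => ((Free.Data.inv_upTo hW N).sp j).smooth) (P.upTo_eq hW N) hy n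
  refine ⟨h1, h2, h3, funext fun s => ?_⟩
  simp only [Free.Data.oscEE, h1, P.Err n y hy]

end FreePullback

/-- Waves over unit normals pull back. -/
theorem Pullback.ofNormal {W : Wave.Data E} {W' : Wave.Data E'} {g : E' →L[ℝ] E} {c : E}
    {U : Set E'} (P : Pullback W W' g c U) (hΩ : IsOpen W.Ω) (hZ : ContDiffOn ℝ ∞ W.Z W.Ω)
    {n : E → V4} {n' : E' → V4} (hn : ∀ y ∈ U, n' y = n (g y + c)) (κ : ℝ) :
    FreePullback (Free.Prof.ofNormal W n κ).data (Free.Prof.ofNormal W' n' κ).data g c U where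
  toPullback := P
  T y hy := by
    funext s
    simp only [Free.Prof.data, Free.Prof.len, Free.Prof.unit, Free.Prof.ofNormal, Free.Prof.m0,
      Free.Prof.aP, Free.Prof.tauP, Free.Prof.pvec, P.ze hΩ hZ hy, P.zv hΩ hZ hy, P.rho y hy,
      hn y hy]
  Phi i y hy := by
    funext s
    simp only [Free.Prof.data, Free.Prof.fix1, Free.Prof.fix2, Free.Prof.unit, Free.Prof.ofNormal,
      Free.Prof.m0, Free.Prof.aP, Free.Prof.tauP, Free.Prof.pvec, P.ze hΩ hZ hy, P.zv hΩ hZ hy,
      P.rho y hy, hn y hy]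

/-! ### The map of a level with its phase as a coordinate. -/

section level

variable {ι : Type} [FiniteDimensional ℝ E] {μ : Mag ι E} {W : ι → Wave.Data E}
  {Y : ι → ℕ → E → ℝ → V4} {n : ℕ} (hK : Kin μ W Y n)
  (hZ : ∀ t, ContDiffOn ℝ ∞ (W t).Z (μ.S t))
include hK hZ

theorem smooth_liftOf (t : ι) (k : ℝ) :
    ContDiffOn ℝ ∞ (liftOf (W t) (Y t) n k) (μ.fast.S t) :=
  ((hZ t).comp contDiff_fst.contDiffOn fun _ hq => hq.1).add
    (ContDiffOn.sum fun j _ => (hK.smooth t (j + 1)).const_smul _)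

/-- On a space where the own phase is the second coordinate of `A`: the derivatives along lifts of
`(e, 0)` and `(v, k)` and the metric are the finite expansions. -/
theorem level_exact (A : E' →L[ℝ] E × ℝ) {t : ι} {k : ℝ} (hk : k ≠ 0) {e' v' : E'}
    (he : A e' = ((W t).e, 0)) (hv : A v' = ((W t).v, k)) {x : E'} (hx : (A x).1 ∈ μ.S t) :
    let F := fun y => liftOf (W t) (Y t) n k (A y)
    D e' F x = ∑ i ∈ range (n + 1), k⁻¹ ^ i • (W t).de (Y t) i (A x).1 (A x).2 ∧
      D v' F x = ∑ i ∈ range (n + 1), k⁻¹ ^ i • (W t).dv (Y t) i (A x).1 (A x).2 ∧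
      (![ip (D e' F x) (D e' F x), ip (D v' F x) (D e' F x), ip (D v' F x) (D v' F x)] :
          Fin 3 → ℝ) =
        ∑ m ∈ range (2 * (n + 1)), k⁻¹ ^ m • coefsOf W Y m t (A x).1 (A x).2 := by
  intro F
  have hd : DifferentiableAt ℝ (liftOf (W t) (Y t) n k) (A x + 0) := by
    rw [add_zero]
    exact ((smooth_liftOf hK hZ t k).differentiableOn (by simp)).differentiableAt
      ((μ.fast.isOpen t).mem_nhds ⟨hx, trivial⟩)
  have e : ∀ a, D a F x = D (A a) (liftOf (W t) (Y t) n k) (A x) := fun a => by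
    rw [D_comp_affine A 0 a hd (h := F) (Eventually.of_forall fun y => by simp [F]), add_zero]
  obtain ⟨h1, h2⟩ := D_liftOf hK hZ (t := t) hk (p := A x) hx
  refine ⟨by rw [e, he, h1], by rw [e, hv, h2], ?_⟩
  simp only [e, he, hv]
  exact metric_liftOf hK hZ hk hx

theorem level_second (A : E' →L[ℝ] E × ℝ) {t : ι} (k : ℝ) (a b : E') {x : E'}
    (hx : (A x).1 ∈ μ.S t) :
    D a (D b fun y => liftOf (W t) (Y t) n k (A y)) x =
      D (A a) (D (A b) (liftOf (W t) (Y t) n k)) (A x) := by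
  set L := liftOf (W t) (Y t) n k
  have hs := smooth_liftOf hK hZ t k
  have hev : D b (fun y => L (A y)) =ᶠ[𝓝 x] fun y => D (A b) L (A y + 0) := by
    filter_upwards [((μ.fast.isOpen t).preimage A.continuous).mem_nhds
      (show x ∈ A ⁻¹' μ.fast.S t from ⟨hx, trivial⟩)] with y hy
    exact D_comp_affine A 0 b (by
      rw [add_zero]
      exact (hs.differentiableOn (by simp)).differentiableAt ((μ.fast.isOpen t).mem_nhds hy))
      (Eventually.of_forall fun z => by simp [L])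
  rw [D_comp_affine A 0 a (by
    rw [add_zero]
    exact ((contDiffOn_D (μ.fast.isOpen t) hs (A b)).differentiableOn (by simp)).differentiableAt
      ((μ.fast.isOpen t).mem_nhds ⟨hx, trivial⟩)) hev, add_zero]

/-- **The sizes on the space of the level.** First and second derivatives up to remainders
`A M ^ b (M ^ 400 / k)`, and the fast second derivative up to `A M ^ 404`. -/
theorem level_sizes (A : ι → E' →L[ℝ] E × ℝ) (τ : Scale ι E') (hA : ∀ t, μ.B t * ‖A t‖ ≤ τ.B t)
    (hmap : ∀ t, ∀ x ∈ τ.S t, (A t x).1 ∈ μ.S t) (k : ι → ℝ) (hk : ∀ t, μ.M t ^ 400 ≤ k t)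
    (e' v' : ι → E') (he : ∀ t, A t (e' t) = ((W t).e, 0))
    (hv : ∀ t, A t (v' t) = ((W t).v, k t)) :
    let F := fun t y => liftOf (W t) (Y t) n (k t) (A t y)
    let w := fun b t (x : E') => μ.A t (A t x).1 * μ.M t ^ b * (μ.M t ^ 400 / k t)
    Cost τ (w 0) (fun t x => F t x - (W t).Z (A t x).1) ∧
      Cost τ (w 2) (fun t x => D (e' t) (F t) x - (W t).Ze (A t x).1) ∧
      Cost τ (w 2) (fun t x => D (v' t) (F t) x - (W t).dv (Y t) 0 (A t x).1 (A t x).2) ∧
      Cost τ (w 4) (fun t x => D (e' t) (D (e' t) (F t)) x - (W t).Zee (A t x).1) ∧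
      Cost τ (fun t x => μ.A t (A t x).1 * μ.M t ^ 404) (fun t x =>
        D (v' t) (D (e' t) (F t)) x - D (W t).v (W t).Ze (A t x).1) ∧
      Cost τ (fun t x => μ.A t (A t x).1 * μ.M t ^ 404) fun t x =>
        D (v' t) (D (v' t) (F t)) x -
          (k t • deriv ((W t).dv (Y t) 0 (A t x).1) (A t x).2 +
            D (W t).v (fun y => (W t).dv (Y t) 0 y (A t x).2) (A t x).1) := by
  intro F w
  have hk0 : ∀ t, k t ≠ 0 := fun t =>
    (lt_of_lt_of_le (pow_pos (zero_lt_one.trans_le (μ.one_le_M t)) 400) (hk t)).ne'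
  have hmap' : ∀ t, ∀ x ∈ τ.S t, A t x + 0 ∈ μ.fast.S t := fun t x hx => by
    rw [add_zero]; exact ⟨hmap t x hx, trivial⟩
  have pull : ∀ {w : ι → E × ℝ → ℝ} {f : ι → E × ℝ → V4}, Cost μ.fast.toScale w f →
      Cost τ (fun t x => w t (A t x)) fun t x => f t (A t x) := fun hf => by
    simpa only [add_zero] using hf.comp_affine τ A (fun _ => 0) hA hmap'
  obtain ⟨c0, c1, c2⟩ := liftOf_first hK hZ k hk
  obtain ⟨d1, d2, d3⟩ := liftOf_second hK hZ k hk
  have hfirst : ∀ t, ∀ x ∈ τ.S t, ∀ a, D a (F t) x =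
      D (A t a) (liftOf (W t) (Y t) n (k t)) (A t x) := fun t x hx a => by
    rw [D_comp_affine (A t) 0 a (by
      rw [add_zero]
      exact ((smooth_liftOf hK hZ t (k t)).differentiableOn (by simp)).differentiableAt
        ((μ.fast.isOpen t).mem_nhds ⟨hmap t x hx, trivial⟩)) (h := F t)
      (Eventually.of_forall fun y => by simp [F]), add_zero]
  have hsec : ∀ t, ∀ x ∈ τ.S t, ∀ a b, D a (D b (F t)) x =
      D (A t a) (D (A t b) (liftOf (W t) (Y t) n (k t))) (A t x) := fun t x hx a b =>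
    level_second hK hZ (A t) (k t) a b (hmap t x hx)
  have hr : ∀ t, μ.M t ^ 400 / k t ≤ 1 := fun t =>
    (div_le_one (lt_of_lt_of_le (pow_pos (zero_lt_one.trans_le (μ.one_le_M t)) 400) (hk t))).2
      (hk t)
  have hn : ∀ t, ∀ p ∈ μ.fast.S t, 0 ≤ μ.A t p.1 * μ.M t ^ 404 := fun t p hp =>
    mul_nonneg (μ.A_nonneg t p.1 hp.1) (pow_nonneg (zero_le_one.trans (μ.one_le_M t)) _)
  have drop : ∀ {f : ι → E × ℝ → V4}, Cost μ.fast.toScale
      (fun t p => μ.A t p.1 * μ.M t ^ 404 * (μ.M t ^ 400 / k t)) f →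
      Cost μ.fast.toScale (fun t p => μ.A t p.1 * μ.M t ^ 404) f := fun hf =>
    hf.mono zero_le_one hn fun t p hp => by
      rw [one_mul]; exact mul_le_of_le_one_right (hn t p hp) (hr t)
  have small : ∀ {f : ι → E × ℝ → V4} {m : ℕ}, Sz μ.fast 1 m f → m ≤ 404 →
      Cost μ.fast.toScale (fun t p => μ.A t p.1 * μ.M t ^ 404) f := fun hf hm =>
    (Sz.le hf le_rfl hm).mono zero_le_one hn fun t p _ => by simp [Mag.fast]
  have q2 := (drop d2).add
    (small ((hK.de_size le_rfl).ds (h := fun t => (W t).de (Y t) 1)) (by decide))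
  have q3 := (drop d3).add
    (small ((hK.dv_size le_rfl).ds (h := fun t => (W t).dv (Y t) 1)) (by decide))
  refine ⟨pull c0, (pull c1).congr fun t x hx => ?_, (pull c2).congr fun t x hx => ?_,
    (pull d1).congr fun t x hx => ?_, (pull q2).congr fun t x hx => ?_,
    (pull q3).congr fun t x hx => ?_⟩
  · rw [hfirst t x hx, he]
  · rw [hfirst t x hx, hv]
  · rw [hsec t x hx, he]
  · rw [hsec t x hx, he, hv]; abel
  · rw [hsec t x hx, hv]; abel

end level

end Vale.Agent.P205.Stage
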