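import Vale.Agent.P205.Stage.Setup

/-!
Relative costs: stability under small changes, and from a crude cost by a worse cost per
derivative; changes of the threshold and of the cost of the charts of a stage.
-/

noncomputable section

open Set Real
open scoped ContDiff

namespace Vale.Agent.P205.Stage

open Wave

section generic

variable {ι X : Type} [NormedAddCommGroup X] [NormedSpace ℝ X] {F : Type} [NormedAddCommGroup F]
  [NormedSpace ℝ F] {σ : Scale ι X} {w : ι → X → ℝ} {f : ι → X → ℝ}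

/-- A crude cost and a crude lower bound give a relative cost, each derivative costing the two
factors more. -/
theorem rel_of_lower {L : ι → ℝ} (hL : ∀ t, 1 ≤ L t) (hf : Cost σ w f)
    (hlo : ∀ t, ∀ x ∈ σ.S t, w t x ≤ L t * f t x) (h0 : ∀ t, ∀ x ∈ σ.S t, 0 ≤ f t x)
    (τ : Scale ι X) (hB : ∀ t, σ.B t * L t ≤ τ.B t) (hS : ∀ t, τ.S t ⊆ σ.S t) : Cost τ f f := by
  refine ⟨fun t => (hf.smooth t).mono (hS t), fun t x hx => h0 t x (hS t hx), fun i => ?_⟩
  obtain ⟨C, hC0, hC⟩ := hf.bound i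
  refine ⟨max C 1, le_max_of_le_right zero_le_one, fun t x hx => ?_⟩
  have hb : 0 ≤ σ.B t := zero_le_one.trans (σ.one_le t)
  rcases Nat.eq_zero_or_pos i with rfl | hi
  · rw [norm_iteratedFDeriv_zero, Real.norm_eq_abs, abs_of_nonneg (h0 t x (hS t hx)), pow_zero,
      mul_one]
    exact le_mul_of_one_le_left (h0 t x (hS t hx)) (le_max_right _ _)
  · calc ‖iteratedFDeriv ℝ i (f t) x‖ ≤ C * w t x * σ.B t ^ i := hC t x (hS t hx)
      _ ≤ C * (L t ^ i * f t x) * σ.B t ^ i := by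
        refine mul_le_mul_of_nonneg_right (mul_le_mul_of_nonneg_left ((hlo t x (hS t hx)).trans
          (mul_le_mul_of_nonneg_right (le_self_pow₀ (hL t) hi.ne') (h0 t x (hS t hx)))) hC0)
          (pow_nonneg hb i)
      _ = C * f t x * (σ.B t * L t) ^ i := by ring
      _ ≤ max C 1 * f t x * τ.B t ^ i := by
        refine mul_le_mul (mul_le_mul_of_nonneg_right (le_max_left _ _) (h0 t x (hS t hx)))
          (pow_le_pow_left₀ (mul_nonneg hb (zero_le_one.trans (hL t))) (hB t) i)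
          (pow_nonneg (mul_nonneg hb (zero_le_one.trans (hL t))) i)
          (mul_nonneg (le_max_of_le_right zero_le_one) (h0 t x (hS t hx)))

/-- A family close to a relative one is relative. -/
theorem rel_perturb {K : ι → ℝ} {f₀ : ι → X → ℝ} (h0 : Cost σ f₀ f₀)
    (hd : Cost σ w fun t x => f t x - f₀ t x)
    (hlo : ∀ t, ∀ x ∈ σ.S t, K t * w t x ≤ f₀ t x) :
    ∃ T, Cost (above σ K T) f f ∧ ∀ t, ∀ x ∈ (above σ K T).S t, f₀ t x / 2 ≤ f t x := by
  obtain ⟨C, hC0, hC⟩ := hd.abs_le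
  set T := max (2 * C) 1
  have hbd : ∀ t, ∀ x ∈ (above σ K T).S t, w t x ≤ f₀ t x ∧ f₀ t x / 2 ≤ f t x :=
    fun t x hx => by
      have hw := hd.nonneg t x hx.2
      have h1 := hlo t x hx.2
      have h2 : (1 : ℝ) ≤ K t := (le_max_right _ _).trans hx.1
      have h3 : 2 * C * w t x ≤ K t * w t x :=
        mul_le_mul_of_nonneg_right ((le_max_left _ _).trans hx.1) hw
      have h4 := (abs_le.1 (hC t x hx.2)).1
      constructor <;> nlinarith
  refine ⟨T, ?_, fun t x hx => (hbd t x hx).2⟩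
  have hn : ∀ t, ∀ x ∈ (above σ K T).S t, 0 ≤ f₀ t x := fun t x hx => h0.nonneg t x hx.2
  have a := h0.rescale (above σ K T) (fun _ => le_rfl) fun t x hx => hx.2
  have b := (hd.rescale (above σ K T) (fun _ => le_rfl) fun t x hx => hx.2).mono zero_le_one hn
    fun t x hx => (one_mul (f₀ t x)).symm ▸ (hbd t x hx).1
  refine ((a.add b).mono zero_le_two (fun t x hx => ?_) fun t x hx => ?_).congr
    fun t x _ => by ring
  · linarith [(hbd t x hx).2, hn t x hx]
  · linarith [(hbd t x hx).2]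

end generic

section charts

variable {C : ℕ → ℝ} {C2 : ℕ → ℕ → ℝ} {G : Type} [NormedAddCommGroup G] [NormedSpace ℝ G]
  {V : Set G} {hV : IsOpen V} {N' b b' : ℕ} {T T' : ℝ}

theorem scQ_subset (hT : T ≤ T') (t : Fam C C2) :
    (scQ C C2 N' b' T' V hV).S t ⊆ (scQ C C2 N' b T V hV).S t :=
  prod_mono (fun _ hp => ⟨hT.trans hp.1, hp.2⟩) subset_rfl

theorem scQ_B_le (hb : b ≤ b') (t : Fam C C2) :
    (scQ C C2 N' b T V hV).B t ≤ (scQ C C2 N' b' T' V hV).B t :=
  pow_le_pow_right₀ (one_le_Kf t) hb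

/-- A larger threshold and a larger cost of derivatives. -/
theorem cost_scQ {F : Type} [NormedAddCommGroup F] [NormedSpace ℝ F]
    {w : Fam C C2 → Ph × G → ℝ} {f : Fam C C2 → Ph × G → F}
    (h : Cost (scQ C C2 N' b T V hV) w f) (hb : b ≤ b') (hT : T ≤ T') :
    Cost (scQ C C2 N' b' T' V hV) w f :=
  h.rescale _ (scQ_B_le hb) (scQ_subset hT)

/-- A family close to a relative one is relative, on the charts of a stage. -/
theorem rel_perturb_scQ {w f₀ f : Fam C C2 → Ph × G → ℝ}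
    (h0 : Cost (scQ C C2 N' b T V hV) f₀ f₀)
    (hd : Cost (scQ C C2 N' b T V hV) w fun t q => f t q - f₀ t q)
    (hlo : ∀ t, ∀ q ∈ (scQ C C2 N' b T V hV).S t, Kf t * w t q ≤ f₀ t q) :
    ∃ T', T ≤ T' ∧ Cost (scQ C C2 N' b T' V hV) f f ∧
      ∀ t, ∀ q ∈ (scQ C C2 N' b T' V hV).S t, f₀ t q / 2 ≤ f t q := by
  obtain ⟨T₁, h1, h2⟩ := rel_perturb (K := Kf) h0 hd hlo
  have hs : ∀ t, (scQ C C2 N' b (max T T₁) V hV).S t ⊆
      (above (scQ C C2 N' b T V hV) Kf T₁).S t := fun t q hq =>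
    ⟨(le_max_right _ _).trans hq.1.1, scQ_subset (le_max_left T T₁) t hq⟩
  exact ⟨max T T₁, le_max_left _ _, h1.rescale _ (fun _ => le_rfl) hs,
    fun t q hq => h2 t q (hs t hq)⟩

end charts

end Vale.Agent.P205.Stage
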