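import Vale.Agent.P205.Stage.Specs
import Vale.Agent.P205.Stage.Perturb
import Vale.Agent.P205.Stage.Natural
import Vale.Agent.P205.Legal.Vec

/-!
All levels are ready at the full cost per derivative: the free levels keep the bend crudely at
their own cost; for no unknowns at the smallest cost this is relative at a worse cost, and small
unknowns change it by one derivative in a parameter times their size.
-/

noncomputable section

open Set Filter Real
open scoped ContDiff Topology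

namespace Vale.Agent.P205.Stage

open Wave (V4 ip D gram2 Scale Cost)
open Legal (ip_self_nonneg len_perp2_le)

variable {C : ℕ → ℝ} {C2 : ℕ → ℕ → ℝ} {G : Type} [NormedAddCommGroup G] [NormedSpace ℝ G]
  [FiniteDimensional ℝ G] {V : Set G} {hV : IsOpen V} {N N' b b' s s' j : ℕ} {T T' : ℝ}
  {x : Fam C C2 → Ph × G → Unk}

theorem pow_inv_le (t : Fam C C2) {m n : ℕ} (h : m ≤ n) : (Kf t ^ n)⁻¹ ≤ (Kf t ^ m)⁻¹ :=
  inv_anti₀ (pow_pos (Kf_pos t) m) (pow_le_pow_right₀ (one_le_Kf t) h)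

theorem Small.weaken (h : Small N' b s T V hV x) (hb : b ≤ b') (hs : s' ≤ s) (hT : T ≤ T') :
    Small N' b' s' T' V hV x :=
  ⟨(cost_scQ h.cost hb hT).mono zero_le_one
      (fun t _ _ => inv_nonneg.2 (pow_nonneg (Kf_pos t).le _))
      fun t _ _ => by rw [one_mul]; exact pow_inv_le t hs,
    fun t ht => h.adm t (hT.trans ht)⟩

theorem MapCore.weaken (h : MapCore N N' b T V hV x j) (hb : b ≤ b') (hT : T ≤ T') :
    MapCore N N' b' T' V hV x j where
  smooth t := (h.smooth t).mono (scQ_subset hT t)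
  d1 a ha := cost_scQ (h.d1 a ha) hb hT
  d2 a ha a' ha' := cost_scQ (h.d2 a ha a' ha') hb hT
  d1s a ha := cost_scQ (h.d1s a ha) hb hT
  d2v := cost_scQ h.d2v hb hT
  area := cost_scQ h.area hb hT
  area_lo t q hq := h.area_lo t q (scQ_subset hT t hq)
  bend_lo t q hq := h.bend_lo t q (scQ_subset hT t hq)
  rest := cost_scQ h.rest hb hT
  zz hj := cost_scQ (h.zz hj) hb hT
  close₁ hj a ha := cost_scQ (h.close₁ hj a ha) hb hT
  close₂ hj a ha a' ha' := cost_scQ (h.close₂ hj a ha a' ha') hb hT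

theorem MapOK.weaken (h : MapOK N N' b T V hV x j) (hb : b ≤ b') (hT : T ≤ T') :
    MapOK N N' b' T' V hV x j :=
  ⟨h.toMapCore.weaken hb hT, cost_scQ h.bend hb hT, fun hj => cost_scQ (h.kernel hj) hb hT⟩

theorem KernelCrude.weaken {c : ℕ} (h : KernelCrude N N' b c T V hV x j) (hb : b ≤ b')
    (hT : T ≤ T') : KernelCrude N N' b' c T' V hV x j :=
  ⟨cost_scQ h.upper hb hT, fun t q hq => h.lower t q (scQ_subset hT t hq)⟩

theorem BendCrude.weaken {c : ℕ} (h : BendCrude N N' b c T V hV x j) (hb : b ≤ b') (hT : T ≤ T') :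
    BendCrude N N' b' c T' V hV x j :=
  ⟨cost_scQ h.upper hb hT, fun t q hq => h.lower t q (scQ_subset hT t hq)⟩

/-- No unknowns are small. -/
theorem small_zero : Small N' b s T V hV (fun (_ : Fam C C2) (_ : Ph × G) => (0 : Unk)) :=
  ⟨Cost.zero fun t _ _ => inv_nonneg.2 (pow_nonneg (Kf_pos t).le _),
    fun _ _ _ _ _ => ⟨fun _ => rfl, fun _ => by simp [Wave.mean], fun _ _ _ => rfl,
      fun _ _ _ _ => rfl⟩⟩

/-- The tiny levels are ready. -/
theorem ready_nine (hB : BaseStep) (hTi : TinyStep) (hb : bMin ≤ b) (hb' : b ≤ bExp)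
    (hs : sMin ≤ s) (hx : Small N' b s T V hV x) :
    ∃ T', T ≤ T' ∧ ∀ i ≤ 9, MapOK N N' b T' V hV x i := by
  suffices ∀ n ≤ 9, ∃ T', T ≤ T' ∧ ∀ i ≤ n, MapOK N N' b T' V hV x i from this 9 le_rfl
  intro n hn
  induction n with
  | zero =>
    obtain ⟨T', hT, h⟩ := hB C C2 N N' b hb hb' G V hV T x
    exact ⟨T', hT, fun i hi => by obtain rfl : i = 0 := by omega
                                  exact h⟩
  | succ n ih =>
    obtain ⟨T₁, hT₁, h⟩ := ih (by omega)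
    obtain ⟨T₂, hT₂, h'⟩ := hTi C C2 N N' b s n hb hb' hs (by omega) G V hV T₁ x
      (hx.weaken le_rfl le_rfl hT₁) (h n le_rfl)
    refine ⟨T₂, hT₁.trans hT₂, fun i hi => ?_⟩
    rcases eq_or_lt_of_le hi with rfl | hi
    · exact h'
    · exact (h i (by omega)).weaken le_rfl hT₂

theorem ip_self_le_norm (w : V4) : ip w w ≤ 4 * ‖w‖ ^ 2 := by
  have h : ∀ i, w i * w i ≤ ‖w‖ ^ 2 := fun i => by
    rw [← abs_mul_abs_self, ← Real.norm_eq_abs, sq]
    exact mul_le_mul (norm_le_pi_norm w i) (norm_le_pi_norm w i) (norm_nonneg _) (norm_nonneg _)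
  calc ip w w ≤ ∑ _i : Fin 4, ‖w‖ ^ 2 := Finset.sum_le_sum fun i _ => h i
    _ = 4 * ‖w‖ ^ 2 := by simp

/-- Below the free levels the bend is at most `K ^ 1000` and at least `K ^ -1000`. -/
theorem bendCrude_nine (h : MapOK N N' b T V hV x 9) :
    ∃ T', T ≤ T' ∧ BendCrude N N' b (cLev 9) T' V hV x 9 := by
  have hc : cLev 9 = 1000 := rfl
  have hwt : ∀ t : Fam C C2, ∀ q : Ph × G, bendWeight N t.1 9 q = 1 := fun t q => by
    simp [bendWeight]
  have hZ : Cost (sc C C2 N' 1) (fun _ _ => 1) fun t : Fam C C2 => t.1.Z :=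
    Cost.of_bd (S := fun t => t.1.S) (fun t => t.2.1.smoothZ.mono fun z hz => hz.1)
      (dom_subset N') C fun t i z hz => by
        rw [show (sc C C2 N' 1).B t = t.1.K from pow_one _]
        exact t.2.1.bdZ i z hz
  obtain ⟨c₁, hc₁, hz⟩ := ((hZ.deriv_dir (pt 0 1)).deriv_dir (pt 0 1)).bound 0
  obtain ⟨c₂, hc₂, hd⟩ :=
    (h.close₂ le_rfl (pt 0 1) (by simp [axes]) (pt 0 1) (by simp [axes])).bound 0
  have hval : ∀ t, ∀ q ∈ (scQ C C2 N' b T V hV).S t,
      bendAt N t.1 (x t) 9 q ≤ 4 * (c₁ + c₂) ^ 2 * Kf t ^ 4 := fun t q hq => by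
    have hg : gram2 (d1At N t.1 (x t) 9 (pt 1 0) q) (d1At N t.1 (x t) 9 (pt 0 1) q) ≠ 0 := by
      intro e
      have := h.area_lo t q hq
      rw [areaAt, e, mul_zero] at this
      linarith
    have h1 := Real.sqrt_le_sqrt_iff (ip_self_nonneg _) |>.1
      (len_perp2_le hg (d2At N t.1 (x t) 9 (pt 0 1) (pt 0 1) q))
    have h2 := hz t q.1.1 hq.1.2.1
    have h3 := hd t q hq
    simp only [norm_iteratedFDeriv_zero, pow_zero, mul_one, one_mul] at h2 h3
    rw [show (sc C C2 N' 1).B t = Kf t from pow_one _] at h2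
    have hK := one_le_Kf t
    have h4 : (Kf t ^ (4 * bExp))⁻¹ ≤ Kf t ^ 2 :=
      (inv_le_one_of_one_le₀ (one_le_pow_K t _)).trans (one_le_pow_K t 2)
    have h5 : ‖d2At N t.1 (x t) 9 (pt 0 1) (pt 0 1) q‖ ≤ (c₁ + c₂) * Kf t ^ 2 := by
      have := norm_le_norm_add_norm_sub' (d2At N t.1 (x t) 9 (pt 0 1) (pt 0 1) q)
        (D (pt 0 1) (D (pt 0 1) t.1.Z) q.1.1)
      nlinarith [mul_le_mul_of_nonneg_left h4 hc₂]
    refine h1.trans ((ip_self_le_norm _).trans ?_)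
    rw [show 4 * (c₁ + c₂) ^ 2 * Kf t ^ 4 = 4 * ((c₁ + c₂) * Kf t ^ 2) ^ 2 by ring]
    exact mul_le_mul_of_nonneg_left (pow_le_pow_left₀ (norm_nonneg _) h5 2) (by norm_num)
  refine ⟨T, le_rfl, ⟨h.bend.mono (c := 4 * (c₁ + c₂) ^ 2) (by positivity) (fun t q _ => ?_)
    fun t q hq => ?_, fun t q hq => ?_⟩⟩
  · rw [hwt, one_pow, mul_one]; exact pow_nonneg (Kf_pos t).le _
  · rw [hwt, one_pow, mul_one, hc]
    exact (hval t q hq).trans (mul_le_mul_of_nonneg_left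
      (pow_le_pow_right₀ (one_le_Kf t) (by norm_num)) (by positivity))
  · rw [hwt, one_pow, hc]
    exact (h.bend_lo t q hq).trans (mul_le_mul_of_nonneg_right
      (pow_le_pow_right₀ (one_le_Kf t) (by norm_num)) (ip_self_nonneg _))

/-- An upper cost and a lower bound by one weight: relative at a worse cost per derivative. -/
theorem rel_of_crude {c : ℕ} {W Q : Fam C C2 → Ph × G → ℝ}
    (hu : Cost (scQ C C2 N' b T V hV) (fun t q => Kf t ^ c * W t q) Q)
    (hl : ∀ t, ∀ q ∈ (scQ C C2 N' b T V hV).S t, W t q ≤ Kf t ^ c * Q t q)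
    (h0 : ∀ t, ∀ q ∈ (scQ C C2 N' b T V hV).S t, 0 ≤ Q t q) (hb : b + 2 * c ≤ b') :
    Cost (scQ C C2 N' b' T V hV) Q Q := by
  refine rel_of_lower (L := fun t => Kf t ^ (2 * c)) (fun t => one_le_pow_K t _) hu
    (fun t q hq => (mul_le_mul_of_nonneg_left (hl t q hq)
      (pow_nonneg (Kf_pos t).le c)).trans_eq (by rw [two_mul, pow_add]; ring))
    h0 _ (fun t => ?_) fun t => subset_rfl
  simp only [scQ, withParam, above, scPh, ← pow_add]
  exact pow_le_pow_right₀ (one_le_Kf t) hb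

/-- A crude bend is relative at a worse cost per derivative. -/
theorem BendCrude.rel {c : ℕ} (h : BendCrude N N' b c T V hV x j) (hb : b + 2 * c ≤ b') :
    Cost (scQ C C2 N' b' T V hV) (fun t => bendAt N t.1 (x t) j)
      fun t => bendAt N t.1 (x t) j :=
  rel_of_crude h.upper h.lower (fun _ _ _ => ip_self_nonneg _) hb

/-- A crude area along `v` is relative at a worse cost per derivative. -/
theorem KernelCrude.rel {c : ℕ} (h : KernelCrude N N' b c T V hV x j) (hb : b + 2 * c ≤ b') :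
    Cost (scQ C C2 N' b' T V hV) (fun t => kernelAt N t.1 (x t) j)
      fun t => kernelAt N t.1 (x t) j := by
  refine rel_of_crude h.upper h.lower (fun t q hq => ?_) hb
  by_contra h0
  have h1 := h.lower t q hq
  have h2 := mul_neg_of_pos_of_neg (pow_pos (Kf_pos t) c) (not_le.1 h0)
  have h3 := sq_nonneg (bendWeight N t.1 j q)
  linarith

/-- Equal maps have equal bends and areas along `v`. -/
theorem bend_natural {G' : Type} [NormedAddCommGroup G'] [NormedSpace ℝ G']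
    [FiniteDimensional ℝ G'] {I : Input} {x : Ph × G → Unk} {x' : Ph × G' → Unk}
    {S : Set (Ph × G)} {S' : Set (Ph × G')} (hS : IsOpen S) (hS' : IsOpen S')
    (g : Ph × G →L[ℝ] Ph × G') (c : Ph × G') (hg : ∀ p : Ph, g (p, 0) = (p, 0))
    (hmaps : ∀ q ∈ S, g q + c ∈ S') (hsm : ContDiffOn ℝ ∞ (mapAt N I x' j) S')
    (heq : ∀ q ∈ S, mapAt N I x j q = mapAt N I x' j (g q + c)) :
    ∀ q ∈ S, bendAt N I x j q = bendAt N I x' j (g q + c) ∧
      kernelAt N I x j q = kernelAt N I x' j (g q + c) := by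
  have hv : ∀ a, g (vec (par N) I G j a) = vec (par N) I G' j a := fun a => hg _
  have h1 : ∀ a, ∀ q ∈ S, d1At N I x j a q = d1At N I x' j a (g q + c) := fun a q hq => by
    rw [d1At, D_comp_affine g c _ ((hsm.differentiableOn (by simp)).differentiableAt
      (hS'.mem_nhds (hmaps q hq))) (eventuallyEq_of_mem (hS.mem_nhds hq) heq), hv]
    rfl
  intro q hq
  have h2 : d2At N I x j (pt 0 1) (pt 0 1) q = d2At N I x' j (pt 0 1) (pt 0 1) (g q + c) := by
    rw [d2At, D_comp_affine g c _ (((Wave.contDiffOn_D hS' hsm _).differentiableOn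
      (by simp)).differentiableAt (hS'.mem_nhds (hmaps q hq)))
      (eventuallyEq_of_mem (hS.mem_nhds hq) (h1 (pt 0 1))), hv]
    rfl
  constructor <;> simp only [bendAt, bendVec, kernelAt, h1 _ q hq, h2]

/-- The smallness spent by one comparison with no unknowns. -/
def rRun : ℕ := bExp + 20 * cLev 11 + 1

/-- What is proved by induction on the free levels. -/
def ReadyTo (N N' j s : ℕ) (C : ℕ → ℝ) (C2 : ℕ → ℕ → ℝ) : Prop :=
  ∀ (G : Type) [NormedAddCommGroup G] [NormedSpace ℝ G] [FiniteDimensional ℝ G] (V : Set G)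
    (hV : IsOpen V) (T : ℝ) (x : Fam C C2 → Ph × G → Unk), Small N' bExp s T V hV x →
      ∃ T', T ≤ T' ∧ (∀ i ≤ j, MapOK N N' bExp T' V hV x i) ∧
        BendCrude N N' bExp (cLev j) T' V hV x j

/-- What is known of no unknowns. -/
def ZeroBend (N N' j : ℕ) (C : ℕ → ℝ) (C2 : ℕ → ℕ → ℝ) : Prop :=
  ∀ (G : Type) [NormedAddCommGroup G] [NormedSpace ℝ G] [FiniteDimensional ℝ G] (V : Set G)
    (hV : IsOpen V) (T : ℝ), ∃ T', T ≤ T' ∧
      BendCrude N N' bExp (cLev j) T' V hV (fun (_ : Fam C C2) (_ : Ph × G) => (0 : Unk)) j ∧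
      Cost (scQ C C2 N' bExp T' V hV)
        (fun t => bendAt N t.1 ((fun (_ : Fam C C2) (_ : Ph × G) => (0 : Unk)) t) j)
        (fun t => bendAt N t.1 ((fun (_ : Fam C C2) (_ : Ph × G) => (0 : Unk)) t) j) ∧
      (j = 11 →
        KernelCrude N N' bExp (10 * cLev j) T' V hV (fun (_ : Fam C C2) (_ : Ph × G) => (0 : Unk)) j ∧
        Cost (scQ C C2 N' bExp T' V hV)
          (fun t => kernelAt N t.1 ((fun (_ : Fam C C2) (_ : Ph × G) => (0 : Unk)) t) j)
          fun t => kernelAt N t.1 ((fun (_ : Fam C C2) (_ : Ph × G) => (0 : Unk)) t) j)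

/-- No unknowns through the free levels. -/
theorem zero_bend (hB : BaseStep) (hTi : TinyStep) (hF : FreeStep) (hK : KernelStep) (N N' : ℕ) :
    ZeroBend N N' 10 C C2 ∧ ZeroBend N N' 11 C C2 := by
  have key : ∀ (G : Type) [NormedAddCommGroup G] [NormedSpace ℝ G] [FiniteDimensional ℝ G]
      (V : Set G) (hV : IsOpen V) (T : ℝ),
      ∃ b₁ b₂ T', T ≤ T' ∧ b₁ + 2 * cLev 10 ≤ bExp ∧ b₂ + 20 * cLev 11 ≤ bExp ∧
        BendCrude N N' b₁ (cLev 10) T' V hV (fun (_ : Fam C C2) (_ : Ph × G) => (0 : Unk)) 10 ∧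
        BendCrude N N' b₂ (cLev 11) T' V hV
          (fun (_ : Fam C C2) (_ : Ph × G) => (0 : Unk)) 11 ∧
        KernelCrude N N' b₂ (10 * cLev 11) T' V hV
          (fun (_ : Fam C C2) (_ : Ph × G) => (0 : Unk)) 11 := by
    intro G _ _ _ V hV T
    obtain ⟨T₁, hT₁, h9⟩ := ready_nine hB hTi le_rfl (by norm_num [bMin, bExp]) le_rfl
      (small_zero (C := C) (C2 := C2) (N' := N') (b := bMin) (s := sMin) (T := T)
        (V := V) (hV := hV))
    obtain ⟨T₂, hT₂, hc9⟩ := bendCrude_nine (h9 9 le_rfl)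
    obtain ⟨T₃, hT₃, hm, hc⟩ := hF C C2 N N' bMin sMin 9 le_rfl (by norm_num [bMin, bExp]) le_rfl
      (Or.inl rfl) G V hV T₂ _ small_zero ((h9 9 le_rfl).weaken le_rfl hT₂) hc9
    obtain ⟨T₄, hT₄, hm', hc'⟩ := hF C C2 N N' (bMin + 2 * cLev 10) sMin 10 (Nat.le_add_right _ _)
      (by norm_num [bMin, bExp, cLev]) le_rfl (Or.inr rfl) G V hV T₃ _ small_zero
      ⟨hm.weaken (Nat.le_add_right _ _) le_rfl, hc.rel le_rfl, fun h => absurd h (by norm_num)⟩
      (hc.weaken (Nat.le_add_right _ _) le_rfl)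
    obtain ⟨T₅, hT₅, hk⟩ := hK C C2 N N' (bMin + 2 * cLev 10) (Nat.le_add_right _ _)
      (by norm_num [bMin, bExp, cLev]) G V hV T₄ _ hm' hc'
    exact ⟨_, _, T₅, hT₁.trans (hT₂.trans (hT₃.trans (hT₄.trans hT₅))),
      by norm_num [bMin, bExp, cLev], by norm_num [bMin, bExp, cLev],
      hc.weaken le_rfl (hT₄.trans hT₅), hc'.weaken le_rfl hT₅, hk⟩
  refine ⟨fun G _ _ _ V hV T => ?_, fun G _ _ _ V hV T => ?_⟩
  · obtain ⟨b₁, b₂, T', hT, hb, -, h, -, -⟩ := key G V hV T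
    exact ⟨T', hT, h.weaken (le_trans (Nat.le_add_right _ _) hb) le_rfl, h.rel hb,
      fun h => absurd h (by norm_num)⟩
  · obtain ⟨b₁, b₂, T', hT, -, hb, -, h, hk⟩ := key G V hV T
    exact ⟨T', hT, h.weaken (le_trans (Nat.le_add_right _ _) hb) le_rfl, h.rel (by omega), fun _ =>
      ⟨hk.weaken (le_trans (Nat.le_add_right _ _) hb) le_rfl, hk.rel (by omega)⟩⟩

/-- The first coordinates of a family with one more parameter. -/
def dropL (G : Type) [NormedAddCommGroup G] [NormedSpace ℝ G] : Ph × (G × ℝ) →L[ℝ] Ph × G :=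
  (ContinuousLinearMap.fst ℝ Ph (G × ℝ)).prod
    ((ContinuousLinearMap.fst ℝ G ℝ).comp (ContinuousLinearMap.snd ℝ Ph (G × ℝ)))

/-- The segment from no unknowns to given ones, with `K ^ r` times the parameter. -/
def segFam (r : ℕ) (x : Fam C C2 → Ph × G → Unk) : Fam C C2 → Ph × (G × ℝ) → Unk :=
  fun t q => q.2.2 • (Kf t ^ r • x t (q.1, q.2.1))

theorem small_seg (hx : Small N' b s T V hV x) {r : ℕ} (hr : r + s' ≤ s) :
    Small N' b s' T (V ×ˢ Ioo (-2 : ℝ) 2) (hV.prod isOpen_Ioo) (segFam r x) := by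
  have hn : ∀ t : Fam C C2, (0 : ℝ) ≤ (Kf t ^ s')⁻¹ := fun t =>
    inv_nonneg.2 (pow_nonneg (Kf_pos t).le _)
  refine ⟨?_, fun t ht q hq hV' => ?_⟩
  · set lφ : Ph × (G × ℝ) →L[ℝ] ℝ :=
      (ContinuousLinearMap.snd ℝ G ℝ).comp (ContinuousLinearMap.snd ℝ Ph (G × ℝ))
    have hlφ : ‖lφ‖ ≤ 1 := ContinuousLinearMap.opNorm_le_bound _ zero_le_one fun q => by
      simp only [lφ, ContinuousLinearMap.comp_apply, ContinuousLinearMap.coe_snd', one_mul]
      exact (norm_snd_le q.2).trans (norm_snd_le q)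
    have hπ : ‖dropL G‖ ≤ 1 := ContinuousLinearMap.opNorm_le_bound _ zero_le_one fun q => by
      simp only [dropL, ContinuousLinearMap.prod_apply, ContinuousLinearMap.comp_apply,
        ContinuousLinearMap.coe_fst', ContinuousLinearMap.coe_snd', Prod.norm_def, one_mul]
      exact max_le (le_max_left _ _) (le_max_of_le_right (le_max_left _ _))
    have a := (Cost.comp_affine hx.cost
      (scQ C C2 N' b T (V ×ˢ Ioo (-2 : ℝ) 2) (hV.prod isOpen_Ioo)) (fun _ => dropL G) (fun _ => 0)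
      (fun t => mul_le_of_le_one_right (zero_le_one.trans (one_le_pow_K t b)) hπ)
      fun t q hq => by rw [add_zero]; exact ⟨hq.1, hq.2.1⟩)
    have l := cost_coord (σ := scQ C C2 N' b T (V ×ˢ Ioo (-2 : ℝ) 2) (hV.prod isOpen_Ioo)) lφ hlφ
      (R := 2) fun t q hq => (abs_lt.2 hq.2.2).le
    refine ((l.smul (cost_smul_index a fun t => Kf t ^ r)).mono zero_le_one (fun t q _ => hn t)
      fun t q _ => ?_).congr fun t q _ => by simp [segFam, dropL, lφ]
    rw [one_mul, one_mul, abs_of_nonneg (pow_nonneg (Kf_pos t).le r)]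
    calc Kf t ^ r * (Kf t ^ s)⁻¹ ≤ Kf t ^ r * (Kf t ^ (r + s'))⁻¹ :=
          mul_le_mul_of_nonneg_left (pow_inv_le t hr) (pow_nonneg (Kf_pos t).le r)
      _ = (Kf t ^ s')⁻¹ := by
          have := pow_ne_zero r (Kf_pos t).ne'
          rw [pow_add]; field_simp
  · obtain ⟨h1, h2, h3, h4⟩ := hx.adm t ht (q.1, q.2.1) hq hV'.1
    refine ⟨fun i => ?_, fun i => ?_, fun i hi hz => ?_, fun i hi hz v => ?_⟩
    · simp only [segFam]; exact congrArg _ (congrArg _ (h1 i))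
    · have := h2 i
      simp only [segFam, put, trunc, Prod.smul_fst, Pi.smul_apply, Wave.mean] at this ⊢
      rw [intervalIntegral.integral_smul, intervalIntegral.integral_smul, smul_comm _ q.2.2,
        smul_comm _ (Kf t ^ r), this, smul_zero, smul_zero]
    · have := h3 i hi hz
      simp only [segFam, put, trunc, Prod.smul_fst, Pi.smul_apply] at this ⊢
      rw [this, smul_zero, smul_zero]
    · simp only [segFam]; exact congrArg _ (congrArg _ (h4 i hi hz v))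

/-- A quantity which is crude along the segment and relative at its start is relative at its
end, when the segment is short. -/
theorem rel_of_segment {W₀ : Fam C C2 → Ph × G → ℝ} {W₁ : Fam C C2 → Ph × (G × ℝ) → ℝ} {c : ℕ}
    (hc : 2 * c + bExp + 1 ≤ rRun)
    {Qy : Fam C C2 → Ph × (G × ℝ) → ℝ} {Qx Q₀ : Fam C C2 → Ph × G → ℝ}
    (hW : ∀ t (q : Ph × G) (l : ℝ), W₁ t (q.1, (q.2, l)) = W₀ t q)
    (hW0 : ∀ t q, 0 ≤ W₀ t q)
    (hy : Cost (scQ C C2 N' bExp T (V ×ˢ Ioo (-2 : ℝ) 2) (hV.prod isOpen_Ioo))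
      (fun t q => Kf t ^ c * W₁ t q) Qy)
    (h0 : Cost (scQ C C2 N' bExp T V hV) Q₀ Q₀)
    (h0l : ∀ t, ∀ q ∈ (scQ C C2 N' bExp T V hV).S t, W₀ t q ≤ Kf t ^ c * Q₀ t q)
    (e₀ : ∀ t, ∀ q ∈ (scQ C C2 N' bExp T V hV).S t, Q₀ t q = Qy t (q.1, (q.2, 0)))
    (e₁ : ∀ t, ∀ q ∈ (scQ C C2 N' bExp T V hV).S t,
      Qx t q = Qy t (q.1, (q.2, (Kf t ^ rRun)⁻¹))) :
    ∃ T', T ≤ T' ∧ Cost (scQ C C2 N' bExp T' V hV) Qx Qx := by
  set ε : Fam C C2 → ℝ := fun t => (Kf t ^ rRun)⁻¹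
  have hε : ∀ t, 0 < ε t ∧ ε t ≤ 1 := fun t =>
    ⟨inv_pos.2 (pow_pos (Kf_pos t) _), inv_le_one_of_one_le₀ (one_le_pow_K t _)⟩
  set A : (Ph × G) × ℝ →L[ℝ] Ph × (G × ℝ) :=
    ((ContinuousLinearMap.fst ℝ Ph G).comp (ContinuousLinearMap.fst ℝ (Ph × G) ℝ)).prod
      (((ContinuousLinearMap.snd ℝ Ph G).comp (ContinuousLinearMap.fst ℝ (Ph × G) ℝ)).prod
        (ContinuousLinearMap.snd ℝ (Ph × G) ℝ))
  have hA : ‖A‖ ≤ 1 := ContinuousLinearMap.opNorm_le_bound _ zero_le_one fun q => by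
    simp only [A, ContinuousLinearMap.prod_apply, ContinuousLinearMap.comp_apply,
      ContinuousLinearMap.coe_fst', ContinuousLinearMap.coe_snd', Prod.norm_def, one_mul]
    exact max_le (le_max_of_le_left (le_max_left _ _))
      (max_le (le_max_of_le_left (le_max_right _ _)) (le_max_right _ _))
  let τ : Scale (Fam C C2) ((Ph × G) × ℝ) :=
    withParam (scQ C C2 N' bExp T V hV) (Ioo (-2 : ℝ) 2) isOpen_Ioo
  set w : Fam C C2 → Ph × G → ℝ := fun t q => Kf t ^ c * W₀ t q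
  have hup := (Cost.comp_affine hy τ (fun _ => A) (fun _ => 0)
    (fun t => mul_le_of_le_one_right (zero_le_one.trans (one_le_pow_K t _)) hA) fun t q hq => by
      rw [add_zero]
      exact ⟨hq.1.1, hq.1.2, hq.2⟩).mono (w' := fun t q => w t q.1)
    zero_le_one (fun t q _ => mul_nonneg (pow_nonneg (Kf_pos t).le _) (hW0 _ _))
    fun t q _ => le_of_eq (by simp [w, A, hW])
  have hdiff := Cost.sub_param (σ := τ) (w := w) hup (scQ C C2 N' bExp T V hV)
    (fun _ => le_rfl) (fun _ => 0) ε fun t q hq l hl => by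
      refine Set.mk_mem_prod hq ?_
      rw [uIcc_of_le (hε t).1.le] at hl
      exact ⟨by linarith [hl.1], by linarith [hl.2, (hε t).2]⟩
  have hd : Cost (scQ C C2 N' bExp T V hV)
      (fun t q => w t q * ((scQ C C2 N' bExp T V hV).B t * |ε t - 0|))
      fun t q => Qx t q - Q₀ t q :=
    hdiff.congr fun t q hq => by rw [e₁ t q hq, e₀ t q hq]; simp [A, ε]
  obtain ⟨T', hT', hrel, -⟩ := rel_perturb_scQ h0 hd fun t q hq => by
    rw [sub_zero, abs_of_pos (hε t).1]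
    show Kf t * (Kf t ^ c * _ * (Kf t ^ bExp * ε t)) ≤ _
    have hp : Kf t * Kf t ^ bExp * ε t * Kf t ^ (2 * c) ≤ 1 := by
      simp only [ε]
      rw [mul_right_comm _ _ (Kf t ^ (2 * c)), ← div_eq_mul_inv,
        div_le_one (pow_pos (Kf_pos t) _), ← pow_succ', ← pow_add]
      exact pow_le_pow_right₀ (one_le_Kf t) (by omega)
    calc Kf t * (Kf t ^ c * W₀ t q * (Kf t ^ bExp * ε t))
        ≤ Kf t * (Kf t ^ c * (Kf t ^ c * Q₀ t q) * (Kf t ^ bExp * ε t)) := by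
          have := Kf_pos t; have := (hε t).1
          gcongr
          exact h0l t q hq
      _ ≤ Q₀ t q :=
          le_trans (le_of_eq (by ring)) (mul_le_of_le_one_left (h0.nonneg t q hq) hp)
  exact ⟨T', hT', hrel⟩

/-- **A free level is ready for small unknowns.** -/
theorem free_ready (hF : FreeStep) (hK : KernelStep) (hN : NaturalStep) (hj : j = 9 ∨ j = 10)
    (hs : sMin + rRun ≤ s) (h0 : ZeroBend N N' (j + 1) C C2)
    (h : ReadyTo N N' j s' C C2) (hs' : s' + rRun ≤ s) : ReadyTo N N' (j + 1) s C C2 := by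
  intro G _ _ _ V hV T x hx
  set c := cLev (j + 1)
  have hc : c ≤ cLev 11 := by
    rcases hj with rfl | rfl <;> norm_num [c, cLev]
  set W : Set (G × ℝ) := V ×ˢ Ioo (-2 : ℝ) 2
  have hW : IsOpen W := hV.prod isOpen_Ioo
  set s₁ := s - rRun
  -- the two families
  have hy := small_seg hx (r := rRun) (s' := s₁) (by omega)
  obtain ⟨T₁, hT₁, hyok, hyc⟩ := h (G × ℝ) W hW T _ (hy.weaken le_rfl (by omega) le_rfl)
  obtain ⟨T₂, hT₂, hymc, hycr⟩ := hF C C2 N N' bExp s₁ j (by norm_num [bMin, bExp]) le_rfl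
    (by omega) hj (G × ℝ) W hW T₁ _ (hy.weaken le_rfl le_rfl hT₁) (hyok j le_rfl) hyc
  obtain ⟨T₃, hT₃, hxok, hxc⟩ := h G V hV T x (hx.weaken le_rfl (by omega) le_rfl)
  obtain ⟨T₄, hT₄, hxmc, hxcr⟩ := hF C C2 N N' bExp s j (by norm_num [bMin, bExp]) le_rfl
    (by omega) hj G V hV T₃ x (hx.weaken le_rfl le_rfl hT₃) (hxok j le_rfl) hxc
  obtain ⟨T₅, hT₅, h0c, h0r, h0k⟩ := h0 G V hV T
  -- the two slices
  set ε : Fam C C2 → ℝ := fun t => (Kf t ^ rRun)⁻¹
  have hε : ∀ t, 0 < ε t ∧ ε t ≤ 1 := fun t =>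
    ⟨inv_pos.2 (pow_pos (Kf_pos t) _), inv_le_one_of_one_le₀ (one_le_pow_K t _)⟩
  have hsl : ∀ l : Fam C C2 → ℝ, (∀ t, l t ∈ Ioo (-2 : ℝ) 2) →
      ∀ z : Fam C C2 → Ph × G → Unk, (∀ t, ∀ q : Ph × G, z t q = segFam rRun x t (q.1, (q.2, l t))) →
      ∃ T', T₂ ≤ T' ∧ ∀ t, ∀ q ∈ (scQ C C2 N' bExp T' V hV).S t,
        bendAt N t.1 (z t) (j + 1) q =
          bendAt N t.1 (segFam rRun x t) (j + 1) (q.1, (q.2, l t)) ∧
        kernelAt N t.1 (z t) (j + 1) q =
          kernelAt N t.1 (segFam rRun x t) (j + 1) (q.1, (q.2, l t)) := by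
    intro l hl z hz
    obtain ⟨T', hT', he⟩ := hN C C2 N N' bExp s₁ (j + 1) (by norm_num [bMin, bExp]) le_rfl
      (by omega) (by rcases hj with rfl | rfl <;> norm_num) G (G × ℝ) V hV W hW
      (ContinuousLinearMap.inl ℝ G ℝ) (fun t => (0, l t)) (fun _ => 0) T₂ (fun _ => univ) z
      (segFam rRun x) (fun _ => isOpen_univ) (fun t _ g hg => by simp [W, hg, hl t])
      (fun _ _ => Or.inl ⟨0, by simp⟩) (hy.weaken le_rfl le_rfl (hT₁.trans hT₂))
      (fun i hi => (hyok i (by omega)).weaken le_rfl hT₂)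
      fun t _ p _ g _ => by simpa using hz t (p, g)
    refine ⟨T', hT', fun t => ?_⟩
    set g : Ph × G →L[ℝ] Ph × (G × ℝ) := (ContinuousLinearMap.id ℝ Ph).prodMap
      (ContinuousLinearMap.inl ℝ G ℝ)
    have eg : ∀ q : Ph × G, g q + (0, (0, l t)) = (q.1, (q.2, l t)) := fun q => by
      refine Prod.ext ?_ (Prod.ext ?_ ?_) <;> simp [g]
    have := bend_natural (N := N) (j := j + 1) (I := t.1) (x := z t) (x' := segFam rRun x t)
      ((scQ C C2 N' bExp T' V hV).isOpen t) ((scQ C C2 N' bExp T₂ W hW).isOpen t) g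
      (0, (0, l t)) (fun p => by simp [g])
      (fun q hq => by simpa [g, W, scQ, withParam, hl t] using
        ⟨⟨hT'.trans hq.1.1, hq.1.2⟩, hq.2⟩)
      (hymc.smooth t) fun q hq => by
        have := (he t hq.1.1 q.1 ⟨hq.1.2.1, trivial⟩ q.2 hq.2 (j + 1) le_rfl).1
        rw [eg]
        simpa using this
    intro q hq
    rw [← eg]
    exact this q hq
  obtain ⟨T₆, hT₆, e₀⟩ := hsl (fun _ => 0) (fun _ => by norm_num)
    (fun _ _ => 0) fun t q => by simp [segFam]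
  obtain ⟨T₇, hT₇, e₁⟩ := hsl ε (fun t => ⟨by linarith [hε t], by linarith [hε t]⟩) x
    fun t q => by
      have := pow_ne_zero rRun (Kf_pos t).ne'
      simp [segFam, ε, smul_smul, this]
  obtain ⟨T₈, hT₈⟩ : ∃ T₈, T₈ = max (max T₄ T₅) (max T₆ T₇) := ⟨_, rfl⟩
  have l4 : T₄ ≤ T₈ := hT₈ ▸ (le_max_left _ _).trans (le_max_left _ _)
  have l5 : T₅ ≤ T₈ := hT₈ ▸ (le_max_right _ _).trans (le_max_left _ _)
  have l6 : T₆ ≤ T₈ := hT₈ ▸ (le_max_left _ _).trans (le_max_right _ _)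
  have l7 : T₇ ≤ T₈ := hT₈ ▸ (le_max_right _ _).trans (le_max_right _ _)
  have hw : ∀ (t : Fam C C2) (q : Ph × G) (l : ℝ),
      bendWeight N t.1 (j + 1) (q.1, (q.2, l)) ^ 2 = bendWeight N t.1 (j + 1) q ^ 2 :=
    fun t q l => rfl
  obtain ⟨T₉, hT₉, hrel⟩ := rel_of_segment (hV := hV) (c := c)
    (W₀ := fun t q => bendWeight N t.1 (j + 1) q ^ 2)
    (W₁ := fun t q => bendWeight N t.1 (j + 1) q ^ 2)
    (Qx := fun t => bendAt N t.1 (x t) (j + 1)) (by simp only [rRun]; omega) hw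
    (fun _ _ => sq_nonneg _) (cost_scQ hycr.upper le_rfl (hT₆.trans l6)) (cost_scQ h0r le_rfl l5)
    (fun t q hq => h0c.lower t q (scQ_subset l5 t hq))
    (fun t q hq => (e₀ t q (scQ_subset l6 t hq)).1)
    fun t q hq => (e₁ t q (scQ_subset l7 t hq)).1
  obtain ⟨T₁₀, hT₁₀, hker⟩ : ∃ T', T₉ ≤ T' ∧ (j + 1 = 11 →
      Cost (scQ C C2 N' bExp T' V hV) (fun t => kernelAt N t.1 (x t) (j + 1))
        fun t => kernelAt N t.1 (x t) (j + 1)) := by
    rcases hj with rfl | rfl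
    · exact ⟨T₉, le_rfl, fun h => absurd h (by norm_num)⟩
    · obtain ⟨T', hT', hyk⟩ := hK C C2 N N' bExp (by norm_num [bMin, bExp]) le_rfl (G × ℝ) W hW
        T₂ _ hymc hycr
      obtain ⟨h0kc, h0kr⟩ := h0k rfl
      obtain ⟨T'', hT'', hk⟩ := rel_of_segment (hV := hV) (c := 10 * cLev 11)
        (T := max T₉ T') (W₀ := fun t q => bendWeight N t.1 (10 + 1) q ^ 2)
        (W₁ := fun t q => bendWeight N t.1 (10 + 1) q ^ 2)
        (Qx := fun t => kernelAt N t.1 (x t) (10 + 1)) (by simp only [rRun]; omega) hw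
        (fun _ _ => sq_nonneg _) (cost_scQ hyk.upper le_rfl (le_max_right _ _))
        (cost_scQ h0kr le_rfl (l5.trans (hT₉.trans (le_max_left _ _))))
        (fun t q hq => h0kc.lower t q (scQ_subset (l5.trans (hT₉.trans (le_max_left _ _))) t hq))
        (fun t q hq => (e₀ t q (scQ_subset (l6.trans (hT₉.trans (le_max_left _ _))) t hq)).2)
        fun t q hq => (e₁ t q (scQ_subset (l7.trans (hT₉.trans (le_max_left _ _))) t hq)).2
      exact ⟨T'', (le_max_left _ _).trans hT'', fun _ => hk⟩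
  have hT' : T₄ ≤ T₁₀ := l4.trans (hT₉.trans hT₁₀)
  refine ⟨T₁₀, hT₃.trans (hT₄.trans hT'), fun i hi => ?_, hxcr.weaken le_rfl hT'⟩
  rcases eq_or_lt_of_le hi with rfl | hi
  · exact ⟨hxmc.weaken le_rfl hT', cost_scQ hrel le_rfl hT₁₀, hker⟩
  · exact (hxok i (by omega)).weaken le_rfl (hT₄.trans hT')

/-- **All levels are ready.** -/
theorem readyStep_of (hB : BaseStep) (hTi : TinyStep) (hF : FreeStep) (hK : KernelStep)
    (hN : NaturalStep) :
    ReadyStep := by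
  intro C C2 N N' s hs G _ _ _ V hV T x hx
  have hrun : sMin + 2 * rRun ≤ sRun := by norm_num [sMin, rRun, sRun, bExp, cLev]
  obtain ⟨z10, z11⟩ := zero_bend (C := C) (C2 := C2) hB hTi hF hK N N'
  have h9 : ReadyTo N N' 9 sMin C C2 := fun G _ _ _ V hV T x hx => by
    obtain ⟨T₁, hT₁, h⟩ := ready_nine hB hTi (by norm_num [bMin, bExp]) le_rfl le_rfl hx
    obtain ⟨T₂, hT₂, hc⟩ := bendCrude_nine (h 9 le_rfl)
    exact ⟨T₂, hT₁.trans hT₂, fun i hi => (h i hi).weaken le_rfl hT₂, hc⟩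
  have h10 : ReadyTo N N' 10 (sMin + rRun) C C2 :=
    free_ready hF hK hN (Or.inl rfl) le_rfl z10 h9 le_rfl
  have h11 : ReadyTo N N' 11 s C C2 :=
    free_ready hF hK hN (Or.inr rfl) (by omega) z11 h10 (by omega)
  obtain ⟨T', hT', h, -⟩ := h11 G V hV T x hx
  exact ⟨T', hT', h⟩

end Vale.Agent.P205.Stage
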