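import Vale.Agent.P205.Stage.FreeNext
import Vale.Agent.P205.Stage.Ready
import Vale.Agent.P205.Legal.Levels

/-!
A free level keeps everything: the area and the derivative along `(1, 1)` grow by the amplitude,
and the bend grows to the amplitude times the frequency up to a power of the scale.
-/

noncomputable section

open Set Finset Real
open scoped ContDiff

namespace Vale.Agent.P205.Stage

open Wave (V4 ip D gram2 Cost Scale)
open Lev

section pointwise

variable {E : Type} [NormedAddCommGroup E] [NormedSpace ℝ E] [FiniteDimensional ℝ E]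
  {P : Free.Prof E}

omit [FiniteDimensional ℝ E] in
/-- The velocity of a free wave: the Gram determinant with `Z_e` and the squared lengths. -/
theorem free_vals (h : P.OK) {x : E} (hx : x ∈ P.base.Ω) {μ ρ : ℝ}
    (hc : P.c x = Free.Prof.shapeOf μ (P.aP x) ρ) (s ν : ℝ) :
    gram2 (P.base.Ze x) (P.base.Zv x + (P.data.T x s - P.pvec x)) =
        gram2 (P.base.Ze x) (P.base.Zv x) + ip (P.base.Ze x) (P.base.Ze x) * ρ ^ 2 ∧
      ip (P.base.Ze x + ν • (P.base.Zv x + (P.data.T x s - P.pvec x)))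
          (P.base.Ze x + ν • (P.base.Zv x + (P.data.T x s - P.pvec x))) =
        ip (P.base.Ze x + ν • P.base.Zv x) (P.base.Ze x + ν • P.base.Zv x) + ν ^ 2 * ρ ^ 2 := by
  obtain ⟨-, ht, hte, -, -, hp⟩ := Free.Prof.frame h hx
  obtain ⟨hze, uu, -⟩ := Free.Prof.ip_unit h hx s
  have hl : P.len x ^ 2 = P.aP x ^ 2 + ρ ^ 2 := by
    rw [Free.Prof.m0_shapeOf h hx hc, Real.sq_sqrt (by positivity)]
  obtain ⟨r, hr⟩ : ∃ r, r = ip (P.base.Zv x) (P.base.Ze x) / ip (P.base.Ze x) (P.base.Ze x) :=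
    ⟨_, rfl⟩
  have hzv : P.base.Zv x = P.pvec x + r • P.base.Ze x := by
    rw [hr, Free.Prof.pvec, sub_add_cancel]
  rw [show P.data.T x s = P.len x • P.unit x s from rfl, hzv, ← hp]
  constructor
  · simp [gram2, hze, uu, ht, hte, Wave.ip_comm (P.unit x s) (P.base.Ze x),
      Wave.ip_comm (P.tauP x) (P.base.Ze x)]
    linear_combination (ip (P.base.Ze x) (P.base.Ze x)) * hl
  · simp [hze, uu, ht, hte, Wave.ip_comm (P.unit x s) (P.base.Ze x),
      Wave.ip_comm (P.tauP x) (P.base.Ze x)]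
    linear_combination ν ^ 2 * hl

omit [FiniteDimensional ℝ E] in
/-- The coefficient along the velocity of a vector split along the frame. -/
theorem bend_coef (h : P.OK) {x : E} (hx : x ∈ P.base.Ω) {w : V4} {α β q : ℝ}
    (hw : w = α • P.base.Ze x + β • P.pvec x + q • P.L2 x) :
    |β| * P.aP x ≤ Legal.len w := by
  obtain ⟨ha, ht, hte, -, ht2, hp⟩ := Free.Prof.frame h hx
  have e : ip w (P.tauP x) = β * P.aP x := by
    rw [hw, ← hp]
    simp [ht, hte, Wave.ip_comm (P.L2 x) (P.tauP x), ht2]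
  calc |β| * P.aP x = |ip w (P.tauP x)| := by rw [e, abs_mul, abs_of_pos ha]
    _ ≤ Legal.len w := Legal.abs_ip_unit_le ht w

/-- A power of the scale against a larger one, before a lower bound. -/
theorem pow_small {K a : ℝ} (hK : 1 ≤ K) {e f g : ℕ} (h : e + f ≤ g) (ha : 1 ≤ K ^ f * a) :
    K ^ e * (K ^ g)⁻¹ ≤ a := by
  have hK0 : 0 < K := zero_lt_one.trans_le hK
  have ha0 : 0 < a := pos_of_mul_pos_right (zero_lt_one.trans_le ha) (pow_nonneg hK0.le f)
  rw [← div_eq_mul_inv, div_le_iff₀ (pow_pos hK0 g)]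
  calc K ^ e = K ^ e * 1 := (mul_one _).symm
    _ ≤ K ^ e * (K ^ f * a) := mul_le_mul_of_nonneg_left ha (pow_nonneg hK0.le e)
    _ ≤ a * K ^ g := by
      rw [← mul_assoc, ← pow_add, mul_comm]
      exact mul_le_mul_of_nonneg_left (pow_le_pow_right₀ hK h) ha0.le

omit [FiniteDimensional ℝ E] in
/-- The error between the planes and vectors after a free wave and those of its profile. -/
theorem gap_le {x : E} (s : ℝ) {K : ℝ} (hK : 2 ≤ K) {c m j : ℕ} (hj : j ≤ 10) (hc : 1000 ≤ c)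
    {W A k : ℝ} (hW : 0 ≤ W) (hkA : 0 ≤ k * A) {w p1 q1 w1 : V4}
    (hr : |ip (P.base.Zv x) (P.base.Ze x) / ip (P.base.Ze x) (P.base.Ze x)| ≤ K ^ (5 * c + 1))
    (hp : Legal.len p1 ≤ K ^ (11 * c + 1)) (hq : Legal.len q1 ≤ K ^ (11 * c + 1))
    (hdp : Legal.len (p1 - P.base.Ze x) ≤ K * (K ^ m)⁻¹)
    (hdq : Legal.len (q1 - (P.base.Zv x + (P.data.T x s - P.pvec x))) ≤ K * (K ^ m)⁻¹)
    (hw1 : Legal.len w1 ≤ K * (K ^ (11 * c) * (W + k * A)))
    (he : Legal.len (w1 - (w + k • deriv (P.data.T x) s)) ≤ K * (k * A * (K ^ m)⁻¹))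
    {g : ℝ} (hg0 : 0 < g) (hg : 1 ≤ K ^ (5 + j) * g) {q' : V4}
    (hq' : q' = q1 - (ip (P.base.Zv x) (P.base.Ze x) / ip (P.base.Ze x) (P.base.Ze x)) • p1)
    (hgq : gram2 p1 q' = g) :
    Legal.gap (P.base.Ze x) (P.data.T x s) (w + k • deriv (P.data.T x) s) p1 q' w1 ≤
      K ^ (29 * c) * (K ^ m)⁻¹ * (W + k * A) + K * (K ^ m)⁻¹ * (k * A) := by
  obtain ⟨r, hr0⟩ : ∃ r, r = ip (P.base.Zv x) (P.base.Ze x) / ip (P.base.Ze x) (P.base.Ze x) :=
    ⟨_, rfl⟩
  rw [← hr0] at hr hq'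
  have hK1 : 1 ≤ K := one_le_two.trans hK
  have hK0 : ∀ i : ℕ, (0 : ℝ) ≤ K ^ i := fun i => pow_nonneg (zero_le_two.trans hK) i
  have hi0 : 0 ≤ (K ^ m)⁻¹ := inv_nonneg.2 (hK0 m)
  have pw : ∀ {i l : ℕ}, i ≤ l → K ^ i ≤ K ^ l := fun h => pow_le_pow_right₀ hK1 h
  have two : ∀ {a b : ℝ} {i : ℕ}, a ≤ K ^ i → b ≤ K ^ i → a + b ≤ K ^ (i + 1) :=
    fun {a b i} ha hb => by
      rw [pow_succ]
      nlinarith [hK0 i]
  have dq : Legal.len q' ≤ K ^ (16 * c + 3) := by
    rw [hq']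
    refine (Legal.len_sub_le _ _).trans (two (hq.trans (pw (by omega))) ?_)
    rw [Legal.len_smul]
    refine (mul_le_mul hr hp (Legal.len_nonneg _) (hK0 _)).trans ?_
    rw [← pow_add]; exact pw (by omega)
  have eqT : q' - P.data.T x s =
      (q1 - (P.base.Zv x + (P.data.T x s - P.pvec x))) - r • (p1 - P.base.Ze x) := by
    rw [hq', Free.Prof.pvec, ← hr0]
    module
  have dqT : Legal.len (q' - P.data.T x s) ≤ K ^ (5 * c + 3) * (K ^ m)⁻¹ := by
    rw [eqT]
    refine (Legal.len_sub_le _ _).trans ((add_le_add hdq ((Legal.len_smul _ _).trans_le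
      (mul_le_mul hr hdp (Legal.len_nonneg _) (hK0 _)))).trans ?_)
    rw [← mul_assoc, ← add_mul, ← pow_succ]
    exact mul_le_mul_of_nonneg_right (two (le_self_pow₀ hK1 (by omega)) le_rfl) hi0
  have inner : Legal.len q' * Legal.len (p1 - P.base.Ze x) +
      Legal.len p1 * Legal.len (q' - P.data.T x s) ≤ K ^ (16 * c + 5) * (K ^ m)⁻¹ := by
    refine (add_le_add (mul_le_mul dq hdp (Legal.len_nonneg _) (hK0 _))
      (mul_le_mul hp dqT (Legal.len_nonneg _) (hK0 _))).trans ?_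
    rw [← mul_assoc, ← mul_assoc, ← add_mul, ← pow_succ, ← pow_add]
    exact mul_le_mul_of_nonneg_right (two le_rfl (pw (by omega))) hi0
  have hi : (Real.sqrt g)⁻¹ ≤ K ^ (5 + j) := by
    rw [inv_le_iff_one_le_mul₀ (Real.sqrt_pos.2 hg0)]
    nlinarith [one_le_pow₀ hK1 (n := 5 + j), Real.sqrt_pos.2 hg0, Real.sq_sqrt hg0.le]
  rw [add_comm (_ * (W + k * A)), Legal.gap, hgq, div_eq_mul_inv]
  refine add_le_add ?_ ((mul_le_mul (mul_le_mul hw1 hi (inv_nonneg.2 (Real.sqrt_nonneg _))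
    (mul_nonneg (zero_le_two.trans hK) (mul_nonneg (hK0 _) (add_nonneg hW hkA)))) inner
    (add_nonneg (mul_nonneg (Legal.len_nonneg _) (Legal.len_nonneg _))
      (mul_nonneg (Legal.len_nonneg _) (Legal.len_nonneg _)))
    (mul_nonneg (mul_nonneg (zero_le_two.trans hK) (mul_nonneg (hK0 _) (add_nonneg hW hkA)))
      (hK0 _))).trans ?_)
  · rw [← Legal.len_neg, neg_sub]
    exact he.trans_eq (by ring)
  · calc K * (K ^ (11 * c) * (W + k * A)) * K ^ (5 + j) * (K ^ (16 * c + 5) * (K ^ m)⁻¹)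
        = K ^ (11 * c + 1 + (5 + j) + (16 * c + 5)) * (K ^ m)⁻¹ * (W + k * A) := by
          rw [pow_add, pow_add, pow_succ]; ring
      _ ≤ _ := mul_le_mul_of_nonneg_right
          (mul_le_mul_of_nonneg_right (pw (by omega)) hi0) (add_nonneg hW hkA)

omit [FiniteDimensional ℝ E] in
/-- **The bend after a free wave**, from sizes as powers of the scale. -/
theorem bend_grow (h : P.OK) {x : E} (hx : x ∈ P.base.Ω) (s : ℝ) {K : ℝ} (hK : 100000 ≤ K)
    {c m j : ℕ} (hj : j ≤ 10) (hc : 1000 ≤ c) (hm : 1000 * c + 1000 ≤ m) {W A k ρ q0 : ℝ}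
    (hs : P.c x = Free.Prof.shapeOf (1 / 2) (P.aP x) ρ)
    (hA : 0 ≤ A) (hρA : A ≤ 6 * ρ) (hρA' : ρ ≤ 6 * A) (hk : K ^ (2 * m) ≤ k) (hW : 1 ≤ W)
    (hWm : W ≤ K ^ (m + 1)) (hq0 : 0 ≤ q0) (hWq : W ≤ K ^ c * q0)
    (hb0 : 1 ≤ K ^ (4 + j) * q0 ^ 2) {w p1 q1 w1 : V4} {α β : ℝ}
    (hw : w = α • P.base.Ze x + β • P.pvec x + q0 • P.L2 x) (ha : 1 ≤ K ^ (2 * c) * P.aP x)
    (hr : |ip (P.base.Zv x) (P.base.Ze x) / ip (P.base.Ze x) (P.base.Ze x)| ≤ K ^ (5 * c + 1))
    (hg : 1 ≤ K ^ (5 + j) * gram2 p1 q1) (hw0 : Legal.len w ≤ K * (K ^ c * W))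
    (hp : Legal.len p1 ≤ K ^ (11 * c + 1)) (hq : Legal.len q1 ≤ K ^ (11 * c + 1))
    (hdp : Legal.len (p1 - P.base.Ze x) ≤ K * (K ^ m)⁻¹)
    (hdq : Legal.len (q1 - (P.base.Zv x + (P.data.T x s - P.pvec x))) ≤ K * (K ^ m)⁻¹)
    (hw1 : Legal.len w1 ≤ K * (K ^ (11 * c) * (W + k * A)))
    (he : Legal.len (w1 - (w + k • deriv (P.data.T x) s)) ≤ K * (k * A * (K ^ m)⁻¹)) :
    (W + k * A) ^ 2 ≤ K ^ (1000 * c) * ip (perp2 p1 q1 w1) (perp2 p1 q1 w1) ∧
      1 ≤ K ^ (5 + j) * ip (perp2 p1 q1 w1) (perp2 p1 q1 w1) := by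
  have hK1 : 1 ≤ K := le_trans (by norm_num) hK
  have hKp : 0 < K := zero_lt_one.trans_le hK1
  have hk0 : 0 ≤ k := (pow_nonneg hKp.le _).trans hk
  have hkA : 0 ≤ k * A := mul_nonneg hk0 hA
  have hρ : 0 ≤ ρ := by linarith
  have hg0 : 0 < gram2 p1 q1 :=
    pos_of_mul_pos_right (zero_lt_one.trans_le hg) (pow_nonneg hKp.le _)
  set r := ip (P.base.Zv x) (P.base.Ze x) / ip (P.base.Ze x) (P.base.Ze x)
  have hb : perp2 p1 (q1 - r • p1) w1 = perp2 p1 q1 w1 := by
    have := Legal.perp2_basis hg0.ne' (α := 1) (β := 0) (γ := -r) (δ := 1) (by norm_num) w1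
    simpa only [one_smul, zero_smul, add_zero, neg_smul, neg_add_eq_sub] using this
  have hgq : gram2 p1 (q1 - r • p1) = gram2 p1 q1 := by
    have := Legal.gram2_comb p1 q1 1 0 (-r) 1
    simpa [neg_add_eq_sub] using this
  have key := Legal.free_bend_close h hx (μ := 1 / 2) (by norm_num) le_rfl hρ hs hq0 hk0 hw s
    (p' := p1) (q' := q1 - r • p1) (w' := w1) (hgq ▸ hg0)
  rw [hb] at key
  have hgap := gap_le s (le_trans (by norm_num) hK) hj hc (zero_le_one.trans hW) hkA hr hp hq hdp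
    hdq hw1 he hg0 hg rfl hgq
  have hi0 : 0 ≤ (K ^ m)⁻¹ := inv_nonneg.2 (pow_nonneg hKp.le m)
  have tiny : ∀ e : ℕ, e ≤ 100 * c → K ^ e * (K ^ m)⁻¹ ≤ (1 : ℝ) / 100000 := fun e he => by
    refine (pow_small hK1 (f := 1) (g := m) (by omega)
      (le_of_eq (mul_inv_cancel₀ (pow_pos hKp 1).ne').symm)).trans ?_
    rw [pow_one, one_div]
    exact inv_anti₀ (by norm_num) hK
  have t1 : K ^ (29 * c) * (K ^ m)⁻¹ * (W + k * A) ≤ q0 / 100000 + k * A / 100000 := by
    calc K ^ (29 * c) * (K ^ m)⁻¹ * (W + k * A)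
        ≤ K ^ (29 * c) * (K ^ m)⁻¹ * (K ^ c * q0 + k * A) := by gcongr
      _ = K ^ (29 * c + c) * (K ^ m)⁻¹ * q0 + K ^ (29 * c) * (K ^ m)⁻¹ * (k * A) := by
          rw [pow_add]; ring
      _ ≤ 1 / 100000 * q0 + 1 / 100000 * (k * A) :=
          add_le_add (mul_le_mul_of_nonneg_right (tiny _ (by omega)) hq0)
            (mul_le_mul_of_nonneg_right (tiny _ (by omega)) hkA)
      _ = _ := by ring
  have t2 : K * (K ^ m)⁻¹ * (k * A) ≤ k * A / 100000 := by
    have := mul_le_mul_of_nonneg_right (tiny 1 (by omega)) hkA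
    rw [pow_one] at this
    linarith
  have t3 : 2 * |β| * ρ ≤ 12 * (k * A) / 100000 := by
    have hβ : |β| ≤ K ^ (3 * c + m + 2) := calc
      |β| = |β| * 1 := (mul_one _).symm
      _ ≤ |β| * (K ^ (2 * c) * P.aP x) := mul_le_mul_of_nonneg_left ha (abs_nonneg β)
      _ = K ^ (2 * c) * (|β| * P.aP x) := by ring
      _ ≤ K ^ (2 * c) * (K * (K ^ c * K ^ (m + 1))) := by
          refine mul_le_mul_of_nonneg_left (((bend_coef h hx hw).trans hw0).trans ?_)
            (pow_nonneg hKp.le _)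
          gcongr
      _ = _ := by
          rw [show 3 * c + m + 2 = 2 * c + 1 + c + (m + 1) by omega, pow_add _ _ (m + 1), pow_add,
            pow_succ]
          ring
    have h2 : 100000 * K ^ (3 * c + m + 2) ≤ k := by
      refine (mul_le_mul_of_nonneg_right hK (pow_nonneg hKp.le _)).trans (le_trans ?_ hk)
      rw [← pow_succ']
      exact pow_le_pow_right₀ hK1 (by omega)
    have h4 := mul_le_mul_of_nonneg_right h2 hA
    have h5 := mul_le_mul hβ hρA' hρ (pow_nonneg hKp.le _)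
    linarith
  set L := Legal.len (perp2 p1 q1 w1) with hL
  have hlen : q0 / 6 + k * A / 240 ≤ L := by
    have := mul_le_mul_of_nonneg_left hρA hk0
    linarith [hgap.trans (add_le_add t1 t2)]
  have hL2 : L ^ 2 = ip (perp2 p1 q1 w1) (perp2 p1 q1 w1) := Legal.len_sq _
  have hL0 : 0 ≤ L := Legal.len_nonneg _
  constructor
  · have hc1 := one_le_pow₀ hK1 (n := c)
    have h1 : W + k * A ≤ K ^ (c + 1) * L := by
      have h3 : W + k * A ≤ K ^ c * (240 * L) := by
        nlinarith [mul_le_mul_of_nonneg_left hlen (zero_le_one.trans hc1),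
          mul_nonneg hkA (sub_nonneg.2 hc1)]
      refine h3.trans ?_
      rw [pow_succ, mul_assoc]
      exact mul_le_mul_of_nonneg_left (mul_le_mul_of_nonneg_right (le_trans (by norm_num) hK) hL0)
        (zero_le_one.trans hc1)
    refine (pow_le_pow_left₀ (by linarith) h1 2).trans ?_
    rw [mul_pow, hL2, ← pow_mul]
    exact mul_le_mul_of_nonneg_right (pow_le_pow_right₀ hK1 (by omega)) (Legal.ip_self_nonneg _)
  · have h2 : q0 ^ 2 ≤ K * L ^ 2 := by nlinarith
    rw [show 5 + j = (4 + j) + 1 by omega, pow_succ, mul_assoc, ← hL2]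
    exact hb0.trans (mul_le_mul_of_nonneg_left h2 (pow_nonneg hKp.le _))

end pointwise

/-- The length of a family of known cost. -/
theorem cost_len_le {ι X : Type} [NormedAddCommGroup X] [NormedSpace ℝ X] {σ : Scale ι X}
    {w : ι → X → ℝ} {f : ι → X → V4} (hf : Cost σ w f) :
    ∃ c, 0 ≤ c ∧ ∀ t, ∀ x ∈ σ.S t, Legal.len (f t x) ≤ c * w t x := by
  obtain ⟨c, hc0, hc⟩ := (hf.ip hf).abs_le
  refine ⟨Real.sqrt c, Real.sqrt_nonneg c, fun t x hx => ?_⟩
  have hw := hf.nonneg t x hx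
  rw [Legal.len, ← Real.sqrt_sq hw, ← Real.sqrt_mul hc0, pow_two]
  exact Real.sqrt_le_sqrt ((le_abs_self _).trans (hc t x hx))

variable {C : ℕ → ℝ} {C2 : ℕ → ℕ → ℝ} {N N' b j : ℕ} {T : ℝ} {G : Type} [NormedAddCommGroup G]
  [NormedSpace ℝ G] [FiniteDimensional ℝ G] {V : Set G} {hV : IsOpen V}
  {x : Fam C C2 → Ph × G → Unk}

/-- The derivatives at the phases in the directions of a free level. -/
theorem free_basis (hj : j = 9 ∨ j = 10) (I : Input) (y : Ph × G → Unk) (i : ℕ) (q : Ph × G) :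
    d1At N I y i (pt 1 0) q = d1At N I y i (levE j) q + d1At N I y i (levV j) q ∧
    d1At N I y i (pt 0 1) q = (levV j 1) • d1At N I y i (levV j) q ∧
    areaAt N I y i q = gram2 (d1At N I y i (levE j) q) (d1At N I y i (levV j) q) ∧
    (gram2 (d1At N I y i (levE j) q) (d1At N I y i (levV j) q) ≠ 0 →
      bendVec N I y i q = perp2 (d1At N I y i (levE j) q) (d1At N I y i (levV j) q)
        (d2At N I y i (pt 0 1) (pt 0 1) q)) := by
  obtain ⟨-, ε, hε, hv, he⟩ := free_dirs hj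
  have hε2 : ε ^ 2 = 1 := by rcases hε with rfl | rfl <;> norm_num
  have e10 : d1At N I y i (pt 1 0) q = d1At N I y i (levE j) q + d1At N I y i (levV j) q := by
    rw [levels_d1 _ _ _ (levE j), levels_d1 _ _ _ (levV j), he, hv]
    simp only [pt_zero, pt_one]
    module
  have e01 : d1At N I y i (pt 0 1) q = (levV j 1) • d1At N I y i (levV j) q := by
    rw [levels_d1 _ _ _ (levV j), hv]
    simp [pt_zero, pt_one, smul_smul, ← sq, hε2]
  refine ⟨e10, e01, ?_, fun h => ?_⟩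
  · rw [areaAt, e10, e01, hv, pt_one]
    have := Legal.gram2_comb (d1At N I y i (pt 1 (-ε)) q) (d1At N I y i (pt 0 ε) q) 1 1 0 ε
    rw [he]
    simpa [hε2] using this
  · have h1 := Legal.perp2_basis h (α := 1) (β := 1) (γ := 0) (δ := ε) (by
      rcases hε with rfl | rfl <;> norm_num) (d2At N I y i (pt 0 1) (pt 0 1) q)
    rw [bendVec, e10, e01, show levV j 1 = ε by rw [hv, pt_one]]
    simpa only [one_smul, zero_smul, zero_add] using h1

/-- The velocity of a free level at the slots of the next one. -/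
def newV (N : ℕ) (σ : Scale (Fam C C2) (Ph × G)) (x : Fam C C2 → Ph × G → Unk) (j : ℕ)
    (t : Fam C C2) (q : Ph × G) : V4 :=
  d1At N t.1 (x t) j (levV j) (trunc j q) + velChange N σ x j t q

/-- The area after a free level, without remainders. -/
def newArea (N : ℕ) (x : Fam C C2 → Ph × G → Unk) (j : ℕ) (t : Fam C C2) (q : Ph × G) : ℝ :=
  areaAt N t.1 (x t) j (trunc j q) +
    ip (d1At N t.1 (x t) j (levE j) (trunc j q)) (d1At N t.1 (x t) j (levE j) (trunc j q)) *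
      amp (par N) t.1 (x t) j (restAt N t.1 (x t) j) (trunc j q) ^ 2

/-- The derivatives after a free level as the main terms and small remainders. -/
structure FreeLin (N N' b j : ℕ) (T : ℝ) (V : Set G) (hV : IsOpen V)
    (x : Fam C C2 → Ph × G → Unk) : Prop where
  p0 : Cost (scQ C C2 N' b T V hV) (fun t _ => Kf t ^ (11 * cLev j))
    fun t q => d1At N t.1 (x t) j (levE j) (trunc j q)
  q0 : Cost (scQ C C2 N' b T V hV) (fun t _ => Kf t ^ (11 * cLev j))
    fun t q => newV N (scQ C C2 N' b T V hV) x j t q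
  p1 : Cost (scQ C C2 N' b T V hV) (fun t _ => Kf t ^ (11 * cLev j))
    fun t => d1At N t.1 (x t) (j + 1) (levE j)
  q1 : Cost (scQ C C2 N' b T V hV) (fun t _ => Kf t ^ (11 * cLev j))
    fun t => d1At N t.1 (x t) (j + 1) (levV j)
  dp : Cost (scQ C C2 N' b T V hV) (fun t _ => (Kf t ^ mExp j)⁻¹)
    fun t q => d1At N t.1 (x t) (j + 1) (levE j) q - d1At N t.1 (x t) j (levE j) (trunc j q)
  dq : Cost (scQ C C2 N' b T V hV) (fun t _ => (Kf t ^ mExp j)⁻¹)
    fun t q => d1At N t.1 (x t) (j + 1) (levV j) q - newV N (scQ C C2 N' b T V hV) x j t q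
  w0 : Cost (scQ C C2 N' b T V hV) (fun t q => Kf t ^ cLev j * bendWeight N t.1 j q)
    fun t q => d2At N t.1 (x t) j (pt 0 1) (pt 0 1) (trunc j q)
  w1 : Cost (scQ C C2 N' b T V hV)
    (fun t q => Kf t ^ (11 * cLev j) * bendWeight N t.1 (j + 1) q)
    fun t => d2At N t.1 (x t) (j + 1) (pt 0 1) (pt 0 1)
  dw : Cost (scQ C C2 N' b T V hV)
    (fun t q => (par N).k t.1 j * levA (par N) t.1 j q.1.1 * (Kf t ^ mExp j)⁻¹)
    fun t q => d2At N t.1 (x t) (j + 1) (pt 0 1) (pt 0 1) q -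
      (d2At N t.1 (x t) j (pt 0 1) (pt 0 1) (trunc j q) +
        (par N).k t.1 j • velTurn N (scQ C C2 N' b T V hV) x j t q)

theorem free_lin (hj : j = 9 ∨ j = 10) {TN : ℝ} (hT : TN ≤ T)
    (hm : MapCore N N' b T V hV x j) (FF : FreeFine N N' b j T V hV x)
    (FN : FreeNext N N' b j TN V hV x) : FreeLin N N' b j T V hV x := by
  set σ := scQ C C2 N' b T V hV
  set c := cLev j
  have hc : 1000 ≤ c := by rcases hj with rfl | rfl <;> norm_num [c, cLev]
  have hK0 : ∀ (a : ℕ) (t : Fam C C2), ∀ q ∈ σ.S t, (0 : ℝ) ≤ Kf t ^ a :=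
    fun a t _ _ => pow_nonneg (Kf_pos t).le a
  have hKi : ∀ (a : ℕ) (t : Fam C C2), ∀ q ∈ σ.S t, (0 : ℝ) ≤ (Kf t ^ a)⁻¹ :=
    fun a t _ _ => inv_nonneg.2 (pow_nonneg (Kf_pos t).le a)
  have hA : ∀ t, ∀ q ∈ σ.S t,
      0 < levA (par N) t.1 j q.1.1 ∧ levA (par N) t.1 j q.1.1 ≤ max 1 (C 0) := fun t q hq => by
    obtain ⟨-, -, -, -, -, h0, h1, h2, -⟩ := share_range N hq.1.2.1 j
    exact ⟨h0, (h1.trans h2).trans (le_max_right _ _)⟩
  have hCc : (0 : ℝ) ≤ max 1 (C 0) := le_max_of_le_left zero_le_one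
  have comp : ∀ {f : Fam C C2 → (Ph × G) × ℝ → V4},
      Cost σ.fast (fun t p => levA (par N) t.1 j p.1.1.1 * Kf t ^ (11 * c)) f →
      Cost σ (fun t q => levA (par N) t.1 j q.1.1 * Kf t ^ (11 * c))
        fun t q => f t (trunc j q, slot j q) := fun {f} h => by
    have h2 := h.comp_affine σ (fun _ => splitL G j) (fun _ => 0)
      (fun t => mul_le_of_le_one_right (zero_le_one.trans (σ.one_le t)) (norm_splitL G j))
      fun t q hq => by rw [add_zero, splitL_apply]; exact ⟨trunc_mem hq, trivial⟩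
    simpa [splitL_apply, trunc] using h2
  have hvc : Cost σ (fun t q => levA (par N) t.1 j q.1.1 * Kf t ^ (11 * c))
      (velChange N σ x j) := (comp FF.change).congr fun t q _ => rfl
  have hvt : Cost σ (fun t q => levA (par N) t.1 j q.1.1 * Kf t ^ (11 * c))
      (velTurn N σ x j) := (comp FF.dchange).congr fun t q _ => rfl
  have hold : ∀ a, Cost σ (fun t _ => Kf t ^ (11 * c))
      fun t q => d1At N t.1 (x t) j a (trunc j q) := fun a =>
    cost_pow_le (cost_trunc (cost_d1 hm.d1s a) j) (by omega)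
  have hsm : ∀ t, ∀ q ∈ σ.S t, levA (par N) t.1 j q.1.1 * (Kf t ^ (2 * mExp j))⁻¹ ≤
      max 1 (C 0) * (Kf t ^ mExp j)⁻¹ := fun t q hq =>
    mul_le_mul (hA t q hq).2 (inv_anti₀ (pow_pos (Kf_pos t) _)
      (pow_le_pow_right₀ (one_le_Kf t) (by omega))) (hKi _ t q hq) hCc
  have low : ∀ t : Fam C C2, ∀ q ∈ σ.S t,
      (Kf t ^ mExp j)⁻¹ ≤ 1 * Kf t ^ (11 * c) := fun t q _ => by
    rw [one_mul]
    exact (inv_le_one_of_one_le₀ (one_le_pow_K t _)).trans (one_le_pow_K t _)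
  have hq0 : Cost σ (fun t _ => Kf t ^ (11 * c)) fun t q => newV N σ x j t q :=
    (hold (levV j)).add (hvc.mono hCc (hK0 _) fun t q hq =>
      mul_le_mul_of_nonneg_right (hA t q hq).2 (hK0 _ t q hq))
  have hdp : Cost σ (fun t _ => (Kf t ^ mExp j)⁻¹) fun t q =>
      d1At N t.1 (x t) (j + 1) (levE j) q - d1At N t.1 (x t) j (levE j) (trunc j q) :=
    (cost_scQ FN.d1e le_rfl hT).mono hCc (hKi _) hsm
  have hdq : Cost σ (fun t _ => (Kf t ^ mExp j)⁻¹) fun t q =>
      d1At N t.1 (x t) (j + 1) (levV j) q - newV N σ x j t q :=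
    ((cost_scQ FN.d1v le_rfl hT).mono hCc (hKi _) hsm).congr fun t q _ => rfl
  have hw0 : Cost σ (fun t q => Kf t ^ c * bendWeight N t.1 j q)
      fun t q => d2At N t.1 (x t) j (pt 0 1) (pt 0 1) (trunc j q) := cost_trunc hm.d2v j
  have hdw : Cost σ (fun t q => (par N).k t.1 j * levA (par N) t.1 j q.1.1 * (Kf t ^ mExp j)⁻¹)
      fun t q => d2At N t.1 (x t) (j + 1) (pt 0 1) (pt 0 1) q -
        (d2At N t.1 (x t) j (pt 0 1) (pt 0 1) (trunc j q) +
          (par N).k t.1 j • velTurn N σ x j t q) :=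
    (cost_scQ FN.d2vv le_rfl hT).congr fun t q _ => rfl
  refine ⟨hold (levE j), hq0,
    ((hold (levE j)).add (hdp.mono zero_le_one (hK0 _) low)).congr fun t q _ => by abel,
    (hq0.add (hdq.mono zero_le_one (hK0 _) low)).congr fun t q _ => by abel, hdp, hdq, hw0, ?_, hdw⟩
  have hn : ∀ t, ∀ q ∈ σ.S t, 0 ≤ Kf t ^ (11 * c) * bendWeight N t.1 (j + 1) q :=
    fun t q hq => mul_nonneg (hK0 _ t q hq)
      (zero_le_one.trans (one_le_bendWeight hq.1.2.1 (j + 1)))
  have hW : ∀ t, ∀ q ∈ σ.S t, 0 ≤ bendWeight N t.1 j q := fun t q hq =>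
    zero_le_one.trans (one_le_bendWeight hq.1.2.1 j)
  have hkA : ∀ t, ∀ q ∈ σ.S t, 0 ≤ (par N).k t.1 j * levA (par N) t.1 j q.1.1 := fun t q hq =>
    mul_nonneg (pow_nonneg (Kf_pos t).le _) (hA t q hq).1.le
  have eW : ∀ (t : Fam C C2) (q : Ph × G), bendWeight N t.1 (j + 1) q =
      bendWeight N t.1 j q + (par N).k t.1 j * levA (par N) t.1 j q.1.1 := fun t q =>
    bendWeight_succ t.1 (by omega) (by omega) q
  refine (((hw0.mono zero_le_one hn fun t q hq => ?_).add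
    ((cost_smul_index hvt fun t => (par N).k t.1 j).mono zero_le_one hn fun t q hq => ?_)).add
    (hdw.mono zero_le_one hn fun t q hq => ?_)).congr fun t q _ => by abel
  · rw [one_mul, eW]
    exact mul_le_mul (pow_le_pow_right₀ (one_le_Kf t) (by omega))
      (le_add_of_nonneg_right (hkA t q hq)) (hW t q hq) (hK0 _ t q hq)
  · rw [one_mul, eW, abs_of_nonneg (show 0 ≤ (par N).k t.1 j from pow_nonneg (Kf_pos t).le _),
      ← mul_assoc, mul_comm]
    exact mul_le_mul_of_nonneg_left (le_add_of_nonneg_left (hW t q hq)) (hK0 _ t q hq)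
  · rw [one_mul, eW, mul_comm (Kf t ^ (11 * c))]
    exact mul_le_mul (le_add_of_nonneg_left (hW t q hq))
      ((inv_le_one_of_one_le₀ (one_le_pow_K t _)).trans (one_le_pow_K t _)) (hKi _ t q hq)
      (add_nonneg (hW t q hq) (hkA t q hq))

/-- The velocity of a free level: the area and the squared lengths. -/
theorem newV_vals (hj : j = 9 ∨ j = 10) (FF : FreeFine N N' b j T V hV x) (ν : ℝ)
    (t : Fam C C2) {q : Ph × G} (hq : q ∈ (scQ C C2 N' b T V hV).S t) :
    gram2 (d1At N t.1 (x t) j (levE j) (trunc j q)) (newV N (scQ C C2 N' b T V hV) x j t q) =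
        newArea N x j t q ∧
      ip (d1At N t.1 (x t) j (levE j) (trunc j q) + ν • newV N (scQ C C2 N' b T V hV) x j t q)
          (d1At N t.1 (x t) j (levE j) (trunc j q) + ν • newV N (scQ C C2 N' b T V hV) x j t q) =
        ip (d1At N t.1 (x t) j (levE j) (trunc j q) +
              ν • d1At N t.1 (x t) j (levV j) (trunc j q))
            (d1At N t.1 (x t) j (levE j) (trunc j q) +
              ν • d1At N t.1 (x t) j (levV j) (trunc j q)) +
          ν ^ 2 * amp (par N) t.1 (x t) j (restAt N t.1 (x t) j) (trunc j q) ^ 2 := by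
  obtain ⟨h1, h2⟩ := free_vals (μ := 1 / 2)
    (ρ := amp (par N) t.1 (x t) j (restAt N t.1 (x t) j) (trunc j q)) (FF.ok t)
    (show trunc j q ∈ _ from trunc_mem hq) rfl (slot j q) ν
  refine ⟨?_, h2⟩
  rw [newArea, (free_basis hj t.1 (x t) j (trunc j q)).2.2.1]
  exact h1

/-- **The area after a free level.** -/
theorem free_area (hj : j = 9 ∨ j = 10) (hm : MapCore N N' b T V hV x j)
    (FF : FreeFine N N' b j T V hV x) (FL : FreeLin N N' b j T V hV x)
    (hzz : Cost (scQ C C2 N' b T V hV)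
      (fun t q => ip (d1At N t.1 (x t) j (levE j) q) (d1At N t.1 (x t) j (levE j) q))
      (fun t q => ip (d1At N t.1 (x t) j (levE j) q) (d1At N t.1 (x t) j (levE j) q))) :
    ∃ T', T ≤ T' ∧
      Cost (scQ C C2 N' b T' V hV) (fun t => areaAt N t.1 (x t) (j + 1))
        (fun t => areaAt N t.1 (x t) (j + 1)) ∧
      ∀ t, ∀ q ∈ (scQ C C2 N' b T' V hV).S t,
        1 ≤ Kf t ^ (4 + (j + 1)) * areaAt N t.1 (x t) (j + 1) q ∧
        1 ≤ Kf t ^ (4 + j) * newArea N x j t q := by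
  set σ := scQ C C2 N' b T V hV
  set ρ : Fam C C2 → Ph × G → ℝ :=
    fun t q => amp (par N) t.1 (x t) j (restAt N t.1 (x t) j) (trunc j q)
  have hρ2 : Cost σ (fun t q => ρ t q ^ 2) fun t q => ρ t q ^ 2 := by
    have h := cost_trunc FF.rho j
    refine ((h.mul h).mono (c := 36) (by norm_num) (fun t q _ => sq_nonneg _)
      fun t q hq => ?_).congr fun t q _ => pow_two _
    have h1 := (FF.rho_range t _ (trunc_mem (j := j) hq)).1
    have h2 : 0 ≤ levA (par N) t.1 j (trunc j q).1.1 := h.nonneg t q hq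
    nlinarith
  have hzo := cost_trunc hzz j
  have har := cost_trunc hm.area j
  have hn : ∀ t, ∀ q ∈ σ.S t, 0 ≤ newArea N x j t q := fun t q hq =>
    add_nonneg (har.nonneg t q hq) ((hzo.mul hρ2).nonneg t q hq)
  have hf : Cost σ (newArea N x j) (newArea N x j) :=
    (har.mono zero_le_one hn fun t q hq => by
        rw [one_mul]; exact le_add_of_nonneg_right ((hzo.mul hρ2).nonneg t q hq)).add
      ((hzo.mul hρ2).mono zero_le_one hn fun t q hq => by
        rw [one_mul]; exact le_add_of_nonneg_left (har.nonneg t q hq))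
  have alo : ∀ t, ∀ q ∈ σ.S t, 1 ≤ Kf t ^ (4 + j) * newArea N x j t q := fun t q hq =>
    (hm.area_lo t _ (trunc_mem hq)).trans (mul_le_mul_of_nonneg_left
      (le_add_of_nonneg_right ((hzo.mul hρ2).nonneg t q hq)) (pow_nonneg (Kf_pos t).le _))
  have hg : Cost σ (fun t _ => Kf t ^ (33 * cLev j) * (Kf t ^ mExp j)⁻¹)
      fun t q => areaAt N t.1 (x t) (j + 1) q - newArea N x j t q := by
    refine ((cost_gram2_sub FL.p0 FL.p1 FL.q0 FL.q1 FL.dp FL.dq).mono zero_le_two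
      (fun t q _ => by have := Kf_pos t; positivity) fun t q _ => le_of_eq ?_).congr
      fun t q hq => ?_
    · rw [show 33 * cLev j = 11 * cLev j + 11 * cLev j + 11 * cLev j by ring, pow_add, pow_add]
      ring
    · rw [(free_basis hj t.1 (x t) (j + 1) q).2.2.1, (newV_vals hj FF 0 t hq).1]
  obtain ⟨T2, hT2, h, hlo⟩ := rel_perturb_scQ hf hg fun t q hq => by
    rw [← mul_assoc, ← pow_succ']
    refine pow_small (one_le_Kf t) ?_ (alo t q hq)
    have : 34 * cLev j + 14 ≤ mExp j :=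
      le_trans (by rcases hj with rfl | rfl <;> norm_num [cLev, bExp]) (mExp_grows j).1
    have : 1 ≤ cLev j := Nat.one_le_pow _ _ (by norm_num)
    omega
  refine ⟨max T2 2, hT2.trans (le_max_left _ _), cost_scQ h le_rfl (le_max_left _ _),
    fun t q hq => ?_⟩
  have hq2 := scQ_subset (b := b) (le_max_left T2 2) t hq
  have h1 := alo t q (scQ_subset hT2 t hq2)
  refine ⟨?_, h1⟩
  have h2 := hlo t q hq2
  have h5 : (2 : ℝ) ≤ Kf t := (le_max_right _ _).trans hq.1.1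
  have h3 := pow_nonneg (Kf_pos t).le (4 + j)
  rw [show 4 + (j + 1) = (4 + j) + 1 by omega, pow_succ]
  nlinarith [mul_le_mul_of_nonneg_left h2 h3]

/-- **The bend after a free level**, from below. -/
theorem free_bend_lo (hj : j = 9 ∨ j = 10) (hm : MapCore N N' b T V hV x j)
    (hB : BendCrude N N' b (cLev j) T V hV x j) (FF : FreeFine N N' b j T V hV x)
    (FL : FreeLin N N' b j T V hV x) {T1 : ℝ} (hT : T ≤ T1)
    (ha : ∀ t, ∀ q ∈ (scQ C C2 N' b T1 V hV).S t,
      1 ≤ Kf t ^ (4 + (j + 1)) * areaAt N t.1 (x t) (j + 1) q) :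
    ∃ T', T1 ≤ T' ∧ ∀ t, ∀ q ∈ (scQ C C2 N' b T' V hV).S t,
      bendWeight N t.1 (j + 1) q ^ 2 ≤
          Kf t ^ cLev (j + 1) * bendAt N t.1 (x t) (j + 1) q ∧
        1 ≤ Kf t ^ (4 + (j + 1)) * bendAt N t.1 (x t) (j + 1) q := by
  obtain ⟨c1, -, hc1⟩ := cost_len_le FL.p1
  obtain ⟨c2, -, hc2⟩ := cost_len_le FL.q1
  obtain ⟨c3, -, hc3⟩ := (cost_trunc FF.ratio j).abs_le
  obtain ⟨c4, -, hc4⟩ := cost_len_le FL.dp
  obtain ⟨c5, -, hc5⟩ := cost_len_le FL.dq
  obtain ⟨c6, -, hc6⟩ := cost_len_le FL.dw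
  obtain ⟨c7, -, hc7⟩ := cost_len_le FL.w1
  obtain ⟨c8, -, hc8⟩ := cost_len_le FL.w0
  obtain ⟨cw, -, hcw⟩ := bendWeight_le (G := G) C C2 N N' j
  set KM := max (max (max c1 c2) (max c3 c4))
    (max (max (max c5 c6) (max c7 c8)) (max cw 100000))
  refine ⟨max T1 KM, le_max_left _ _, fun t q hq => ?_⟩
  have hqa := scQ_subset (b := b) (le_max_left T1 KM) t hq
  have hs := scQ_subset (b := b) hT t hqa
  have hbig : KM ≤ Kf t := (le_max_right _ _).trans hq.1.1
  simp only [KM, max_le_iff] at hbig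
  obtain ⟨⟨⟨b1, b2⟩, b3, b4⟩, ⟨⟨b5, b6⟩, b7, b8⟩, bw, bK⟩ := hbig
  have hy : trunc j q ∈ (scQ C C2 N' b T V hV).S t := trunc_mem hs
  have hK0 : ∀ i : ℕ, (0 : ℝ) ≤ Kf t ^ i := fun i => pow_nonneg (Kf_pos t).le i
  have hi0 : 0 ≤ (Kf t ^ mExp j)⁻¹ := inv_nonneg.2 (hK0 _)
  set bo := bendAt N t.1 (x t) j (trunc j q)
  have hblo := hm.bend_lo t _ hy
  have hbo : 0 < bo := pos_of_mul_pos_right (zero_lt_one.trans_le hblo) (hK0 _)
  have hq0 : 0 < Real.sqrt bo := Real.sqrt_pos.2 hbo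
  obtain ⟨e10, e01, -, -⟩ := free_basis (N := N) hj t.1 (x t) j (trunc j q)
  obtain ⟨α, β, hsplit⟩ : ∃ α β : ℝ, d2At N t.1 (x t) j (pt 0 1) (pt 0 1) (trunc j q) =
      α • d1At N t.1 (x t) j (levE j) (trunc j q) +
        β • (d1At N t.1 (x t) j (levV j) (trunc j q) -
          (ip (d1At N t.1 (x t) j (levV j) (trunc j q)) (d1At N t.1 (x t) j (levE j) (trunc j q)) /
            ip (d1At N t.1 (x t) j (levE j) (trunc j q))
              (d1At N t.1 (x t) j (levE j) (trunc j q))) •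
            d1At N t.1 (x t) j (levE j) (trunc j q)) +
        Real.sqrt bo • bendDir (par N) t.1 j (mapAt N t.1 (x t) j) (trunc j q) := by
    obtain ⟨u, v, huv⟩ : ∃ u v : ℝ, bendVec N t.1 (x t) j (trunc j q) =
        d2At N t.1 (x t) j (pt 0 1) (pt 0 1) (trunc j q) -
          (u • (d1At N t.1 (x t) j (levE j) (trunc j q) +
              d1At N t.1 (x t) j (levV j) (trunc j q)) +
            v • (levV j 1 • d1At N t.1 (x t) j (levV j) (trunc j q))) := by
      rw [bendVec, e10, e01]; exact ⟨_, _, rfl⟩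
    rw [bendDir_eq, smul_smul, mul_inv_cancel₀ hq0.ne', one_smul, huv]
    refine ⟨u + (u + v * levV j 1) *
      (ip (d1At N t.1 (x t) j (levV j) (trunc j q)) (d1At N t.1 (x t) j (levE j) (trunc j q)) /
        ip (d1At N t.1 (x t) j (levE j) (trunc j q)) (d1At N t.1 (x t) j (levE j) (trunc j q))),
      u + v * levV j 1, ?_⟩
    module
  obtain ⟨hc, hcj⟩ : 1000 ≤ cLev j ∧ cLev (j + 1) = 1000 * cLev j := by
    rcases hj with rfl | rfl <;> norm_num [cLev]
  have hcm : 1000 * cLev j + 1000 ≤ mExp j :=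
    le_trans (by rcases hj with rfl | rfl <;> norm_num [cLev, bExp]) (mExp_grows j).1
  have hA0 : 0 ≤ levA (par N) t.1 j q.1.1 := (share_range N hq.1.2.1 j).2.2.2.2.2.1.le
  have hk : Kf t ^ (2 * mExp j) ≤ (par N).k t.1 j :=
    pow_le_pow_right₀ (one_le_Kf t) (by
      have := (mExp_grows j).2; have : (par N).e j = eExp j := rfl; omega)
  have hW1 := one_le_bendWeight (N := N) (q := q) hq.1.2.1 j
  have hWq : bendWeight N t.1 j q ≤ Kf t ^ cLev j * Real.sqrt bo := by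
    refine le_of_pow_le_pow_left₀ two_ne_zero (mul_nonneg (hK0 _) hq0.le) ?_
    rw [mul_pow, Real.sq_sqrt hbo.le, ← pow_mul]
    exact (hB.lower t _ hy).trans (mul_le_mul_of_nonneg_right
      (pow_le_pow_right₀ (one_le_Kf t) (by omega)) hbo.le)
  have hg : 1 ≤ Kf t ^ (5 + j) * gram2 (d1At N t.1 (x t) (j + 1) (levE j) q)
      (d1At N t.1 (x t) (j + 1) (levV j) q) := by
    have := ha t q hqa
    rwa [(free_basis hj t.1 (x t) (j + 1) q).2.2.1, show 4 + (j + 1) = 5 + j by omega] at this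
  have hne : gram2 (d1At N t.1 (x t) (j + 1) (levE j) q)
      (d1At N t.1 (x t) (j + 1) (levV j) q) ≠ 0 := fun h0 => by
    rw [h0, mul_zero] at hg; exact absurd hg (not_le.2 zero_lt_one)
  have key := bend_grow (FF.ok t) hy (slot j q) bK (j := j) (by omega) hc hcm
    (W := bendWeight N t.1 j q) (k := (par N).k t.1 j)
    (A := levA (par N) t.1 j q.1.1) (ρ := amp (par N) t.1 (x t) j (restAt N t.1 (x t) j) (trunc j q))
    rfl hA0 (FF.rho_range t _ hy).1 (FF.rho_range t _ hy).2 hk hW1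
    ((hcw t q hq.1.2.1).trans ((mul_le_mul_of_nonneg_right bw (hK0 _)).trans_eq
      (pow_succ' _ _).symm))
    hq0.le hWq (by rw [Real.sq_sqrt hbo.le]; exact hblo) hsplit (FF.speed_lo t _ hy)
    ((hc3 t q hs).trans ((mul_le_mul_of_nonneg_right b3 (hK0 _)).trans_eq (pow_succ' _ _).symm))
    hg ((hc8 t q hs).trans (mul_le_mul_of_nonneg_right b8 (FL.w0.nonneg t q hs)))
    ((hc1 t q hs).trans ((mul_le_mul_of_nonneg_right b1 (hK0 _)).trans_eq (pow_succ' _ _).symm))
    ((hc2 t q hs).trans ((mul_le_mul_of_nonneg_right b2 (hK0 _)).trans_eq (pow_succ' _ _).symm))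
    ((hc4 t q hs).trans (mul_le_mul_of_nonneg_right b4 hi0))
    ((hc5 t q hs).trans (mul_le_mul_of_nonneg_right b5 hi0))
    (w1 := d2At N t.1 (x t) (j + 1) (pt 0 1) (pt 0 1) q)
    (by
      rw [← bendWeight_succ t.1 (by omega) (by omega) q]
      exact (hc7 t q hs).trans (mul_le_mul_of_nonneg_right b7 (FL.w1.nonneg t q hs)))
    ((hc6 t q hs).trans (mul_le_mul_of_nonneg_right b6 (FL.dw.nonneg t q hs)))
  rw [hcj, bendWeight_succ t.1 (by omega) (by omega) q, bendAt,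
    (free_basis hj t.1 (x t) (j + 1) q).2.2.2 hne, show 4 + (j + 1) = 5 + j by omega]
  exact key

/-- **The bend after a free level**, from above. -/
theorem free_bend_up (hj : j = 9 ∨ j = 10) (FL : FreeLin N N' b j T V hV x) {T1 : ℝ} (hT : T ≤ T1)
    (ha : Cost (scQ C C2 N' b T1 V hV) (fun t => areaAt N t.1 (x t) (j + 1))
      fun t => areaAt N t.1 (x t) (j + 1))
    (hlo : ∀ t, ∀ q ∈ (scQ C C2 N' b T1 V hV).S t,
      1 ≤ Kf t ^ (4 + (j + 1)) * areaAt N t.1 (x t) (j + 1) q) :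
    Cost (scQ C C2 N' b T1 V hV)
      (fun t q => Kf t ^ cLev (j + 1) * bendWeight N t.1 (j + 1) q ^ 2)
      fun t => bendAt N t.1 (x t) (j + 1) := by
  have eA : ∀ (t : Fam C C2) (q : Ph × G), areaAt N t.1 (x t) (j + 1) q = _ := fun t q =>
    (free_basis hj t.1 (x t) (j + 1) q).2.2.1
  have hp := cost_perp2 (cost_scQ FL.p1 le_rfl hT) (cost_scQ FL.q1 le_rfl hT)
    (cost_scQ FL.w1 le_rfl hT) (L := fun t _ => Kf t ^ (4 + (j + 1)))
    ((ha.congr fun t q _ => (eA t q).symm).mono zero_le_one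
      (fun t q hq => by rw [← eA]; exact ha.nonneg t q hq) fun t q _ => by rw [one_mul, ← eA])
    (fun t q hq => by rw [← eA]; exact hlo t q hq) fun t q _ =>
      one_le_mul_of_one_le_of_one_le (one_le_mul_of_one_le_of_one_le (one_le_pow_K t _)
        (one_le_pow₀ (one_le_pow_K t _))) (one_le_pow₀ (one_le_pow_K t _))
  refine ((hp.ip hp).mono zero_le_one
    (fun t q _ => mul_nonneg (pow_nonneg (Kf_pos t).le _) (sq_nonneg _)) fun t q _ => ?_).congr
    fun t q hq => ?_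
  · rw [one_mul]
    calc _ = Kf t ^ (4 + (j + 1) + (4 + (j + 1)) + 5 * (11 * cLev j) + 5 * (11 * cLev j)) *
          bendWeight N t.1 (j + 1) q ^ 2 := by
          simp only [← pow_mul]; ring
      _ ≤ _ := mul_le_mul_of_nonneg_right (pow_le_pow_right₀ (one_le_Kf t)
          (by rcases hj with rfl | rfl <;> norm_num [cLev])) (sq_nonneg _)
  · rw [bendAt, (free_basis hj t.1 (x t) (j + 1) q).2.2.2 fun h0 => by
      have h1 := hlo t q hq
      rw [eA, h0, mul_zero] at h1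
      exact absurd h1 (not_le.2 zero_lt_one)]

/-- **The derivative along `(1, 1)` after level `9`.** -/
theorem free_zz (hb : bMin ≤ b) (hm : MapCore N N' b T V hV x 9)
    (FF : FreeFine N N' b 9 T V hV x) (FL : FreeLin N N' b 9 T V hV x) {T1 : ℝ} (hT : T ≤ T1)
    (alo : ∀ t, ∀ q ∈ (scQ C C2 N' b T1 V hV).S t, 1 ≤ Kf t ^ (4 + 9) * newArea N x 9 t q) :
    ∃ T', T1 ≤ T' ∧ Cost (scQ C C2 N' b T' V hV) (fun t => zzAt N t.1 (x t) 10)
      fun t => zzAt N t.1 (x t) 10 := by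
  obtain ⟨Tn, hTn, hn⟩ := zz_nine hb hm 1
  obtain ⟨cq, -, hcq⟩ := (FL.q0.ip FL.q0).abs_le
  set T5 := max (max T1 Tn) cq
  set ψ := scQ C C2 N' b T5 V hV
  have l5 : T ≤ T5 := hT.trans ((le_max_left _ _).trans (le_max_left _ _))
  have ln : Tn ≤ T5 := (le_max_right _ _).trans (le_max_left _ _)
  have e11 : ∀ (t : Fam C C2) (i : ℕ) (q : Ph × G), d1At N t.1 (x t) i (pt 1 1) q =
      d1At N t.1 (x t) i (levE 9) q + (2 : ℝ) • d1At N t.1 (x t) i (levV 9) q := fun t i q => by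
    rw [levels_d1 _ _ _ (levE 9), levels_d1 _ _ _ (levV 9), levels_d1 _ _ _ (pt 1 1)]
    simp only [levE, levV, pt_zero, pt_one]
    norm_num [pt_zero, pt_one]
    module
  set Q : Fam C C2 → Ph × G → V4 := fun t q => newV N (scQ C C2 N' b T V hV) x 9 t q
  set fz : Fam C C2 → Ph × G → ℝ := fun t q =>
    ip (d1At N t.1 (x t) 9 (pt 1 1) (trunc 9 q)) (d1At N t.1 (x t) 9 (pt 1 1) (trunc 9 q)) +
      4 * amp (par N) t.1 (x t) 9 (restAt N t.1 (x t) 9) (trunc 9 q) ^ 2
  have efz : ∀ t, ∀ q ∈ ψ.S t, fz t q = ip (d1At N t.1 (x t) 9 (levE 9) (trunc 9 q) + (2 : ℝ) • Q t q)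
      (d1At N t.1 (x t) 9 (levE 9) (trunc 9 q) + (2 : ℝ) • Q t q) := fun t q hq => by
    rw [(newV_vals (Or.inl rfl) FF 2 t (scQ_subset l5 t hq)).2]
    simp only [fz, e11]
    norm_num
  have hn' : ∀ t, ∀ q ∈ ψ.S t, 0 ≤ fz t q := fun t q _ =>
    add_nonneg (Legal.ip_self_nonneg _) (by positivity)
  have hfz : Cost ψ fz fz := by
    have h1 := cost_trunc (cost_scQ hn le_rfl ln) 9
    have h := cost_trunc (cost_scQ FF.rho le_rfl l5) 9
    exact ((h1.mono zero_le_one hn' fun t q _ => by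
        rw [one_mul]; exact le_add_of_nonneg_right (by positivity)).add
      ((((Cost.const (4 : ℝ)).mul (h.mul h)).mono (c := 36) (by norm_num) hn' fun t q hq => by
        have h1 := (FF.rho_range t _ (trunc_mem (j := 9) (scQ_subset l5 t hq))).1
        have h2 : 0 ≤ levA (par N) t.1 9 (trunc 9 q).1.1 := h.nonneg t q hq
        have h3 := Legal.ip_self_nonneg (d1At N t.1 (x t) 9 (pt 1 1) (trunc 9 q))
        simp only [fz]
        nlinarith).congr fun t q _ => by ring))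
  have h2m : ∀ {w : Fam C C2 → Ph × G → ℝ} {f : Fam C C2 → Ph × G → V4}, Cost ψ w f →
      Cost ψ w fun t q => (2 : ℝ) • f t q := fun h =>
    ((Cost.const (2 : ℝ)).smul h).mono zero_le_one h.nonneg fun t q _ => le_rfl
  have hD := (cost_scQ FL.dp le_rfl l5).add (h2m (cost_scQ FL.dq le_rfl l5))
  have hS := ((cost_scQ FL.p1 le_rfl l5).add (h2m (cost_scQ FL.q1 le_rfl l5))).add
    ((cost_scQ FL.p0 le_rfl l5).add (h2m (cost_scQ FL.q0 le_rfl l5)))
  have hd : Cost ψ (fun t _ => Kf t ^ (11 * cLev 9) * (Kf t ^ mExp 9)⁻¹)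
      fun t q => zzAt N t.1 (x t) 10 q - fz t q := by
    refine ((hD.ip hS).mono zero_le_one (fun t q _ => by have := Kf_pos t; positivity)
      fun t q _ => le_of_eq (by ring)).congr fun t q hq => ?_
    rw [efz t q hq, zzAt, e11]
    simp only [Q]
    set a := d1At N t.1 (x t) (9 + 1) (levE 9) q
    set a' := d1At N t.1 (x t) (9 + 1) (levV 9) q
    set p := d1At N t.1 (x t) 9 (levE 9) (trunc 9 q)
    set p' := newV N (scQ C C2 N' b T V hV) x 9 t q
    simp [Wave.ip_comm a' a, Wave.ip_comm p a, Wave.ip_comm p a', Wave.ip_comm p' a,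
      Wave.ip_comm p' a', Wave.ip_comm p' p]
    ring
  obtain ⟨T4, hT4, h, -⟩ := rel_perturb_scQ hfz hd fun t q hq => by
    rw [← mul_assoc, ← pow_succ']
    refine pow_small (one_le_Kf t) (f := 4 + 9 + (22 * cLev 9 + 1)) ?_ ?_
    · exact le_trans (by norm_num [cLev, bExp]) (mExp_grows 9).1
    have hs := scQ_subset (b := b) l5 t hq
    have h1 : newArea N x 9 t q ≤ fz t q * ip (Q t q) (Q t q) := by
      rw [← (newV_vals (Or.inl rfl) FF 0 t hs).1, efz t q hq]
      have e := Legal.gram2_comb (d1At N t.1 (x t) 9 (levE 9) (trunc 9 q)) (Q t q) 1 2 0 1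
      simp only [one_smul, zero_smul, zero_add] at e
      norm_num at e
      rw [show gram2 (d1At N t.1 (x t) 9 (levE 9) (trunc 9 q)) (Q t q) = _ from e.symm]
      exact sub_le_self _ (sq_nonneg _)
    have h2 : ip (Q t q) (Q t q) ≤ Kf t ^ (22 * cLev 9 + 1) := by
      refine ((le_abs_self _).trans (hcq t q hs)).trans ?_
      rw [pow_succ', show 22 * cLev 9 = 11 * cLev 9 + 11 * cLev 9 by ring, pow_add]
      exact mul_le_mul_of_nonneg_right ((le_max_right _ _).trans hq.1.1) (mul_self_nonneg _)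
    refine (alo t q (scQ_subset ((le_max_left _ _).trans (le_max_left _ _)) t hq)).trans
      ((mul_le_mul_of_nonneg_left (h1.trans (mul_le_mul_of_nonneg_left h2 (hn' t q hq)))
        (pow_nonneg (Kf_pos t).le _)).trans_eq ?_)
    rw [pow_add _ (4 + 9)]; ring
  exact ⟨T4, ((le_max_left _ _).trans (le_max_left _ _)).trans hT4, h⟩

/-- **A free level keeps everything.** -/
theorem freeStep : FreeStep := by
  intro C C2 N N' b s j hb hb' _ hj G _ _ _ V hV T x hx hm hB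
  obtain ⟨Tz, hTz, cn, hcn, hNB⟩ := freeLevel_nbounds hb hb' hj hx hm
  obtain ⟨TN, hTN, FN⟩ := free_next hb hb' hj (hx.weaken le_rfl le_rfl hTz) (hm.weaken le_rfl hTz)
  have lN : T ≤ TN := hTz.trans hTN
  obtain ⟨TF, hTF, FF⟩ := free_fine hb hb' hj (hx.weaken le_rfl le_rfl lN) (hm.weaken le_rfl lN)
    (hB.weaken le_rfl lN)
  have lF : T ≤ TF := lN.trans hTF
  have hmF := hm.toMapCore.weaken le_rfl lF
  have FL := free_lin hj hTF hmF FF FN
  obtain ⟨T2, hT2, harea, hlo⟩ := free_area hj hmF FF FL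
    (hNB.zz.rescale _ (fun _ => le_rfl) fun t q hq => scQ_subset (hTN.trans hTF) t hq)
  obtain ⟨T3, hT3, hbl⟩ := free_bend_lo hj hmF (hB.weaken le_rfl lF) FF FL hT2
    fun t q hq => (hlo t q hq).1
  have hbu := free_bend_up hj FL hT2 harea fun t q hq => (hlo t q hq).1
  obtain ⟨T4, hT4, hzz⟩ : ∃ T4, T3 ≤ T4 ∧ (j + 1 = 10 →
      Cost (scQ C C2 N' b T4 V hV) (fun t => zzAt N t.1 (x t) (j + 1))
        fun t => zzAt N t.1 (x t) (j + 1)) := by
    rcases hj with rfl | rfl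
    · obtain ⟨T4, h4, h⟩ := free_zz hb hmF FF FL hT2 fun t q hq => (hlo t q hq).2
      exact ⟨max T3 T4, le_max_left _ _, fun _ => cost_scQ h le_rfl (le_max_right _ _)⟩
    · exact ⟨T3, le_rfl, fun h => absurd h (by omega)⟩
  have l4 : T2 ≤ T4 := hT3.trans hT4
  have lF4 : TF ≤ T4 := hT2.trans l4
  have hd1 : ∀ a ∈ axes, Cost (scQ C C2 N' b T4 V hV) (fun t _ => Kf t ^ (11 * cLev j))
      fun t => d1At N t.1 (x t) (j + 1) a := by
    rintro a (rfl | rfl)
    · exact ((cost_scQ FL.p1 le_rfl lF4).add (cost_scQ FL.q1 le_rfl lF4)).congr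
        fun t q _ => (free_basis hj t.1 (x t) (j + 1) q).1
    · exact (((Cost.const (levV j 1)).smul (cost_scQ FL.q1 le_rfl lF4)).mono zero_le_one
        (fun t _ _ => pow_nonneg (Kf_pos t).le _) fun t q _ => le_rfl).congr
        fun t q _ => (free_basis hj t.1 (x t) (j + 1) q).2.1
  obtain ⟨hc, hcj⟩ : 1000 ≤ cLev j ∧ cLev (j + 1) = 1000 * cLev j := by
    rcases hj with rfl | rfl <;> norm_num [cLev]
  have hm1 : 1000 * cLev j ≤ bExp := by rcases hj with rfl | rfl <;> norm_num [cLev, bExp]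
  have hm2 := (mExp_grows (j + 1)).1
  have hm3 := mExp_grows j
  have hm4 : eExp j = mExp (j + 1) - 1 := rfl
  refine ⟨T4, lF.trans lF4, ?_, ⟨cost_scQ hbu le_rfl l4,
    fun t q hq => (hbl t q (scQ_subset hT4 t hq)).1⟩⟩
  exact
    { smooth := fun t => (FN.smooth t).mono (scQ_subset (hTF.trans lF4) t)
      d1 := fun a ha => cost_pow_le (hd1 a ha) (by omega)
      d2 := fun a _ a' ha' => by
        obtain ⟨ca, hca0, hca⟩ := exists_norm_vec (G := G) a N (j + 1)
        refine (Cost.deriv_var (hd1 a' ha')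
          (fun t => vec (par N) t.1 G (j + 1) a) fun t => hca t.1 t.2.2).mono hca0
          (fun t _ _ => pow_nonneg (Kf_pos t).le _) fun t q _ => ?_
        show Kf t ^ (11 * cLev j) * (Kf t ^ b * (ca * Kf t ^ mExp (j + 1))) ≤ _
        rw [mul_left_comm (Kf t ^ b), mul_left_comm (Kf t ^ (11 * cLev j)), ← pow_add, ← pow_add]
        exact mul_le_mul_of_nonneg_left (pow_le_pow_right₀ (one_le_Kf t) (by omega)) hca0
      d1s := fun a ha => cost_pow_le (hd1 a ha) (by omega)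
      d2v := (cost_scQ FL.w1 le_rfl lF4).mono zero_le_one (fun t q hq => mul_nonneg
        (pow_nonneg (Kf_pos t).le _) (zero_le_one.trans (one_le_bendWeight hq.1.2.1 _)))
        fun t q hq => by
          rw [one_mul]
          exact mul_le_mul_of_nonneg_right (pow_le_pow_right₀ (one_le_Kf t) (by omega))
            (zero_le_one.trans (one_le_bendWeight hq.1.2.1 _))
      area := cost_scQ harea le_rfl l4
      area_lo := fun t q hq => (hlo t q (scQ_subset l4 t hq)).1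
      bend_lo := fun t q hq => (hbl t q (scQ_subset hT4 t hq)).2
      rest := cost_scQ FN.rest le_rfl (hTF.trans lF4)
      zz := hzz
      close₁ := fun h => absurd h (by omega)
      close₂ := fun h => absurd h (by omega) }

end Vale.Agent.P205.Stage
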