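import Vale.Agent.P205.Stage.LegalBounds
import Vale.Agent.P205.Legal.Levels
import Vale.Agent.P205.Stage.Natural
import Vale.Agent.P205.Stage.Perturb

/-!
The legal level keeps the area and the bend from below: up to remainders below every fixed power
of the scale, the derivative along the kernel and its second derivative are the old ones, and the
other derivative is the velocity of the wave, which can only increase the area and the bend.
-/

noncomputable section

open Set Finset Real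
open scoped ContDiff

namespace Vale.Agent.P205.Stage

open Wave (V4 ip D gram2 ip_comm Cost Sz Mag Scale)
open Lev
open Legal (len)

section algebra

theorem len_le_norm (v : V4) : len v ≤ 2 * ‖v‖ := by
  rw [Legal.len, Real.sqrt_le_left (by positivity)]
  calc ip v v ≤ ∑ _i : Fin 4, ‖v‖ ^ 2 := Finset.sum_le_sum fun i _ => by
        rw [← pow_two, ← sq_abs]
        exact pow_le_pow_left₀ (abs_nonneg _) (norm_le_pi_norm v i) 2
    _ = (2 * ‖v‖) ^ 2 := by simp; ring

theorem gram2_comm (p q : V4) : gram2 p q = gram2 q p := by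
  simp only [gram2, ip_comm q p]
  ring

theorem perp2_comm {p q : V4} (h : gram2 p q ≠ 0) (w : V4) : perp2 q p w = perp2 p q w := by
  simpa using Legal.perp2_basis h (α := 0) (β := 1) (γ := 1) (δ := 0) (by norm_num) w

theorem norm_le_of_cost {ι X F : Type} [NormedAddCommGroup X] [NormedSpace ℝ X]
    [NormedAddCommGroup F] [NormedSpace ℝ F] {σ : Scale ι X} {w : ι → X → ℝ} {f : ι → X → F}
    (hf : Cost σ w f) : ∃ C, 0 ≤ C ∧ ∀ t, ∀ x ∈ σ.S t, ‖f t x‖ ≤ C * w t x := by
  obtain ⟨C, hC0, hC⟩ := hf.bound 0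
  exact ⟨C, hC0, fun t x hx => by simpa [norm_iteratedFDeriv_zero] using hC t x hx⟩

/-- **One wave never decreases the area.** -/
theorem gram2_vel_ge {E : Type} [NormedAddCommGroup E] [NormedSpace ℝ E] [FiniteDimensional ℝ E]
    {W : Wave.Data E} (hW : W.Good) {x : E} (hx : x ∈ W.Ω) (s : ℝ) :
    gram2 (W.Ze x) (W.Zv x) ≤ gram2 (W.Ze x) (W.vel x s) := by
  obtain ⟨t1, t2, n1, n2, tt, nu, tn, hv⟩ := Wave.Data.frame hW hx
  obtain ⟨α, β, hb⟩ : ∃ α β : ℝ, W.bb x = α • W.Ze x + β • W.Zee x := ⟨_, _, rfl⟩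
  have hl : W.aa x ≤ W.ell x :=
    Real.le_sqrt_of_sq_le (le_add_of_nonneg_right (sq_nonneg _))
  have hcs : W.cs x s ^ 2 + W.sn x s ^ 2 = 1 := by
    have : 0 < 1 + (W.amp x * Real.sin s) ^ 2 := by positivity
    unfold Wave.Data.cs Wave.Data.sn
    field_simp
    ring
  have r1 : ip (W.cs x s • W.tau x + W.sn x s • W.nu x) (W.cs x s • W.tau x + W.sn x s • W.nu x) =
      1 := by
    simp [tt, nu, tn, ip_comm (W.nu x) (W.tau x)]
    linear_combination hcs
  have e : ∀ (r : V4) (a : ℝ), ip r r = 1 ∧ ip (W.Ze x) r = 0 ∧ ip (W.Zee x) r = 0 →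
      gram2 (W.Ze x) (α • W.Ze x + β • W.Zee x + a • r) =
        β ^ 2 * gram2 (W.Ze x) (W.Zee x) + a ^ 2 * ip (W.Ze x) (W.Ze x) := by
    rintro r a ⟨r1, r2, r3⟩
    simp [gram2, r1, r2, r3, ip_comm r (W.Ze x), ip_comm r (W.Zee x),
      ip_comm (W.Zee x) (W.Ze x)]
    ring
  rw [hv, Wave.Data.vel_eq hW hx, hb, e _ _ ⟨tt, t1, t2⟩,
    e _ _ ⟨r1, by simp [t1, n1], by simp [t2, n2]⟩]
  exact add_le_add le_rfl (mul_le_mul_of_nonneg_right
    (pow_le_pow_left₀ (Real.sqrt_nonneg _) hl 2) (Legal.ip_self_nonneg _))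

end algebra

section map

variable {C : ℕ → ℝ} {C2 : ℕ → ℕ → ℝ} {G : Type} [NormedAddCommGroup G] [NormedSpace ℝ G]
  [FiniteDimensional ℝ G]

omit [FiniteDimensional ℝ G] in
theorem upTo_levData (p : Par) (I : Input) (x : Ph × G → Unk) (S : Set (Ph × G)) (X : Ph × G → V4)
    (α : Ph × G → ℝ) (m : ℕ) :
    (levData p I x univ 11 X α).upTo m = (levData p I x S 11 X α).upTo m := by
  induction m with
  | zero => rfl
  | succ m ih =>
    rcases m with _ | m
    · rfl
    · show Function.update _ _ _ = Function.update _ _ _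
      rw [ih]; rfl

omit [FiniteDimensional ℝ G] in
/-- The map after the legal level. -/
theorem mapAt_legal (N : ℕ) (σ : Scale (Fam C C2) (Ph × G)) (x : Fam C C2 → Ph × G → Unk)
    (t : Fam C C2) :
    mapAt N t.1 (x t) 12 = fun q => liftOf (levWave N σ x 11 t)
      ((levWave N σ x 11 t).upTo (N + 1)) (N + 1) ((par N).k t.1 11) (splitL G 11 q) := by
  funext q
  show (next (par N) t.1 (x t) 11 (levels (par N) t.1 (x t) 11)).1 q = _
  simp only [next, cor, show isFree 11 = false by simp [isFree], Bool.false_eq_true, if_false,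
    upTo_levData (par N) t.1 (x t) (σ.S t), liftOf, splitL_apply]
  rfl

end map

theorem legalStep : LegalStep := by
  intro C C2 N N' b s hb hb' _ G _ _ _ V hV T x hx hm
  obtain ⟨T₁, hT₁, c, hc, hW⟩ := legalLevel_bounds hb hb' hx hm
  obtain ⟨he, hv⟩ := legal_dirs
  set μ := legalMag C C2 N N' b T₁ V hV hb' c hc
  set W := levWave N (scQ C C2 N' b T₁ V hV) x 11
  have hG := hW.grows N
  have hK := hW.kin hG
  have hZ : ∀ t, ContDiffOn ℝ ∞ (W t).Z (μ.S t) := fun t =>
    (hm.smooth t).mono (scQ_subset hT₁ t)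
  obtain ⟨m, hmdef⟩ : ∃ m, m = mExp 11 := ⟨_, rfl⟩
  obtain ⟨hm1, hm2⟩ := mExp_grows 11
  have hm12 : mExp 12 = eExp 11 + 1 := mExp_succ 11
  rw [← hmdef] at hm1 hm2
  have hbig : 100 ≤ m := le_trans (by norm_num [bExp]) hm1
  set T₂ := max T₁ (max (c ^ 404) 2)
  have hT₂ : T₁ ≤ T₂ := le_max_left _ _
  set τ := scQ C C2 N' b T₂ V hV
  have hA : ∀ t, μ.B t * ‖splitL G 11‖ ≤ τ.B t := fun t =>
    mul_le_of_le_one_right (zero_le_one.trans (μ.one_le t)) (norm_splitL G 11)
  have hmap : ∀ t, ∀ q ∈ τ.S t, (splitL G 11 q).1 ∈ μ.S t := fun t q hq => by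
    rw [splitL_apply]
    exact Lev.trunc_mem (scQ_subset hT₂ t hq)
  have hKc : ∀ t, ∀ q ∈ τ.S t, c ^ 404 ≤ Kf t := fun t q hq =>
    ((le_max_left _ _).trans (le_max_right _ _)).trans hq.1.1
  have hK2 : ∀ t, ∀ q ∈ τ.S t, 2 ≤ Kf t := fun t q hq =>
    ((le_max_right _ _).trans (le_max_right _ _)).trans hq.1.1
  have hM : ∀ t, ∀ q ∈ τ.S t, ∀ e : ℕ, e ≤ 404 → μ.M t ^ e ≤ Kf t ^ (3 * m * e + 1) :=
    fun t q hq e he => by
      show (c * Kf t ^ (3 * mExp 11)) ^ e ≤ _
      rw [← hmdef]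
      rw [mul_pow, ← pow_mul, pow_succ']
      exact mul_le_mul_of_nonneg_right ((pow_le_pow_right₀ hc he).trans (hKc t q hq))
        (pow_nonneg (Kf_pos t).le _)
  -- the frequency, changed below the threshold
  set k : Fam C C2 → ℝ := fun t => (par N).k t.1 11
  set k' : Fam C C2 → ℝ := fun t => max (k t) (μ.M t ^ 400)
  have hk' : ∀ t, ∀ q ∈ τ.S t, k' t = k t := fun t q hq => by
    refine max_eq_left ((hM t q hq 400 (by norm_num)).trans ?_)
    show _ ≤ Kf t ^ eExp 11
    exact pow_le_pow_right₀ (one_le_Kf t) (by omega)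
  set e' : Fam C C2 → Ph × G := fun t => vec (par N) t.1 G 12 (pt 0 1)
  set v' : Fam C C2 → Ph × G := fun t => if μ.M t ^ 400 ≤ k t then vec (par N) t.1 G 12 (pt 1 0)
    else putL G 11 ((W t).v, k' t)
  have hph : phase 11 (pt 1 0) = 1 ∧ phase 11 (pt 0 1) = 0 := by simp [phase, levCov, pt]
  have hAe : ∀ t, splitL G 11 (e' t) = ((W t).e, 0) := fun t => by
    show splitL G 11 (vec (par N) t.1 G (11 + 1) (pt 0 1)) = _
    rw [split_vec (by norm_num), hph.2, mul_zero, ← he]
    rfl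
  have hAv : ∀ t, splitL G 11 (v' t) = ((W t).v, k' t) := fun t => by
    simp only [v']
    split_ifs with h
    · show splitL G 11 (vec (par N) t.1 G (11 + 1) (pt 1 0)) = _
      rw [split_vec (by norm_num), hph.1, mul_one, ← hv,
        show k' t = k t from max_eq_left h]
      rfl
    · rw [splitL_apply, putL_apply]
      refine Prod.ext (Prod.ext (Prod.ext rfl (funext fun i => ?_)) rfl) ?_
      · show (if (i : ℕ) < 11 then (if (i : ℕ) = 11 then k' t else
          (if (i : ℕ) < 11 then (W t).v.1.2 i else 0)) else 0) = (W t).v.1.2 i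
        show _ = if (i : ℕ) < 11 then (par N).k t.1 i * phase i (levV 11) else 0
        split_ifs with h1 h2
        · omega
        · simp [W, levData, vec, h1]
        · rfl
      · simp [slot, put]
  have hv12 : ∀ t, ∀ q ∈ τ.S t, v' t = vec (par N) t.1 G 12 (pt 1 0) := fun t q hq => by
    simp only [v']
    rw [if_pos]
    refine (hM t q hq 400 (by norm_num)).trans ?_
    show _ ≤ Kf t ^ eExp 11
    exact pow_le_pow_right₀ (one_le_Kf t) (by omega)
  obtain ⟨-, c1, c2, c3, -, -⟩ := level_sizes hK hZ (fun _ => splitL G 11) τ hA hmap k'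
    (fun t => le_max_right _ _) e' v' hAe hAv
  have emap : ∀ t, ∀ q ∈ τ.S t, (fun y => liftOf (W t) ((W t).upTo (N + 1)) (N + 1) (k' t)
      (splitL G 11 y)) = mapAt N t.1 (x t) 12 := fun t q hq => by
    rw [hk' t q hq, mapAt_legal N (scQ C C2 N' b T₁ V hV) x t]
  -- the weights
  set R : Fam C C2 → Ph × G → ℝ := fun t _ => Kf t ^ (140 * m)
  set om : Fam C C2 → Ph × G → ℝ := fun t _ => (Kf t ^ (500000 * m))⁻¹
  have hom : ∀ (bb : ℕ), bb ≤ 4 → ∀ t, ∀ q ∈ τ.S t,
      μ.A t (splitL G 11 q).1 * μ.M t ^ bb * (μ.M t ^ 400 / k' t) ≤ 1 * om t q :=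
    fun bb hbb t q hq => by
      have hM0 : 0 ≤ μ.M t := zero_le_one.trans (μ.one_le_M t)
      rw [one_mul, hk' t q hq, mul_assoc, mul_div, ← pow_add]
      refine (mul_le_of_le_one_left (div_nonneg (pow_nonneg hM0 _) (pow_nonneg (Kf_pos t).le _))
        (μ.A_le t _ (hmap t q hq))).trans ?_
      show μ.M t ^ (bb + 400) / Kf t ^ eExp 11 ≤ (Kf t ^ (500000 * m))⁻¹
      rw [div_le_iff₀ (pow_pos (Kf_pos t) _), ← div_eq_inv_mul, le_div_iff₀ (pow_pos (Kf_pos t) _)]
      refine (mul_le_mul_of_nonneg_right (hM t q hq (bb + 400) (by omega))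
        (pow_nonneg (Kf_pos t).le _)).trans ?_
      rw [← pow_add]
      refine pow_le_pow_right₀ (one_le_Kf t) ?_
      have h1 : 3 * m * (bb + 400) ≤ 3 * m * 404 := Nat.mul_le_mul_left _ (by omega)
      have h2 : 3 * m * 404 = 1212 * m := by ring
      linarith
  have hom0 : ∀ t, ∀ q ∈ τ.S t, 0 ≤ om t q := fun t q _ => inv_nonneg.2 (pow_nonneg (Kf_pos t).le _)
  have homR : ∀ t, ∀ q ∈ τ.S t, om t q ≤ 1 * R t q := fun t q _ => by
    rw [one_mul]
    exact (inv_le_one_of_one_le₀ (one_le_pow_K t _)).trans (one_le_pow_K t _)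
  have hR0 : ∀ t, ∀ q ∈ τ.S t, 0 ≤ R t q := fun t q _ => pow_nonneg (Kf_pos t).le _
  have pullR : ∀ {d : ℕ} {f : Fam C C2 → (Ph × G) × ℝ → V4}, Sz μ.fast 0 d f → d ≤ 44 →
      Cost τ R fun t q => f t (splitL G 11 q) := fun {d f} hf hd => by
    have h := hf.comp_affine τ (fun _ => splitL G 11) (fun _ => 0) hA fun t q hq => by
      rw [add_zero]; exact ⟨hmap t q hq, trivial⟩
    simp only [add_zero] at h
    refine h.mono zero_le_one hR0 fun t q hq => ?_
    simp only [pow_zero, one_mul]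
    refine (hM t q hq d (by omega)).trans (pow_le_pow_right₀ (one_le_Kf t) ?_)
    have : 3 * m * d ≤ 3 * m * 44 := Nat.mul_le_mul_left _ hd
    omega
  set p : Fam C C2 → Ph × G → V4 := fun t q => (W t).Ze (splitL G 11 q).1
  set u : Fam C C2 → Ph × G → V4 := fun t q =>
    (W t).vel (splitL G 11 q).1 (splitL G 11 q).2
  set w : Fam C C2 → Ph × G → V4 := fun t q => (W t).Zee (splitL G 11 q).1
  set p' : Fam C C2 → Ph × G → V4 := fun t q => d1At N t.1 (x t) 12 (pt 0 1) q
  set u' : Fam C C2 → Ph × G → V4 := fun t q => d1At N t.1 (x t) 12 (pt 1 0) q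
  set w' : Fam C C2 → Ph × G → V4 := fun t q => d2At N t.1 (x t) 12 (pt 0 1) (pt 0 1) q
  have dp : Cost τ om fun t q => p' t q - p t q :=
    (c1.mono zero_le_one hom0 fun t q hq => hom 2 (by norm_num) t q hq).congr fun t q hq => by
      beta_reduce
      rw [emap t q hq]; rfl
  have du : Cost τ om fun t q => u' t q - u t q :=
    (c2.mono zero_le_one hom0 fun t q hq => hom 2 (by norm_num) t q hq).congr fun t q hq => by
      beta_reduce
      rw [emap t q hq, hv12 t q hq, (hG.inv t).dv0 _ (hW.memΩ (hmap t q hq)) _]; rfl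
  have dw : Cost τ om fun t q => w' t q - w t q :=
    (c3.mono zero_le_one hom0 fun t q hq => hom 4 le_rfl t q hq).congr fun t q hq => by
      beta_reduce
      rw [emap t q hq]; rfl
  have hp : Cost τ R p := pullR hW.ze.fast (by norm_num)
  have hu : Cost τ R u := (pullR hK.dv_zero le_rfl).congr fun t q hq =>
    ((hG.inv t).dv0 _ (hW.memΩ (hmap t q hq)) _).symm
  have hw : Cost τ R w := pullR hW.zee.fast (by norm_num)
  have hp' : Cost τ R p' := ((dp.mono zero_le_one hR0 homR).add hp).congr fun t q _ => by simp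
  have hu' : Cost τ R u' := ((du.mono zero_le_one hR0 homR).add hu).congr fun t q _ => by simp
  have hw' : Cost τ R w' := ((dw.mono zero_le_one hR0 homR).add hw).congr fun t q _ => by simp
  obtain ⟨C₁, hC₁, hgr⟩ := (cost_gram2_sub hp hp' hu hu' dp du).abs_le
  obtain ⟨cp, hcp, bp⟩ := norm_le_of_cost hp'
  obtain ⟨cu, hcu, bu⟩ := norm_le_of_cost hu'
  obtain ⟨cw, hcw, bw⟩ := norm_le_of_cost hw'
  obtain ⟨ep, hep, bdp⟩ := norm_le_of_cost dp
  obtain ⟨eu, heu, bdu⟩ := norm_le_of_cost du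
  obtain ⟨ew, hew, bdw⟩ := norm_le_of_cost dw
  set C₂ := 2 * ew + 8 * (cw * (cu * ep + cp * eu))
  set T' := max T₂ (max (4 * C₁) (2 * C₂))
  have hT' : T₂ ≤ T' := le_max_left _ _
  refine ⟨T', (hT₁.trans hT₂).trans hT', fun t => ?_, fun a ha => ?_, fun t q hq => ?_⟩
  · rw [mapAt_legal N (scQ C C2 N' b T₁ V hV) x t]
    exact (smooth_liftOf hK hZ t ((par N).k t.1 11)).comp (splitL G 11).contDiff.contDiffOn
      fun q hq => ⟨hmap t q (scQ_subset hT' t hq), trivial⟩
  · have hle : ∀ t, ∀ q ∈ τ.S t, R t q ≤ 1 * Kf t ^ mExp 12 := fun t q _ => by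
      rw [one_mul]; exact pow_le_pow_right₀ (one_le_Kf t) (by omega)
    have h0 : ∀ t, ∀ q ∈ τ.S t, (0 : ℝ) ≤ Kf t ^ mExp 12 := fun t q _ =>
      pow_nonneg (Kf_pos t).le _
    rcases ha with rfl | rfl
    · exact cost_scQ (hu'.mono zero_le_one h0 hle) le_rfl hT'
    · exact cost_scQ (hp'.mono zero_le_one h0 hle) le_rfl hT'
  · have hqτ : q ∈ τ.S t := scQ_subset hT' t hq
    have hx1 : (splitL G 11 q).1 ∈ (scQ C C2 N' b T V hV).S t :=
      scQ_subset hT₁ t (hmap t q hqτ)
    have hxΩ := hW.memΩ (hmap t q hqτ)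
    set y := (splitL G 11 q).1
    have hKt := Kf_pos t
    have h2K : 2 ≤ Kf t := hK2 t q hqτ
    have hsmall : ∀ {Cc : ℝ} {a e : ℕ}, 0 ≤ Cc → 2 * Cc ≤ Kf t → a + e + 1 ≤ 500000 * m →
        Cc * Kf t ^ a * om t q ≤ (Kf t ^ e)⁻¹ / 2 := fun {Cc a e} _ hC hae => by
      show Cc * Kf t ^ a * (Kf t ^ (500000 * m))⁻¹ ≤ _
      rw [← div_eq_mul_inv, le_div_iff₀ two_pos, div_mul_eq_mul_div,
        div_le_iff₀ (pow_pos hKt _), le_inv_mul_iff₀ (pow_pos hKt _)]
      calc Kf t ^ e * (Cc * Kf t ^ a * 2) = 2 * Cc * Kf t ^ (a + e) := by ring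
        _ ≤ Kf t * Kf t ^ (a + e) := mul_le_mul_of_nonneg_right hC (by positivity)
        _ ≤ _ := by rw [← pow_succ']; exact pow_le_pow_right₀ (one_le_Kf t) hae
    have hCK : 4 * C₁ ≤ Kf t ∧ 2 * C₂ ≤ Kf t :=
      ⟨((le_max_left _ _).trans (le_max_right _ _)).trans hq.1.1,
        ((le_max_right _ _).trans (le_max_right _ _)).trans hq.1.1⟩
    -- the area
    have eA : gram2 ((W t).Ze y) ((W t).Zv y) = areaAt N t.1 (x t) 11 y := by
      rw [gram2_comm, areaAt]
      show gram2 (d1At N t.1 (x t) 11 (levV 11) y) (d1At N t.1 (x t) 11 (levE 11) y) = _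
      rw [he, hv]
    have hA11 : (Kf t ^ 15)⁻¹ ≤ areaAt N t.1 (x t) 11 y :=
      (inv_le_iff_one_le_mul₀ (pow_pos hKt _)).2 (by rw [mul_comm]; exact hm.area_lo t y hx1)
    have hg0 : (Kf t ^ 15)⁻¹ ≤ gram2 (p t q) (u t q) :=
      hA11.trans (eA ▸ gram2_vel_ge (hW.good t) hxΩ _)
    have hg' : (Kf t ^ 16)⁻¹ ≤ gram2 (p' t q) (u' t q) := by
      have h1 := (abs_le.1 (hgr t q hqτ)).1
      have h2 : C₁ * (R t q * R t q * (om t q * R t q + om t q * R t q)) ≤ (Kf t ^ 15)⁻¹ / 2 := by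
        refine le_trans (le_of_eq ?_) (hsmall (Cc := 2 * C₁) (a := 420 * m) (by positivity)
          (by linarith [hCK.1]) (by omega))
        show C₁ * (Kf t ^ (140 * m) * Kf t ^ (140 * m) * (om t q * Kf t ^ (140 * m) +
          om t q * Kf t ^ (140 * m))) = _
        ring
      have h3 : (Kf t ^ 16)⁻¹ ≤ (Kf t ^ 15)⁻¹ / 2 := by
        rw [pow_succ, mul_inv, div_eq_mul_inv]
        exact mul_le_mul_of_nonneg_left (inv_anti₀ two_pos h2K)
          (inv_nonneg.2 (pow_nonneg hKt.le _))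
      linarith
    have hgpos : 0 < gram2 (p' t q) (u' t q) := (inv_pos.2 (pow_pos hKt _)).trans_le hg'
    have hg0pos : 0 < gram2 (p t q) (u t q) := (inv_pos.2 (pow_pos hKt _)).trans_le hg0
    -- the bend
    have eN : perp2 ((W t).Ze y) ((W t).Zv y) ((W t).Zee y) = bendVec N t.1 (x t) 11 y := by
      have hne : gram2 (d1At N t.1 (x t) 11 (pt 1 0) y) (d1At N t.1 (x t) 11 (pt 0 1) y) ≠ 0 :=
        ((inv_pos.2 (pow_pos hKt _)).trans_le hA11).ne'
      show perp2 (d1At N t.1 (x t) 11 (levE 11) y) (d1At N t.1 (x t) 11 (levV 11) y)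
        (d2At N t.1 (x t) 11 (levE 11) (levE 11) y) = _
      rw [he, hv, perp2_comm hne]
      rfl
    have hb0 : (Kf t ^ 8)⁻¹ ≤ len (perp2 (p t q) (u t q) (w t q)) := by
      refine le_trans ?_ (Legal.bend_mono (hW.good t) hxΩ _)
      show _ ≤ len (perp2 ((W t).Ze y) ((W t).Zv y) ((W t).Zee y))
      rw [eN]
      refine Real.le_sqrt_of_sq_le ?_
      show _ ≤ bendAt N t.1 (x t) 11 y
      rw [inv_pow, ← pow_mul, inv_le_iff_one_le_mul₀ (pow_pos hKt _), mul_comm]
      refine (hm.bend_lo t y hx1).trans (mul_le_mul_of_nonneg_right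
        (pow_le_pow_right₀ (one_le_Kf t) (by norm_num)) ?_)
      exact Legal.ip_self_nonneg _
    have hsq : (Real.sqrt (gram2 (p' t q) (u' t q)))⁻¹ ≤ Kf t ^ 8 := by
      rw [inv_le_comm₀ (Real.sqrt_pos.2 hgpos) (pow_pos hKt _)]
      refine Real.le_sqrt_of_sq_le ?_
      rwa [inv_pow, ← pow_mul]
    have hgap : Legal.gap (p t q) (u t q) (w t q) (p' t q) (u' t q) (w' t q) ≤
        (Kf t ^ 8)⁻¹ / 2 := by
      have lp : len (p' t q) ≤ 2 * (cp * R t q) :=
        (len_le_norm _).trans (mul_le_mul_of_nonneg_left (bp t q hqτ) two_pos.le)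
      have lu : len (u' t q) ≤ 2 * (cu * R t q) :=
        (len_le_norm _).trans (mul_le_mul_of_nonneg_left (bu t q hqτ) two_pos.le)
      have lw : len (w' t q) ≤ 2 * (cw * R t q) :=
        (len_le_norm _).trans (mul_le_mul_of_nonneg_left (bw t q hqτ) two_pos.le)
      have ldp : len (p' t q - p t q) ≤ 2 * (ep * om t q) :=
        (len_le_norm _).trans (mul_le_mul_of_nonneg_left (bdp t q hqτ) two_pos.le)
      have ldu : len (u' t q - u t q) ≤ 2 * (eu * om t q) :=
        (len_le_norm _).trans (mul_le_mul_of_nonneg_left (bdu t q hqτ) two_pos.le)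
      have ldw : len (w t q - w' t q) ≤ 2 * (ew * om t q) := by
        refine (len_le_norm _).trans (mul_le_mul_of_nonneg_left ?_ two_pos.le)
        rw [norm_sub_rev]; exact bdw t q hqτ
      have hom' := hom0 t q hqτ
      have hR' := hR0 t q hqτ
      refine le_trans ?_ (hsmall (Cc := C₂) (a := 280 * m + 8) (by positivity) hCK.2 (by omega))
      calc Legal.gap (p t q) (u t q) (w t q) (p' t q) (u' t q) (w' t q)
          ≤ 2 * (ew * om t q) + 2 * (cw * R t q) * Kf t ^ 8 *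
              (2 * (cu * R t q) * (2 * (ep * om t q)) + 2 * (cp * R t q) * (2 * (eu * om t q))) := by
            refine add_le_add ldw ?_
            rw [div_eq_mul_inv]
            have := Legal.len_nonneg (p' t q); have := Legal.len_nonneg (u' t q)
            have := Legal.len_nonneg (w' t q); have := Legal.len_nonneg (p' t q - p t q)
            have := Legal.len_nonneg (u' t q - u t q)
            gcongr
        _ = 2 * ew * om t q + 8 * (cw * (cu * ep + cp * eu)) *
              Kf t ^ (280 * m + 8) * om t q := by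
            show 2 * (ew * om t q) + 2 * (cw * Kf t ^ (140 * m)) * Kf t ^ 8 *
              (2 * (cu * Kf t ^ (140 * m)) * (2 * (ep * om t q)) +
                2 * (cp * Kf t ^ (140 * m)) * (2 * (eu * om t q))) = _
            ring
        _ ≤ 2 * ew * Kf t ^ (280 * m + 8) * om t q + 8 * (cw * (cu * ep + cp * eu)) *
              Kf t ^ (280 * m + 8) * om t q :=
            add_le_add (mul_le_mul_of_nonneg_right
              (le_mul_of_one_le_right (by positivity) (one_le_pow_K t _)) hom') le_rfl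
        _ = _ := by simp only [C₂]; ring
    have hb' : (Kf t ^ 9)⁻¹ ≤ len (perp2 (p' t q) (u' t q) (w' t q)) := by
      have h1 := Legal.bend_close hg0pos.ne' hgpos (w t q) (w' t q)
      have h3 : (Kf t ^ 9)⁻¹ ≤ (Kf t ^ 8)⁻¹ / 2 := by
        rw [pow_succ, mul_inv, div_eq_mul_inv]
        exact mul_le_mul_of_nonneg_left (inv_anti₀ two_pos h2K)
          (inv_nonneg.2 (pow_nonneg hKt.le _))
      linarith
    constructor
    · show 1 ≤ Kf t ^ 20 * gram2 (u' t q) (p' t q)
      rw [gram2_comm, mul_comm, ← inv_le_iff_one_le_mul₀ (pow_pos hKt _)]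
      exact (inv_anti₀ (pow_pos hKt _) (pow_le_pow_right₀ (one_le_Kf t) (by norm_num))).trans hg'
    · show 1 ≤ Kf t ^ 20 * ip (perp2 (u' t q) (p' t q) (w' t q)) (perp2 (u' t q) (p' t q) (w' t q))
      rw [perp2_comm hgpos.ne', ← Legal.len_sq, mul_comm,
        ← inv_le_iff_one_le_mul₀ (pow_pos hKt _)]
      refine le_trans ?_ (pow_le_pow_left₀ (inv_nonneg.2 (pow_nonneg hKt.le _)) hb' 2)
      rw [inv_pow, ← pow_mul]
      exact inv_anti₀ (pow_pos hKt _) (pow_le_pow_right₀ (one_le_Kf t) (by norm_num))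

end Vale.Agent.P205.Stage
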