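import Vale.Agent.P205.Stage.LevelKinOf
import Vale.Agent.P205.Stage.Ready

/-!
The sizes of every level.
-/

noncomputable section

open Set Real
open scoped ContDiff

namespace Vale.Agent.P205.Stage

/-- **The tensor left by a level, what it adds to the metric and how far it moves the map.** -/
theorem sizeStep : SizeStep := by
  intro C C2 N N' b s j hb hb' hs hj G _ _ _ V hV T x hx hM
  have hb2 : 2 ≤ b := by unfold bMin at hb; omega
  obtain ⟨T', hT, c, hc, H⟩ : ∃ T', T ≤ T' ∧
      ∃ (c₀ : ℝ) (hc₀ : 1 ≤ c₀), LevelKin N N' b hb' c₀ hc₀ T' V hV x j := by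
    rcases lt_or_ge j 9 with h9 | h9
    · exact levelKin_tiny hb hb' h9 hx hM
    · rcases eq_or_ne j 11 with rfl | h11
      · exact levelKin_legal hb hb' hx hM
      · exact levelKin_free hb hb' (by omega) hx hM
  exact ⟨T', hT, level_size hj hb2 (hx.above hT) (hM.weaken le_rfl hT) H⟩

end Vale.Agent.P205.Stage
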