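import Vale.Agent.P205.Stage.TinyBounds
import Vale.Agent.P205.Wave.CostUpTo

/-!
A tiny level moves the map, with two derivatives at the phases, by a high negative power of the
scale; so it keeps everything.
-/

noncomputable section

open Set Finset Real Filter
open scoped ContDiff Topology

namespace Vale.Agent.P205.Stage

open Wave (V4 ip D gram2 Cost Scale Mag Sz)
open Legal (gram3 ip_self_nonneg)
open Lev

variable {C : ℕ → ℝ} {C2 : ℕ → ℕ → ℝ} {G : Type} [NormedAddCommGroup G] [NormedSpace ℝ G]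
  {V : Set G} {hV : IsOpen V} {N N' b s j : ℕ} {T : ℝ}

namespace Nr

variable {X : Type} [NormedAddCommGroup X] [NormedSpace ℝ X] {σ : Scale (Fam C C2) X} {n r : ℕ}

/-- Gram determinants of two pairs at one exponent. -/
theorem gram2_exp {p p' q q' : Fam C C2 → X → V4} (hp : Nr σ n r p p') (hq : Nr σ n r q q') :
    Nr σ (n + n + (n + n)) r (fun t x => Wave.gram2 (p t x) (q t x))
      fun t x => Wave.gram2 (p' t x) (q' t x) := by
  simpa [Wave.gram2, pow_two] using ((hp.ip hp).mul (hq.ip hq)).sub ((hp.ip hq).mul (hp.ip hq))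

/-- Gram determinants of two triples at one exponent. -/
theorem gram3_exp {p p' q q' w w' : Fam C C2 → X → V4} (hp : Nr σ n r p p')
    (hq : Nr σ n r q q') (hw : Nr σ n r w w') :
    Nr σ (n + n + (n + n) + (n + n)) r (fun t x => Legal.gram3 (p t x) (q t x) (w t x))
      fun t x => Legal.gram3 (p' t x) (q' t x) (w' t x) := by
  have a := (hp.gram2_exp hq).mul (hw.ip hw)
  have t3 := ((hp.ip hq).mul (hp.ip hw)).mul (hq.ip hw)
  simpa [Legal.gram3, pow_two, two_mul, mul_comm (Wave.ip (w _ _) (w _ _)),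
    mul_comm (Wave.ip (w' _ _) (w' _ _))] using
    ((a.sub (((hp.ip hw).mul (hp.ip hw)).mul (hq.ip hq))).add (t3.add t3)).sub
      (((hq.ip hw).mul (hq.ip hw)).mul (hp.ip hp))

end Nr

/-- How small a tiny level is. -/
def tinyR : ℕ := 1000 * mExp 9

theorem tinyR_big : 4 * bExp ≤ tinyR ∧ 20000 ≤ tinyR := by
  have := (mExp_grows 9).1
  unfold tinyR
  simp only [bExp] at *
  omega

theorem tinyR_exp {j n : ℕ} (hj : j < 9) (hn : n ≤ 900) :
    eExp j + 2 * mExp j * n + tinyR + 1 ≤ pExp := by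
  obtain ⟨h1, h2, -⟩ := pExp_sep
  have := h2 j hj
  have := Lev.mExp_mono (show j ≤ 9 by omega)
  have : 2 * mExp j * n ≤ 1800 * mExp 9 := by nlinarith
  unfold tinyR
  omega

theorem wR_nonneg (t : Fam C C2) : 0 ≤ (Kf t ^ tinyR)⁻¹ :=
  inv_nonneg.2 (pow_nonneg (Kf_pos t).le _)

/-- A chart vector in the frame of a level. -/
theorem frame_coord (j : ℕ) (a : R2) :
    a = ((psi j).1 * a 0 + (psi j).2 * a 1) • levE j + phase j a • levV j := by
  obtain ⟨h1, h2, h3, h4⟩ := lev_frame j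
  unfold phase at h1 h2 ⊢
  have hd := lev_det j
  ext i
  fin_cases i <;> simp
  · have : (a 0 - ((psi j).1 * a 0 + (psi j).2 * a 1) * levE j 0 -
        ((levCov j).1 * a 0 + (levCov j).2 * a 1) * levV j 0) *
        (levE j 0 * levV j 1 - levE j 1 * levV j 0) = 0 := by
      linear_combination -(a 0 * levE j 0 * levV j 1 - a 1 * levE j 0 * levV j 0) * h3 +
        (a 0 * levE j 1 * levE j 0 - a 1 * levE j 0 ^ 2) * h4 -
        (a 0 * levV j 0 * levV j 1 - a 1 * levV j 0 ^ 2) * h1 -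
        (a 1 * levE j 0 * levV j 0 - a 0 * levE j 1 * levV j 0) * h2
    linarith [(mul_eq_zero.1 this).resolve_right hd]
  · have : (a 1 - ((psi j).1 * a 0 + (psi j).2 * a 1) * levE j 1 -
        ((levCov j).1 * a 0 + (levCov j).2 * a 1) * levV j 1) *
        (levE j 0 * levV j 1 - levE j 1 * levV j 0) = 0 := by
      linear_combination -(a 0 * levE j 1 * levV j 1 - a 1 * levE j 1 * levV j 0) * h3 +
        (a 0 * levE j 1 ^ 2 - a 1 * levE j 0 * levE j 1) * h4 -
        (a 0 * levV j 1 ^ 2 - a 1 * levV j 0 * levV j 1) * h1 -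
        (a 1 * levE j 0 * levV j 1 - a 0 * levE j 1 * levV j 1) * h2
    linarith [(mul_eq_zero.1 this).resolve_right hd]

/-- The correctors do not depend on the domain. -/
theorem upTo_dom [FiniteDimensional ℝ G] {W W' : Wave.Data (Ph × G)} (hv : W'.v = W.v)
    (he : W'.e = W.e) (hZ : W'.Z = W.Z) (hr : W'.rho = W.rho) (hE : W'.Err = W.Err) (n : ℕ) :
    W'.upTo n = W.upTo n := by
  obtain ⟨Ω, v, e, Z, r, E⟩ := W
  obtain ⟨Ω', v', e', Z', r', E'⟩ := W'
  cases hv; cases he; cases hZ; cases hr; cases hE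
  induction n with
  | zero => rfl
  | succ n ih =>
    cases n with
    | zero => rfl
    | succ m =>
      have e : ∀ W : Wave.Data (Ph × G), W.upTo (m + 2) =
          Function.update (W.upTo (m + 1)) (m + 2) (W.step (W.upTo (m + 1)) (m + 1)) := fun _ => rfl
      rw [e, e, ih]
      rfl

section fast

variable [FiniteDimensional ℝ G] {x : Fam C C2 → Ph × G → Unk}

/-- The increments of a tiny level in the space with its phase as a coordinate. -/
theorem tiny_fast (hb' : b ≤ bExp) (hj : j < 9) {c : ℝ} {hc : 1 ≤ c}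
    {W : Fam C C2 → Wave.Data (Ph × G)}
    (hW : Wave.Data.Bounds (tinyMag C C2 N N' b j T V hV hb' c hc) W)
    (hZ : ∀ t, ContDiffOn ℝ ∞ (W t).Z ((kerScale C C2 N' b j T V hV).S t)) :
    let μ := tinyMag C C2 N N' b j T V hV hb' c hc
    let k := fun t => max ((par N).k t.1 j) (μ.M t ^ 400)
    let X := fun t => liftOf (W t) ((W t).upTo (N + 1)) (N + 1) (k t)
    let w := fun t (_ : (Ph × G) × ℝ) => (Kf t ^ tinyR)⁻¹
    Cost μ.fast.toScale w (fun t p => X t p - (W t).Z p.1) ∧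
      Cost μ.fast.toScale w (fun t p => D ((W t).e, (0 : ℝ)) (X t) p - (W t).Ze p.1) ∧
      Cost μ.fast.toScale w (fun t p => D ((W t).v, k t) (X t) p - (W t).Zv p.1) ∧
      Cost μ.fast.toScale w (fun t p =>
        D ((W t).e, (0 : ℝ)) (D ((W t).e, (0 : ℝ)) (X t)) p - (W t).Zee p.1) ∧
      Cost μ.fast.toScale w (fun t p =>
        D ((W t).v, k t) (D ((W t).e, (0 : ℝ)) (X t)) p - D (W t).v (W t).Ze p.1) ∧
      Cost μ.fast.toScale w fun t p =>
        D ((W t).v, k t) (D ((W t).v, k t) (X t)) p - D (W t).v (W t).Zv p.1 := by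
  intro μ k X w
  have hK := hW.kin (hW.grows N)
  have hk : ∀ t, μ.M t ^ 400 ≤ k t := fun t => le_max_right _ _
  have hc0 : 0 < c := zero_lt_one.trans_le hc
  have hM0 : ∀ t, 0 < μ.M t := fun t => zero_lt_one.trans_le (μ.one_le_M t)
  have hk0 : ∀ t, 0 < k t := fun t => (pow_pos (hM0 t) 400).trans_le (hk t)
  have hMv : ∀ t, μ.M t = c * Kf t ^ (2 * mExp j) := fun t => rfl
  have hkc : ∀ t, k t ≤ c ^ 400 * Kf t ^ eExp j := fun t => by
    have hck : (1 : ℝ) ≤ c ^ 400 := one_le_pow₀ hc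
    refine max_le (le_mul_of_one_le_left (pow_nonneg (Kf_pos t).le _) hck) ?_
    rw [hMv, mul_pow, ← pow_mul]
    exact mul_le_mul_of_nonneg_left (pow_le_pow_right₀ (one_le_Kf t)
      (by have := (mExp_grows j).2; omega)) (zero_le_one.trans hck)
  have hA : ∀ t, ∀ p ∈ μ.fast.S t, 0 ≤ μ.A t p.1 ∧ μ.A t p.1 ≤ (Kf t ^ pExp)⁻¹ := fun t p hp => by
    refine ⟨μ.A_nonneg t p.1 hp.1, ?_⟩
    have hz : p.1.1.1 ∈ dom N' t := hp.1.1.1.2.1
    have h := share_range N hz j
    refine (div_le_self h.2.2.2.2.2.1.le (le_max_left _ _)).trans ?_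
    rw [levA, if_pos hj]
    exact h.2.2.2.2.1
  have hw : ∀ t, ∀ p ∈ μ.fast.S t, 0 ≤ w t p := fun t _ _ => wR_nonneg t
  have bound : ∀ (t : Fam C C2) (p : (Ph × G) × ℝ), p ∈ μ.fast.S t → ∀ n, n ≤ 900 →
      k t * (μ.A t p.1 * μ.M t ^ n) ≤ c ^ (400 + n) * w t p := fun t p hp n hn => by
    obtain ⟨a0, a1⟩ := hA t p hp
    have hK0 := Kf_pos t
    calc k t * (μ.A t p.1 * μ.M t ^ n)
        ≤ (c ^ 400 * Kf t ^ eExp j) * ((Kf t ^ pExp)⁻¹ * μ.M t ^ n) :=
          mul_le_mul (hkc t) (mul_le_mul_of_nonneg_right a1 (pow_nonneg (hM0 t).le n))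
            (mul_nonneg a0 (pow_nonneg (hM0 t).le n)) (by positivity)
      _ = c ^ (400 + n) * (Kf t ^ (eExp j + 2 * mExp j * n) / Kf t ^ pExp) := by
          rw [hMv, mul_pow, ← pow_mul, pow_add c, pow_add (Kf t), div_eq_mul_inv]; ring
      _ ≤ c ^ (400 + n) * w t p := by
          refine mul_le_mul_of_nonneg_left ?_ (pow_nonneg hc0.le _)
          show _ ≤ (Kf t ^ tinyR)⁻¹
          rw [inv_eq_one_div, div_le_div_iff₀ (pow_pos hK0 _) (pow_pos hK0 _), one_mul, ← pow_add]
          exact pow_le_pow_right₀ (one_le_Kf t) (by have := tinyR_exp hj hn; omega)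
  have h1k : ∀ t, 1 ≤ k t := fun t => (one_le_pow₀ (μ.one_le_M t)).trans (hk t)
  have drop : ∀ {n : ℕ} {f : Fam C C2 → (Ph × G) × ℝ → V4}, Sz μ.fast 1 n f → n ≤ 900 →
      Cost μ.fast.toScale w f := fun {n f} h hn =>
    Cost.mono h (pow_nonneg hc0.le (400 + n)) hw fun t p hp => by
      refine le_trans ?_ (bound t p hp n hn)
      simp only [Mag.fast, pow_one]
      exact le_mul_of_one_le_left (mul_nonneg (hA t p hp).1 (pow_nonneg (hM0 t).le n)) (h1k t)
  have kdrop : ∀ {n : ℕ} {f : Fam C C2 → (Ph × G) × ℝ → V4}, Sz μ.fast 1 n f → n ≤ 900 →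
      Cost μ.fast.toScale w fun t p => k t • f t p := fun {n f} h hn =>
    (cost_smul_index h k).mono (pow_nonneg hc0.le (400 + n)) hw fun t p hp => by
      rw [abs_of_pos (hk0 t)]
      simp only [Mag.fast, pow_one]
      exact bound t p hp n hn
  have rem : ∀ {n : ℕ} {f : Fam C C2 → (Ph × G) × ℝ → V4},
      Cost μ.fast.toScale (fun t p => μ.A t p.1 * μ.M t ^ n * (μ.M t ^ 400 / k t)) f → n ≤ 900 →
      Cost μ.fast.toScale w f := fun {n f} h hn =>
    Cost.mono h (pow_nonneg hc0.le (400 + n)) hw fun t p hp => by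
      have h0 := mul_nonneg (hA t p hp).1 (pow_nonneg (hM0 t).le n)
      refine le_trans ?_ (bound t p hp n hn)
      exact (mul_le_of_le_one_right h0 ((div_le_one (hk0 t)).2 (hk t))).trans
        (le_mul_of_one_le_left h0 (h1k t))
  obtain ⟨c0, c1, c2⟩ := liftOf_first hK hZ k hk
  obtain ⟨e1, e2, e3⟩ := liftOf_second hK hZ k hk
  have dv0 := hK.dv0
  have ds0 := dv0.ds (h := fun t y s => (W t).dv ((W t).upTo (N + 1)) 0 y s - (W t).Zv y)
  have de0 := dv0.de (h := fun t y s => (W t).dv ((W t).upTo (N + 1)) 0 y s - (W t).Zv y)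
    (fun t => (W t).v) hK.norm_v
  refine ⟨rem c0 (by norm_num), rem c1 (by norm_num),
    ((rem c2 (by norm_num)).add (drop dv0 (by norm_num))).congr fun t p _ => by abel,
    rem e1 (by norm_num),
    ((rem e2 (by norm_num)).add (drop ((hK.de_size le_rfl).ds
      (h := fun t => (W t).de ((W t).upTo (N + 1)) 1)) (by decide))).congr fun t p _ => by abel,
    (((rem e3 (by norm_num)).add (kdrop ds0 (by norm_num))).add
      ((drop de0 (by norm_num)).add (drop ((hK.dv_size le_rfl).ds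
        (h := fun t => (W t).dv ((W t).upTo (N + 1)) 1)) (by decide)))).congr fun t p hp => ?_⟩
  have hd1 : DifferentiableAt ℝ (fun y => (W t).dv ((W t).upTo (N + 1)) 0 y p.2) p.1 := by
    have hs := (hK.dv_zero.smooth t).differentiableOn (by simp)
    exact (hs.differentiableAt ((μ.fast.isOpen t).mem_nhds hp)).comp p.1
      (f := fun y => (y, p.2)) (hasFDerivAt_prodMk_left p.1 p.2).differentiableAt
  have hd2 : DifferentiableAt ℝ (W t).Zv p.1 :=
    ((hK.zv.smooth t).differentiableOn (by simp)).differentiableAt ((μ.isOpen t).mem_nhds hp.1)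
  simp only [deriv_sub_const, D, fderiv_fun_sub hd1 hd2, sub_apply, X]
  abel

end fast

section glue

/-- A family small on the zone and zero where the level is switched off is small. -/
theorem cost_glue {F : Type} [NormedAddCommGroup F] [NormedSpace ℝ F]
    {w : Fam C C2 → Ph × G → ℝ} {f : Fam C C2 → Ph × G → F}
    (h : Cost (kerScale C C2 N' b j T V hV) w f)
    (h0 : ∀ t, ∀ q ∈ (scQ C C2 N' b T V hV).S t, q.1.1 ∈ offZone j t → f t q = 0)
    (hw : ∀ t, ∀ q ∈ (scQ C C2 N' b T V hV).S t, 0 ≤ w t q)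
    (hcov : ∀ t, ∀ q ∈ (scQ C C2 N' b T V hV).S t,
      q.1.1 ∈ kerZone N' j t ∨ q.1.1 ∈ offZone j t) :
    Cost (scQ C C2 N' b T V hV) w f := by
  set σ := scQ C C2 N' b T V hV
  have hev : ∀ t, ∀ q ∈ σ.S t, q.1.1 ∈ offZone j t → f t =ᶠ[𝓝 q] fun _ => 0 := fun t q hq ho => by
    filter_upwards [(σ.isOpen t).mem_nhds hq,
      (isOpen_interior.preimage (continuous_fst.comp continuous_fst)).mem_nhds
        (show q ∈ (fun q : Ph × G => q.1.1) ⁻¹' offZone j t from ho)] with y h1 h2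
    exact h0 t y h1 h2
  refine ⟨fun t q hq => ?_, hw, fun i => ?_⟩
  · rcases hcov t q hq with hk | ho
    · exact ((h.smooth t).contDiffAt (((kerScale C C2 N' b j T V hV).isOpen t).mem_nhds
        ⟨hq, hk⟩)).contDiffWithinAt
    · exact (contDiffAt_const.congr_of_eventuallyEq (hev t q hq ho)).contDiffWithinAt
  · obtain ⟨c, hc0, hc⟩ := h.bound i
    refine ⟨c, hc0, fun t q hq => ?_⟩
    rcases hcov t q hq with hk | ho
    · exact hc t q ⟨hq, hk⟩
    · rw [((hev t q hq ho).iteratedFDeriv ℝ i).eq_of_nhds, iteratedFDeriv_fun_zero]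
      simp only [Pi.zero_apply, norm_zero]
      exact mul_nonneg (mul_nonneg hc0 (hw t q hq)) (pow_nonneg (zero_le_one.trans (σ.one_le t)) i)

end glue

section diff

variable [FiniteDimensional ℝ G] {x : Fam C C2 → Ph × G → Unk}

omit [FiniteDimensional ℝ G] in
/-- A second derivative at the phases in the frame of a level. -/
theorem d2_frame (I : Input) (z : Ph × G → Unk) (i j : ℕ) (a a' : R2) {q : Ph × G}
    (hX : ContDiffAt ℝ 2 (mapAt N I z i) q) :
    let r := fun a : R2 => (psi j).1 * a 0 + (psi j).2 * a 1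
    d2At N I z i a a' q =
      (r a * r a') • d2At N I z i (levE j) (levE j) q +
        (r a * phase j a' + phase j a * r a') • d2At N I z i (levV j) (levE j) q +
        (phase j a * phase j a') • d2At N I z i (levV j) (levV j) q := by
  intro r
  show D _ (D _ (mapAt N I z i)) q = _
  conv_lhs => rw [frame_coord j a, frame_coord j a']
  rw [Lev.vec_comb, Lev.vec_comb, Legal.D_comb, Legal.D2_comb hX, Legal.D2_comb hX,
    Legal.D_symm hX (vec (par N) I G i (levE j)) (vec (par N) I G i (levV j))]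
  simp only [r, d2At, d1At]
  module

/-- On the open set where a tiny level is switched off, it changes nothing. -/
theorem tiny_off (hj : j < 9) (hx : Small N' b s T V hV x)
    (hM : MapOK N N' b T V hV x j) (t : Fam C C2) {q : Ph × G}
    (hq : q ∈ (scQ C C2 N' b T V hV).S t) (ho : q.1.1 ∈ offZone j t) :
    mapAt N t.1 (x t) (j + 1) q = mapAt N t.1 (x t) j (trunc j q) ∧
      (∀ a, d1At N t.1 (x t) (j + 1) a q = d1At N t.1 (x t) j a (trunc j q)) ∧
      ∀ a a', d2At N t.1 (x t) (j + 1) a a' q = d2At N t.1 (x t) j a a' (trunc j q) := by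
  set σ := scQ C C2 N' b T V hV
  set O : Set (Ph × G) := σ.S t ∩ (fun q : Ph × G => q.1.1) ⁻¹' offZone j t
  have hO : IsOpen O :=
    (σ.isOpen t).inter (isOpen_interior.preimage (continuous_fst.comp continuous_fst))
  have hf : isFree j = false := by simp [isFree]; omega
  have hmap : ∀ y ∈ O, mapAt N t.1 (x t) (j + 1) y = mapAt N t.1 (x t) j (trunc j y) := by
    intro y hy
    have hy' : trunc j y ∈ O := ⟨Lev.trunc_mem hy.1, hy.2⟩
    have h0 := fun n => upTo_off (W := levData (par N) t.1 (x t) univ j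
      (mapAt N t.1 (x t) j) (restAt N t.1 (x t) j)) hO
      (fun u hu => by
        have hw : tinyWeight (tripleOf j) (bend0 t.1 u.1.1) = 0 := interior_subset (s :=
          {z | tinyWeight (tripleOf j) (bend0 t.1 z) = 0}) hu.2
        simp [levData, amp, if_pos hj, hw])
      (fun n u hu => (err_good hx t j).2.2 hj n u hu.1 hu.2) N n (trunc j y) hy' (slot j y)
    show mapAt N t.1 (x t) j (trunc j y) + ∑ n ∈ range (N + 1), _ = _
    rw [sum_eq_zero fun n _ => ?_, add_zero]
    show _ • cor (par N) t.1 (x t) j (mapAt N t.1 (x t) j) (restAt N t.1 (x t) j) _ _ _ = _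
    simp only [cor, hf, Bool.false_eq_true, if_false, show (par N).N = N from rfl, h0, smul_zero]
  have hX := hM.smooth t
  have hv : ∀ a, truncL G j (vec (par N) t.1 G (j + 1) a) = vec (par N) t.1 G j a := fun a => by
    have := congrArg Prod.fst (Lev.split_vec (G := G) (p := par N) (I := t.1) (show j < 12 by omega) a)
    rwa [Lev.splitL_apply] at this
  have h1 : ∀ a, ∀ y ∈ O, d1At N t.1 (x t) (j + 1) a y = d1At N t.1 (x t) j a (trunc j y) := by
    intro a y hy
    have he : mapAt N t.1 (x t) (j + 1) =ᶠ[𝓝 y]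
        fun z => mapAt N t.1 (x t) j (truncL G j z + 0) := by
      filter_upwards [hO.mem_nhds hy] with z hz
      rw [add_zero]; exact hmap z hz
    rw [d1At, D_comp_affine (truncL G j) 0 _ ?_ he, add_zero, hv]
    · rfl
    · rw [add_zero]
      exact (hX.differentiableOn (by simp)).differentiableAt
        ((σ.isOpen t).mem_nhds (Lev.trunc_mem hy.1))
  refine ⟨hmap q ⟨hq, ho⟩, fun a => h1 a q ⟨hq, ho⟩, fun a a' => ?_⟩
  have he : d1At N t.1 (x t) (j + 1) a' =ᶠ[𝓝 q]
      fun z => d1At N t.1 (x t) j a' (truncL G j z + 0) := by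
    filter_upwards [hO.mem_nhds ⟨hq, ho⟩] with z hz
    rw [add_zero]; exact h1 a' z hz
  rw [d2At, D_comp_affine (truncL G j) 0 _ ?_ he, add_zero, hv]
  · rfl
  · rw [add_zero]
    exact ((Wave.contDiffOn_D (σ.isOpen t) hX _).differentiableOn (by simp)).differentiableAt
      ((σ.isOpen t).mem_nhds (Lev.trunc_mem hq))

/-- The increments of a tiny level in its frame, on its zone. -/
theorem tiny_zone (hb' : b ≤ bExp) (hj : j < 9) {c : ℝ} {hc : 1 ≤ c}
    (hM : MapOK N N' b T V hV x j) {T₁ : ℝ} (hT₁ : T ≤ T₁)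
    (hW : Wave.Data.Bounds (tinyMag C C2 N N' b j T₁ V hV hb' c hc)
      (tinyWave N (kerScale C C2 N' b j T₁ V hV) x j)) :
    ∃ T', T₁ ≤ T' ∧
      let σ := kerScale C C2 N' b j T' V hV
      let w := fun (t : Fam C C2) (_ : Ph × G) => (Kf t ^ tinyR)⁻¹
      let e := levE j
      let v := levV j
      Cost σ w (fun t q => mapAt N t.1 (x t) (j + 1) q - mapAt N t.1 (x t) j (trunc j q)) ∧
        Cost σ w (fun t q => d1At N t.1 (x t) (j + 1) e q - d1At N t.1 (x t) j e (trunc j q)) ∧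
        Cost σ w (fun t q => d1At N t.1 (x t) (j + 1) v q - d1At N t.1 (x t) j v (trunc j q)) ∧
        Cost σ w (fun t q =>
          d2At N t.1 (x t) (j + 1) e e q - d2At N t.1 (x t) j e e (trunc j q)) ∧
        Cost σ w (fun t q =>
          d2At N t.1 (x t) (j + 1) v e q - d2At N t.1 (x t) j v e (trunc j q)) ∧
        Cost σ w fun t q =>
          d2At N t.1 (x t) (j + 1) v v q - d2At N t.1 (x t) j v v (trunc j q) := by
  set W := tinyWave N (kerScale C C2 N' b j T₁ V hV) x j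
  set μ := tinyMag C C2 N N' b j T₁ V hV hb' c hc
  have hZ : ∀ t, ContDiffOn ℝ ∞ (W t).Z ((kerScale C C2 N' b j T₁ V hV).S t) := fun t =>
    (hM.smooth t).mono fun q hq => scQ_subset hT₁ t hq.1
  obtain ⟨f0, f1, f2, f3, f4, f5⟩ := tiny_fast hb' hj hW hZ
  have hK := hW.kin (hW.grows N)
  refine ⟨max T₁ (c ^ 400), le_max_left _ _, ?_⟩
  intro σ w e v
  have hsub : ∀ t, σ.S t ⊆ μ.S t := kerScale_subset (le_max_left _ _)
  have hmap : ∀ t, ∀ q ∈ σ.S t, splitL G j q + 0 ∈ μ.fast.S t := fun t q hq => by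
    rw [add_zero, splitL_apply]
    exact ⟨⟨Lev.trunc_mem (hsub t hq).1, hq.2⟩, trivial⟩
  have pull : ∀ {f : Fam C C2 → (Ph × G) × ℝ → V4},
      Cost μ.fast.toScale (fun t _ => (Kf t ^ tinyR)⁻¹) f →
      Cost σ w fun t q => f t (trunc j q, slot j q) := fun hf => by
    simpa only [add_zero, splitL_apply] using hf.comp_affine σ (fun _ => splitL G j) (fun _ => 0)
      (fun t => mul_le_of_le_one_right (zero_le_one.trans (σ.one_le t)) (norm_splitL G j)) hmap
  have hk : ∀ t, ∀ q ∈ σ.S t, max ((par N).k t.1 j) (μ.M t ^ 400) = (par N).k t.1 j := by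
    intro t q hq
    refine max_eq_left ?_
    show (c * Kf t ^ (2 * mExp j)) ^ 400 ≤ Kf t ^ eExp j
    rw [mul_pow, ← pow_mul]
    calc c ^ 400 * Kf t ^ (2 * mExp j * 400) ≤ Kf t * Kf t ^ (2 * mExp j * 400) :=
          mul_le_mul_of_nonneg_right ((le_max_right _ _).trans hq.1.1.1)
            (pow_nonneg (Kf_pos t).le _)
      _ ≤ _ := by
          rw [← pow_succ']
          exact pow_le_pow_right₀ (one_le_Kf t)
            (by have := (mExp_grows j).2; have := (mExp_grows j).1; simp only [bExp] at *; omega)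
  have hf : isFree j = false := by simp [isFree]; omega
  have hF : ∀ t, mapAt N t.1 (x t) (j + 1) =
      fun y => liftOf (W t) ((W t).upTo (N + 1)) (N + 1) ((par N).k t.1 j) (splitL G j y) :=
    fun t => funext fun y => by
      rw [upTo_dom (W' := W t) (W := levData (par N) t.1 (x t) univ j (mapAt N t.1 (x t) j)
        (restAt N t.1 (x t) j)) rfl rfl rfl rfl rfl, splitL_apply]
      show mapAt N t.1 (x t) j (trunc j y) + ∑ n ∈ range (N + 1), _ = _
      simp only [cor, hf, Bool.false_eq_true, if_false, show (par N).N = N from rfl]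
      rfl
  have hvec : ∀ (t : Fam C C2) a, splitL G j (vec (par N) t.1 G (j + 1) a) =
      (vec (par N) t.1 G j a, (par N).k t.1 j * phase j a) := fun t a =>
    Lev.split_vec (show j < 12 by omega) a
  obtain ⟨p1, p2, -, -⟩ := lev_frame j
  have he : ∀ t : Fam C C2,
      splitL G j (vec (par N) t.1 G (j + 1) e) = ((W t).e, 0) := fun t => by
    rw [hvec, p1, mul_zero]; rfl
  have hv : ∀ t : Fam C C2,
      splitL G j (vec (par N) t.1 G (j + 1) v) = ((W t).v, (par N).k t.1 j) := fun t => by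
    rw [hvec, p2, mul_one]; rfl
  have hd1 : ∀ t, ∀ q ∈ σ.S t, ∀ a, d1At N t.1 (x t) (j + 1) a q =
      D (splitL G j (vec (par N) t.1 G (j + 1) a))
        (liftOf (W t) ((W t).upTo (N + 1)) (N + 1) ((par N).k t.1 j)) (trunc j q, slot j q) := by
    intro t q hq a
    rw [d1At, hF, D_comp_affine (f := liftOf (W t) ((W t).upTo (N + 1)) (N + 1) ((par N).k t.1 j))
      (splitL G j) 0 _ ?_ (Filter.Eventually.of_forall fun y => by
      simp only [add_zero]), add_zero, splitL_apply G j q]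
    rw [add_zero]
    exact ((smooth_liftOf hK hZ t _).differentiableOn (by simp)).differentiableAt
      ((μ.fast.isOpen t).mem_nhds (by simpa using hmap t q hq))
  have hd2 : ∀ t, ∀ q ∈ σ.S t, ∀ a a', d2At N t.1 (x t) (j + 1) a a' q =
      D (splitL G j (vec (par N) t.1 G (j + 1) a))
        (D (splitL G j (vec (par N) t.1 G (j + 1) a'))
          (liftOf (W t) ((W t).upTo (N + 1)) (N + 1) ((par N).k t.1 j)))
        (trunc j q, slot j q) := by
    intro t q hq a a'
    rw [d2At]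
    simp only [d1At, hF]
    rw [level_second hK hZ (splitL G j) _ _ _ (by simpa using (hmap t q hq).1), splitL_apply G j q]
  refine ⟨(pull f0).congr fun t q hq => ?_, (pull f1).congr fun t q hq => ?_,
    (pull f2).congr fun t q hq => ?_, (pull f3).congr fun t q hq => ?_,
    (pull f4).congr fun t q hq => ?_, (pull f5).congr fun t q hq => ?_⟩
  all_goals (have hk' := hk t q hq; simp only [μ] at hk'; simp only [hk'])
  · rw [hF]; simp only [splitL_apply]; rfl
  · rw [hd1 t q hq, he]; rfl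
  · rw [hd1 t q hq, hv]; rfl
  · rw [hd2 t q hq, he]; rfl
  · rw [hd2 t q hq, he, hv]; rfl
  · rw [hd2 t q hq, hv]; rfl

/-- **A tiny level moves the map and two derivatives by a high negative power of the scale.** -/
theorem tiny_diff (hb : bMin ≤ b) (hb' : b ≤ bExp) (hj : j < 9)
    (hx : Small N' b s T V hV x) (hM : MapOK N N' b T V hV x j) :
    ∃ T', T ≤ T' ∧
      let σ := scQ C C2 N' b T' V hV
      let w := fun (t : Fam C C2) (_ : Ph × G) => (Kf t ^ tinyR)⁻¹
      Cost σ w (fun t q => mapAt N t.1 (x t) (j + 1) q - mapAt N t.1 (x t) j (trunc j q)) ∧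
        (∀ a, Cost σ w fun t q =>
          d1At N t.1 (x t) (j + 1) a q - d1At N t.1 (x t) j a (trunc j q)) ∧
        ∀ a a', Cost σ w fun t q =>
          d2At N t.1 (x t) (j + 1) a a' q - d2At N t.1 (x t) j a a' (trunc j q) := by
  obtain ⟨T₁, hT₁, ⟨c, hc, hW⟩, hcov⟩ := tiny_bounds hb hb' hj hx hM
  obtain ⟨T', hT', g0, g1, g2, g3, g4, g5⟩ := tiny_zone hb' hj hM hT₁ hW
  refine ⟨T', hT₁.trans hT', ?_⟩
  intro σ w
  have hs : ∀ t, σ.S t ⊆ (scQ C C2 N' b T V hV).S t := scQ_subset (hT₁.trans hT')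
  have hcov' : ∀ t, ∀ q ∈ σ.S t, q.1.1 ∈ kerZone N' j t ∨ q.1.1 ∈ offZone j t := fun t q hq =>
    hcov t q (scQ_subset hT' t hq)
  have hw : ∀ t, ∀ q ∈ σ.S t, 0 ≤ w t q := fun t _ _ => wR_nonneg t
  have off := fun t q (hq : q ∈ σ.S t) ho => tiny_off hj hx hM t (hs t hq) ho
  have m0 := cost_glue g0 (fun t q hq ho => sub_eq_zero.2 (off t q hq ho).1) hw hcov'
  have glue1 : ∀ {a : R2}, Cost (kerScale C C2 N' b j T' V hV) w (fun t q =>
      d1At N t.1 (x t) (j + 1) a q - d1At N t.1 (x t) j a (trunc j q)) →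
      Cost σ w fun t q => d1At N t.1 (x t) (j + 1) a q - d1At N t.1 (x t) j a (trunc j q) :=
    fun {a} h => cost_glue h (fun t q hq ho => sub_eq_zero.2 ((off t q hq ho).2.1 a)) hw hcov'
  have glue2 : ∀ {a a' : R2}, Cost (kerScale C C2 N' b j T' V hV) w (fun t q =>
      d2At N t.1 (x t) (j + 1) a a' q - d2At N t.1 (x t) j a a' (trunc j q)) →
      Cost σ w fun t q =>
        d2At N t.1 (x t) (j + 1) a a' q - d2At N t.1 (x t) j a a' (trunc j q) :=
    fun {a a'} h =>
      cost_glue h (fun t q hq ho => sub_eq_zero.2 ((off t q hq ho).2.2 a a')) hw hcov'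
  have sm : ∀ (r : ℝ) {f : Fam C C2 → Ph × G → V4}, Cost σ w f →
      Cost σ w fun t q => r • f t q := fun r f h =>
    ((Cost.const r).smul h).mono (c := 1) zero_le_one hw fun t q _ => le_of_eq (by ring)
  refine ⟨m0, fun a => ?_, fun a a' => ?_⟩
  · refine ((sm ((psi j).1 * a 0 + (psi j).2 * a 1) (glue1 g1)).add
      (sm (phase j a) (glue1 g2))).congr fun t q _ => ?_
    simp only [d1At]
    conv_lhs => rw [frame_coord j a, Lev.vec_comb, Lev.vec_comb, Legal.D_comb, Legal.D_comb]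
    module
  · set r := fun a : R2 => (psi j).1 * a 0 + (psi j).2 * a 1 with hr
    refine (((sm (r a * r a') (glue2 g3)).add (sm (r a * phase j a' + phase j a * r a')
      (glue2 g4))).add (sm (phase j a * phase j a') (glue2 g5))).congr fun t q hq => ?_
    have hX : ∀ y ∈ σ.S t, ContDiffAt ℝ 2 (mapAt N t.1 (x t) j) y := fun y hy =>
      ((hM.smooth t).contDiffAt (((scQ C C2 N' b T V hV).isOpen t).mem_nhds (hs t hy))).of_le
        (by exact WithTop.coe_le_coe.2 le_top)
    have hX' : ContDiffAt ℝ 2 (mapAt N t.1 (x t) (j + 1)) q := by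
      have h1 := m0.contDiffAt hq 2
      have h2 : ContDiffAt ℝ 2 (fun y => mapAt N t.1 (x t) j (trunc j y)) q :=
        (hX _ (Lev.trunc_mem hq)).comp q
          ((contDiff_trunc j).of_le (by exact WithTop.coe_le_coe.2 le_top)).contDiffAt
      exact (h1.add h2).congr_of_eventuallyEq (Filter.Eventually.of_forall fun y => by simp)
    rw [d2_frame t.1 (x t) (j + 1) j a a' hX', d2_frame t.1 (x t) j j a a' (hX _ (Lev.trunc_mem hq))]
    simp only [hr]
    module

end diff

/-- **A tiny level keeps everything.** -/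
theorem tinyStep : TinyStep := by
  intro C C2 N N' b s j hb hb' _ hj G _ _ _ V hV T x hx hM
  obtain ⟨T₁, hT₁, hm, h1, h2⟩ := tiny_diff hb hb' hj hx hM
  set σ := scQ C C2 N' b T₁ V hV
  obtain ⟨hR, hR'⟩ := tinyR_big
  have hm9 : cLev j = 1000 := by simp [cLev, max_eq_right (show j ≤ 9 by omega)]
  have hm9' : cLev (j + 1) = 1000 := by simp [cLev, max_eq_right (show j + 1 ≤ 9 by omega)]
  have hbw : ∀ i ≤ 9, ∀ t : Fam C C2, ∀ q : Ph × G, bendWeight N t.1 i q = 1 := fun i hi t q => by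
    simp [bendWeight, Finset.Ico_eq_empty_of_le hi]
  have old : ∀ {F : Type} [NormedAddCommGroup F] [NormedSpace ℝ F]
      {w : Fam C C2 → Ph × G → ℝ} {f : Fam C C2 → Ph × G → F},
      Cost (scQ C C2 N' b T V hV) w f →
      Cost σ (fun t q => w t (trunc j q)) fun t q => f t (trunc j q) :=
    fun h => Lev.cost_trunc (cost_scQ h le_rfl hT₁) j
  have grow : ∀ {a a' : ℕ} {f g : Fam C C2 → Ph × G → V4}, a ≤ a' →
      Cost σ (fun t _ => Kf t ^ a) g →
      Cost σ (fun t _ => (Kf t ^ tinyR)⁻¹) (fun t q => f t q - g t q) →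
      Cost σ (fun t _ => Kf t ^ a') f := fun ha hg hd =>
    Lev.cost_pow_le (Nr.of_diff hg hd).fst ha
  have hd1 : ∀ a ∈ axes, Nr σ 1000 tinyR (fun t => d1At N t.1 (x t) (j + 1) a)
      fun t q => d1At N t.1 (x t) j a (trunc j q) := fun a ha => by
    refine Nr.of_diff ?_ (h1 a)
    have := old (hM.d1s a ha)
    rwa [hm9] at this
  have hd2v : Nr σ 1000 tinyR (fun t => d2At N t.1 (x t) (j + 1) (pt 0 1) (pt 0 1))
      fun t q => d2At N t.1 (x t) j (pt 0 1) (pt 0 1) (trunc j q) := by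
    refine Nr.of_diff ?_ (h2 _ _)
    have := old hM.d2v
    simp only [hbw j (by omega), mul_one, hm9] at this
    exact this
  have hx1 : pt 1 0 ∈ axes := Or.inl rfl
  have hy1 : pt 0 1 ∈ axes := Or.inr rfl
  have ga : ∀ t, ∀ q ∈ (scQ C C2 N' b T V hV).S t, 0 < areaAt N t.1 (x t) j q := fun t q hq =>
    pos_of_mul_pos_right (zero_lt_one.trans_le (hM.area_lo t q hq)) (pow_nonneg (Kf_pos t).le _)
  have mem : ∀ t, ∀ q ∈ σ.S t, trunc j q ∈ (scQ C C2 N' b T V hV).S t := fun t q hq =>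
    Lev.trunc_mem (scQ_subset hT₁ t hq)
  obtain ⟨Ta, hA, hA2⟩ := ((hd1 _ hx1).gram2_exp (hd1 _ hy1)).rel (old hM.area) (q := 4 + j)
    (fun t q hq => hM.area_lo t _ (mem t q hq)) (by omega)
  have e3 : ∀ t, ∀ q ∈ (scQ C C2 N' b T V hV).S t,
      gram3 (d1At N t.1 (x t) j (pt 1 0) q) (d1At N t.1 (x t) j (pt 0 1) q)
        (d2At N t.1 (x t) j (pt 0 1) (pt 0 1) q) =
      bendAt N t.1 (x t) j q * areaAt N t.1 (x t) j q := fun t q hq =>
    (Legal.perp2_sq (ga t q hq).ne' _).symm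
  have hg3 := (hM.bend.mul hM.area).congr e3
  obtain ⟨Tb, hB, hB2⟩ := ((hd1 _ hx1).gram3_exp (hd1 _ hy1) hd2v).rel
    ((old hg3).mono zero_le_one (fun t q hq => by
        rw [e3 t _ (mem t q hq)]
        exact mul_nonneg (ip_self_nonneg _) (ga t _ (mem t q hq)).le) fun t q hq => by
      rw [one_mul, e3 t _ (mem t q hq)]) (q := 8 + 2 * j)
    (fun t q hq => by
      rw [e3 t _ (mem t q hq), show 8 + 2 * j = 4 + j + (4 + j) by ring, pow_add, mul_mul_mul_comm]
      exact one_le_mul_of_one_le_of_one_le (hM.bend_lo t _ (mem t q hq))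
        (hM.area_lo t _ (mem t q hq))) (by omega)
  set T' := max (max T₁ 4) (max Ta Tb)
  have u1 : T₁ ≤ T' := (le_max_left _ _).trans (le_max_left _ _)
  have sa : ∀ t, (scQ C C2 N' b T' V hV).S t ⊆ (above σ Kf Ta).S t := fun t q hq =>
    ⟨((le_max_left Ta Tb).trans (le_max_right (max T₁ 4) _)).trans hq.1.1, scQ_subset u1 t hq⟩
  have sb : ∀ t, (scQ C C2 N' b T' V hV).S t ⊆ (above σ Kf Tb).S t := fun t q hq =>
    ⟨((le_max_right Ta Tb).trans (le_max_right (max T₁ 4) _)).trans hq.1.1, scQ_subset u1 t hq⟩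
  have hA' : Cost (scQ C C2 N' b T' V hV) (fun t => areaAt N t.1 (x t) (j + 1))
      fun t => areaAt N t.1 (x t) (j + 1) := hA.rescale _ (fun _ => le_rfl) sa
  have key : ∀ t, ∀ q ∈ (scQ C C2 N' b T' V hV).S t,
      areaAt N t.1 (x t) j (trunc j q) / 2 ≤ areaAt N t.1 (x t) (j + 1) q ∧
      0 < areaAt N t.1 (x t) (j + 1) q ∧
      bendAt N t.1 (x t) (j + 1) q =
        gram3 (d1At N t.1 (x t) (j + 1) (pt 1 0) q) (d1At N t.1 (x t) (j + 1) (pt 0 1) q)
          (d2At N t.1 (x t) (j + 1) (pt 0 1) (pt 0 1) q) *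
          (areaAt N t.1 (x t) (j + 1) q)⁻¹ ∧
      bendAt N t.1 (x t) j (trunc j q) / 4 ≤ bendAt N t.1 (x t) (j + 1) q := by
    intro t q hq
    obtain ⟨a1, a2⟩ := hA2 t q (sa t hq)
    obtain ⟨b1, -⟩ := hB2 t q (sb t hq)
    have hq' := mem t q (scQ_subset u1 t hq)
    have g := ga t _ hq'
    have h2' : gram2 (d1At N t.1 (x t) j (pt 1 0) (trunc j q))
        (d1At N t.1 (x t) j (pt 0 1) (trunc j q)) = areaAt N t.1 (x t) j (trunc j q) := rfl
    rw [h2'] at a1 a2
    rw [e3 t _ hq'] at b1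
    have hg : 0 < areaAt N t.1 (x t) (j + 1) q :=
      lt_of_lt_of_le (half_pos g) a1
    have eb : bendAt N t.1 (x t) (j + 1) q * areaAt N t.1 (x t) (j + 1) q =
        gram3 (d1At N t.1 (x t) (j + 1) (pt 1 0) q) (d1At N t.1 (x t) (j + 1) (pt 0 1) q)
          (d2At N t.1 (x t) (j + 1) (pt 0 1) (pt 0 1) q) := Legal.perp2_sq hg.ne' _
    refine ⟨a1, hg, by rw [← eb, mul_inv_cancel_right₀ hg.ne'], ?_⟩
    refine le_of_mul_le_mul_right ?_ hg
    rw [eb]
    have hb0 : 0 ≤ bendAt N t.1 (x t) j (trunc j q) := ip_self_nonneg _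
    calc bendAt N t.1 (x t) j (trunc j q) / 4 * areaAt N t.1 (x t) (j + 1) q
        ≤ bendAt N t.1 (x t) j (trunc j q) / 4 * (2 * areaAt N t.1 (x t) j (trunc j q)) :=
          mul_le_mul_of_nonneg_left a2 (by positivity)
      _ = bendAt N t.1 (x t) j (trunc j q) * areaAt N t.1 (x t) j (trunc j q) / 2 := by ring
      _ ≤ _ := b1
  have h4 : ∀ t, ∀ q ∈ (scQ C C2 N' b T' V hV).S t, (4 : ℝ) ≤ Kf t := fun t q hq =>
    ((le_max_right T₁ 4).trans (le_max_left _ _)).trans hq.1.1
  have up : ∀ {a : ℕ} {f : Fam C C2 → Ph × G → V4}, Cost σ (fun t _ => Kf t ^ a) f →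
      Cost (scQ C C2 N' b T' V hV) (fun t _ => Kf t ^ a) f := fun h => cost_scQ h le_rfl u1
  have hm1 : mExp j ≤ mExp (j + 1) := Lev.mExp_mono (by omega)
  have close : ∀ {f g : Fam C C2 → Ph × G → V4} {h₀ : Fam C C2 → R2 → V4},
      Cost σ (fun t _ => (Kf t ^ tinyR)⁻¹) (fun t q => f t q - g t (trunc j q)) →
      Cost (scQ C C2 N' b T V hV) (fun t _ => (Kf t ^ (4 * bExp))⁻¹)
        (fun t q => g t q - h₀ t q.1.1) →
      Cost (scQ C C2 N' b T' V hV) (fun t _ => (Kf t ^ (4 * bExp))⁻¹)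
        fun t q => f t q - h₀ t q.1.1 := fun {f g h₀} hd hc => by
    refine (cost_scQ ((hd.mono zero_le_one
      (fun t _ _ => inv_nonneg.2 (pow_nonneg (Kf_pos t).le _)) fun t q _ => ?_).add (old hc))
      le_rfl u1).congr fun t q _ => ?_
    · rw [one_mul]
      exact inv_anti₀ (pow_pos (Kf_pos t) _) (pow_le_pow_right₀ (one_le_Kf t) hR)
    · simp only [show (trunc j q).1.1 = q.1.1 from rfl]
      abel
  refine ⟨T', hT₁.trans u1, ⟨⟨fun t => ?_, fun a ha => up ?_, fun a ha a' ha' => up ?_,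
    fun a ha => up ?_, ?_, hA', fun t q hq => ?_, fun t q hq => ?_, ?_, fun h => ?_,
    fun _ a ha => close (h1 a) (hM.close₁ (by omega) a ha),
    fun _ a ha a' ha' => close (h2 a a') (hM.close₂ (by omega) a ha a' ha')⟩, ?_, fun h => ?_⟩⟩
  · refine (((cost_scQ hm le_rfl u1).smooth t).add ((hM.smooth t).comp
      (contDiff_trunc j).contDiffOn fun q hq => mem t q (scQ_subset u1 t hq))).congr fun q _ => ?_
    simp
  · exact grow hm1 (old (hM.d1 a ha)) (h1 a)
  · exact grow (show 2 * mExp j ≤ 2 * mExp (j + 1) by omega) (old (hM.d2 a ha a' ha')) (h2 a a')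
  · exact grow (le_of_eq (hm9.trans hm9'.symm)) (old (hM.d1s a ha)) (h1 a)
  · refine (up hd2v.fst).mono zero_le_one (fun t q _ => ?_) fun t q _ => ?_
    · rw [hbw (j + 1) (by omega), mul_one]; exact pow_nonneg (Kf_pos t).le _
    · rw [hbw (j + 1) (by omega), mul_one, hm9', one_mul]
  · obtain ⟨a1, a2, -⟩ := key t q hq
    have h := hM.area_lo t _ (mem t q (scQ_subset u1 t hq))
    have := h4 t q hq
    rw [show 4 + (j + 1) = 4 + j + 1 by ring, pow_succ]
    nlinarith [mul_le_mul_of_nonneg_left a1 (pow_nonneg (Kf_pos t).le (4 + j))]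
  · obtain ⟨-, -, -, a1⟩ := key t q hq
    have h := hM.bend_lo t _ (mem t q (scQ_subset u1 t hq))
    have := h4 t q hq
    rw [show 4 + (j + 1) = 4 + j + 1 by ring, pow_succ]
    nlinarith [mul_le_mul_of_nonneg_left a1 (pow_nonneg (Kf_pos t).le (4 + j))]
  · refine (cost_scQ (old hM.rest) le_rfl u1).congr fun t q _ => ?_
    show restAt N t.1 (x t) j (trunc j q) + _ = _
    have hf : isFree j = false := by simp [isFree]; omega
    simp [hf]
  · omega
  · refine (((hB.rescale (scQ C C2 N' b T' V hV) (fun _ => le_rfl) sb).mul (hA'.rel_inv fun t q hq =>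
      (key t q hq).2.1)).mono zero_le_one (fun t q hq => ip_self_nonneg _) fun t q hq => ?_).congr
      fun t q hq => (key t q hq).2.2.1
    rw [one_mul]; exact le_of_eq (key t q hq).2.2.1.symm
  · omega

end Vale.Agent.P205.Stage
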