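import Vale.Agent.P205.Stage.Phases
import Vale.Agent.P205.Legal.Levels

/-!
A trio from the steps of a stage: the unknowns solve the equation of the stage up to any power of
the scale, so the map at the phases adds the cut-off tensor; where the cut-off is below a power of
the scale the map is cut back to the old one.
-/

noncomputable section

open Set Finset Filter Real
open scoped ContDiff Topology

namespace Vale.Agent.P205.Stage

open Wave (V4 ip D gram2 Scale Cost)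

/-! ### The plane -/

section plane

variable {F : Type} [NormedAddCommGroup F] [NormedSpace ℝ F]

theorem D_congr {f g : R2 → F} {z : R2} (h : f =ᶠ[𝓝 z] g) (a : R2) :
    D a f =ᶠ[𝓝 z] D a g :=
  (h.fderiv (𝕜 := ℝ)).mono fun y hy => by simp only [D, hy]

theorem D_diff {f g : R2 → F} {z : R2} (hf : DifferentiableAt ℝ f z)
    (hg : DifferentiableAt ℝ g z) (a : R2) :
    D a (fun y => f y - g y) z = D a f z - D a g z := by
  simp only [D, fderiv_fun_sub hf hg]
  rfl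

theorem met_congr {f g : R2 → V4} {z : R2} (h : f =ᶠ[𝓝 z] g) : met f =ᶠ[𝓝 z] met g := by
  filter_upwards [D_congr h (pt 1 0), D_congr h (pt 0 1)] with y h1 h2
  simp only [met, h1, h2]

theorem low_congr {f g : R2 → V4} {z : R2} (h : f =ᶠ[𝓝 z] g) :
    area f z = area g z ∧ bendSq f z = bendSq g z := by
  have h1 := (D_congr h (pt 1 0)).eq_of_nhds
  have h2 := (D_congr h (pt 0 1)).eq_of_nhds
  have h3 := (D_congr (D_congr h (pt 0 1)) (pt 0 1)).eq_of_nhds
  exact ⟨by simp only [area, h1, h2], by simp only [bendSq, sff, h1, h2, h3]⟩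

/-- The coefficients in Leibniz's rule. -/
def prodC (a b : ℕ → ℝ) (i : ℕ) : ℝ :=
  ∑ j ∈ range (i + 1), (i.choose j : ℝ) * |a j| * |b (i - j)|

theorem mul_at {Ω : Set R2} (hΩ : IsOpen Ω) {f g : R2 → ℝ} (hf : ContDiffOn ℝ ∞ f Ω)
    (hg : ContDiffOn ℝ ∞ g Ω) {z : R2} (hz : z ∈ Ω) {u v B : ℝ} (hu : 0 ≤ u) (hB : 0 ≤ B)
    {a b : ℕ → ℝ} (ha : ∀ j, ‖iteratedFDeriv ℝ j f z‖ ≤ |a j| * u * B ^ j)
    (hb : ∀ j, ‖iteratedFDeriv ℝ j g z‖ ≤ |b j| * v * B ^ j) (i : ℕ) :
    ‖iteratedFDeriv ℝ i (fun y => f y * g y) z‖ ≤ prodC a b i * (u * v) * B ^ i := by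
  set L := ContinuousLinearMap.mul ℝ ℝ
  have key := L.norm_iteratedFDerivWithin_le_of_bilinear hf hg hΩ.uniqueDiffOn hz
    (n := i) (by exact WithTop.coe_le_coe.2 le_top)
  simp only [iteratedFDerivWithin_of_isOpen _ hΩ hz] at key
  refine key.trans ((mul_le_mul (ContinuousLinearMap.opNorm_mul_le ℝ ℝ) (sum_le_sum
    (g := fun j => (i.choose j : ℝ) * (|a j| * u * B ^ j) * (|b (i - j)| * v * B ^ (i - j)))
    fun j _ => mul_le_mul (mul_le_mul_of_nonneg_left (ha j) (Nat.cast_nonneg _)) (hb _)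
      (norm_nonneg _) (by positivity)) (sum_nonneg fun j _ => by positivity)
    zero_le_one).trans (le_of_eq ?_))
  rw [one_mul, prodC, Finset.sum_mul, Finset.sum_mul]
  refine sum_congr rfl fun j hj => ?_
  have e : B ^ j * B ^ (i - j) = B ^ i := by
    rw [← pow_add, Nat.add_sub_cancel' (Nat.lt_succ_iff.1 (Finset.mem_range.1 hj))]
  rw [← e]
  ring

theorem smul_at {Ω : Set R2} (hΩ : IsOpen Ω) {f : R2 → ℝ} (hf : ContDiffOn ℝ ∞ f Ω) {z : R2}
    (hz : z ∈ Ω) (c : F) {i : ℕ} {m : ℝ} (hm : ‖iteratedFDeriv ℝ i f z‖ ≤ m) :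
    ‖iteratedFDeriv ℝ i (fun y => f y • c) z‖ ≤ ‖c‖ * m := by
  have h := (ContinuousLinearMap.toSpanSingleton ℝ c).norm_iteratedFDeriv_comp_left
    ((hf.contDiffAt (hΩ.mem_nhds hz)).of_le (m := i) (by exact WithTop.coe_le_coe.2 le_top)) le_rfl
  rw [ContinuousLinearMap.norm_toSpanSingleton] at h
  exact h.trans (mul_le_mul_of_nonneg_left hm (norm_nonneg c))

end plane

/-! ### Small changes of a map -/

/-- A change below `K ^ -40` keeps the area and the bend from below. -/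
theorem near_low {K : ℝ} (hK : 1000 ≤ K) {p q w p' q' w' : V4} (hp : ‖p‖ ≤ K ^ 3)
    (hq : ‖q‖ ≤ K ^ 3) (hw : ‖w‖ ≤ K ^ 3) (dp : ‖p' - p‖ ≤ (K ^ 40)⁻¹)
    (dq : ‖q' - q‖ ≤ (K ^ 40)⁻¹) (dw : ‖w' - w‖ ≤ (K ^ 40)⁻¹)
    (hg : 1 ≤ K ^ 2 * gram2 p q) (hb : 1 ≤ K ^ 2 * ip (perp2 p q w) (perp2 p q w)) :
    1 ≤ 4 * K ^ 2 * gram2 p' q' ∧ 1 ≤ 4 * K ^ 2 * ip (perp2 p' q' w') (perp2 p' q' w') := by
  obtain ⟨ε, hε⟩ : ∃ ε, ε = (K ^ 40)⁻¹ := ⟨_, rfl⟩
  rw [← hε] at dp dq dw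
  have hK1 : 1 ≤ K := le_trans (by norm_num) hK
  have hK0 : 0 < K := zero_lt_one.trans_le hK1
  have h3 : 1 ≤ K ^ 3 := one_le_pow₀ hK1
  have he0 : 0 < ε := by rw [hε]; positivity
  have he1 : ε * K ^ 40 = 1 := by rw [hε]; exact inv_mul_cancel₀ (by positivity)
  have he : ε ≤ 1 := by rw [hε]; exact inv_le_one_of_one_le₀ (one_le_pow₀ hK1)
  have big : ∀ {a a' : V4}, ‖a‖ ≤ K ^ 3 → ‖a' - a‖ ≤ ε → ‖a'‖ ≤ 2 * K ^ 3 := fun {a a'} ha hd => by
    have := norm_le_norm_add_norm_sub' a' a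
    linarith [norm_sub_rev a' a]
  have hip : ∀ a b : V4, |ip a b| ≤ 4 * (‖a‖ * ‖b‖) := fun a b => by
    refine (Finset.abs_sum_le_sum_abs _ _).trans ?_
    calc ∑ i, |a i * b i| ≤ ∑ _i : Fin 4, ‖a‖ * ‖b‖ := sum_le_sum fun i _ => by
          rw [abs_mul]
          exact mul_le_mul (norm_le_pi_norm a i) (norm_le_pi_norm b i) (abs_nonneg _)
            (norm_nonneg _)
      _ = 4 * (‖a‖ * ‖b‖) := by simp
  have hlen : ∀ a : V4, Legal.len a ≤ 2 * ‖a‖ := fun a => by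
    refine Real.sqrt_le_iff.2 ⟨by positivity, ?_⟩
    have := (abs_le.1 (hip a a)).2
    nlinarith
  have dip : ∀ {a a' b b' : V4}, ‖a‖ ≤ K ^ 3 → ‖b‖ ≤ K ^ 3 → ‖a' - a‖ ≤ ε → ‖b' - b‖ ≤ ε →
      |ip a' b' - ip a b| ≤ 12 * K ^ 3 * ε := fun {a a' b b'} ha hb' da db => by
    have e : ip a' b' - ip a b = ip (a' - a) b' + ip a (b' - b) := by simp
    rw [e]
    refine (abs_add_le _ _).trans ((add_le_add (hip _ _) (hip _ _)).trans ?_)
    have i1 := mul_le_mul da (big hb' db) (norm_nonneg _) he0.le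
    have i2 := mul_le_mul ha db (norm_nonneg _) (by positivity)
    linarith
  have hgram : |gram2 p' q' - gram2 p q| ≤ 480 * K ^ 9 * ε := by
    have prd : ∀ {x x' y y' : ℝ}, |x' - x| ≤ 12 * K ^ 3 * ε → |y' - y| ≤ 12 * K ^ 3 * ε →
        |x| ≤ 4 * K ^ 6 → |y'| ≤ 16 * K ^ 6 → |x' * y' - x * y| ≤ 240 * K ^ 9 * ε :=
      fun {x x' y y'} hx hy hx0 hy0 => by
        rw [show x' * y' - x * y = (x' - x) * y' + x * (y' - y) by ring]
        refine (abs_add_le _ _).trans ?_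
        rw [abs_mul, abs_mul]
        have i1 := mul_le_mul hx hy0 (abs_nonneg _) (by positivity)
        have i2 := mul_le_mul hx0 hy (abs_nonneg _) (by positivity)
        have : 0 ≤ K ^ 9 * ε := by positivity
        nlinarith
    have s0 : ∀ {a b : V4}, ‖a‖ ≤ K ^ 3 → ‖b‖ ≤ K ^ 3 → |ip a b| ≤ 4 * K ^ 6 := fun {a b} ha hb' =>
      (hip a b).trans (by
        have := mul_le_mul ha hb' (norm_nonneg b) (by positivity)
        nlinarith)
    have s1 : ∀ {a b : V4}, ‖a‖ ≤ 2 * K ^ 3 → ‖b‖ ≤ 2 * K ^ 3 → |ip a b| ≤ 16 * K ^ 6 :=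
      fun {a b} ha hb' => (hip a b).trans (by
        have := mul_le_mul ha hb' (norm_nonneg b) (by positivity)
        nlinarith)
    have a1 := prd (dip hp hp dp dp) (dip hq hq dq dq) (s0 hp hp) (s1 (big hq dq) (big hq dq))
    have a2 := prd (dip hp hq dp dq) (dip hp hq dp dq) (s0 hp hq) (s1 (big hp dp) (big hq dq))
    have e : gram2 p' q' - gram2 p q = (ip p' p' * ip q' q' - ip p p * ip q q) -
        (ip p' q' * ip p' q' - ip p q * ip p q) := by simp only [gram2]; ring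
    rw [e]
    refine (abs_sub _ _).trans ?_
    linarith
  have hsmall : ∀ {n : ℕ}, n + 1 ≤ 40 → 1000 * K ^ n * ε ≤ 1 := fun {n} hn => by
    have h1 : 1000 * K ^ n ≤ K ^ 40 := calc
      1000 * K ^ n ≤ K * K ^ n := mul_le_mul_of_nonneg_right hK (by positivity)
      _ = K ^ (n + 1) := by ring
      _ ≤ K ^ 40 := pow_le_pow_right₀ hK1 hn
    calc 1000 * K ^ n * ε ≤ K ^ 40 * ε := mul_le_mul_of_nonneg_right h1 he0.le
      _ = 1 := by linarith
  have g0 : 0 < gram2 p q := by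
    by_contra h
    nlinarith [mul_nonpos_of_nonneg_of_nonpos (sq_nonneg K) (not_lt.1 h)]
  have g1 : 1 ≤ 2 * K ^ 2 * gram2 p' q' := by
    have h11 := hsmall (show 11 + 1 ≤ 40 by norm_num)
    have := mul_le_mul_of_nonneg_left (abs_le.1 hgram).1 (sq_nonneg K)
    nlinarith
  have g'0 : 0 < gram2 p' q' := by
    by_contra h
    nlinarith [mul_nonpos_of_nonneg_of_nonpos (sq_nonneg K) (not_lt.1 h)]
  refine ⟨by nlinarith [mul_pos (sq_pos_of_pos hK0) g'0], ?_⟩
  have hroot : 1 ≤ K ^ 2 * sqrt (gram2 p' q') := by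
    have h4 : 1 ≤ K ^ 4 * gram2 p' q' := g1.trans (mul_le_mul_of_nonneg_right
      (by nlinarith [sq_nonneg K, mul_le_mul hK hK (by norm_num) hK0.le]) g'0.le)
    have := Real.sqrt_le_sqrt h4
    rwa [Real.sqrt_one, Real.sqrt_mul (by positivity), show K ^ 4 = (K ^ 2) ^ 2 by ring,
      Real.sqrt_sq (by positivity)] at this
  have hinv : (sqrt (gram2 p' q'))⁻¹ ≤ K ^ 2 := by
    rw [inv_le_iff_one_le_mul₀ (Real.sqrt_pos.2 g'0)]
    exact hroot
  have hgap : Legal.gap p q w p' q' w' ≤ 100 * K ^ 8 * ε := by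
    unfold Legal.gap
    have l0 : Legal.len (w - w') ≤ 2 * ε := (hlen _).trans (by rw [norm_sub_rev]; linarith)
    have lw : Legal.len w' ≤ 4 * K ^ 3 := (hlen _).trans (by linarith [big hw dw])
    have lp : Legal.len p' ≤ 4 * K ^ 3 := (hlen _).trans (by linarith [big hp dp])
    have lq : Legal.len q' ≤ 4 * K ^ 3 := (hlen _).trans (by linarith [big hq dq])
    have ldp : Legal.len (p' - p) ≤ 2 * ε := (hlen _).trans (by linarith)
    have ldq : Legal.len (q' - q) ≤ 2 * ε := (hlen _).trans (by linarith)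
    have n1 := mul_le_mul lq ldp (Legal.len_nonneg _) (by positivity)
    have n2 := mul_le_mul lp ldq (Legal.len_nonneg _) (by positivity)
    have n3 := mul_le_mul lw hinv (inv_nonneg.2 (Real.sqrt_nonneg _)) (by positivity)
    rw [div_eq_mul_inv]
    refine (add_le_add l0 (mul_le_mul n3 (add_le_add n1 n2) (add_nonneg
      (mul_nonneg (Legal.len_nonneg _) (Legal.len_nonneg _))
      (mul_nonneg (Legal.len_nonneg _) (Legal.len_nonneg _))) (by positivity))).trans ?_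
    have : ε ≤ K ^ 8 * ε := le_mul_of_one_le_left he0.le (one_le_pow₀ hK1)
    nlinarith
  have h9 := hsmall (show 9 + 1 ≤ 40 by norm_num)
  have hkey := Legal.bend_close g0.ne' g'0 w w'
  have hl : 1 ≤ K * Legal.len (perp2 p q w) := by
    have := Real.sqrt_le_sqrt hb
    rwa [Real.sqrt_one, Real.sqrt_mul (by positivity), Real.sqrt_sq hK0.le] at this
  have hl' : 1 ≤ 2 * (K * Legal.len (perp2 p' q' w')) := by
    have := mul_le_mul_of_nonneg_left (hkey.trans (add_le_add le_rfl hgap)) hK0.le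
    nlinarith
  have h2 : (1 : ℝ) ≤ (2 * (K * Legal.len (perp2 p' q' w'))) ^ 2 := one_le_pow₀ hl'
  rw [mul_pow, mul_pow, Legal.len_sq] at h2
  linarith

/-! ### The map of a trio -/

variable {C : ℕ → ℝ} {C2 : ℕ → ℕ → ℝ}

/-- The cut at the power `K ^ (1 - N')` of the scale. -/
def cutOf (N' : ℕ) (t : Fam C C2) (z : R2) : ℝ :=
  Real.smoothTransition (Kf t ^ (N' - 1) * t.1.χ z - 1)

/-- The map of a trio. -/
def xOf (M N' : ℕ) (x : Fam C C2 → Ph × G0 → Unk) (t : Fam C C2) (z : R2) : V4 :=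
  t.1.Z z + (dom N' t).indicator
    (fun y => cutOf N' t y • (yAt M t.1 (x t) 12 y - t.1.Z y)) z

section map

variable {M N' : ℕ} {x : Fam C C2 → Ph × G0 → Unk} {t : Fam C C2} {z : R2}

theorem xOf_dom (hz : z ∈ dom N' t) :
    xOf M N' x t z = t.1.Z z + cutOf N' t z • (yAt M t.1 (x t) 12 z - t.1.Z z) := by
  rw [xOf, Set.indicator_of_mem hz]

theorem xOf_below (h : Kf t ^ (N' - 1) * t.1.χ z < 1) : xOf M N' x t =ᶠ[𝓝 z] t.1.Z := by
  have ho : IsOpen {y | Kf t ^ (N' - 1) * t.1.χ y < 1} :=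
    isOpen_lt (continuous_const.mul t.2.1.smoothChi.continuous) continuous_const
  filter_upwards [ho.mem_nhds h] with y hy
  rw [xOf]
  by_cases hd : y ∈ dom N' t
  · rw [Set.indicator_of_mem hd, cutOf, Real.smoothTransition.zero_of_nonpos (sub_nonpos.2 hy.le),
      zero_smul, add_zero]
  · rw [Set.indicator_of_notMem hd, add_zero]

theorem xOf_above (hz : z ∈ dom N' t) (h : 2 < Kf t ^ (N' - 1) * t.1.χ z) :
    xOf M N' x t =ᶠ[𝓝 z] yAt M t.1 (x t) 12 := by
  have ho : IsOpen {y | 2 < Kf t ^ (N' - 1) * t.1.χ y} :=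
    isOpen_lt continuous_const (continuous_const.mul t.2.1.smoothChi.continuous)
  filter_upwards [(isOpen_dom N' t).mem_nhds hz, ho.mem_nhds h] with y hy hy2
  rw [xOf_dom hy, cutOf, Real.smoothTransition.one_of_one_le (le_sub_iff_add_le.2 (by
    linarith [show (2 : ℝ) < Kf t ^ (N' - 1) * t.1.χ y from hy2])), one_smul, add_sub_cancel]

/-- Outside the chart the cut-off is below the cut. -/
theorem below_of_not_dom (hN : 1 ≤ N') (hK : 1 < Kf t) (hz : z ∈ t.1.Ω) (h : z ∉ dom N' t) :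
    Kf t ^ (N' - 1) * t.1.χ z < 1 := by
  have hχ : t.1.χ z ≤ (Kf t ^ N')⁻¹ := not_lt.1 fun h1 => h ⟨hz, h1⟩
  have h0 : 0 < Kf t ^ (N' - 1) := pow_pos (Kf_pos t) _
  have e : Kf t ^ (N' - 1) * (Kf t ^ N')⁻¹ = (Kf t)⁻¹ := by
    rw [show Kf t ^ N' = Kf t ^ (N' - 1) * Kf t by rw [← pow_succ, Nat.sub_add_cancel hN],
      mul_inv, ← mul_assoc, mul_inv_cancel₀ h0.ne', one_mul]
  exact (mul_le_mul_of_nonneg_left hχ h0.le).trans_lt (e ▸ inv_lt_one_of_one_lt₀ hK)

/-- Below twice the cut the cut-off is a power of the scale. -/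
theorem le_cut (h : Kf t ^ (N' - 1) * t.1.χ z ≤ 2) : t.1.χ z ≤ 2 * (Kf t ^ (N' - 1))⁻¹ := by
  rw [← div_eq_mul_inv, le_div_iff₀ (pow_pos (Kf_pos t) _), mul_comm]
  exact h

end map

/-- The cut costs nothing at the cost of the phases. -/
theorem cutOf_cost {N' : ℕ} (T : ℝ) :
    Cost (scY C C2 N' T) (fun _ _ => 1) (cutOf (C := C) (C2 := C2) N') := by
  refine (flatFam C C2 N' T).cut N' (fun t => Kf t ^ (N' - 1))
    (fun t => one_le_pow_K t _) (scY C C2 N' T) (fun t => subset_rfl) fun t => ?_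
  have hK := one_le_Kf t
  have h1 : (Kf t ^ (N' - 1)) ^ (1 / ((N' : ℝ) + 1)) ≤ Kf t := by
    rw [← Real.rpow_natCast, ← Real.rpow_mul (zero_le_one.trans hK)]
    calc Kf t ^ (((N' - 1 : ℕ) : ℝ) * (1 / ((N' : ℝ) + 1))) ≤ Kf t ^ (1 : ℝ) :=
          Real.rpow_le_rpow_of_exponent_le hK (by
            rw [mul_one_div, div_le_one (by positivity)]
            have : ((N' - 1 : ℕ) : ℝ) ≤ N' := by exact_mod_cast Nat.sub_le N' 1
            linarith)
      _ = Kf t := Real.rpow_one _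
  show Kf t ^ 1 * _ ≤ 8 * Kf t ^ gammaT
  refine (mul_le_mul_of_nonneg_left h1 (zero_le_one.trans (one_le_pow_K t 1))).trans ?_
  rw [← pow_succ]
  exact (pow_le_pow_right₀ hK (show 1 + 1 ≤ gammaT by unfold gammaT bExp; omega)).trans
    (le_mul_of_one_le_left (zero_le_one.trans (one_le_pow_K t _)) (by norm_num))

/-- The map before the stage is bounded in the calculus. -/
theorem Z_bd (N' : ℕ) (T : ℝ) :
    Cost (scY C C2 N' T) (fun _ _ => 1) fun (t : Fam C C2) => t.1.Z := by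
  refine to_scY (T := T) (b := 1) ?_ (by unfold gammaT bExp; omega) le_rfl
  refine Cost.of_bd (S := fun t => t.1.S) (fun t => t.2.1.smoothZ.mono fun z hz => hz.2.1)
    (fun t z hz => dom_subset N' t hz.2) C fun t i z hz => ?_
  simpa [scZ, above, sc, Kf] using t.2.1.bdZ i z hz

/-- The cut-off tensor is the cut-off times powers of the scale. -/
theorem trio_at (C : ℕ → ℝ) (C2 : ℕ → ℕ → ℝ) (i : ℕ) :
    ∃ c, 0 ≤ c ∧ ∀ t : Fam C C2, ∀ z ∈ t.1.S,
      ‖iteratedFDeriv ℝ i (fun y => t.1.χ y ^ 2 • trioForm t.1.β y) z‖ ≤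
        c * t.1.χ z * Kf t ^ i := by
  set a : ℕ → ℝ := fun j => C2 j 1
  set cc : Fin 3 → Sym2 := ![sqForm 1 0, sqForm 1 1, sqForm 1 (-1)]
  have hp : ∀ (a b : ℕ → ℝ) j, 0 ≤ prodC a b j := fun a b j =>
    sum_nonneg fun l _ => by positivity
  refine ⟨∑ l, ‖cc l‖ * prodC (prodC a a) C i,
    sum_nonneg fun l _ => mul_nonneg (norm_nonneg _) (hp _ _ i), fun t z hz => ?_⟩
  have hΩ := t.2.1.open_
  have hzΩ := t.2.1.sub hz
  have hK : 0 ≤ Kf t := (Kf_pos t).le
  obtain ⟨hχ, hf⟩ := t.2.1.flat z hz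
  have h1 : ∀ j, ‖iteratedFDeriv ℝ j t.1.χ z‖ ≤ |a j| * sqrt (t.1.χ z) * Kf t ^ j := fun j => by
    refine le_of_pow_le_pow_left₀ two_ne_zero (by positivity) ((hf j 1).trans (le_of_eq ?_))
    rw [mul_pow, mul_pow, mul_pow, sq_abs, Real.sq_sqrt hχ, pow_one]
    simp only [a, Kf]
    ring
  have hc : ContDiffOn ℝ ∞ t.1.χ t.1.Ω := t.2.1.smoothChi.contDiffOn
  have h2 : ∀ j, ‖iteratedFDeriv ℝ j (fun y => t.1.χ y * t.1.χ y) z‖ ≤
      |prodC a a j| * (t.1.χ z) * Kf t ^ j := fun j => by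
    refine (mul_at hΩ hc hc hzΩ (Real.sqrt_nonneg _) hK h1 h1 j).trans (le_of_eq ?_)
    rw [Real.mul_self_sqrt hχ, abs_of_nonneg (hp a a j)]
  have hcc : ContDiffOn ℝ ∞ (fun y => t.1.χ y * t.1.χ y) t.1.Ω := hc.mul hc
  have h3 : ∀ l, ‖iteratedFDeriv ℝ i
      (fun y => (t.1.χ y * t.1.χ y * t.1.β l y) • cc l) z‖ ≤
      ‖cc l‖ * (prodC (prodC a a) C i * t.1.χ z * Kf t ^ i) := fun l => by
    refine smul_at hΩ (hcc.mul (t.2.1.smoothBeta l)) hzΩ (cc l) ?_
    refine (mul_at hΩ hcc (t.2.1.smoothBeta l) hzΩ (v := 1) hχ hK h2 (fun j => ?_) i).trans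
      (le_of_eq (by rw [mul_one]))
    rw [mul_one]
    exact (t.2.1.bdBeta l j z hz).trans
      (mul_le_mul_of_nonneg_right (le_abs_self _) (pow_nonneg hK j))
  have hs : ∀ l, ContDiffAt ℝ i (fun y => (t.1.χ y * t.1.χ y * t.1.β l y) • cc l) z := fun l =>
    (((hcc.mul (t.2.1.smoothBeta l)).smul contDiffOn_const).contDiffAt (hΩ.mem_nhds hzΩ)).of_le
      (by exact WithTop.coe_le_coe.2 le_top)
  have e : (fun y => t.1.χ y ^ 2 • trioForm t.1.β y) = fun y =>
      (t.1.χ y * t.1.χ y * t.1.β 0 y) • cc 0 + (t.1.χ y * t.1.χ y * t.1.β 1 y) • cc 1 +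
        (t.1.χ y * t.1.χ y * t.1.β 2 y) • cc 2 := by
    funext y
    simp [trioForm, cc, smul_add, smul_smul, pow_two]
  rw [e, fun_iteratedFDeriv_add_apply ((hs 0).add (hs 1)) (hs 2),
    fun_iteratedFDeriv_add_apply (hs 0) (hs 1), Fin.sum_univ_three]
  refine ((norm_add_le _ _).trans (add_le_add (norm_add_le _ _) le_rfl)).trans ?_
  linarith [h3 0, h3 1, h3 2]

/-- What the steps give at the phases, from one threshold of the scale on. -/
structure Phased (N N' : ℕ) (T : ℝ) (x : Fam C C2 → Ph × G0 → Unk) : Prop where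
  big : ∀ {t : Fam C C2}, T ≤ Kf t → 2000 ≤ Kf t ∧ |C 0| ≤ Kf t
  move : Cost (scY C C2 N' T) (fun t => t.1.χ)
    fun t z => yAt (N + 3) t.1 (x t) 12 z - t.1.Z z
  metric : Cost (scY C C2 N' T) (fun t _ => (Kf t ^ N)⁻¹) fun t z =>
    met (yAt (N + 3) t.1 (x t) 12) z - met t.1.Z z - t.1.χ z ^ 2 • trioForm t.1.β z
  low : ∀ t, ∀ z ∈ (scY C C2 N' T).S t, 1 ≤ Kf t ^ 20 * area (yAt (N + 3) t.1 (x t) 12) z ∧
    1 ≤ Kf t ^ 20 * bendSq (yAt (N + 3) t.1 (x t) 12) z

theorem exists_phased (hR : ReadyStep) (hSo : SolveStep) (hSi : SizeStep) (hL : LegalStep)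
    (C : ℕ → ℝ) (C2 : ℕ → ℕ → ℝ) (N N' : ℕ) :
    ∃ (T : ℝ) (x : Fam C C2 → Ph × G0 → Unk), Phased N N' T x := by
  obtain ⟨T0, x, hx0, hres0⟩ := hSo C C2 (N + 3) N' N
  obtain ⟨T1, h01, hok⟩ := hR C C2 (N + 3) N' sRun le_rfl G0 univ isOpen_univ T0 x hx0
  have hx : Small N' bExp sRun T1 univ isOpen_univ x :=
    ⟨cost_scQ hx0.cost le_rfl h01, fun t ht => hx0.adm t (h01.trans ht)⟩
  have hb : bMin ≤ bExp := by norm_num [bMin, bExp]
  obtain ⟨T3, h13, hsm, hd1, hlo⟩ := hL C C2 (N + 3) N' bExp sRun hb le_rfl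
    (by norm_num [sMin, sRun, bExp]) G0 univ isOpen_univ T1 x hx (hok 11 le_rfl)
  obtain ⟨T4, h14, -, hγ⟩ := gam_cost (N + 3) (show 1 ≤ bExp by norm_num [bExp]) hx
  obtain ⟨R, hR0, hR11⟩ := (hok 11 le_rfl).rest.abs_le
  have hstep : ∀ j : Fin 12, ∃ T', T1 ≤ T' ∧
      Cost (scY C C2 N' T') (fun t => t.1.χ)
        (fun t z => yAt (N + 3) t.1 (x t) ((j : ℕ) + 1) z - yAt (N + 3) t.1 (x t) j z) ∧
      Cost (scY C C2 N' T') (fun t _ => (Kf t ^ N)⁻¹)
        fun t z => restErr (N + 3) t.1 (x t) j (lv (N + 3) t.1 ((j : ℕ) + 1) z) := fun j =>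
    move_rest hSi hx j.2 (hok j (by omega))
  choose Tj hTj hmv hrs using hstep
  obtain ⟨T, hT⟩ : ∃ T, T = max (max (max T1 T3) (max T4 (64 * R + 1)))
      (max (∑ j, |Tj j|) (2000 + |C 0|)) := ⟨_, rfl⟩
  have a1 : T1 ≤ T := hT ▸ le_max_of_le_left (le_max_of_le_left (le_max_left _ _))
  have a3 : T3 ≤ T := hT ▸ le_max_of_le_left (le_max_of_le_left (le_max_right _ _))
  have a4 : T4 ≤ T := hT ▸ le_max_of_le_left (le_max_of_le_right (le_max_left _ _))
  have aR : 64 * R + 1 ≤ T := hT ▸ le_max_of_le_left (le_max_of_le_right (le_max_right _ _))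
  have aj : ∀ j, Tj j ≤ T := fun j => hT ▸ le_max_of_le_right (le_max_of_le_left
    ((le_abs_self _).trans (single_le_sum (f := fun j => |Tj j|) (fun l _ => abs_nonneg _)
      (mem_univ j))))
  have aC : 2000 + |C 0| ≤ T := hT ▸ le_max_of_le_right (le_max_right _ _)
  obtain ⟨hdE, hdG⟩ := defect_cost (T := T) (cost_scQ hres0 le_rfl (h01.trans a1))
  have hmove := move_all (T := T) fun j hj => scY_mono (hmv ⟨j, hj⟩) (aj ⟨j, hj⟩)
  refine ⟨T, x, fun {t} ht => ⟨?_, ?_⟩, hmove, ?_, fun t z hz => ?_⟩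
  · linarith [abs_nonneg (C 0)]
  · linarith
  · have hw : ∀ t : Fam C C2, ∀ z ∈ (scY C C2 N' T).S t, 0 ≤ (Kf t ^ N)⁻¹ :=
      fun t _ _ => inv_nonneg.2 (zero_le_one.trans (one_le_pow_K t N))
    refine (((Cost.sum univ hw fun j _ => hdE j).add hdG).add
      (Cost.sum (range 12) hw
        (f := fun j t z => restErr (N + 3) t.1 (x t) j (lv (N + 3) t.1 (j + 1) z))
        fun j hj => scY_mono (hrs ⟨j, Finset.mem_range.1 hj⟩) (aj _))).congr fun t z hz => ?_
    refine met_yAt hz ((hsm t).mono (scQ_subset a3 t))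
      (fun i => hγ t _ (scQ_subset a4 t (lv_mem (b := bExp) (N + 3) 12 hz)) i) ?_
    refine (hR11 t _ (scQ_subset a1 t (lv_mem (b := bExp) (N + 3) 11 hz))).trans ?_
    rw [show (lv (N + 3) t.1 11 z).1.1 = z from rfl]
    have hb1 : 64 * R ≤ Kf t ^ bExp := by
      have := le_self_pow₀ (one_le_Kf t) (show bExp ≠ 0 by norm_num [bExp])
      linarith [hz.1]
    have hKb : 0 < Kf t ^ bExp := pow_pos (Kf_pos t) _
    calc R * (t.1.χ z ^ 2 * (Kf t ^ bExp)⁻¹) = t.1.χ z ^ 2 * (R / Kf t ^ bExp) := by ring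
      _ ≤ t.1.χ z ^ 2 * (1 / 64) := by
          refine mul_le_mul_of_nonneg_left ?_ (sq_nonneg _)
          rw [div_le_div_iff₀ hKb (by norm_num)]
          linarith
      _ = _ := by ring
  · set M := N + 3
    have hq : lv M t.1 12 z ∈ (scQ C C2 N' bExp T3 (univ : Set G0) isOpen_univ).S t :=
      scQ_subset a3 t (lv_mem (b := bExp) M 12 hz)
    have ho := ((scQ C C2 N' bExp T3 (univ : Set G0) isOpen_univ).isOpen t).mem_nhds hq
    have hd := ((hsm t).differentiableOn (by simp)).differentiableAt ho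
    have e1 := fun a => D_lv (g := yAt M t.1 (x t) 12) hd EventuallyEq.rfl a
    have hev : D (pt 0 1) (yAt M t.1 (x t) 12) =ᶠ[𝓝 z]
        fun y => d1At M t.1 (x t) 12 (pt 0 1) (lv M t.1 12 y) := by
      filter_upwards [((scY C C2 N' T).isOpen t).mem_nhds hz] with y hy
      exact D_lv (((hsm t).differentiableOn (by simp)).differentiableAt
        (((scQ C C2 N' bExp T3 (univ : Set G0) isOpen_univ).isOpen t).mem_nhds
          (scQ_subset a3 t (lv_mem (b := bExp) M 12 hy)))) EventuallyEq.rfl _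
    have e2 := D_lv (((((hd1 _ (Or.inr rfl)).smooth t)).differentiableOn (by simp)).differentiableAt
      ho) hev (pt 0 1)
    refine ⟨?_, ?_⟩
    · simp only [area, e1]
      exact (hlo t _ hq).1
    · simp only [bendSq, sff, e1, e2]
      exact (hlo t _ hq).2

/-- **A trio.** -/
theorem trio_of (hR : ReadyStep) (hSo : SolveStep) (hSi : SizeStep) (hL : LegalStep) :
    TrioProp := by
  refine ⟨2 * gammaT + 20, fun N C C2 => ?_⟩
  obtain ⟨g, hg⟩ : ∃ g, g = gammaT := ⟨_, rfl⟩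
  rw [← hg]
  obtain ⟨N', hN'⟩ : ∃ N', N' = N + 2 * g + 100 := ⟨_, rfl⟩
  obtain ⟨T, x, hP⟩ := exists_phased hR hSo hSi hL C C2 N N'
  set σ := scY C C2 N' T with hσ
  set X : Fam C C2 → R2 → V4 := xOf (N + 3) N' x with hXdef
  have hB : ∀ t : Fam C C2, σ.B t = 8 * Kf t ^ g := fun t => by rw [hg]; rfl
  have hB0 : ∀ t : Fam C C2, 0 ≤ σ.B t := fun t => zero_le_one.trans (σ.one_le t)
  have hχ0 : ∀ t : Fam C C2, ∀ z ∈ σ.S t, 0 ≤ t.1.χ z := fun t z hz => (chi_pos hz.2).le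
  -- the costs on the chart
  have hXZ : Cost σ (fun t => t.1.χ) fun t z => X t z - t.1.Z z :=
    (((cutOf_cost T).smul hP.move).mono zero_le_one hχ0 fun t z _ =>
      le_of_eq rfl).congr fun t z hz => by
        simp only [hXdef, xOf_dom hz.2, add_sub_cancel_left]
  have hZ := Z_bd (C := C) (C2 := C2) N' T
  have hX : Cost σ (fun _ _ => 1) X :=
    ((hXZ.mono (abs_nonneg (C 0)) (fun _ _ _ => zero_le_one) fun t z _ => by
      rw [mul_one]; exact (t.2.1.chi_le z).trans (le_abs_self _)).add hZ).congr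
        fun t z _ => (sub_add_cancel _ _).symm
  have hdiff : ∀ t : Fam C C2, ∀ z ∈ σ.S t,
      DifferentiableAt ℝ (X t) z ∧ DifferentiableAt ℝ t.1.Z z := fun t z hz =>
    ⟨((hX.smooth t).differentiableOn (by simp)).differentiableAt ((σ.isOpen t).mem_nhds hz),
      ((hZ.smooth t).differentiableOn (by simp)).differentiableAt ((σ.isOpen t).mem_nhds hz)⟩
  have hD : ∀ a, Cost σ (fun t z => t.1.χ z * σ.B t)
      fun t z => D a (X t) z - D a t.1.Z z := fun a =>
    (hXZ.deriv_dir a).congr fun t z hz => (D_diff (hdiff t z hz).1 (hdiff t z hz).2 a).symm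
  have hDD : ∀ a b, Cost σ (fun t z => t.1.χ z * σ.B t * σ.B t)
      fun t z => D a (D b (X t)) z - D a (D b t.1.Z) z := fun a b => by
    refine ((hD b).deriv_dir a).congr fun t z hz => (D_diff ?_ ?_ a).symm
    · exact (((hX.deriv_dir b).smooth t).differentiableOn (by simp)).differentiableAt
        ((σ.isOpen t).mem_nhds hz)
    · exact (((hZ.deriv_dir b).smooth t).differentiableOn (by simp)).differentiableAt
        ((σ.isOpen t).mem_nhds hz)
  have hw2 : ∀ t : Fam C C2, ∀ z ∈ σ.S t, 0 ≤ t.1.χ z * σ.B t * σ.B t := fun t z hz =>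
    mul_nonneg (mul_nonneg (hχ0 t z hz) (hB0 t)) (hB0 t)
  have hip : ∀ a b, Cost σ (fun t z => t.1.χ z * σ.B t * σ.B t)
      fun t z => ip (D a (X t) z) (D b (X t) z) - ip (D a t.1.Z z) (D b t.1.Z z) := fun a b =>
    ((((hD a).ip (hX.deriv_dir b)).mono zero_le_one hw2 fun t z _ => le_of_eq (by ring)).add
      (((hZ.deriv_dir a).ip (hD b)).mono zero_le_one hw2 fun t z _ => le_of_eq (by ring))).congr
        fun t z _ => by simp
  have hM : Cost σ (fun t z => t.1.χ z * σ.B t * σ.B t)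
      fun t z => met (X t) z - met t.1.Z z := by
    refine Cost.pi hw2 fun i => ?_
    fin_cases i
    · exact (hip (pt 1 0) (pt 1 0)).congr fun t z _ => by simp [met]
    · exact (hip (pt 1 0) (pt 0 1)).congr fun t z _ => by simp [met]
    · exact (hip (pt 0 1) (pt 0 1)).congr fun t z _ => by simp [met]
  -- the constants
  choose cX hcX0 hcX using hX.bound
  choose cD hcD0 hcD using hXZ.bound
  choose cM hcM0 hcM using hM.bound
  choose cE hcE0 hcE using hP.metric.bound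
  choose cT' hcT0 hcT using fun i => trio_at C C2 i
  choose c1 hc10 hc1 using fun a => (hD a).bound 0
  obtain ⟨c2, hc20, hc2⟩ := (hDD (pt 0 1) (pt 0 1)).bound 0
  choose d1 hd10 hd1 using fun a => (Z_cost (C := C) (C2 := C2) N' T a 0).1.bound 0
  obtain ⟨d2, hd20, hd2⟩ := (Z_cost (C := C) (C2 := C2) N' T (pt 0 1) (pt 0 1)).2.bound 0
  obtain ⟨A, hA⟩ : ∃ A, A = (cD 0 + cD 1 + cD 2) * 64 * sqrt |C 0| + |C 0| + 4 := ⟨_, rfl⟩
  have hA4 : 4 ≤ A := by
    rw [hA]
    have h1 := hcD0 0; have h2 := hcD0 1; have h3 := hcD0 2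
    have : 0 ≤ (cD 0 + cD 1 + cD 2) * 64 * sqrt |C 0| := by positivity
    linarith [abs_nonneg (C 0)]
  obtain ⟨C', hC'⟩ : ∃ C' : ℕ → ℝ, C' = fun i => cX i * 8 ^ i + |C i| + cE i * 8 ^ i +
      128 * cM i * 8 ^ i + 2 * cT' i + A := ⟨_, rfl⟩
  have hp8 : ∀ {c : ℝ}, 0 ≤ c → ∀ i : ℕ, 0 ≤ c * 8 ^ i := fun hc i => by positivity
  have hC'i : ∀ i, cX i * 8 ^ i ≤ C' i ∧ |C i| ≤ C' i ∧ cE i * 8 ^ i ≤ C' i ∧
      128 * cM i * 8 ^ i + 2 * cT' i ≤ C' i ∧ A ≤ C' i := fun i => by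
    have := hp8 (hcX0 i) i; have := hp8 (hcE0 i) i; have := hp8 (hcM0 i) i
    have := hcT0 i; have := abs_nonneg (C i)
    simp only [hC']
    refine ⟨?_, ?_, ?_, ?_, ?_⟩ <;> linarith
  obtain ⟨K0, hK0⟩ : ∃ K0, K0 = max T
      (128 * (c1 (pt 1 0) + c1 (pt 0 1) + c2) + d1 (pt 1 0) + d1 (pt 0 1) + d2 + 2000) := ⟨_, rfl⟩
  refine ⟨C', K0, fun K hK Ω S Z χ β hdata => ?_⟩
  have hsum : 0 ≤ c1 (pt 1 0) + c1 (pt 0 1) + c2 ∧ 0 ≤ d1 (pt 1 0) + d1 (pt 0 1) + d2 := by
    constructor <;> linarith [hc10 (pt 1 0), hc10 (pt 0 1), hd10 (pt 1 0), hd10 (pt 0 1)]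
  have hKT : T ≤ K := le_trans (hK0 ▸ le_max_left _ _) hK
  have hKc : 128 * (c1 (pt 1 0) + c1 (pt 0 1) + c2) + d1 (pt 1 0) + d1 (pt 0 1) + d2 + 2000 ≤ K :=
    le_trans (hK0 ▸ le_max_right _ _) hK
  have hK1 : 1 < K := by linarith
  obtain ⟨t, ht⟩ : ∃ t : Fam C C2, t.1 = ⟨K, Ω, S, Z, χ, β⟩ :=
    ⟨⟨⟨K, Ω, S, Z, χ, β⟩, hdata, hK1.le⟩, rfl⟩
  have eK : Kf t = K := by simp [Kf, ht]
  obtain ⟨rfl, rfl, rfl, rfl, rfl⟩ :
      Ω = t.1.Ω ∧ S = t.1.S ∧ Z = t.1.Z ∧ χ = t.1.χ ∧ β = t.1.β := by simp [ht]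
  subst eK
  set K := Kf t
  have hd := t.2.1
  obtain ⟨G, hG⟩ : ∃ G, G = 2 * g + 20 := ⟨_, rfl⟩
  rw [← hG]
  have hpow : ∀ {n : ℕ}, n ≤ G → K ^ n ≤ K ^ G := fun h => pow_le_pow_right₀ hK1.le h
  have hBi : ∀ i, σ.B t ^ i ≤ 8 ^ i * (K ^ G) ^ i := fun i => by
    rw [hB, mul_pow]
    exact mul_le_mul_of_nonneg_left (pow_le_pow_left₀ (by positivity) (hpow (by omega)) i)
      (by positivity)
  have hKi : ∀ i : ℕ, K ^ i ≤ (K ^ G) ^ i := fun i =>
    pow_le_pow_left₀ (by positivity) (le_self_pow₀ hK1.le (by omega)) i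
  have hS : ∀ {z}, z ∈ dom N' t → z ∈ σ.S t := fun hz => scY_mem hKT hz
  have hout : ∀ {z}, z ∈ t.1.Ω → z ∉ dom N' t → X t =ᶠ[𝓝 z] t.1.Z := fun hz h =>
    xOf_below (below_of_not_dom (by omega) hK1 hz h)
  have hchi0 : ∀ {z}, z ∈ t.1.S → 0 ≤ t.1.χ z := fun hz => (hd.flat _ hz).1
  have hC0 : |C 0| ≤ K ∧ 2000 ≤ K := ⟨(hP.big hKT).2, (hP.big hKT).1⟩
  -- the area and the bend on the support
  have hlow : ∀ z ∈ t.1.S, 1 ≤ C' 0 * K ^ G * area (X t) z ∧
      1 ≤ C' 0 * K ^ G * bendSq (X t) z := by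
    intro z hz
    have hC04 : 4 ≤ C' 0 := hA4.trans (hC'i 0).2.2.2.2
    have up : ∀ {v c : ℝ} {n : ℕ}, 0 ≤ c → c ≤ C' 0 → n ≤ G → 1 ≤ c * K ^ n * v →
        1 ≤ C' 0 * K ^ G * v := fun {v c n} hc0 hc hn h => by
      have hv : 0 < v := by
        by_contra hv
        nlinarith [mul_nonneg hc0 (pow_nonneg (zero_le_one.trans hK1.le) n), not_lt.1 hv]
      exact h.trans (mul_le_mul_of_nonneg_right
        (mul_le_mul hc (hpow hn) (by positivity) (hc0.trans hc)) hv.le)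
    by_cases hzd : z ∈ dom N' t
    · rcases lt_or_ge 2 (K ^ (N' - 1) * t.1.χ z) with h | h
      · obtain ⟨e1, e2⟩ := low_congr (xOf_above (M := N + 3) (x := x) hzd h)
        obtain ⟨l1, l2⟩ := hP.low t z (hS hzd)
        rw [hXdef, e1, e2]
        exact ⟨up zero_le_one (by linarith) (show 20 ≤ G by omega) (by rwa [one_mul]),
          up zero_le_one (by linarith) (show 20 ≤ G by omega) (by rwa [one_mul])⟩
      · have hzS := hS hzd
        have hχ := le_cut h
        have hK40 : ∀ {c : ℝ}, 0 ≤ c → 128 * c ≤ K → ∀ n ≤ 2,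
            c * (t.1.χ z * σ.B t ^ n) ≤ (K ^ 40)⁻¹ := fun {c} hc0 hc n hn => by
          have hB2 : σ.B t ^ n ≤ 64 * K ^ (2 * g) :=
            (pow_le_pow_right₀ (σ.one_le t) hn).trans (le_of_eq (by rw [hB]; ring))
          have hP0 : 0 < K ^ (N' - 1) := by positivity
          calc c * (t.1.χ z * σ.B t ^ n) ≤ c * (2 * (K ^ (N' - 1))⁻¹ * (64 * K ^ (2 * g))) :=
                mul_le_mul_of_nonneg_left (mul_le_mul hχ hB2 (pow_nonneg (hB0 t) n)
                  (by positivity)) hc0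
            _ = 128 * c * K ^ (2 * g) / K ^ (N' - 1) := by ring
            _ ≤ (K ^ 40)⁻¹ := by
                rw [div_le_iff₀ hP0, inv_mul_eq_div, le_div_iff₀ (by positivity)]
                calc 128 * c * K ^ (2 * g) * K ^ 40 ≤ K * K ^ (2 * g) * K ^ 40 := by gcongr
                  _ = K ^ (2 * g + 41) := by ring
                  _ ≤ K ^ (N' - 1) := pow_le_pow_right₀ hK1.le (by omega)
        have one : ∀ a, 128 * c1 a ≤ K → ‖D a (X t) z - D a t.1.Z z‖ ≤ (K ^ 40)⁻¹ := fun a ha => by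
          have h1 := hc1 a t z hzS
          rw [norm_iteratedFDeriv_zero, pow_zero, mul_one] at h1
          exact h1.trans (by simpa using hK40 (hc10 a) ha 1 (by norm_num))
        have two : ‖D (pt 0 1) (D (pt 0 1) (X t)) z - D (pt 0 1) (D (pt 0 1) t.1.Z) z‖ ≤
            (K ^ 40)⁻¹ := by
          have h1 := hc2 t z hzS
          rw [norm_iteratedFDeriv_zero, pow_zero, mul_one, mul_assoc (t.1.χ z)] at h1
          refine h1.trans (le_trans (le_of_eq ?_) (hK40 hc20 ?_ 2 le_rfl))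
          · rw [pow_two]
          · linarith [hc10 (pt 1 0), hc10 (pt 0 1)]
        have hz1 : z ∈ (scZ C C2 N' 1 T).S t := hzS
        have zd : ∀ a, d1 a ≤ K → ‖D a t.1.Z z‖ ≤ K ^ 3 := fun a ha => by
          have h1 := hd1 a t z hz1
          rw [norm_iteratedFDeriv_zero, pow_zero, mul_one] at h1
          refine h1.trans ((mul_le_mul_of_nonneg_right ha (by positivity)).trans ?_)
          rw [← pow_succ']
          exact pow_le_pow_right₀ hK1.le (by norm_num)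
        have zdd : ‖D (pt 0 1) (D (pt 0 1) t.1.Z) z‖ ≤ K ^ 3 := by
          have h1 := hd2 t z hz1
          rw [norm_iteratedFDeriv_zero, pow_zero, mul_one] at h1
          refine h1.trans ((mul_le_mul_of_nonneg_right
            (show d2 ≤ K by linarith [hd10 (pt 1 0), hd10 (pt 0 1)]) (by positivity)).trans ?_)
          rw [← pow_succ']
        obtain ⟨z1, z2⟩ := hd.low z hz
        have low2 : ∀ {v : ℝ}, 0 < v → 1 ≤ C 0 * K * v → 1 ≤ K ^ 2 * v := fun {v} hv h => by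
          refine h.trans (mul_le_mul_of_nonneg_right ?_ hv.le)
          rw [pow_two]
          exact mul_le_mul_of_nonneg_right ((le_abs_self _).trans hC0.1) (by positivity)
        obtain ⟨n1, n2⟩ := near_low (K := K) (by linarith)
          (zd (pt 1 0) (by linarith [hd10 (pt 0 1)]))
          (zd (pt 0 1) (by linarith [hd10 (pt 1 0)])) zdd
          (one (pt 1 0) (by linarith [hc10 (pt 0 1)]))
          (one (pt 0 1) (by linarith [hc10 (pt 1 0)])) two
          (low2 (hd.imm z (hd.sub hz)) z1) (low2 (hd.bend z (hd.sub hz)) z2)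
        exact ⟨up (by norm_num) hC04 (show 2 ≤ G by omega) n1,
          up (by norm_num) hC04 (show 2 ≤ G by omega) n2⟩
    · obtain ⟨e1, e2⟩ := low_congr (hout (hd.sub hz) hzd)
      obtain ⟨z1, z2⟩ := hd.low z hz
      have hup : ∀ {v : ℝ}, 0 < v → 1 ≤ C 0 * K * v → 1 ≤ C' 0 * K ^ G * v := fun {v} hv h =>
        h.trans (mul_le_mul_of_nonneg_right (mul_le_mul ((le_abs_self _).trans (hC'i 0).2.1)
          (le_self_pow₀ hK1.le (by omega)) (by positivity) (by linarith)) hv.le)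
      rw [e1, e2]
      exact ⟨hup (hd.imm z (hd.sub hz)) z1, hup (hd.bend z (hd.sub hz)) z2⟩
  refine ⟨X t, fun z hz => ?_, fun z hz hzS => ?_, fun i z hz => ?_, fun δ hδ i hi z hz => ?_,
    fun i z hz => ?_, fun z hz => ?_, hlow⟩
  · -- smooth
    by_cases hzd : z ∈ dom N' t
    · exact ((hX.smooth t).contDiffAt ((σ.isOpen t).mem_nhds (hS hzd))).contDiffWithinAt
    · exact ((hd.smoothZ.contDiffAt (hd.open_.mem_nhds hz)).congr_of_eventuallyEq
        (hout hz hzd)).contDiffWithinAt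
  · exact (hout hz fun h => hzS (dom_subset N' t h)).eq_of_nhds
  · -- bounded
    by_cases hzd : z ∈ dom N' t
    · refine (hcX i t z (hS hzd)).trans ?_
      rw [mul_one]
      refine (mul_le_mul_of_nonneg_left (hBi i) (hcX0 i)).trans ?_
      rw [← mul_assoc]
      exact mul_le_mul_of_nonneg_right (hC'i i).1 (by positivity)
    · rw [((hout (hd.sub hz) hzd).iteratedFDeriv ℝ i).eq_of_nhds]
      exact (hd.bdZ i z hz).trans (mul_le_mul ((le_abs_self _).trans (hC'i i).2.1) (hKi i)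
        (by positivity) ((abs_nonneg _).trans (hC'i i).2.1))
  · -- close
    have hδ0 : 0 ≤ δ := (hchi0 hz).trans (hδ z)
    have hCp : 0 ≤ C' 0 * K ^ G * sqrt δ := by
      have := hA4.trans (hC'i 0).2.2.2.2
      positivity
    by_cases hzd : z ∈ dom N' t
    · refine (hcD i t z (hS hzd)).trans ?_
      have hc : cD i ≤ cD 0 + cD 1 + cD 2 := by
        have := hcD0 0; have := hcD0 1; have := hcD0 2
        interval_cases i <;> linarith
      have hs : t.1.χ z ≤ sqrt |C 0| * sqrt δ := by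
        rw [← Real.sqrt_mul (abs_nonneg _)]
        refine Real.le_sqrt_of_sq_le ?_
        rw [pow_two]
        exact mul_le_mul ((hd.chi_le z).trans (le_abs_self _)) (hδ z) (hchi0 hz) (abs_nonneg _)
      have hB2 : σ.B t ^ i ≤ 64 * K ^ G :=
        ((pow_le_pow_right₀ (σ.one_le t) hi).trans (le_of_eq (by rw [hB]; ring :
          σ.B t ^ 2 = 64 * K ^ (2 * g)))).trans
          (mul_le_mul_of_nonneg_left (hpow (by omega)) (by norm_num))
      refine (mul_le_mul (mul_le_mul hc hs (hchi0 hz) ((hcD0 i).trans hc)) hB2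
        (pow_nonneg (hB0 t) i) (mul_nonneg ((hcD0 i).trans hc) (by positivity))).trans ?_
      calc _ = (cD 0 + cD 1 + cD 2) * 64 * sqrt |C 0| * (K ^ G * sqrt δ) := by ring
        _ ≤ C' 0 * (K ^ G * sqrt δ) := by
            refine mul_le_mul_of_nonneg_right (le_trans ?_ (hC'i 0).2.2.2.2) (by positivity)
            rw [hA]
            linarith [abs_nonneg (C 0)]
        _ = _ := (mul_assoc _ _ _).symm
    · have e : (fun w => X t w - t.1.Z w) =ᶠ[𝓝 z] fun _ => (0 : V4) :=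
        (hout (hd.sub hz) hzd).mono fun y hy => by simp [hy]
      rw [(e.iteratedFDeriv ℝ i).eq_of_nhds, iteratedFDeriv_fun_zero]
      simpa using hCp
  · -- the metric
    have hwN : 0 ≤ (K ^ N)⁻¹ := by positivity
    have fin : ∀ {v c : ℝ}, 0 ≤ c → c ≤ C' i → v ≤ c * (K ^ N)⁻¹ * (K ^ G) ^ i →
        v ≤ C' i * (K ^ N)⁻¹ * (K ^ G) ^ i := fun {v c} _ hc h =>
      h.trans (mul_le_mul_of_nonneg_right (mul_le_mul_of_nonneg_right hc hwN) (by positivity))
    have hsmall : K ^ (N' - 1) * t.1.χ z ≤ 2 →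
        t.1.χ z * K ^ (2 * g) ≤ 2 * (K ^ N)⁻¹ := fun h => by
      refine (mul_le_mul_of_nonneg_right (le_cut h) (by positivity)).trans ?_
      rw [mul_assoc]
      refine mul_le_mul_of_nonneg_left ?_ (by norm_num)
      rw [inv_mul_eq_div, div_le_iff₀ (by positivity), inv_mul_eq_div, le_div_iff₀ (by positivity),
        ← pow_add]
      exact pow_le_pow_right₀ hK1.le (by omega)
    have hT3 : K ^ (N' - 1) * t.1.χ z ≤ 2 →
        ‖iteratedFDeriv ℝ i (fun y => t.1.χ y ^ 2 • trioForm t.1.β y) z‖ ≤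
          2 * cT' i * (K ^ N)⁻¹ * (K ^ G) ^ i := fun h => by
      refine (hcT i t z hz).trans ?_
      calc cT' i * t.1.χ z * Kf t ^ i ≤ cT' i * (t.1.χ z * K ^ (2 * g)) * (K ^ G) ^ i := by
            refine mul_le_mul (mul_le_mul_of_nonneg_left (le_mul_of_one_le_right (hchi0 hz)
              (one_le_pow₀ hK1.le)) (hcT0 i)) (hKi i) (by positivity) ?_
            have := hchi0 hz; have := hcT0 i
            positivity
        _ ≤ cT' i * (2 * (K ^ N)⁻¹) * (K ^ G) ^ i :=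
            mul_le_mul_of_nonneg_right (mul_le_mul_of_nonneg_left (hsmall h) (hcT0 i))
              (by positivity)
        _ = _ := by ring
    by_cases hzd : z ∈ dom N' t
    · rcases lt_or_ge 2 (K ^ (N' - 1) * t.1.χ z) with h | h
      · have e : (fun y => met (X t) y - met t.1.Z y - t.1.χ y ^ 2 • trioForm t.1.β y) =ᶠ[𝓝 z]
            fun y => met (yAt (N + 3) t.1 (x t) 12) y - met t.1.Z y -
              t.1.χ y ^ 2 • trioForm t.1.β y :=
          (met_congr (xOf_above (M := N + 3) (x := x) hzd h)).mono fun y hy => by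
            simp only [hXdef, hy]
        rw [(e.iteratedFDeriv ℝ i).eq_of_nhds]
        refine fin (hp8 (hcE0 i) i) (hC'i i).2.2.1 ((hcE i t z (hS hzd)).trans ?_)
        refine (mul_le_mul_of_nonneg_left (hBi i) (mul_nonneg (hcE0 i) hwN)).trans (le_of_eq ?_)
        ring
      · have h1 : ‖iteratedFDeriv ℝ i (fun y => met (X t) y - met t.1.Z y) z‖ ≤
            128 * cM i * 8 ^ i * (K ^ N)⁻¹ * (K ^ G) ^ i := by
          refine (hcM i t z (hS hzd)).trans ?_
          calc cM i * (t.1.χ z * σ.B t * σ.B t) * σ.B t ^ i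
              = 64 * cM i * (t.1.χ z * K ^ (2 * g)) * σ.B t ^ i := by rw [hB]; ring
            _ ≤ 64 * cM i * (2 * (K ^ N)⁻¹) * (8 ^ i * (K ^ G) ^ i) := by
                have := hcM0 i
                exact mul_le_mul (mul_le_mul_of_nonneg_left (hsmall h) (by positivity)) (hBi i)
                  (pow_nonneg (hB0 t) i) (by positivity)
            _ = _ := by ring
        have c1' : ContDiffAt ℝ i (fun y => met (X t) y - met t.1.Z y) z :=
          hM.contDiffAt (hS hzd) i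
        have c2' : ContDiffAt ℝ i (fun y => t.1.χ y ^ 2 • trioForm t.1.β y) z := by
          refine ContDiffAt.of_le ?_ (by exact WithTop.coe_le_coe.2 le_top)
          refine ((hd.smoothChi.contDiffOn.pow 2).smul ?_).contDiffAt
            (hd.open_.mem_nhds (hd.sub hz))
          exact (((hd.smoothBeta 0).smul contDiffOn_const).add
            ((hd.smoothBeta 1).smul contDiffOn_const)).add
              ((hd.smoothBeta 2).smul contDiffOn_const)
        rw [fun_iteratedFDeriv_sub_apply c1' c2']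
        have hsum2 : 0 ≤ 128 * cM i * 8 ^ i + 2 * cT' i := by
          have := hcM0 i; have := hcT0 i
          positivity
        refine fin hsum2 (hC'i i).2.2.2.1 ((norm_sub_le _ _).trans ((add_le_add h1 (hT3 h)).trans
          (le_of_eq (by ring))))
    · have hb := below_of_not_dom (show 1 ≤ N' by omega) hK1 (hd.sub hz) hzd
      have e : (fun y => met (X t) y - met t.1.Z y - t.1.χ y ^ 2 • trioForm t.1.β y) =ᶠ[𝓝 z]
          -fun y => t.1.χ y ^ 2 • trioForm t.1.β y :=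
        (met_congr (hout (hd.sub hz) hzd)).mono fun y hy => by simp [hy]
      rw [(e.iteratedFDeriv ℝ i).eq_of_nhds, iteratedFDeriv_neg_apply, norm_neg]
      have := hcT0 i; have := hcM0 i
      refine fin (c := 2 * cT' i) (by positivity) ?_ (hT3 (hb.le.trans one_le_two))
      have := (hC'i i).2.2.2.1
      have := hp8 (hcM0 i) i
      linarith
  · -- the bend
    by_cases hzd : z ∈ dom N' t
    · have h := (hlow z (dom_subset N' t hzd)).2
      by_contra hv
      have h0 : 0 ≤ C' 0 * K ^ G := by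
        have := hA4.trans (hC'i 0).2.2.2.2
        positivity
      nlinarith [not_lt.1 hv]
    · rw [(low_congr (hout hz hzd)).2]
      exact hd.bend z hz

end Vale.Agent.P205.Stage
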