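import Vale.Agent.P205.Stage.Parts
import Vale.Agent.P205.Stage.Trio
import Vale.Agent.P205.Stage.TinyStep
import Vale.Agent.P205.Stage.LegalStep
import Vale.Agent.P205.Stage.SizeStep
import Vale.Agent.P205.Stage.FreeStep

/-!
The trio from the steps of its levels.
-/

noncomputable section

namespace Vale.Agent.P205.Stage

/-- The trio from the free step; the other steps are proved. -/
theorem trio_of_free (hF : FreeStep) : TrioProp :=
  trio_of (readyStep tinyStep hF) (solveStep tinyStep hF sizeStep) sizeStep legalStep

/-- **The trio.** -/
theorem trio : TrioProp := trio_of_free freeStep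

end Vale.Agent.P205.Stage
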