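import Vale.Agent.P205.Tame.Eval

/-!
The fixed point of a natural operator in the cost calculus. An operator which gains a factor `ε`
and commutes with affine slices of a parameter contracts by `ε * B`: the difference of two inputs
is one derivative in a parameter. So its iterates solve the equation up to `ε * (ε * B) ^ n`
in every derivative.
-/

noncomputable section

open Set
open scoped ContDiff

namespace Vale.Agent.P205.Stage

open Wave

variable {ι P F : Type} [NormedAddCommGroup P] [NormedSpace ℝ P] [NormedAddCommGroup F]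
  [NormedSpace ℝ F]

/-- The charts of the indices with `T ≤ K`; the others are empty. -/
def above (σ : Scale ι P) (K : ι → ℝ) (T : ℝ) : Scale ι P where
  S t := {p | T ≤ K t ∧ p ∈ σ.S t}
  B := σ.B
  isOpen t := by
    by_cases h : T ≤ K t
    · simpa [h] using σ.isOpen t
    · simp [h]
  one_le := σ.one_le

omit [NormedSpace ℝ P] in
theorem above_mono (σ : Scale ι P) (K : ι → ℝ) {T T' : ℝ} (h : T ≤ T') (t : ι) :
    (above σ K T').S t ⊆ (above σ K T).S t := fun _ hp => ⟨h.trans hp.1, hp.2⟩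

/-- The charts with a parameter from an open set. -/
def withParam (σ : Scale ι P) {G : Type} [NormedAddCommGroup G] [NormedSpace ℝ G] (V : Set G)
    (hV : IsOpen V) : Scale ι (P × G) where
  S t := σ.S t ×ˢ V
  B := σ.B
  isOpen t := (σ.isOpen t).prod hV
  one_le := σ.one_le

/-- A property of the admissible families, on the indices with `T ≤ K`. -/
abbrev Adm (ι P F : Type) : Type 1 :=
  ∀ (G : Type) [NormedAddCommGroup G] [NormedSpace ℝ G] [FiniteDimensional ℝ G],
    Set G → ℝ → (ι → P × G → F) → Prop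

/-- An operator on families with a parameter of any finite dimension. -/
abbrev Op (ι P F : Type) : Type 1 :=
  ∀ (G : Type) [NormedAddCommGroup G] [NormedSpace ℝ G] [FiniteDimensional ℝ G],
    (ι → P × G → F) → ι → P × G → F

/-- The operator gains the factor `ε` on admissible families of size `w` and commutes with
affine slices, from some threshold of `K` on. -/
structure Gain (σ : Scale ι P) (K : ι → ℝ) (w : ι → P → ℝ) (ε : ι → ℝ) (A : Adm ι P F)
    (Ψ : Op ι P F) : Prop where
  adm_zero : ∀ (G : Type) [NormedAddCommGroup G] [NormedSpace ℝ G] [FiniteDimensional ℝ G]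
    (V : Set G), A G V 0 fun _ _ => 0
  adm_mono : ∀ (G : Type) [NormedAddCommGroup G] [NormedSpace ℝ G] [FiniteDimensional ℝ G]
    (V : Set G) (T T' : ℝ) (x : ι → P × G → F), T ≤ T' → A G V T x → A G V T' x
  adm_next : ∀ (G : Type) [NormedAddCommGroup G] [NormedSpace ℝ G] [FiniteDimensional ℝ G]
    (V : Set G) (hV : IsOpen V) (T : ℝ) (x : ι → P × G → F),
    Cost (withParam (above σ K T) V hV) (fun t q => w t q.1) x → A G V T x →
      ∃ T', T ≤ T' ∧ A G V T' (Ψ G x)
  adm_comb : ∀ (G G' : Type) [NormedAddCommGroup G] [NormedSpace ℝ G] [FiniteDimensional ℝ G]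
    [NormedAddCommGroup G'] [NormedSpace ℝ G'] [FiniteDimensional ℝ G']
    (V : Set G) (V' : Set G') (L : G' →L[ℝ] G) (c : ι → G' → ℝ) (T : ℝ)
    (x x' : ι → P × G → F), MapsTo L V' V → A G V T x → A G V T x' →
      A G' V' T fun t q => x t (q.1, L q.2) + c t q.2 • (x' t (q.1, L q.2) - x t (q.1, L q.2))
  gain : ∀ (G : Type) [NormedAddCommGroup G] [NormedSpace ℝ G] [FiniteDimensional ℝ G]
    (V : Set G) (hV : IsOpen V) (T : ℝ) (x : ι → P × G → F),
    Cost (withParam (above σ K T) V hV) (fun t q => w t q.1) x → A G V T x →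
      ∃ T', T ≤ T' ∧
        Cost (withParam (above σ K T') V hV) (fun t q => ε t * w t q.1) (Ψ G x)
  slice : ∀ (G G' : Type) [NormedAddCommGroup G] [NormedSpace ℝ G] [FiniteDimensional ℝ G]
    [NormedAddCommGroup G'] [NormedSpace ℝ G'] [FiniteDimensional ℝ G']
    (V : Set G) (_ : IsOpen V) (V' : Set G') (hV' : IsOpen V') (L : G →L[ℝ] G') (c : ι → G')
    (T : ℝ) (x : ι → P × G → F) (x' : ι → P × G' → F),
    (∀ t, T ≤ K t → MapsTo (fun u => L u + c t) V V') →
    Cost (withParam (above σ K T) V' hV') (fun t q => w t q.1) x' → A G' V' T x' →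
    (∀ t, ∀ p ∈ (above σ K T).S t, ∀ u ∈ V, x t (p, u) = x' t (p, L u + c t)) →
      ∃ T', T ≤ T' ∧ ∀ t, ∀ p ∈ (above σ K T').S t, ∀ u ∈ V,
        Ψ G x t (p, u) = Ψ G' x' t (p, L u + c t)

/-- The iterates from zero. -/
def iter (Ψ : Op ι P F) (G : Type) [NormedAddCommGroup G] [NormedSpace ℝ G]
    [FiniteDimensional ℝ G] : ℕ → ι → P × G → F
  | 0 => fun _ _ => 0
  | n + 1 => Ψ G (iter Ψ G n)

/-- The last coordinate on a slab. -/
theorem cost_coord {G : Type} [NormedAddCommGroup G] [NormedSpace ℝ G] {σ : Scale ι G}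
    (φ : G →L[ℝ] ℝ) (hφ : ‖φ‖ ≤ 1) {R : ℝ} (hR : ∀ t, ∀ q ∈ σ.S t, |φ q| ≤ R) :
    Cost σ (fun _ _ => 1) fun _ q => φ q := by
  refine ⟨fun _ => φ.contDiff.contDiffOn, fun _ _ _ => zero_le_one,
    fun i => ⟨max R 1, le_max_of_le_right zero_le_one, fun t q hq => ?_⟩⟩
  have hB := one_le_pow₀ (σ.one_le t) (n := i)
  rw [mul_one]
  rcases i with _ | _ | i
  · simpa [norm_iteratedFDeriv_zero] using Or.inl (hR t q hq)
  · rw [norm_iteratedFDeriv_one, φ.fderiv]
    exact (hφ.trans (le_max_right R 1)).trans (le_mul_of_one_le_right (le_max_of_le_right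
      zero_le_one) hB)
  · refine le_trans (le_of_eq ?_) (mul_nonneg (le_max_of_le_right zero_le_one)
      (zero_le_one.trans hB))
    rw [← norm_iteratedFDeriv_fderiv, show fderiv ℝ φ = fun _ => φ from funext fun y => φ.fderiv,
      iteratedFDeriv_succ_const]
    simp

/-- **The iterates solve the equation.** They stay of size `w` and the residual of the `n`-th
is `ε (ε B) ^ n` times `w`. -/
theorem Gain.iterates {σ : Scale ι P} {K : ι → ℝ} {w : ι → P → ℝ} {ε : ι → ℝ} {A : Adm ι P F}
    {Ψ : Op ι P F} (h : Gain σ K w ε A Ψ) (hw : ∀ t, ∀ p ∈ σ.S t, 0 ≤ w t p) (hε : ∀ t, 0 < ε t)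
    (hεB : ∀ t, ε t * σ.B t ≤ 1) (G : Type) [NormedAddCommGroup G] [NormedSpace ℝ G]
    [FiniteDimensional ℝ G] (V : Set G) (hV : IsOpen V) (n : ℕ) :
    ∃ T, Cost (withParam (above σ K T) V hV) (fun t q => w t q.1) (iter Ψ G n) ∧
      A G V T (iter Ψ G n) ∧ A G V T (iter Ψ G (n + 1)) ∧
      Cost (withParam (above σ K T) V hV) (fun t q => ε t * (ε t * σ.B t) ^ n * w t q.1)
        fun t q => iter Ψ G (n + 1) t q - iter Ψ G n t q := by
  have hB : ∀ t, 0 < σ.B t := fun t => zero_lt_one.trans_le (σ.one_le t)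
  have hε1 : ∀ t, ε t ≤ 1 := fun t =>
    (le_mul_of_one_le_right (hε t).le (σ.one_le t)).trans (hεB t)
  induction n with
  | zero =>
    have h0 : Cost (withParam (above σ K 0) V hV) (fun t q => w t q.1)
        (fun _ _ => (0 : F)) := Cost.zero fun t q hq => hw t q.1 hq.1.2
    obtain ⟨T, hT, hg⟩ := h.gain G V hV 0 _ h0 (h.adm_zero G V)
    obtain ⟨T', hT', ha⟩ := h.adm_next G V hV 0 _ h0 (h.adm_zero G V)
    refine ⟨max T T', h0.rescale _ (fun _ => le_rfl)
      (fun t => prod_mono (above_mono σ K (hT.trans (le_max_left _ _)) t) subset_rfl),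
      h.adm_mono G V 0 _ _ (hT.trans (le_max_left _ _)) (h.adm_zero G V),
      h.adm_mono G V T' _ _ (le_max_right _ _) ha, ?_⟩
    simpa [iter] using hg.rescale (withParam (above σ K (max T T')) V hV) (fun _ => le_rfl)
      fun t => prod_mono (above_mono σ K (le_max_left _ _) t) subset_rfl
  | succ n ih =>
    obtain ⟨T, hx, hax, hax', hd⟩ := ih
    set η : ι → ℝ := fun t => ε t * (ε t * σ.B t) ^ n with hη
    have hη0 : ∀ t, 0 < η t := fun t => mul_pos (hε t) (pow_pos (mul_pos (hε t) (hB t)) n)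
    have hη1 : ∀ t, η t ≤ 1 := fun t => mul_le_one₀ (hε1 t)
      (pow_nonneg (mul_pos (hε t) (hB t)).le n)
      (pow_le_one₀ (mul_pos (hε t) (hB t)).le (hεB t))
    -- the homotopy between two iterates
    set W : Set (G × ℝ) := V ×ˢ Ioo (-2) 2
    have hW : IsOpen W := hV.prod isOpen_Ioo
    set π : P × (G × ℝ) →L[ℝ] P × G := (ContinuousLinearMap.fst ℝ P (G × ℝ)).prod
      ((ContinuousLinearMap.fst ℝ G ℝ).comp (ContinuousLinearMap.snd ℝ P (G × ℝ)))
    have hπ : ‖π‖ ≤ 1 := ContinuousLinearMap.opNorm_le_bound _ zero_le_one fun q => by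
      simp only [π, ContinuousLinearMap.prod_apply, ContinuousLinearMap.comp_apply,
        ContinuousLinearMap.coe_fst', ContinuousLinearMap.coe_snd', Prod.norm_def, one_mul]
      exact max_le (le_max_left _ _) (le_max_of_le_right (le_max_left _ _))
    set lφ : P × (G × ℝ) →L[ℝ] ℝ :=
      (ContinuousLinearMap.snd ℝ G ℝ).comp (ContinuousLinearMap.snd ℝ P (G × ℝ))
    have hlφ : ‖lφ‖ ≤ 1 := ContinuousLinearMap.opNorm_le_bound _ zero_le_one fun q => by
      simp only [lφ, ContinuousLinearMap.comp_apply, ContinuousLinearMap.coe_snd', one_mul]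
      exact (norm_snd_le q.2).trans (norm_snd_le q)
    set y : ι → P × (G × ℝ) → F := fun t q => iter Ψ G n t (π q) +
      lφ q • ((η t)⁻¹ • (iter Ψ G (n + 1) t (π q) - iter Ψ G n t (π q))) with hy
    have hyc : Cost (withParam (above σ K T) W hW) (fun t q => w t q.1) y := by
      have hmap : ∀ t, ∀ q ∈ (withParam (above σ K T) W hW).S t,
          π q + 0 ∈ (withParam (above σ K T) V hV).S t := fun t q hq => by
        rw [add_zero]; exact ⟨hq.1, hq.2.1⟩
      have a := Cost.comp_affine hx (withParam (above σ K T) W hW) (fun _ => π) (fun _ => 0)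
        (fun t => mul_le_of_le_one_right (hB t).le hπ) hmap
      have b := Cost.comp_affine hd (withParam (above σ K T) W hW) (fun _ => π) (fun _ => 0)
        (fun t => mul_le_of_le_one_right (hB t).le hπ) hmap
      have l := cost_coord (σ := withParam (above σ K T) W hW) lφ hlφ (R := 2) fun t q hq =>
        (abs_lt.2 hq.2.2).le
      have b' : Cost (withParam (above σ K T) W hW) (fun t q => w t q.1)
          fun t q => (η t)⁻¹ • (iter Ψ G (n + 1) t (π q) - iter Ψ G n t (π q)) := by
        refine ⟨fun t => ?_, fun t q hq => hw t q.1 hq.1.2, fun i => ?_⟩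
        · exact (((b.smooth t).congr fun q _ => by simp).const_smul ((η t)⁻¹))
        obtain ⟨C, hC0, hC⟩ := b.bound i
        refine ⟨C, hC0, fun t q hq => ?_⟩
        have e := hC t q hq
        simp only [add_zero] at e
        have hs := iteratedFDeriv_const_smul_apply (i := i) (a := (η t)⁻¹) (x := q)
          (f := fun q => iter Ψ G (n + 1) t (π q) - iter Ψ G n t (π q))
          (by simpa using b.contDiffAt hq i)
        rw [show (fun q => (η t)⁻¹ • (iter Ψ G (n + 1) t (π q) - iter Ψ G n t (π q))) =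
          (η t)⁻¹ • fun q => iter Ψ G (n + 1) t (π q) - iter Ψ G n t (π q) from rfl, hs,
          norm_smul, Real.norm_eq_abs, abs_of_pos (inv_pos.2 (hη0 t)),
          inv_mul_le_iff₀ (hη0 t)]
        refine e.trans (le_of_eq ?_)
        simp only [hη, π, ContinuousLinearMap.prod_apply, ContinuousLinearMap.coe_fst']
        ring
      have a' : Cost (withParam (above σ K T) W hW) (fun t q => w t q.1)
          fun t q => iter Ψ G n t (π q) := by
        simpa [π, Prod.map] using a
      refine a'.add ((l.bilin b' (ContinuousLinearMap.lsmul ℝ ℝ)).mono zero_le_one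
        (fun t q hq => hw t q.1 hq.1.2) fun t q _ => le_of_eq (by ring))
    have hay : A (G × ℝ) W T y := by
      have := h.adm_comb G (G × ℝ) V W (ContinuousLinearMap.fst ℝ G ℝ)
        (fun t u => u.2 * (η t)⁻¹) T _ _ (fun u hu => hu.1) hax hax'
      simpa [hy, π, lφ, smul_smul] using this
    obtain ⟨T₁, hT₁, hg⟩ := h.gain (G × ℝ) W hW T y hyc hay
    have hsl : ∀ c : ι → ℝ, (∀ t, c t ∈ Ioo (-2 : ℝ) 2) → ∀ x : ι → P × G → F,
        (∀ t, ∀ p ∈ (above σ K T).S t, ∀ u ∈ V, x t (p, u) = y t (p, (u, c t))) →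
        ∃ T', T ≤ T' ∧ ∀ t, ∀ p ∈ (above σ K T').S t, ∀ u ∈ V,
          Ψ G x t (p, u) = Ψ (G × ℝ) y t (p, (u, c t)) := by
      intro c hc x hxy
      obtain ⟨T', hT', he⟩ := h.slice G (G × ℝ) V hV W hW (ContinuousLinearMap.inl ℝ G ℝ)
        (fun t => (0, c t)) T x y (fun t _ u hu => by simp [W, hu, hc t]) hyc hay
        fun t p hp u hu => by simpa using hxy t p hp u hu
      exact ⟨T', hT', fun t p hp u hu => by simpa using he t p hp u hu⟩
    obtain ⟨T₂, hT₂, h₀⟩ := hsl (fun _ => 0) (fun _ => by norm_num) (iter Ψ G n)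
      fun t p hp u hu => by simp [hy, π, lφ]
    obtain ⟨T₃, hT₃, h₁⟩ := hsl η (fun t => ⟨by linarith [hη0 t], by linarith [hη1 t]⟩)
      (iter Ψ G (n + 1)) fun t p hp u hu => by
        simp [hy, π, lφ, smul_smul, mul_inv_cancel₀ (hη0 t).ne']
    set T' := max T₁ (max T₂ T₃) with hT'
    have hm₁ : T₁ ≤ T' := le_max_left _ _
    have hm₂ : T₂ ≤ T' := (le_max_left _ _).trans (le_max_right _ _)
    have hm₃ : T₃ ≤ T' := (le_max_right _ _).trans (le_max_right _ _)
    -- the next iterate keeps the size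
    obtain ⟨T₅, hT₅, hx'⟩ := h.gain G V hV T _ hx hax
    obtain ⟨T₆, hT₆, ha'⟩ := h.adm_next G V hV T _ hx hax
    have hbx : ∀ T'', T₅ ≤ T'' → Cost (withParam (above σ K T'') V hV) (fun t q => w t q.1)
        (iter Ψ G (n + 1)) := fun T'' hT'' =>
      (hx'.rescale (withParam (above σ K T'') V hV) (fun _ => le_rfl) fun t =>
        prod_mono (above_mono σ K hT'' t) subset_rfl).mono zero_le_one (fun t q hq => hw t q.1 hq.1.2) fun t q hq => by
          rw [one_mul]; exact mul_le_of_le_one_left (hw t q.1 hq.1.2) (hε1 t)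
    obtain ⟨T₇, hT₇, ha''⟩ := h.adm_next G V hV (max T T₅) _ (hbx _ (le_max_right _ _))
      (h.adm_mono G V T _ _ (le_max_left _ _) hax')
    obtain ⟨T₄, hT₄⟩ : ∃ T₄, T₄ = max T₅ (max T₆ T₇) := ⟨_, rfl⟩
    have h5 : T₅ ≤ max T' T₄ := hT₄ ▸ (le_max_left _ _).trans (le_max_right _ _)
    have h7 : T₇ ≤ max T' T₄ :=
      hT₄ ▸ ((le_max_right _ _).trans (le_max_right _ _)).trans (le_max_right _ _)
    have hx'' := hbx _ h5
    -- the difference is one derivative in the parameter
    set A' : (P × G) × ℝ →L[ℝ] P × (G × ℝ) :=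
      ((ContinuousLinearMap.fst ℝ P G).comp (ContinuousLinearMap.fst ℝ (P × G) ℝ)).prod
        (((ContinuousLinearMap.snd ℝ P G).comp (ContinuousLinearMap.fst ℝ (P × G) ℝ)).prod
          (ContinuousLinearMap.snd ℝ (P × G) ℝ))
    have hA : ‖A'‖ ≤ 1 := ContinuousLinearMap.opNorm_le_bound _ zero_le_one fun q => by
      simp only [A', ContinuousLinearMap.prod_apply, ContinuousLinearMap.comp_apply,
        ContinuousLinearMap.coe_fst', ContinuousLinearMap.coe_snd', Prod.norm_def, one_mul]
      exact max_le (le_max_of_le_left (le_max_left _ _))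
        (max_le (le_max_of_le_left (le_max_right _ _)) (le_max_right _ _))
    let τ : Scale ι ((P × G) × ℝ) :=
      withParam (withParam (above σ K (max T' T₄)) V hV) (Ioo (-2 : ℝ) 2) isOpen_Ioo
    have hc := Cost.comp_affine hg τ (fun _ => A') (fun _ => 0)
      (fun t => mul_le_of_le_one_right (hB t).le hA) fun t q hq => by
        rw [add_zero]
        exact ⟨above_mono σ K (hm₁.trans (le_max_left _ _)) t hq.1.1, hq.1.2, hq.2⟩
    have hc' : Cost τ (fun t q => (fun (t : ι) (q : P × G) => ε t * w t q.1) t q.1)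
        fun t q => Ψ (G × ℝ) y t (A' q + 0) := hc.mono zero_le_one
      (fun t q hq => mul_nonneg (hε t).le (hw t q.1.1 hq.1.1.2))
      fun t q _ => le_of_eq (by simp [A'])
    have hdiff := Cost.sub_param (σ := τ) (w := fun t q => ε t * w t q.1) hc'
      (withParam (above σ K (max T' T₄)) V hV) (fun _ => le_rfl) (fun _ => 0) η
      fun t q hq l hl => by
        refine Set.mk_mem_prod hq ?_
        rw [uIcc_of_le (hη0 t).le] at hl
        exact ⟨by linarith [hl.1], by linarith [hl.2, hη1 t]⟩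
    refine ⟨max T' T₄, hx'', h.adm_mono G V T₆ _ _
      (hT₄ ▸ ((le_max_left _ _).trans (le_max_right _ _)).trans (le_max_right _ _)) ha',
      h.adm_mono G V T₇ _ _ h7 ha'', (hdiff.mono zero_le_one (fun t q hq => mul_nonneg
      (mul_pos (hε t) (pow_pos (mul_pos (hε t) (hB t)) _)).le (hw t q.1 hq.1.2))
      fun t q hq => le_of_eq ?_).congr fun t q hq => ?_⟩
    · rw [sub_zero, abs_of_pos (hη0 t), one_mul, pow_succ]
      simp only [hη, τ, withParam, above]
      ring
    · have e₀ := h₀ t q.1 (above_mono σ K (hm₂.trans (le_max_left _ _)) t hq.1) q.2 hq.2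
      have e₁ := h₁ t q.1 (above_mono σ K (hm₃.trans (le_max_left _ _)) t hq.1) q.2 hq.2
      simp only [Prod.mk.eta] at e₀ e₁
      simp only [iter] at e₁ ⊢
      rw [e₀, e₁]
      simp [A']

end Vale.Agent.P205.Stage
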