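import Vale.Agent.P205.Tame.Eval
import Vale.Agent.P205.Chart

/-!
Flat cut-offs in the size calculus, and the cut of a flat cut-off at a small level.
-/

noncomputable section

open Set Finset Filter
open scoped ContDiff Topology

namespace Vale.Agent.P205.Stage

open Wave

variable {ι X : Type} [NormedAddCommGroup X] [NormedSpace ℝ X]

/-- A family of flat cut-offs: each derivative costs `B` and keeps any power less than one. -/
structure FlatFam (σ : Scale ι X) (χ : ι → X → ℝ) : Prop where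
  smooth : ∀ t, ContDiffOn ℝ ∞ (χ t) (σ.S t)
  nonneg : ∀ t, ∀ x ∈ σ.S t, 0 ≤ χ t x
  bounded : ∃ c, 0 ≤ c ∧ ∀ t, ∀ x ∈ σ.S t, χ t x ≤ c
  flat : ∀ i d : ℕ, ∃ C, ∀ t, ∀ x ∈ σ.S t,
    ‖iteratedFDeriv ℝ i (χ t) x‖ ^ (d + 1) ≤ (C * σ.B t ^ i) ^ (d + 1) * χ t x ^ d

namespace FlatFam

variable {σ : Scale ι X} {χ : ι → X → ℝ} (h : FlatFam σ χ)
include h

/-- A flat cut-off costs any power less than one of itself. -/
theorem cost (d : ℕ) : Cost σ (fun t x => χ t x ^ ((d : ℝ) / (d + 1))) χ := by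
  choose C hC using fun i => h.flat i d
  exact Cost.of_flat h.smooth h.nonneg C d fun t i x hx => hC i t x hx

/-- A smaller power is a larger weight. -/
theorem rpow_le {r r' : ℝ} (hr : 0 ≤ r) (hrr' : r ≤ r') :
    ∃ C, 0 ≤ C ∧ ∀ t, ∀ x ∈ σ.S t, χ t x ^ r' ≤ C * χ t x ^ r := by
  obtain ⟨c, hc0, hc⟩ := h.bounded
  refine ⟨c ^ (r' - r), Real.rpow_nonneg hc0 _, fun t x hx => ?_⟩
  have h0 := h.nonneg t x hx
  have h1 : χ t x ^ (r' - r) ≤ c ^ (r' - r) :=
    Real.rpow_le_rpow h0 (hc t x hx) (by linarith)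
  calc χ t x ^ r' = χ t x ^ ((r' - r) + r) := by rw [sub_add_cancel]
    _ = χ t x ^ (r' - r) * χ t x ^ r :=
        Real.rpow_add_of_nonneg h0 (by linarith) hr
    _ ≤ c ^ (r' - r) * χ t x ^ r := mul_le_mul_of_nonneg_right h1 (Real.rpow_nonneg h0 r)

/-- A flat cut-off is bounded in the calculus. -/
theorem cost_one : Cost σ (fun _ _ => 1) χ := by
  refine (h.cost 0).mono zero_le_one (fun _ _ _ => zero_le_one) fun t x _ => ?_
  simp

/-- Powers keep any smaller power. -/
theorem cost_pow (m d : ℕ) :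
    Cost σ (fun t x => (χ t x ^ ((d : ℝ) / (d + 1))) ^ m) fun t x => χ t x ^ m := by
  induction m with
  | zero => simpa using (Cost.const (σ := σ) (1 : ℝ))
  | succ m ih =>
    simpa only [pow_succ] using ih.mul (h.cost d)

/-- The cut of a flat cut-off at the level `1 / P`: one derivative costs `B P ^ (1 / (d + 1))`. -/
theorem cut (d : ℕ) (P : ι → ℝ) (hP : ∀ t, 1 ≤ P t) (τ : Scale ι X)
    (hS : ∀ t, τ.S t ⊆ σ.S t) (hB : ∀ t, σ.B t * P t ^ (1 / ((d : ℝ) + 1)) ≤ τ.B t) :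
    Cost τ (fun _ _ => 1) fun t x => Real.smoothTransition (P t * χ t x - 1) := by
  have hd : (0 : ℝ) < (d : ℝ) + 1 := by positivity
  have hP0 : ∀ t, 0 ≤ P t := fun t => zero_le_one.trans (hP t)
  have hQ : ∀ t, 1 ≤ P t ^ (1 / ((d : ℝ) + 1)) := fun t =>
    Real.one_le_rpow (hP t) (by positivity)
  have hB0 : ∀ t, 0 ≤ σ.B t := fun t => zero_le_one.trans (σ.one_le t)
  have hu : ∀ t, ContDiffOn ℝ ∞ (fun x => P t * χ t x) (τ.S t) := fun t =>
    contDiffOn_const.mul ((h.smooth t).mono (hS t))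
  -- where the cut is active
  let ρ : Scale ι X :=
    { S := fun t => τ.S t ∩ (fun x => P t * χ t x) ⁻¹' Iio 3
      B := τ.B
      isOpen := fun t => (hu t).continuousOn.isOpen_inter_preimage (τ.isOpen t) isOpen_Iio
      one_le := τ.one_le }
  have hc : Cost ρ (fun _ _ => 1) fun t x => P t * χ t x := by
    refine ⟨fun t => (hu t).mono inter_subset_left, fun _ _ _ => zero_le_one, fun i => ?_⟩
    rcases Nat.eq_zero_or_pos i with rfl | hi
    · refine ⟨3, by norm_num, fun t x hx => ?_⟩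
      rw [norm_iteratedFDeriv_zero, mul_one, pow_zero, mul_one, Real.norm_eq_abs,
        abs_of_nonneg (mul_nonneg (hP0 t) (h.nonneg t x (hS t hx.1)))]
      exact (Set.mem_Iio.1 hx.2).le
    obtain ⟨C, hC0, hC⟩ := (h.cost d).bound i
    refine ⟨C * 3, by positivity, fun t x hx => ?_⟩
    have hx' := hS t hx.1
    rw [show (fun x => P t * χ t x) = P t • χ t from rfl,
      iteratedFDeriv_const_smul_apply ((h.cost d).contDiffAt hx' i), norm_smul, Real.norm_eq_abs,
      abs_of_nonneg (hP0 t), mul_one]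
    refine (mul_le_mul_of_nonneg_left (hC t x hx') (hP0 t)).trans ?_
    set r := (d : ℝ) / (d + 1) with hr
    have hr1 : r ≤ 1 := (div_le_one hd).2 (by linarith)
    have e : P t * χ t x ^ r = (P t * χ t x) ^ r * P t ^ (1 / ((d : ℝ) + 1)) := by
      rw [Real.mul_rpow (hP0 t) (h.nonneg t x hx'), mul_right_comm,
        ← Real.rpow_add (lt_of_lt_of_le one_pos (hP t)), show r + 1 / ((d : ℝ) + 1) = 1 by
          rw [hr, ← add_div, div_self hd.ne'], Real.rpow_one]
    have h3 : (P t * χ t x) ^ r ≤ 3 :=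
      (Real.rpow_le_rpow (mul_nonneg (hP0 t) (h.nonneg t x hx')) (Set.mem_Iio.1 hx.2).le
        (by positivity)).trans (Real.rpow_le_self_of_one_le (by norm_num) hr1)
    calc P t * (C * χ t x ^ r * σ.B t ^ i)
        = C * ((P t * χ t x) ^ r * (P t ^ (1 / ((d : ℝ) + 1)) * σ.B t ^ i)) := by
          rw [← mul_assoc ((P t * χ t x) ^ r), ← e]; ring
      _ ≤ C * (3 * τ.B t ^ i) := by
          refine mul_le_mul_of_nonneg_left (mul_le_mul h3 ?_ ?_ (by norm_num)) hC0
          · calc P t ^ (1 / ((d : ℝ) + 1)) * σ.B t ^ i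
                ≤ (P t ^ (1 / ((d : ℝ) + 1))) ^ i * σ.B t ^ i :=
                  mul_le_mul_of_nonneg_right (le_self_pow₀ (hQ t) (by omega)) (pow_nonneg (hB0 t) i)
              _ ≤ τ.B t ^ i := by
                  rw [← mul_pow, mul_comm]
                  exact pow_le_pow_left₀ (mul_nonneg (hB0 t) (zero_le_one.trans (hQ t))) (hB t) i
          · exact mul_nonneg (zero_le_one.trans (hQ t)) (pow_nonneg (hB0 t) i)
      _ = C * 3 * τ.B t ^ i := by ring
  have hg := hc.comp_smooth (g := fun u : ℝ => Real.smoothTransition (u - 1)) isOpen_univ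
    (isCompact_Icc (a := (0 : ℝ)) (b := 3)) (subset_univ _)
    (Real.smoothTransition.contDiff.comp (contDiff_id.sub contDiff_const)).contDiffOn
    fun t x hx => ⟨mul_nonneg (hP0 t) (h.nonneg t x (hS t hx.1)), (Set.mem_Iio.1 hx.2).le⟩
  refine ⟨fun t => Real.smoothTransition.contDiff.comp_contDiffOn
    ((hu t).sub contDiffOn_const), fun _ _ _ => zero_le_one, fun i => ?_⟩
  obtain ⟨C, hC0, hC⟩ := hg.bound i
  refine ⟨C + 1, by positivity, fun t x hx => ?_⟩
  have hτ : 0 ≤ τ.B t ^ i := pow_nonneg (zero_le_one.trans (τ.one_le t)) i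
  by_cases hx3 : P t * χ t x < 3
  · exact (hC t x ⟨hx, hx3⟩).trans (by simp only [mul_one]; nlinarith)
  · have e : (fun y => Real.smoothTransition (P t * χ t y - 1)) =ᶠ[𝓝 x] fun _ => (1 : ℝ) := by
      have hca : ContinuousAt (fun y => P t * χ t y) x :=
        ((hu t).continuousOn.continuousAt ((τ.isOpen t).mem_nhds hx))
      filter_upwards [hca.eventually (lt_mem_nhds (show (2 : ℝ) < P t * χ t x by linarith))] with
        y hy using Real.smoothTransition.one_of_one_le (by linarith)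
    rw [(e.iteratedFDeriv ℝ i).eq_of_nhds]
    refine le_trans ?_ (le_of_eq (by ring : (C + 1) * τ.B t ^ i = (C + 1) * 1 * τ.B t ^ i))
    rcases i with _ | i
    · simp only [norm_iteratedFDeriv_zero, norm_one, pow_zero, mul_one]; linarith
    · rw [iteratedFDeriv_succ_const]
      simp only [Pi.zero_apply, norm_zero]
      exact mul_nonneg (by positivity) hτ

omit h in
/-- The cut vanishes below the level and is one above twice the level. -/
theorem cut_values (P c : ℝ) :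
    (P * c ≤ 1 → Real.smoothTransition (P * c - 1) = 0) ∧
      (2 ≤ P * c → Real.smoothTransition (P * c - 1) = 1) :=
  ⟨fun h => Real.smoothTransition.zero_of_nonpos (by linarith),
    fun h => Real.smoothTransition.one_of_one_le (by linarith)⟩

/-- The charts of the amplitude `(χ / c) ^ (d / (d + 1))`, for `χ ≤ c`. -/
def mag (d : ℕ) (c : ℝ) (hc : 0 < c) (hχ : ∀ t, ∀ x ∈ σ.S t, χ t x ≤ c) (M : ι → ℝ)
    (hM : ∀ t, σ.B t ≤ M t) : Mag ι X where
  toScale := σ
  M := M
  A t x := (χ t x / c) ^ ((d : ℝ) / (d + 1))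
  le_M := hM
  A_nonneg t x hx := Real.rpow_nonneg (div_nonneg (h.nonneg t x hx) hc.le) _
  A_le t x hx := Real.rpow_le_one (div_nonneg (h.nonneg t x hx) hc.le)
    ((div_le_one hc).2 (hχ t x hx)) (by positivity)

/-- The cut-off has the size of the amplitude. -/
theorem sz_mag {d : ℕ} {c : ℝ} (hc : 0 < c) (hχ : ∀ t, ∀ x ∈ σ.S t, χ t x ≤ c) {M : ι → ℝ}
    (hM : ∀ t, σ.B t ≤ M t) : Sz (h.mag d c hc hχ M hM) 1 0 χ :=
  Cost.sz (μ := h.mag d c hc hχ M hM) (h.cost d) (Real.rpow_nonneg hc.le ((d : ℝ) / (d + 1)))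
    fun t x hx => by
      simp only [mag, pow_one, pow_zero, mul_one]
      rw [← Real.mul_rpow hc.le (div_nonneg (h.nonneg t x hx) hc.le), mul_div_cancel₀ _ hc.ne']

omit h in
/-- A family of flat cut-offs of the chart plane. -/
theorem of_chart {σ : Scale ι R2} {χ : ι → R2 → ℝ} {S : ι → Set R2} {C2 : ℕ → ℕ → ℝ} {c : ℝ}
    (hS : ∀ t, σ.S t ⊆ S t) (hc : 0 ≤ c) (hle : ∀ t z, χ t z ≤ c)
    (hsm : ∀ t, ContDiff ℝ ∞ (χ t)) (hf : ∀ t, Flat (S t) C2 (σ.B t) (χ t)) : FlatFam σ χ :=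
  ⟨fun t => (hsm t).contDiffOn, fun t x hx => (hf t x (hS t hx)).1,
    ⟨c, hc, fun t x _ => hle t x⟩,
    fun i d => ⟨C2 i d, fun t x hx => (hf t x (hS t hx)).2 i d⟩⟩

end FlatFam

end Vale.Agent.P205.Stage
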