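import Vale.Agent.P205.Stage.LevelLin
import Vale.Agent.P205.Stage.Natural
import Vale.Agent.P205.Stage.Specs
import Vale.Agent.P205.Tame.ProfileBounds
import Vale.Agent.P205.Legal.Vec

/-!
The size hypotheses of a free level of a stage, with the magnitude a power of the scale.
-/

noncomputable section

open Set Finset Real
open scoped ContDiff

namespace Vale.Agent.P205.Stage

open Wave (V4 ip D gram2 Cost Scale Mag Sz)
open Lev

variable {C : ℕ → ℝ} {C2 : ℕ → ℕ → ℝ} {N N' b s : ℕ} {T : ℝ} {G : Type} [NormedAddCommGroup G]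
  [NormedSpace ℝ G] {V : Set G} {hV : IsOpen V}

theorem pt_zero (a b : ℝ) : pt a b 0 = a := by simp [pt]
theorem pt_one (a b : ℝ) : pt a b 1 = b := by simp [pt]

/-- The directions of a free level. -/
theorem free_dirs {j : ℕ} (hj : j = 9 ∨ j = 10) : isFree j = true ∧
    ∃ ε : ℝ, (ε = 1 ∨ ε = -1) ∧ levV j = pt 0 ε ∧ levE j = pt 1 (-ε) := by
  rcases hj with rfl | rfl
  · exact ⟨by simp [isFree], 1, Or.inl rfl, by simp [levV], by simp [levE]⟩
  · exact ⟨by simp [isFree], -1, Or.inr rfl, by simp [levV], by simp [levE]⟩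

/-- The charts of a level with the magnitude `K ^ (2 mExp j)` and its amplitude. -/
def levMag (C : ℕ → ℝ) (C2 : ℕ → ℕ → ℝ) (N N' b j : ℕ) (T : ℝ) (V : Set G) (hV : IsOpen V)
    (hb : b ≤ bExp) (c : ℝ) (hc : 1 ≤ c) : Mag (Fam C C2) (Ph × G) where
  toScale := scQ C C2 N' b T V hV
  M t := c * Kf t ^ (2 * mExp j)
  A t q := levA (par N) t.1 j q.1.1 / max 1 (C 0)
  le_M t := (pow_le_pow_right₀ (one_le_Kf t) (by have := (mExp_grows j).1; omega)).trans
    (le_mul_of_one_le_left (pow_nonneg (Kf_pos t).le _) hc)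
  A_nonneg t q hq := div_nonneg (share_range N hq.1.2.1 j).2.2.2.2.2.1.le (by positivity)
  A_le t q hq := by
    obtain ⟨-, -, -, -, -, -, h1, h2, -⟩ := share_range N hq.1.2.1 j
    rw [div_le_one (by positivity)]
    exact (h1.trans h2).trans (le_max_right _ _)

/-- A crude cost in the calculus of a level. -/
theorem levMag_sz {F : Type} [NormedAddCommGroup F] [NormedSpace ℝ F] (hb : b ≤ bExp) {j a m : ℕ}
    {c : ℝ} (hc : 1 ≤ c)
    {f : Fam C C2 → Ph × G → F} (h : Cost (scQ C C2 N' b T V hV) (fun t _ => Kf t ^ a) f)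
    (ha : a ≤ 2 * mExp j * m) : Sz (levMag C C2 N N' b j T V hV hb c hc) 0 m f :=
  Cost.sz (μ := levMag C C2 N N' b j T V hV hb c hc) h zero_le_one fun t q _ => by
    simp only [levMag, pow_zero, one_mul, mul_pow, ← pow_mul]
    exact (pow_le_pow_right₀ (one_le_Kf t) ha).trans
      (le_mul_of_one_le_left (pow_nonneg (Kf_pos t).le _) (one_le_pow₀ hc))

/-- The magnitude of the amplitude of a level on the charts with slots. -/
theorem levA_cost (hb : bMin ≤ b) (j : ℕ) :
    Cost (scQ C C2 N' b T V hV) (fun t q => levA (par N) t.1 j q.1.1)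
      fun t q => levA (par N) t.1 j q.1.1 :=
  cost_of_plane ((share_cost N T (show 2 ≤ b by unfold bMin at hb; omega)).2.2 j)

theorem levMag_sz_amp {F : Type} [NormedAddCommGroup F] [NormedSpace ℝ F] (hb : b ≤ bExp) {j m : ℕ}
    {c : ℝ} (hc : 1 ≤ c)
    {f : Fam C C2 → Ph × G → F}
    (h : Cost (scQ C C2 N' b T V hV) (fun t q => levA (par N) t.1 j q.1.1) f) :
    Sz (levMag C C2 N N' b j T V hV hb c hc) 1 m f :=
  Cost.sz (μ := levMag C C2 N N' b j T V hV hb c hc) h (c := max 1 (C 0)) (by positivity) fun t q hq => by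
    have h0 : (0 : ℝ) < max 1 (C 0) := by positivity
    simp only [levMag, pow_one]
    rw [← mul_assoc, mul_div_cancel₀ _ h0.ne']
    exact le_mul_of_one_le_right (share_range N hq.1.2.1 j).2.2.2.2.2.1.le
      (one_le_pow₀ (one_le_mul_of_one_le_of_one_le hc (one_le_pow_K t _)))

/-- The square of the derivative of the map before the stage along `(1, ε)`. -/
theorem base_zz (C : ℕ → ℝ) (C2 : ℕ → ℕ → ℝ) (N' : ℕ) {b : ℕ} (hb : 8 ≤ b) (ε : ℝ) :
    ∃ T0, Cost (scZ C C2 N' b T0) (fun t z => ip (D (pt 1 ε) t.1.Z z) (D (pt 1 ε) t.1.Z z))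
        (fun t z => ip (D (pt 1 ε) t.1.Z z) (D (pt 1 ε) t.1.Z z)) ∧
      ∀ t, ∀ z ∈ (scZ C C2 N' b T0).S t,
        1 ≤ Kf t ^ 5 * ip (D (pt 1 ε) t.1.Z z) (D (pt 1 ε) t.1.Z z) := by
  have hp := (Z_cost (C := C) (C2 := C2) N' (cT C) (pt 1 ε) 0).1
  have hq := (Z_cost (C := C) (C2 := C2) N' (cT C) (pt 0 1) 0).1
  obtain ⟨c, hc0, hc⟩ := (hq.ip hq).abs_le
  set T0 := max (cT C) c
  have hlo : ∀ t, ∀ z ∈ (scZ C C2 N' 1 T0).S t,
      1 ≤ Kf t ^ 5 * ip (D (pt 1 ε) t.1.Z z) (D (pt 1 ε) t.1.Z z) := fun t z hz => by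
    have hz' : z ∈ (scZ C C2 N' 1 (cT C)).S t := (scZ_le le_rfl (le_max_left _ c)).2 t hz
    have h1 := (K_pos_of_low hz.2).1
    have h0 : 0 < area t.1.Z z := t.2.1.imm z hz.2.1
    have hK : C 0 ≤ Kf t := (le_max_right 1 _).trans ((le_max_left _ c).trans hz.1)
    have hcK : c ≤ Kf t := (le_max_right _ _).trans hz.1
    set p := D (pt 1 ε) t.1.Z z
    set q := D (pt 0 1) t.1.Z z
    have e : p = D (pt 1 0) t.1.Z z + ε • q := by
      have : pt 1 ε = (1 : ℝ) • pt 1 0 + ε • pt 0 1 := by ext i; fin_cases i <;> simp [pt]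
      simp only [p, q]
      rw [this, D_comb, one_smul]
    have ea : area t.1.Z z = gram2 p q := by
      simp only [e, area, gram2, q, Wave.ip_add_left, Wave.ip_add_right, Wave.ip_smul_left,
        Wave.ip_smul_right, Wave.ip_comm (D (pt 0 1) t.1.Z z) (D (pt 1 0) t.1.Z z)]
      ring
    have hpq : gram2 p q ≤ ip p p * ip q q := sub_le_self _ (sq_nonneg _)
    have hqq : ip q q ≤ Kf t ^ 3 := by
      refine ((le_abs_self _).trans (hc t z hz')).trans (le_of_le_of_eq
        (mul_le_mul_of_nonneg_right hcK (by have := Kf_pos t; positivity)) (by ring))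
    have hpp : 0 ≤ ip p p := Legal.ip_self_nonneg _
    have hK0 := Kf_pos t
    calc 1 ≤ C 0 * Kf t * area t.1.Z z := h1
      _ ≤ Kf t * Kf t * (ip p p * Kf t ^ 3) := by
          rw [ea] at h0 ⊢
          exact mul_le_mul (mul_le_mul_of_nonneg_right hK hK0.le)
            (hpq.trans (mul_le_mul_of_nonneg_left hqq hpp)) h0.le (by positivity)
      _ = Kf t ^ 5 * ip p p := by ring
  refine ⟨T0, ?_, fun t z hz => hlo t z ((scZ_le (by omega) le_rfl).2 t hz)⟩
  have hf : Cost (scZ C C2 N' 1 T0) (fun t _ => Kf t ^ 2)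
      fun t z => ip (D (pt 1 ε) t.1.Z z) (D (pt 1 ε) t.1.Z z) :=
    ((hp.ip hp).rescale _ (scZ_le le_rfl (le_max_left _ c)).1
      (scZ_le le_rfl (le_max_left _ c)).2).mono zero_le_one
        (fun t _ _ => pow_nonneg (Kf_pos t).le 2) fun t z _ => le_of_eq (by ring)
  refine rel_of_lower (L := fun t => Kf t ^ 7) (fun t => one_le_pow_K t 7) hf (fun t z hz => ?_)
    (fun t z _ => Legal.ip_self_nonneg _) (scZ C C2 N' b T0) (fun t => ?_)
    fun t => (scZ_le (by omega) le_rfl).2 t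
  · calc Kf t ^ 2 = Kf t ^ 2 * 1 := (mul_one _).symm
      _ ≤ Kf t ^ 2 * (Kf t ^ 5 * ip (D (pt 1 ε) t.1.Z z) (D (pt 1 ε) t.1.Z z)) :=
          mul_le_mul_of_nonneg_left (hlo t z hz) (pow_nonneg (Kf_pos t).le 2)
      _ = _ := by rw [← mul_assoc, ← pow_add]
  · show Kf t ^ 1 * Kf t ^ 7 ≤ Kf t ^ b
    rw [← pow_add]
    exact pow_le_pow_right₀ (one_le_Kf t) hb

variable [FiniteDimensional ℝ G] {x : Fam C C2 → Ph × G → Unk} {j : ℕ}

/-- Level `9` still has the derivative along `(1, ε)` of relative cost. -/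
theorem zz_nine (hb : bMin ≤ b) (hm : MapCore N N' b T V hV x 9) (ε : ℝ) :
    ∃ T', T ≤ T' ∧
      Cost (scQ C C2 N' b T' V hV)
        (fun t q => ip (d1At N t.1 (x t) 9 (pt 1 ε) q) (d1At N t.1 (x t) 9 (pt 1 ε) q))
        (fun t q => ip (d1At N t.1 (x t) 9 (pt 1 ε) q) (d1At N t.1 (x t) 9 (pt 1 ε) q)) := by
  obtain ⟨T0, h0, hlo⟩ := base_zz C C2 N' (show 8 ≤ b by unfold bMin at hb; omega) ε
  set T1 := max T T0
  have hd := cost_scQ (cost_d1 hm.d1s (pt 1 ε)) (le_refl b) (le_max_left T T0)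
  have hB : Cost (scZ C C2 N' b T1) _ _ :=
    h0.rescale _ (scZ_le (le_refl b) (le_max_right T T0)).1
      fun t => (scZ_le (le_refl b) (le_max_right T T0)).2 t
  have hf0 : Cost (scQ C C2 N' b T1 V hV) _ _ := cost_of_plane hB
  have hc : ∀ a ∈ axes, Cost (scQ C C2 N' b T1 V hV) (fun t _ => (Kf t ^ (4 * bExp))⁻¹)
      fun t q => d1At N t.1 (x t) 9 a q - D a t.1.Z q.1.1 := fun a ha =>
    cost_scQ (hm.close₁ le_rfl a ha) (le_refl b) (le_max_left T T0)
  have he : ∀ (t : Fam C C2) (z : R2), D (pt 1 ε) t.1.Z z =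
      (1 : ℝ) • D (pt 1 0) t.1.Z z + ε • D (pt 0 1) t.1.Z z := fun t z => by
    have : pt 1 ε = (1 : ℝ) • pt 1 0 + ε • pt 0 1 := by ext i; fin_cases i <;> simp [pt]
    rw [this, D_comb]
  have hdiff : Cost (scQ C C2 N' b T1 V hV) (fun t _ => (Kf t ^ (4 * bExp))⁻¹)
      fun t q => d1At N t.1 (x t) 9 (pt 1 ε) q - D (pt 1 ε) t.1.Z q.1.1 :=
    ((hc _ (Or.inl rfl)).add (((Cost.const ε).smul (hc _ (Or.inr rfl))).mono zero_le_one
      (fun t _ _ => inv_nonneg.2 (pow_nonneg (Kf_pos t).le _)) fun t q _ => le_rfl)).congr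
      fun t q _ => by
        rw [levels_d1, he]
        simp only [pt, PiLp.toLp_apply, Matrix.cons_val_zero, Matrix.cons_val_one]
        module
  have hp0 : Cost (scQ C C2 N' b T1 V hV) (fun t _ => Kf t ^ cLev 9)
      fun t q => D (pt 1 ε) t.1.Z q.1.1 :=
    (hd.sub (hdiff.mono zero_le_one (fun t _ _ => pow_nonneg (Kf_pos t).le _) fun t q _ => by
      rw [one_mul]
      exact (inv_le_one_of_one_le₀ (one_le_pow_K t _)).trans (one_le_pow_K t _))).congr
      fun t q _ => by abel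
  have hdd : Cost (scQ C C2 N' b T1 V hV)
      (fun t _ => (Kf t ^ (4 * bExp))⁻¹ * Kf t ^ cLev 9) fun t q =>
      ip (d1At N t.1 (x t) 9 (pt 1 ε) q) (d1At N t.1 (x t) 9 (pt 1 ε) q) -
        ip (D (pt 1 ε) t.1.Z q.1.1) (D (pt 1 ε) t.1.Z q.1.1) :=
    (hdiff.ip (hd.add hp0)).congr fun t q _ => by
      simp only [Wave.ip_sub_left, Wave.ip_add_right,
        Wave.ip_comm (D (pt 1 ε) t.1.Z q.1.1) (d1At N t.1 (x t) 9 (pt 1 ε) q)]
      ring
  obtain ⟨T', hT', h, -⟩ := rel_perturb_scQ hf0 hdd fun t q hq => by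
    have h1 := hlo t q.1.1 ⟨(le_max_right T T0).trans hq.1.1, hq.1.2.1⟩
    have hK := Kf_pos t
    rw [← mul_assoc, mul_right_comm, ← pow_succ',
      ← div_eq_mul_inv, div_le_iff₀ (pow_pos hK _)]
    calc Kf t ^ (cLev 9 + 1) = Kf t ^ (cLev 9 + 1) * 1 := (mul_one _).symm
      _ ≤ Kf t ^ (cLev 9 + 1) * (Kf t ^ 5 * ip (D (pt 1 ε) t.1.Z q.1.1) (D (pt 1 ε) t.1.Z q.1.1)) :=
          mul_le_mul_of_nonneg_left h1 (pow_nonneg hK.le _)
      _ ≤ _ := by
          rw [← mul_assoc, ← pow_add, mul_comm (ip _ _)]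
          exact mul_le_mul_of_nonneg_right (pow_le_pow_right₀ (one_le_Kf t)
            (by simp [cLev, bExp])) (Legal.ip_self_nonneg _)
  exact ⟨T', (le_max_left T T0).trans hT', h⟩

/-- The amplitude of a free level. -/
theorem free_amp (hb : bMin ≤ b) (hj : j = 9 ∨ j = 10) (hx : Small N' b s T V hV x) :
    ∃ T', T ≤ T' ∧
      Cost (scQ C C2 N' b T' V hV) (fun t q => levA (par N) t.1 j q.1.1)
        (fun t => amp (par N) t.1 (x t) j (restAt N t.1 (x t) j)) ∧
      ∀ t, ∀ q ∈ (scQ C C2 N' b T' V hV).S t,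
        levA (par N) t.1 j q.1.1 ≤ 6 * amp (par N) t.1 (x t) j (restAt N t.1 (x t) j) q ∧
        amp (par N) t.1 (x t) j (restAt N t.1 (x t) j) q ≤ 6 * levA (par N) t.1 j q.1.1 := by
  obtain ⟨T', hT, hg, hr⟩ := gam_cost N (show 1 ≤ b by unfold bMin at hb; omega) hx
  set i : Fin 3 := if j = 9 then 1 else 2 with hi
  have e : ∀ t q, amp (par N) t.1 (x t) j (restAt N t.1 (x t) j) q =
      levA (par N) t.1 j q.1.1 * sqrt (gam (par N) t.1 (x t) i q) := fun t q => by
    rcases hj with rfl | rfl <;> simp [amp, levA, hi]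
  have hs := ((hg i).sqrt (c := 1 / 32) (by norm_num) (fun _ _ _ => one_pos) fun t q hq => by
    rw [mul_one]; exact (hr t q hq i).1).mono zero_le_one (fun _ _ _ => zero_le_one)
      fun t q _ => by rw [one_mul, Real.sqrt_one]
  have hA : Cost (scQ C C2 N' b T' V hV) (fun t q => levA (par N) t.1 j q.1.1)
      fun t q => levA (par N) t.1 j q.1.1 := levA_cost hb j
  refine ⟨T', hT, ((hA.mul hs).mono zero_le_one hA.nonneg fun t q _ => le_of_eq (by ring)).congr
    fun t q _ => e t q, fun t q hq => ?_⟩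
  obtain ⟨g0, g1⟩ := hr t q hq i
  have h0 := hA.nonneg t q hq
  have s0 : (1 : ℝ) / 6 ≤ sqrt (gam (par N) t.1 (x t) i q) := Real.le_sqrt_of_sq_le (by linarith)
  have s1 : sqrt (gam (par N) t.1 (x t) i q) ≤ 6 := Real.sqrt_le_iff.2 ⟨by norm_num, by linarith⟩
  rw [e]
  constructor <;> nlinarith

/-- Components at a level, as a linear map. -/
def toCompL (j : ℕ) : Sym2 →L[ℝ] (Fin 3 → ℝ) :=
  LinearMap.toContinuousLinearMap
    { toFun := toComp j
      map_add' := fun A B => by
        funext i; fin_cases i <;> simp [toComp, qf] <;> ring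
      map_smul' := fun r A => by
        funext i; fin_cases i <;> simp [toComp, qf] <;> ring }

/-- The prescribed terms of a level below the legal one, in its fast space. -/
theorem err_cost (hb : bMin ≤ b) (hx : Small N' b s T V hV x) (j n : ℕ) :
    Cost (scQ C C2 N' b T V hV).fast
      (fun t p => (Kf t ^ eExp j) ^ n * (levA (par N) t.1 j p.1.1.1 / (Kf t ^ eExp j) ^ 2) *
        (Kf t ^ s)⁻¹)
      fun t p => errOf (par N) t.1 (x t) j n p.1 p.2 := by
  set σ := scQ C C2 N' b T V hV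
  have hA : Cost σ.fast (fun t p => levA (par N) t.1 j p.1.1.1)
      fun t p => levA (par N) t.1 j p.1.1.1 := (levA_cost hb j).fast
  have hw : ∀ t, ∀ p ∈ σ.fast.S t, 0 ≤ (Kf t ^ eExp j) ^ n *
      (levA (par N) t.1 j p.1.1.1 / (Kf t ^ eExp j) ^ 2) * (Kf t ^ s)⁻¹ := fun t p hp => by
    have := hA.nonneg t p hp; have := Kf_pos t; positivity
  by_cases hj : j < 11
  swap
  · exact (Cost.zero hw).congr fun t p _ => by simp [errOf, hj]
  have hu := hx.cost.comp_affine σ.fast (fun _ => putL G j) (fun _ => 0)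
    (fun t => mul_le_of_le_one_right (zero_le_one.trans (σ.one_le t)) (norm_putL G j))
    fun t p hp => by rw [add_zero, putL_apply]; exact put_mem hp.1
  have hE := (hA.smul ((((hu.clm (ContinuousLinearMap.fst ℝ (Fin 12 → Sym2) (Fin 3 → ℝ))).clm
    (ContinuousLinearMap.proj (R := ℝ) (φ := fun _ : Fin 12 => Sym2) ⟨j, by omega⟩))).clm
      (toCompL j)))
  have hE' := cost_smul_index hE fun t => (Kf t ^ eExp j) ^ n * ((Kf t ^ eExp j) ^ 2)⁻¹
  by_cases hn : (if isFree j = true then n = 1 else n = 2)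
  · refine (hE'.mono zero_le_one hw fun t p hp => ?_).congr fun t p _ => ?_
    · rw [one_mul, abs_of_nonneg (by have := Kf_pos t; positivity), div_eq_mul_inv]
      exact le_of_eq (by ring)
    · simp only [errOf, hj, dif_pos, Par.k, add_zero, putL_apply]
      split_ifs at hn ⊢ with h1 <;>
        simp only [hn, ContinuousLinearMap.coe_fst', ContinuousLinearMap.proj_apply,
          smul_smul] <;>
        congr 1 <;> simp [par, Kf, div_eq_mul_inv] <;> ring
  · refine (Cost.zero hw).congr fun t p _ => ?_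
    simp only [errOf, hj, dif_pos]
    split_ifs at hn ⊢ <;> rfl

/-- The prescribed terms are periodic in the own phase. -/
theorem err_periodic (hx : Small N' b s T V hV x) {t : Fam C C2} {q : Ph × G}
    (hq : q ∈ (scQ C C2 N' b T V hV).S t) (j n : ℕ) :
    Function.Periodic (errOf (par N) t.1 (x t) j n q) (2 * π) := fun r => by
  by_cases hj : j < 11
  swap
  · simp [errOf, hj]
  have h := (hx.adm t hq.1.1 (put j r (trunc j q)) hq.1.2.1 hq.2).1 ⟨j, by omega⟩
  have e : put j (r + 2 * π) (trunc j q) = (((put j r (trunc j q)).1.1,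
      Function.update (put j r (trunc j q)).1.2 ⟨j, by omega⟩
        ((put j r (trunc j q)).1.2 ⟨j, by omega⟩ + 2 * π)), (put j r (trunc j q)).2) := by
    refine Prod.ext (Prod.ext rfl (funext fun i => ?_)) rfl
    simp only [put, Function.update_apply, Fin.ext_iff]
    split_ifs <;> rfl
  simp only [errOf, e, h]

/-- The free level on the open charts. -/
abbrev freeWave (N : ℕ) (hs : Scale (Fam C C2) (Ph × G)) (x : Fam C C2 → Ph × G → Unk) (j : ℕ)
    (t : Fam C C2) : Free.Data (Ph × G) :=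
  freeData (par N) t.1 (x t) (hs.S t) j (mapAt N t.1 (x t) j) (restAt N t.1 (x t) j)

/-- The wave under a free level. -/
abbrev levWave (N : ℕ) (hs : Scale (Fam C C2) (Ph × G)) (x : Fam C C2 → Ph × G → Unk) (j : ℕ)
    (t : Fam C C2) : Wave.Data (Ph × G) :=
  levData (par N) t.1 (x t) (hs.S t) j (mapAt N t.1 (x t) j) (restAt N t.1 (x t) j)

omit [FiniteDimensional ℝ G] in
/-- The unit normal of the bend at a level. -/
theorem bendDir_eq (t : Fam C C2) (q : Ph × G) :
    bendDir (par N) t.1 j (mapAt N t.1 (x t) j) q =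
      (sqrt (bendAt N t.1 (x t) j q))⁻¹ • bendVec N t.1 (x t) j q := rfl

theorem bend_normal {t : Fam C C2} {q : Ph × G} (hg : 0 < areaAt N t.1 (x t) j q)
    (hb : 0 < bendAt N t.1 (x t) j q) (a : R2) :
    ip (bendDir (par N) t.1 j (mapAt N t.1 (x t) j) q)
        (bendDir (par N) t.1 j (mapAt N t.1 (x t) j) q) = 1 ∧
      ip (bendDir (par N) t.1 j (mapAt N t.1 (x t) j) q) (d1At N t.1 (x t) j a q) = 0 := by
  obtain ⟨h1, h2⟩ := Legal.perp2_orth hg.ne' (d2At N t.1 (x t) j (pt 0 1) (pt 0 1) q)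
  have hs := Real.sq_sqrt hb.le
  rw [bendDir_eq]
  refine ⟨?_, ?_⟩
  · simp only [Wave.ip_smul_left, Wave.ip_smul_right]
    rw [← mul_assoc, ← mul_inv, ← pow_two, hs]
    exact inv_mul_cancel₀ hb.ne'
  · rw [levels_d1]
    simp [bendVec, Wave.ip_comm _ (perp2 _ _ _)] at h1 h2 ⊢
    simp [h1, h2]

/-- **The size hypotheses of a free level.** -/
theorem freeLevel_nbounds (hb : bMin ≤ b) (hb' : b ≤ bExp) (hj : j = 9 ∨ j = 10)
    (hx : Small N' b s T V hV x) (hm : MapOK N N' b T V hV x j) :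
    ∃ T', T ≤ T' ∧ ∃ (c : ℝ) (hc : 1 ≤ c),
      Free.Prof.NBounds (levMag C C2 N N' b j T' V hV hb' c hc)
      (levWave N (scQ C C2 N' b T' V hV) x j)
      (fun t => bendDir (par N) t.1 j (mapAt N t.1 (x t) j)) (1 / 2) := by
  obtain ⟨-, ε, hε, hv, he⟩ := free_dirs hj
  have hε2 : ε ^ 2 = 1 := by rcases hε with rfl | rfl <;> norm_num
  have hm5 : 16 ≤ mExp j := le_trans (by norm_num [bExp]) (mExp_grows j).1
  have hj10 : j ≤ 10 := by omega
  have hc6 : 100 * cLev j + 100 ≤ mExp j :=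
    le_trans (by rcases hj with rfl | rfl <;> norm_num [cLev, bExp]) (mExp_grows j).1
  -- the derivative along the kernel
  obtain ⟨Ta, hTa, hz⟩ : ∃ Ta, T ≤ Ta ∧ Cost (scQ C C2 N' b Ta V hV)
      (fun t q => ip (d1At N t.1 (x t) j (levE j) q) (d1At N t.1 (x t) j (levE j) q))
      (fun t q => ip (d1At N t.1 (x t) j (levE j) q) (d1At N t.1 (x t) j (levE j) q)) := by
    rcases hj with rfl | rfl
    · rw [he]; exact zz_nine hb hm.toMapCore _
    · exact ⟨T, le_rfl, by rw [show levE 10 = pt 1 1 by simp [levE]]; exact hm.zz rfl⟩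
  obtain ⟨Tb, hTb, hr, hra⟩ := free_amp (N := N) (j := j) (hV := hV) hb hj hx
  obtain ⟨cy, hcy0, hcy⟩ := ((cost_d1 hm.d1s (levV j)).ip (cost_d1 hm.d1s (levV j))).abs_le
  obtain ⟨ce, hce0, hce⟩ := exists_norm_vec (G := G) (levE j) N j
  obtain ⟨cv, hcv0, hcv⟩ := exists_norm_vec (G := G) (levV j) N j
  obtain ⟨cw, hcw, hW⟩ := bendWeight_le (G := G) C C2 N N' j
  set c := max 1 (max ce cv)
  have hc1 : 1 ≤ c := le_max_left _ _
  set T' := max (max Ta Tb) (max cy 1)
  have hT : T ≤ T' := hTa.trans ((le_max_left _ _).trans (le_max_left _ _))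
  set σ := scQ C C2 N' b T' V hV
  have sub : ∀ {t : Fam C C2} {q : Ph × G}, q ∈ σ.S t → q ∈ (scQ C C2 N' b T V hV).S t :=
    fun hq => scQ_subset hT _ hq
  have big : ∀ {t : Fam C C2} {q : Ph × G}, q ∈ σ.S t → cy ≤ Kf t :=
    fun {t q} hq => ((le_max_left _ _).trans (le_max_right _ _)).trans hq.1.1
  have nv : ∀ t : Fam C C2, ∀ {a : R2} {ca : ℝ}, ‖vec (par N) t.1 G j a‖ ≤ ca * Kf t ^ mExp j →
      ca ≤ c → ‖vec (par N) t.1 G j a‖ ≤ c * Kf t ^ (2 * mExp j) := fun t {a ca} h hca =>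
    h.trans (mul_le_mul hca (pow_le_pow_right₀ (one_le_Kf t) (by omega))
      (pow_nonneg (Kf_pos t).le _) (zero_le_one.trans hc1))
  have hd : ∀ a, Cost σ (fun t _ => Kf t ^ cLev j) fun t => d1At N t.1 (x t) j a := fun a =>
    cost_scQ (cost_d1 hm.d1s a) le_rfl hT
  have eG : ∀ t (q : Ph × G), gram2 (d1At N t.1 (x t) j (levE j) q) (d1At N t.1 (x t) j (levV j) q) =
      areaAt N t.1 (x t) j q := fun t q => by
    rw [levels_d1 _ _ _ (levE j), levels_d1 _ _ _ (levV j), he, hv, areaAt]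
    simp only [pt_zero, pt_one]
    rw [Legal.gram2_comb, show (1 * ε - -ε * 0) ^ 2 = 1 by linear_combination hε2, one_mul]
  have ga : ∀ {t : Fam C C2} {q : Ph × G}, q ∈ σ.S t → 0 < areaAt N t.1 (x t) j q := fun {t q} hq =>
    pos_of_mul_pos_right (zero_lt_one.trans_le (hm.area_lo t q (sub hq)))
      (pow_nonneg (Kf_pos t).le _)
  have gb : ∀ {t : Fam C C2} {q : Ph × G}, q ∈ σ.S t → 0 < bendAt N t.1 (x t) j q := fun {t q} hq =>
    pos_of_mul_pos_right (zero_lt_one.trans_le (hm.bend_lo t q (sub hq)))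
      (pow_nonneg (Kf_pos t).le _)
  -- the unit normal
  have hn : Cost σ (fun t _ => cw * Kf t ^ (2 * mExp j))
      fun t => bendDir (par N) t.1 j (mapAt N t.1 (x t) j) := by
    have hp := cost_perp2 (hd (pt 1 0)) (hd (pt 0 1)) (cost_scQ hm.d2v (le_refl b) hT) (cost_scQ hm.area (le_refl b) hT) (L := fun t _ => Kf t ^ (4 + j))
      (fun t q hq => hm.area_lo t q (sub hq)) fun t q _ => by
        have := one_le_pow_K t (cLev j)
        exact one_le_mul_of_one_le_of_one_le (one_le_mul_of_one_le_of_one_le (one_le_pow_K t _)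
          (one_le_pow₀ this)) (one_le_pow₀ this)
    have hi : Cost σ (fun t _ => Kf t ^ (4 + j))
        fun t q => (sqrt (bendAt N t.1 (x t) j q))⁻¹ :=
      (((cost_scQ hm.bend le_rfl hT).rel_sqrt fun t q hq => gb hq).rel_inv fun t q hq =>
        Real.sqrt_pos.2 (gb hq)).mono zero_le_one (fun t _ _ => pow_nonneg (Kf_pos t).le _)
        fun t q hq => by
          rw [one_mul, inv_le_iff_one_le_mul₀ (Real.sqrt_pos.2 (gb hq))]
          have h := hm.bend_lo t q (sub hq)
          have hs := Real.sq_sqrt (gb hq).le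
          nlinarith [one_le_pow_K t (4 + j), Real.sqrt_pos.2 (gb hq)]
    refine ((hi.smul hp).mono zero_le_one (fun t _ _ => mul_nonneg (zero_le_one.trans hcw)
      (pow_nonneg (Kf_pos t).le _)) fun t q hq => ?_).congr fun t q _ => bendDir_eq t q
    simp only [one_mul, ← pow_mul]
    calc Kf t ^ (4 + j) * (Kf t ^ (4 + j) * Kf t ^ (cLev j * 2) * Kf t ^ (cLev j * 2) *
          (Kf t ^ cLev j * bendWeight N t.1 j q))
        = Kf t ^ (8 + 2 * j + 5 * cLev j) * bendWeight N t.1 j q := by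
          simp only [← mul_assoc, ← pow_add]; congr 2; omega
      _ ≤ Kf t ^ (8 + 2 * j + 5 * cLev j) * (cw * Kf t ^ mExp j) :=
          mul_le_mul_of_nonneg_left (hW t q hq.1.2.1) (pow_nonneg (Kf_pos t).le _)
      _ ≤ cw * Kf t ^ (2 * mExp j) := by
          rw [mul_left_comm, ← pow_add]
          exact mul_le_mul_of_nonneg_left (pow_le_pow_right₀ (one_le_Kf t) (by omega))
            (zero_le_one.trans hcw)
  refine ⟨T', hT, c, hc1, ?_⟩
  exact
    { ok := fun t => Free.Prof.ok_ofNormal _ (σ.isOpen t) ((hm.smooth t).mono fun q hq => sub hq)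
        ((cost_scQ hr le_rfl ((le_max_right _ _).trans (le_max_left _ _))).smooth t)
        (fun n i => (((err_cost hb hx j n).smooth t).mono (prod_mono (fun q hq => sub hq) subset_rfl)
          |> contDiffOn_pi.1) i)
        (fun n q hq i r => congrFun (err_periodic hx (sub hq) j n r) i)
        (hn.smooth t)
        (fun q hq => by simpa [Wave.Data.Ze, Wave.Data.Zv, levData] using
          (eG t q).symm ▸ ga hq)
        fun q hq => ⟨(bend_normal (ga hq) (gb hq) 0).1,
          (bend_normal (ga hq) (gb hq) (levE j)).2, (bend_normal (ga hq) (gb hq) (levV j)).2⟩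
      dom := fun t => subset_rfl
      norm_v := fun t => nv t (hcv t.1 t.2.2) ((le_max_right _ _).trans (le_max_right _ _))
      norm_e := fun t => nv t (hce t.1 t.2.2) ((le_max_left _ _).trans (le_max_right _ _))
      ze := levMag_sz hb' hc1 (hd (levE j)) (by omega)
      zv := levMag_sz hb' hc1 (hd (levV j)) (by omega)
      zz := cost_scQ hz le_rfl ((le_max_left _ _).trans (le_max_left _ _))
      zz_lo := fun t q hq => by
        show 1 ≤ c * Kf t ^ (2 * mExp j) * ip (d1At N t.1 (x t) j (levE j) q)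
          (d1At N t.1 (x t) j (levE j) q)
        have h1 : gram2 (d1At N t.1 (x t) j (levE j) q) (d1At N t.1 (x t) j (levV j) q) ≤
            ip (d1At N t.1 (x t) j (levE j) q) (d1At N t.1 (x t) j (levE j) q) *
              ip (d1At N t.1 (x t) j (levV j) q) (d1At N t.1 (x t) j (levV j) q) :=
          sub_le_self _ (sq_nonneg _)
        rw [eG] at h1
        have h2 : ip (d1At N t.1 (x t) j (levV j) q) (d1At N t.1 (x t) j (levV j) q) ≤
            Kf t * (Kf t ^ cLev j * Kf t ^ cLev j) :=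
          ((le_abs_self _).trans (hcy t q (sub hq))).trans (mul_le_mul_of_nonneg_right
            (big hq) (mul_self_nonneg _))
        refine (hm.area_lo t q (sub hq)).trans ((mul_le_mul_of_nonneg_left (h1.trans
          (mul_le_mul_of_nonneg_left h2 (Legal.ip_self_nonneg _)))
            (pow_nonneg (Kf_pos t).le _)).trans ?_)
        rw [← pow_add, ← pow_succ', mul_comm (ip _ _), ← mul_assoc, ← pow_add]
        exact mul_le_mul_of_nonneg_right ((pow_le_pow_right₀ (one_le_Kf t) (by omega)).trans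
          (le_mul_of_one_le_left (pow_nonneg (Kf_pos t).le _) hc1)) (Legal.ip_self_nonneg _)
      gram := (cost_scQ hm.area le_rfl hT).mono zero_le_one (fun t q hq => by
          simpa [Wave.Data.Ze, Wave.Data.Zv, levData] using (eG t q).symm ▸ (ga hq).le)
        (fun t q _ => by rw [one_mul]; exact le_of_eq (eG t q).symm) |>.congr fun t q _ => eG t q
      gram_lo := fun t q hq => by
        show 1 ≤ c * Kf t ^ (2 * mExp j) * gram2 (d1At N t.1 (x t) j (levE j) q)
          (d1At N t.1 (x t) j (levV j) q)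
        rw [eG]
        exact (hm.area_lo t q (sub hq)).trans (mul_le_mul_of_nonneg_right
          ((pow_le_pow_right₀ (one_le_Kf t) (by omega)).trans
            (le_mul_of_one_le_left (pow_nonneg (Kf_pos t).le _) hc1)) (ga hq).le)
      nrm := Cost.sz (μ := levMag C C2 N N' b j T' V hV hb' c hc1) hn (c := cw)
        (zero_le_one.trans hcw) fun t q _ => by
          simp only [levMag, pow_zero, one_mul, pow_one]
          exact mul_le_mul_of_nonneg_left
            (le_mul_of_one_le_left (pow_nonneg (Kf_pos t).le _) hc1) (zero_le_one.trans hcw)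
      rho := levMag_sz_amp hb' hc1 (cost_scQ hr le_rfl ((le_max_right _ _).trans (le_max_left _ _)))
      rhoRel := (cost_scQ hr le_rfl ((le_max_right Ta Tb).trans (le_max_left _ _))).mono
        (c := 6) (by norm_num) (fun _ _ _ => Real.sqrt_nonneg _) fun t q hq => by
          refine ((hra t q (scQ_subset ((le_max_right Ta Tb).trans (le_max_left _ _)) t hq)).1).trans
            (mul_le_mul_of_nonneg_left ?_ (by norm_num))
          exact Real.le_sqrt_of_sq_le (le_add_of_nonneg_left (sq_nonneg _))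
      err := fun n => by
        rcases eq_or_ne n 1 with rfl | hn1
        · refine Cost.sz (μ := (levMag C C2 N N' b j T' V hV hb' c hc1).fast)
            ((err_cost hb hx j 1).rescale _ (fun _ => le_rfl)
              fun t => prod_mono (fun q hq => sub hq) subset_rfl)
            (c := max 1 (C 0)) (by positivity) fun t p hp => ?_
          have hA : 0 ≤ levA (par N) t.1 j p.1.1.1 :=
            (share_range N hp.1.1.2.1 j).2.2.2.2.2.1.le
          have h0 : (0 : ℝ) < max 1 (C 0) := by positivity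
          have hk : 0 < Kf t ^ eExp j := pow_pos (Kf_pos t) _
          simp only [levMag, Mag.fast, pow_one]
          rw [← mul_assoc, mul_div_cancel₀ _ h0.ne']
          calc Kf t ^ eExp j * (levA (par N) t.1 j p.1.1.1 / (Kf t ^ eExp j) ^ 2) * (Kf t ^ s)⁻¹
              ≤ Kf t ^ eExp j * (levA (par N) t.1 j p.1.1.1 / (Kf t ^ eExp j) ^ 2) :=
                mul_le_of_le_one_right (by positivity) (inv_le_one_of_one_le₀ (one_le_pow_K t s))
            _ = levA (par N) t.1 j p.1.1.1 / Kf t ^ eExp j := by field_simp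
            _ ≤ levA (par N) t.1 j p.1.1.1 := div_le_self hA (one_le_pow_K t _)
            _ ≤ _ := le_mul_of_one_le_right hA
                (one_le_mul_of_one_le_of_one_le hc1 (one_le_pow_K t _))
        · refine Sz.zero.congr fun t p _ => ?_
          simp [levData, errOf, isFree, hj, hn1] }

/-- The magnitude of the correctors of a free level. -/
def freeMag (C : ℕ → ℝ) (C2 : ℕ → ℕ → ℝ) (N N' b j : ℕ) (T : ℝ) (V : Set G) (hV : IsOpen V)
    (hb : b ≤ bExp) (c : ℝ) (hc : 1 ≤ c) (c' : ℝ) (hc' : 1 ≤ c') : Mag (Fam C C2) (Ph × G) :=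
  (levMag C C2 N N' b j T V hV hb c hc).boost 64 (by norm_num) c' hc'

/-- **The free recursion of a level is in the calculus**, with magnitude `c K ^ (128 mExp j)`. -/
theorem freeLevel_bounds (hb : bMin ≤ b) (hb' : b ≤ bExp) (hj : j = 9 ∨ j = 10)
    (hx : Small N' b s T V hV x) (hm : MapOK N N' b T V hV x j) :
    ∃ T', T ≤ T' ∧ ∃ (c : ℝ) (hc : 1 ≤ c) (c' : ℝ) (hc' : 1 ≤ c'),
      Free.Data.Bounds (freeMag C C2 N N' b j T' V hV hb' c hc c' hc')
        (freeWave N (scQ C C2 N' b T' V hV) x j) := by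
  obtain ⟨T', hT, c, hc, h⟩ := freeLevel_nbounds hb hb' hj hx hm
  obtain ⟨c', hc', h'⟩ := h.bounds
  exact ⟨T', hT, c, hc, c', hc', h'⟩

omit [FiniteDimensional ℝ G] in
theorem freeMag_M (hb : b ≤ bExp) {c c' : ℝ} (hc : 1 ≤ c) (hc' : 1 ≤ c') (j : ℕ) (t : Fam C C2) :
    (freeMag C C2 N N' b j T V hV hb c hc c' hc').M t = c' * c ^ 64 * Kf t ^ (128 * mExp j) := by
  simp only [freeMag, Wave.Mag.boost, levMag, mul_pow, ← pow_mul, mul_assoc]
  congr 2
  ring

end Vale.Agent.P205.Stage
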