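import Vale.Agent.P205.Stage.FreeProfile

/-!
The map after a free level: its derivatives at the phases are the derivative along the kernel,
the velocity and the turning of the velocity, up to small remainders.
-/

noncomputable section

open Set Finset Real
open scoped ContDiff

namespace Vale.Agent.P205.Stage

open Wave (V4 ip D gram2 Cost Scale Mag Sz)
open Lev

variable {C : ℕ → ℝ} {C2 : ℕ → ℕ → ℝ} {N N' b s j : ℕ} {T : ℝ} {G : Type} [NormedAddCommGroup G]
  [NormedSpace ℝ G] {V : Set G} {hV : IsOpen V}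

/-- The second derivative along a direction of length `1` up to sign. -/
theorem D2_scale {E : Type} [NormedAddCommGroup E] [NormedSpace ℝ E] {S : Set E} (hS : IsOpen S)
    {f : E → V4} (hf : ContDiffOn ℝ ∞ f S) (v : E) {ε : ℝ} (hε : ε ^ 2 = 1) {q : E} (hq : q ∈ S) :
    D (ε • v) (D (ε • v) f) q = D v (D v f) q := by
  have e : D (ε • v) f = fun y => ε • D v f y := funext fun y => by simp [D]
  have hd : DifferentiableAt ℝ (D v f) q :=
    ((Wave.contDiffOn_D hS hf v).differentiableOn (by simp)).differentiableAt (hS.mem_nhds hq)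
  rw [e]
  show fderiv ℝ (fun y => ε • D v f y) q (ε • v) = fderiv ℝ (D v f) q v
  rw [(hd.hasFDerivAt.fun_const_smul ε).fderiv]
  simp [smul_smul, ← sq, hε]

variable [FiniteDimensional ℝ G] {x : Fam C C2 → Ph × G → Unk}

omit [FiniteDimensional ℝ G] in
/-- The correctors do not see the domain. -/
theorem free_upTo_dom {p : Par} {I : Input} {x : Ph × G → Unk} {X : Ph × G → V4} {α : Ph × G → ℝ}
    (Ω : Set (Ph × G)) : ∀ m, (freeData p I x Ω j X α).upTo m = (freeData p I x univ j X α).upTo m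
  | 0 => rfl
  | 1 => rfl
  | n + 2 => by
    show Function.update ((freeData p I x Ω j X α).upTo (n + 1)) _ _ =
      Function.update ((freeData p I x univ j X α).upTo (n + 1)) _ _
    rw [free_upTo_dom Ω (n + 1)]
    rfl

theorem oscEE_dom {p : Par} {I : Input} {x : Ph × G → Unk} {X : Ph × G → V4} {α : Ph × G → ℝ}
    (Ω : Set (Ph × G)) (N n : ℕ) :
    (freeData p I x Ω j X α).oscEE N n = (freeData p I x univ j X α).oscEE N n := by
  funext q r
  simp only [Free.Data.oscEE, free_upTo_dom Ω]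
  rfl


/-- The change of the velocity of a free level, at the slots of the next one. -/
def velChange (N : ℕ) (σ : Scale (Fam C C2) (Ph × G)) (x : Fam C C2 → Ph × G → Unk) (j : ℕ)
    (t : Fam C C2) (q : Ph × G) : V4 :=
  (freeWave N σ x j t).T (trunc j q) (slot j q) - (freeWave N σ x j t).pv (trunc j q)

/-- The turning of the velocity of a free level, at the slots of the next one. -/
def velTurn (N : ℕ) (σ : Scale (Fam C C2) (Ph × G)) (x : Fam C C2 → Ph × G → Unk) (j : ℕ)
    (t : Fam C C2) (q : Ph × G) : V4 :=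
  deriv ((freeWave N σ x j t).T (trunc j q)) (slot j q)

omit [FiniteDimensional ℝ G] in
theorem velChange_scale (σ σ' : Scale (Fam C C2) (Ph × G)) :
    velChange N σ x j = velChange N σ' x j ∧ velTurn N σ x j = velTurn N σ' x j := ⟨rfl, rfl⟩

/-- The map after a free level. -/
structure FreeNext (N N' b j : ℕ) (T : ℝ) (V : Set G) (hV : IsOpen V)
    (x : Fam C C2 → Ph × G → Unk) : Prop where
  smooth : ∀ t, ContDiffOn ℝ ∞ (mapAt N t.1 (x t) (j + 1)) ((scQ C C2 N' b T V hV).S t)
  d1e : Cost (scQ C C2 N' b T V hV)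
    (fun t q => levA (par N) t.1 j q.1.1 * (Kf t ^ (2 * mExp j))⁻¹)
    fun t q => d1At N t.1 (x t) (j + 1) (levE j) q - d1At N t.1 (x t) j (levE j) (trunc j q)
  d1v : Cost (scQ C C2 N' b T V hV)
    (fun t q => levA (par N) t.1 j q.1.1 * (Kf t ^ (2 * mExp j))⁻¹)
    fun t q => d1At N t.1 (x t) (j + 1) (levV j) q -
      (d1At N t.1 (x t) j (levV j) (trunc j q) +
        velChange N (scQ C C2 N' b T V hV) x j t q)
  d2vv : Cost (scQ C C2 N' b T V hV)
    (fun t q => (par N).k t.1 j * levA (par N) t.1 j q.1.1 * (Kf t ^ mExp j)⁻¹)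
    fun t q => d2At N t.1 (x t) (j + 1) (pt 0 1) (pt 0 1) q -
      (d2At N t.1 (x t) j (pt 0 1) (pt 0 1) (trunc j q) +
        (par N).k t.1 j • velTurn N (scQ C C2 N' b T V hV) x j t q)
  rest : Cost (scQ C C2 N' b T V hV) (fun t q => t.1.χ q.1.1 ^ 2 * (Kf t ^ bExp)⁻¹)
    fun t => restAt N t.1 (x t) (j + 1)

/-- **The map after a free level.** -/
theorem free_next (hb : bMin ≤ b) (hb' : b ≤ bExp) (hj : j = 9 ∨ j = 10)
    (hx : Small N' b s T V hV x) (hm : MapOK N N' b T V hV x j) :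
    ∃ T', T ≤ T' ∧ FreeNext N N' b j T' V hV x := by
  obtain ⟨hfree, ε, hε, hv, he⟩ := free_dirs hj
  have hε2 : ε ^ 2 = 1 := by rcases hε with rfl | rfl <;> norm_num
  have hj12 : j < 12 := by omega
  obtain ⟨T1, hT1, c, hc, c', hc', hW⟩ := freeLevel_bounds hb hb' hj hx hm
  set σ1 := scQ C C2 N' b T1 V hV
  set μ := freeMag C C2 N N' b j T1 V hV hb' c hc c' hc'
  set W := freeWave N σ1 x j
  set Y : Fam C C2 → ℕ → Ph × G → ℝ → V4 := fun t => (W t).upTo (N + 1)
  have hK : Wave.Data.Kin μ (fun t => (W t).toData) Y (N + 1) := hW.kin (hW.grows N)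
  have hZ : ∀ t, ContDiffOn ℝ ∞ (W t).Z (μ.S t) := fun t =>
    (hm.smooth t).mono fun q hq => scQ_subset hT1 t hq
  set cM := c' * c ^ 64
  have hcM : 1 ≤ cM := one_le_mul_of_one_le_of_one_le hc' (one_le_pow₀ hc)
  have hM : ∀ t, μ.M t = cM * Kf t ^ (128 * mExp j) := fun t => freeMag_M hb' hc hc' j t
  obtain ⟨hgb, hgrow⟩ := mExp_grows j
  have hm5 : 16 ≤ mExp j := le_trans (by norm_num [bExp]) hgb
  set k : Fam C C2 → ℝ := fun t => (par N).k t.1 j
  set k' : Fam C C2 → ℝ := fun t => max (k t) (μ.M t ^ 400)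
  set T2 := max T1 (cM ^ 400)
  have hT2 : T ≤ T2 := hT1.trans (le_max_left _ _)
  set τ := scQ C C2 N' b T2 V hV
  have hkk : ∀ t, T2 ≤ Kf t → k' t = k t := fun t ht => by
    refine max_eq_left ?_
    rw [hM, mul_pow, ← pow_mul]
    calc cM ^ 400 * Kf t ^ (128 * mExp j * 400) ≤ Kf t * Kf t ^ (128 * mExp j * 400) :=
          mul_le_mul_of_nonneg_right ((le_max_right _ _).trans ht) (pow_nonneg (Kf_pos t).le _)
      _ ≤ Kf t ^ eExp j := by
          rw [← pow_succ']; exact pow_le_pow_right₀ (one_le_Kf t) (by omega)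
  have hk' : ∀ t, μ.M t ^ 400 ≤ k' t := fun t => le_max_right _ _
  set v' : Fam C C2 → Ph × G := fun t =>
    vec (par N) t.1 G (j + 1) (levV j) + (k' t - k t) • put j 1 (0 : Ph × G)
  set e' : Fam C C2 → Ph × G := fun t => vec (par N) t.1 G (j + 1) (levE j)
  have hv' : ∀ t, splitL G j (v' t) = ((W t).v, k' t) := fun t => by
    have h0 : splitL G j (put j 1 (0 : Ph × G)) = (0, 1) := by
      rw [splitL_apply]
      refine Prod.ext (Prod.ext (Prod.ext rfl (funext fun i => ?_)) rfl) (by simp [slot, put, hj12])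
      simp only [trunc, put]
      split_ifs <;> first | rfl | omega
    rw [map_add, map_smul, split_vec hj12, h0, (lev_frame j).2.1]
    refine Prod.ext ?_ ?_ <;> simp [W, levData, freeData, Free.Prof.data, Free.Prof.ofNormal, k]
  have he' : ∀ t, splitL G j (e' t) = ((W t).e, 0) := fun t => by
    rw [split_vec hj12, (lev_frame j).1, mul_zero]; rfl
  obtain ⟨-, s1, s2, -, -, s3⟩ := level_sizes hK hZ (fun _ => splitL G j) τ
    (fun t => mul_le_of_le_one_right (zero_le_one.trans (μ.one_le t)) (norm_splitL G j))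
    (fun t q hq => by rw [splitL_apply]; exact trunc_mem (scQ_subset (le_max_left _ _) t hq))
    k' hk' e' v' he' hv'
  set F : Fam C C2 → Ph × G → V4 := fun t y =>
    liftOf (W t).toData (Y t) (N + 1) (k' t) (splitL G j y)
  have hF : ∀ t, T2 ≤ Kf t → F t = mapAt N t.1 (x t) (j + 1) := fun t ht => by
    funext q
    simp only [F, liftOf, splitL_apply, mapAt, levels, next, cor, hfree, if_true, hkk t ht, Y, W,
      freeWave, free_upTo_dom]
    rfl
  have hv1 : ∀ t, T2 ≤ Kf t → v' t = vec (par N) t.1 G (j + 1) (levV j) := fun t ht => by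
    simp [v', hkk t ht]
  have tr : ∀ {t : Fam C C2} {q : Ph × G}, q ∈ τ.S t → trunc j q ∈ μ.S t := fun hq =>
    trunc_mem (scQ_subset (le_max_left T1 _) _ hq)
  -- the weights
  have hA : ∀ t, ∀ q ∈ τ.S t, 0 ≤ levA (par N) t.1 j q.1.1 := fun t q hq =>
    (share_range N hq.1.2.1 j).2.2.2.2.2.1.le
  have hAle : ∀ t, ∀ q ∈ τ.S t, μ.A t (trunc j q) ≤ levA (par N) t.1 j q.1.1 := fun t q hq => by
    show levA (par N) t.1 j q.1.1 / max 1 (C 0) ≤ _
    exact div_le_self (hA t q hq) (le_max_left _ _)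
  have wgt : ∀ (a : ℕ), ∀ t, ∀ q ∈ τ.S t, μ.A t (trunc j q) * μ.M t ^ a ≤
      cM ^ a * (levA (par N) t.1 j q.1.1 * Kf t ^ (128 * mExp j * a)) := fun a t q hq => by
    rw [hM, mul_pow, ← pow_mul, mul_left_comm]
    exact mul_le_mul_of_nonneg_left (mul_le_mul_of_nonneg_right (hAle t q hq)
      (pow_nonneg (Kf_pos t).le _)) (pow_nonneg (zero_le_one.trans hcM) _)
  have wsmall : ∀ t, ∀ q ∈ τ.S t, μ.A t (trunc j q) * μ.M t ^ 2 * (μ.M t ^ 400 / k' t) ≤
      cM ^ 402 * (levA (par N) t.1 j q.1.1 * (Kf t ^ (2 * mExp j))⁻¹) := fun t q hq => by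
    rw [hkk t hq.1.1, show μ.A t (trunc j q) * μ.M t ^ 2 * (μ.M t ^ 400 / k t) =
      μ.A t (trunc j q) * μ.M t ^ 402 / Kf t ^ eExp j by simp only [k]; show _ = _ / (par N).k t.1 j; ring,
      div_le_iff₀ (pow_pos (Kf_pos t) _)]
    refine (wgt 402 t q hq).trans ?_
    rw [mul_assoc (cM ^ 402)]
    refine mul_le_mul_of_nonneg_left ?_ (pow_nonneg (zero_le_one.trans hcM) _)
    rw [mul_assoc (levA (par N) t.1 j q.1.1)]
    refine mul_le_mul_of_nonneg_left ?_ (hA t q hq)
    rw [inv_mul_eq_div, le_div_iff₀ (pow_pos (Kf_pos t) _), ← pow_add]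
    exact pow_le_pow_right₀ (one_le_Kf t) (by omega)
  have wk : ∀ (a : ℕ), a ≤ 404 → ∀ t, ∀ q ∈ τ.S t, μ.A t (trunc j q) * μ.M t ^ a ≤
      cM ^ a * (k t * levA (par N) t.1 j q.1.1 * (Kf t ^ mExp j)⁻¹) := fun a ha t q hq => by
    refine (wgt a t q hq).trans (mul_le_mul_of_nonneg_left ?_ (pow_nonneg (zero_le_one.trans hcM) _))
    rw [mul_comm (k t), mul_assoc (levA (par N) t.1 j q.1.1)]
    refine mul_le_mul_of_nonneg_left ?_ (hA t q hq)
    rw [← div_eq_mul_inv, le_div_iff₀ (pow_pos (Kf_pos t) _), ← pow_add]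
    exact pow_le_pow_right₀ (one_le_Kf t) (by
      have : 128 * mExp j * a ≤ 128 * mExp j * 404 := Nat.mul_le_mul_left _ ha
      have : (par N).e j = eExp j := rfl
      omega)
  have hn1 : ∀ t, ∀ q ∈ τ.S t, 0 ≤ levA (par N) t.1 j q.1.1 * (Kf t ^ (2 * mExp j))⁻¹ :=
    fun t q hq => mul_nonneg (hA t q hq) (inv_nonneg.2 (pow_nonneg (Kf_pos t).le _))
  have hn2 : ∀ t, ∀ q ∈ τ.S t, 0 ≤ k t * levA (par N) t.1 j q.1.1 * (Kf t ^ mExp j)⁻¹ :=
    fun t q hq => mul_nonneg (mul_nonneg (pow_nonneg (Kf_pos t).le _) (hA t q hq))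
      (inv_nonneg.2 (pow_nonneg (Kf_pos t).le _))
  have dv0 : ∀ t, ∀ q ∈ μ.S t, ∀ r, (W t).toData.dv (Y t) 0 q r =
      (W t).toData.Zv q + ((W t).T q r - (W t).pv q) := fun t q hq r =>
    ((hW.grows N).inv t).dv0 q (hW.dom t hq) r
  refine ⟨T2, hT2, ?_, ?_, ?_, ?_, ?_⟩
  · intro t
    refine ((smooth_liftOf hK hZ t (k' t)).comp (splitL G j).contDiff.contDiffOn
      fun q hq => ⟨by rw [splitL_apply]; exact tr hq, trivial⟩).congr fun q hq => ?_
    rw [← hF t hq.1.1]; rfl
  · refine (s1.mono (pow_nonneg (zero_le_one.trans hcM) 402) hn1 fun t q hq => ?_).congr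
      fun t q hq => ?_
    · simp only [splitL_apply]; exact wsmall t q hq
    · simp only [splitL_apply]
      show _ = D (e' t) (F t) q - _
      rw [hF t hq.1.1]
      rfl
  · refine (s2.mono (pow_nonneg (zero_le_one.trans hcM) 402) hn1 fun t q hq => ?_).congr
      fun t q hq => ?_
    · simp only [splitL_apply]; exact wsmall t q hq
    · simp only [splitL_apply]
      show _ = D (v' t) (F t) q - (W t).toData.dv (Y t) 0 (trunc j q) (slot j q)
      rw [hF t hq.1.1, hv1 t hq.1.1, dv0 t _ (tr hq)]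
      rfl
  · have hde : Cost τ (fun t q => μ.A t (trunc j q) * μ.M t ^ 46) fun t q =>
        D (W t).v (fun y => (W t).toData.dv (Y t) 0 y (slot j q) - (W t).toData.Zv y)
          (trunc j q) := by
      have h := Sz.de (h := fun t y r => (W t).toData.dv (Y t) 0 y r - (W t).toData.Zv y)
        hK.dv0 (fun t => (W t).v) hK.norm_v
      have h2 := Cost.comp_affine h τ (fun _ => splitL G j) (fun _ => 0)
        (fun t => mul_le_of_le_one_right (zero_le_one.trans (μ.one_le t)) (norm_splitL G j))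
        fun t q hq => by rw [add_zero, splitL_apply]; exact ⟨tr hq, trivial⟩
      simpa [splitL_apply, Mag.fast, add_zero] using h2
    refine ((s3.mono (c := cM ^ 404) (pow_nonneg (zero_le_one.trans hcM) _) hn2
      fun t q hq => by rw [splitL_apply]; exact wk 404 le_rfl t q hq).add
      (hde.mono (pow_nonneg (zero_le_one.trans hcM) 46) hn2 (wk 46 (by norm_num)))).congr
      fun t q hq => ?_
    have hx' : trunc j q ∈ μ.S t := tr hq
    have hS := τ.isOpen t
    have hsm : ContDiffOn ℝ ∞ (mapAt N t.1 (x t) (j + 1)) (τ.S t) :=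
      ((smooth_liftOf hK hZ t (k' t)).comp (splitL G j).contDiff.contDiffOn
        fun q hq => ⟨by rw [splitL_apply]; exact tr hq, trivial⟩).congr fun q hq => by
          rw [← hF t hq.1.1]; rfl
    have hvec : ∀ i : ℕ, vec (par N) t.1 G i (pt 0 1) = ε • vec (par N) t.1 G i (levV j) :=
      fun i => by
        rw [vec_pt i (levV j), hv, pt_zero, pt_one, zero_smul, zero_add, smul_smul, ← sq, hε2,
          one_smul]
    have e1 : d2At N t.1 (x t) (j + 1) (pt 0 1) (pt 0 1) q = D (v' t) (D (v' t) (F t)) q := by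
      rw [hF t hq.1.1, hv1 t hq.1.1]
      show D (vec (par N) t.1 G (j + 1) (pt 0 1))
        (D (vec (par N) t.1 G (j + 1) (pt 0 1)) (mapAt N t.1 (x t) (j + 1))) q = _
      rw [hvec]
      exact D2_scale hS hsm _ hε2 hq
    have e2 : d2At N t.1 (x t) j (pt 0 1) (pt 0 1) (trunc j q) =
        D (W t).v (W t).toData.Zv (trunc j q) := by
      show D (vec (par N) t.1 G j (pt 0 1))
        (D (vec (par N) t.1 G j (pt 0 1)) (mapAt N t.1 (x t) j)) (trunc j q) = _
      rw [hvec]
      exact D2_scale (μ.isOpen t) (hZ t) _ hε2 hx'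
    have e3 : deriv ((W t).toData.dv (Y t) 0 (trunc j q)) (slot j q) =
        velTurn N τ x j t q := by
      rw [show (W t).toData.dv (Y t) 0 (trunc j q) =
        fun r => ((W t).toData.Zv (trunc j q) - (W t).pv (trunc j q)) + (W t).T (trunc j q) r from
        funext fun r => by rw [dv0 t _ hx']; abel, deriv_const_add]
      rfl
    have hdd : ∀ {f : Ph × G → V4}, ContDiffOn ℝ ∞ f (μ.S t) → DifferentiableAt ℝ f (trunc j q) :=
      fun hf => (hf.differentiableOn (by simp)).differentiableAt ((μ.isOpen t).mem_nhds hx')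
    have e4 : D (W t).v (fun y => (W t).toData.dv (Y t) 0 y (slot j q)) (trunc j q) =
        D (W t).v (fun y => (W t).toData.dv (Y t) 0 y (slot j q) - (W t).toData.Zv y) (trunc j q) +
          D (W t).v (W t).toData.Zv (trunc j q) := by
      have hz := hdd (Wave.contDiffOn_D (μ.isOpen t) (hZ t) (W t).v)
      have hd : DifferentiableAt ℝ (fun y => (W t).toData.dv (Y t) 0 y (slot j q)) (trunc j q) :=
        hdd ((hK.dv_zero.smooth t).comp (contDiff_prodMk_left (slot j q)).contDiffOn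
          fun y hy => ⟨hy, trivial⟩)
      show fderiv ℝ (fun y => (W t).toData.dv (Y t) 0 y (slot j q)) (trunc j q) (W t).v =
        fderiv ℝ (fun y => (W t).toData.dv (Y t) 0 y (slot j q) - (W t).toData.Zv y) (trunc j q)
          (W t).v + fderiv ℝ (W t).toData.Zv (trunc j q) (W t).v
      rw [show (W t).toData.Zv = D (W t).v (W t).Z from rfl, fderiv_fun_sub hd hz]
      simp
    rw [e1, e2, splitL_apply, e3, e4, hkk t hq.1.1]
    simp only [k]
    abel
  · have hrest : Cost τ (fun t q => t.1.χ q.1.1 ^ 2 * (Kf t ^ bExp)⁻¹)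
        fun t q => restAt N t.1 (x t) j (trunc j q) :=
      cost_trunc (cost_scQ hm.rest le_rfl hT2) j
    have hsum : Cost μ.fast.toScale
        (fun t p => μ.A t p.1 * μ.M t ^ 800 * (μ.M t ^ 400 / k' t))
        fun t p => ∑ n ∈ Finset.Icc 1 N, (k' t)⁻¹ ^ n * (W t).oscEE N n p.1 p.2 := by
      have h := series (μ := μ.fast) (d := 1) (a := 400) (b := 800) (j₀ := 1) (Finset.Icc 1 N)
        (fun n hn => (Finset.mem_Icc.1 hn).1) (f := fun n t p => (W t).oscEE N n p.1 p.2)
        (fun n hn => (hW.oscEE_size N (Finset.mem_Icc.1 hn).1).le le_rfl (by omega)) k' hk'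
      simpa [Mag.fast, smul_eq_mul] using h
    have h2 := hsum.comp_affine τ (fun _ => splitL G j) (fun _ => 0)
      (fun t => mul_le_of_le_one_right (zero_le_one.trans (μ.one_le t)) (norm_splitL G j))
      fun t q hq => by rw [add_zero, splitL_apply]; exact ⟨tr hq, trivial⟩
    refine (hrest.add (h2.mono (c := cM ^ 1200) (pow_nonneg (zero_le_one.trans hcM) _) hrest.nonneg
      fun t q hq => ?_)).congr fun t q hq => ?_
    · simp only [add_zero, splitL_apply]
      rw [hkk t hq.1.1, show μ.A t (trunc j q) * μ.M t ^ 800 * (μ.M t ^ 400 / k t) =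
        μ.A t (trunc j q) * μ.M t ^ 1200 / Kf t ^ eExp j by show _ = _ / (par N).k t.1 j; ring,
        div_le_iff₀ (pow_pos (Kf_pos t) _)]
      refine (wgt 1200 t q hq).trans ?_
      rw [mul_assoc (cM ^ 1200)]
      refine mul_le_mul_of_nonneg_left ?_ (pow_nonneg (zero_le_one.trans hcM) _)
      have hle : levA (par N) t.1 j q.1.1 ≤ t.1.χ q.1.1 ^ 2 * Kf t ^ pExp := by
        have hχ := chi_pos hq.1.2.1
        have hP : 0 < Kf t ^ pExp := pow_pos (Kf_pos t) _
        have hTr : (par N).T t.1 ≤ sqrt (t.1.χ q.1.1 ^ 2 + (par N).T t.1 ^ 2) :=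
          Real.le_sqrt_of_sq_le (le_add_of_nonneg_left (sq_nonneg _))
        have hT0 : 0 < (par N).T t.1 := T_pos N t
        simp only [levA, show ¬ j < 9 by omega, show j < 11 by omega, if_false, if_true, big]
        rw [div_mul_eq_mul_div, ← sq]
        refine (div_le_div_of_nonneg_left (sq_nonneg _) hT0 hTr).trans (le_of_eq ?_)
        rw [show (par N).T t.1 = (Kf t ^ pExp)⁻¹ from rfl, div_inv_eq_mul]
      refine (mul_le_mul_of_nonneg_right hle (pow_nonneg (Kf_pos t).le _)).trans ?_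
      rw [mul_assoc (t.1.χ q.1.1 ^ 2), mul_assoc (t.1.χ q.1.1 ^ 2), ← pow_add]
      refine mul_le_mul_of_nonneg_left ?_ (sq_nonneg _)
      rw [inv_mul_eq_div, le_div_iff₀ (pow_pos (Kf_pos t) _), ← pow_add]
      refine pow_le_pow_right₀ (one_le_Kf t) ?_
      have h9 : 9 ≤ j := by omega
      rw [eExp_big h9]
      omega
    · simp only [add_zero, splitL_apply, restAt, levels, next, hfree, if_true, hkk t hq.1.1, W,
        freeWave, oscEE_dom]
      rfl

end Vale.Agent.P205.Stage
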