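import Vale.Agent.P205.Stage.FreeBounds

/-!
The profile of a free level in the fine calculus: the change of the velocity and its fast
derivative are linear in the amplitude up to a power `K ^ c` which does not depend on the
frequencies.
-/

noncomputable section

open Set Finset Real
open scoped ContDiff

namespace Vale.Agent.P205.Stage

open Wave (V4 ip D gram2 Cost Scale Mag Sz)
open Lev Free

section shape

/-- The shape over its first parameter, at `y = (c₁, sin s, cos s)`. -/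
def prof (i : Fin 3) (y : ℝ × ℝ × ℝ) : ℝ :=
  ![-2 * y.1 * y.2.1 ^ 2, 2 * y.2.1 * Real.cos (1 / 2 * y.2.2),
    -2 * y.2.1 * Real.sin (1 / 2 * y.2.2)] i * (1 + (y.1 * y.2.1) ^ 2)⁻¹

/-- The fast derivative of the shape over its first parameter. -/
def dprofile (i : Fin 3) (y : ℝ × ℝ × ℝ) : ℝ :=
  fderiv ℝ (prof i) y ((0, y.2.2, -y.2.1) : ℝ × ℝ × ℝ)

theorem contDiff_prof (i : Fin 3) : ContDiff ℝ ∞ (prof i) ∧ ContDiff ℝ ∞ (dprofile i) := by
  have hd : ContDiff ℝ ∞ fun y : ℝ × ℝ × ℝ => (1 + (y.1 * y.2.1) ^ 2)⁻¹ :=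
    (contDiff_const.add ((contDiff_fst.mul (contDiff_fst.comp contDiff_snd)).pow 2)).inv fun y => by
      positivity
  have h : ContDiff ℝ ∞ (prof i) := by
    unfold prof
    refine ContDiff.mul ?_ hd
    fin_cases i <;> simp <;> fun_prop
  exact ⟨h, (h.fderiv_right (m := ∞) le_rfl).clm_apply
    (contDiff_const.prodMk ((contDiff_snd.comp contDiff_snd).prodMk
      (contDiff_fst.comp contDiff_snd).neg))⟩

/-- The three components of the shape and their derivatives. -/
theorem sh_prof (a : ℝ) (s : ℝ) :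
    (sh0 (a, 1 / 2) s = 1 + a * prof 0 (a, Real.sin s, Real.cos s) ∧
      sh1 (a, 1 / 2) s = a * prof 1 (a, Real.sin s, Real.cos s) ∧
      sh2 (a, 1 / 2) s = a * prof 2 (a, Real.sin s, Real.cos s)) ∧
    deriv (sh0 (a, 1 / 2)) s = a * dprofile 0 (a, Real.sin s, Real.cos s) ∧
      deriv (sh1 (a, 1 / 2)) s = a * dprofile 1 (a, Real.sin s, Real.cos s) ∧
      deriv (sh2 (a, 1 / 2)) s = a * dprofile 2 (a, Real.sin s, Real.cos s) := by
  have e : ∀ r, sh0 (a, 1 / 2) r = 1 + a * prof 0 (a, Real.sin r, Real.cos r) ∧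
      sh1 (a, 1 / 2) r = a * prof 1 (a, Real.sin r, Real.cos r) ∧
      sh2 (a, 1 / 2) r = a * prof 2 (a, Real.sin r, Real.cos r) := fun r => by
    obtain ⟨h0, h1, h2⟩ := Free.sh_uw (a, (1 / 2 : ℝ)) r
    rw [h0, h1, h2]
    simp only [prof, Matrix.cons_val_zero, Matrix.cons_val_one, Matrix.cons_val]
    refine ⟨?_, ?_, ?_⟩ <;> ring
  have hc : HasDerivAt (fun r => ((a, Real.sin r, Real.cos r) : ℝ × ℝ × ℝ))
      ((0, Real.cos s, -Real.sin s) : ℝ × ℝ × ℝ) s :=
    (hasDerivAt_const s a).prodMk ((Real.hasDerivAt_sin s).prodMk (Real.hasDerivAt_cos s))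
  have hp : ∀ i, HasDerivAt (fun r => prof i (a, Real.sin r, Real.cos r))
      (dprofile i (a, Real.sin s, Real.cos s)) s := fun i =>
    ((((contDiff_prof i).1).differentiable (by simp)) _).hasFDerivAt.comp_hasDerivAt s hc
  refine ⟨e s, ?_, ?_, ?_⟩
  · rw [show sh0 (a, 1 / 2) = fun r => 1 + a * prof 0 (a, Real.sin r, Real.cos r) from
      funext fun r => (e r).1]
    exact (((hp 0).const_mul a).const_add 1).deriv
  · rw [show sh1 (a, 1 / 2) = fun r => a * prof 1 (a, Real.sin r, Real.cos r) from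
      funext fun r => (e r).2.1]
    exact ((hp 1).const_mul a).deriv
  · rw [show sh2 (a, 1 / 2) = fun r => a * prof 2 (a, Real.sin r, Real.cos r) from
      funext fun r => (e r).2.2]
    exact ((hp 2).const_mul a).deriv

theorem cost_sin_cos {ι X : Type} [NormedAddCommGroup X] [NormedSpace ℝ X] {σ : Scale ι (X × ℝ)} :
    Cost σ (fun _ _ => 1) (fun _ p => Real.sin p.2) ∧
      Cost σ (fun _ _ => 1) fun _ p => Real.cos p.2 := by
  refine ⟨Cost.sin (ContinuousLinearMap.snd ℝ X ℝ) (ContinuousLinearMap.norm_snd_le ℝ X ℝ), ?_⟩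
  have hh : Cost σ (fun _ _ => 1) fun _ p =>
      Real.sin (((1 / 2 : ℝ) • ContinuousLinearMap.snd ℝ X ℝ) p) := Cost.sin _ (by
    rw [norm_smul, Real.norm_eq_abs, abs_of_pos (by norm_num : (0 : ℝ) < 1 / 2)]
    nlinarith [ContinuousLinearMap.norm_snd_le ℝ X ℝ,
      norm_nonneg (ContinuousLinearMap.snd ℝ X ℝ)])
  refine ((Cost.const (1 : ℝ)).sub (((Cost.const (2 : ℝ)).mul (hh.mul hh)).mono zero_le_one
    (fun _ _ _ => zero_le_one) fun _ _ _ => le_of_eq (by ring))).congr fun t p _ => ?_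
  simp only [smul_apply, ContinuousLinearMap.coe_snd', smul_eq_mul]
  have e := Real.cos_two_mul (1 / 2 * p.2)
  have e2 := Real.sin_sq_add_cos_sq (1 / 2 * p.2)
  rw [show 2 * (1 / 2 * p.2) = p.2 by ring] at e
  rw [e]; linarith

/-- The cross product of three vectors of bounded size. -/
theorem cost_cross {ι X : Type} [NormedAddCommGroup X] [NormedSpace ℝ X] {σ : Scale ι X}
    {u v w : ι → X → ℝ} {p q r : ι → X → V4} (hp : Cost σ u p) (hq : Cost σ v q) (hr : Cost σ w r) :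
    Cost σ (fun t x => u t x * (v t x * w t x))
      fun t x => Wave.cross (p t x) (q t x) (r t x) := by
  refine Cost.pi (fun t x hx => mul_nonneg (hp.nonneg t x hx)
    (mul_nonneg (hq.nonneg t x hx) (hr.nonneg t x hx))) fun i => ?_
  have m3 : ∀ a b c : Fin 4, Cost σ (fun t x => u t x * (v t x * w t x))
      fun t x => p t x a * (q t x b * r t x c) :=
    fun a b c => (hp.proj a).mul ((hq.proj b).mul (hr.proj c))
  have T : ∀ a b c : Fin 4, Cost σ (fun t x => u t x * (v t x * w t x))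
      fun t x => p t x a * (q t x b * r t x c - q t x c * r t x b) := fun a b c =>
    ((m3 a b c).sub (m3 a c b)).congr fun t x _ => by ring
  fin_cases i <;> simp only [Wave.cross]
  · exact ((((T 1 2 3).sub (T 2 1 3)).add (T 3 1 2)).neg).congr fun t x _ => by simp
  · exact (((T 0 2 3).sub (T 2 0 3)).add (T 3 0 2)).congr fun t x _ => by simp
  · exact ((((T 0 1 3).sub (T 1 0 3)).add (T 3 0 1)).neg).congr fun t x _ => by simp
  · exact (((T 0 1 2).sub (T 1 0 2)).add (T 2 0 1)).congr fun t x _ => by simp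

end shape

variable {C : ℕ → ℝ} {C2 : ℕ → ℕ → ℝ} {N N' b s j : ℕ} {T : ℝ} {G : Type} [NormedAddCommGroup G]
  [NormedSpace ℝ G] [FiniteDimensional ℝ G] {V : Set G} {hV : IsOpen V}
  {x : Fam C C2 → Ph × G → Unk}

/-- What a free level uses from the fine calculus. -/
structure FreeFine (N N' b j : ℕ) (T : ℝ) (V : Set G) (hV : IsOpen V)
    (x : Fam C C2 → Ph × G → Unk) : Prop where
  rho : Cost (scQ C C2 N' b T V hV) (fun t q => levA (par N) t.1 j q.1.1)
    (fun t => amp (par N) t.1 (x t) j (restAt N t.1 (x t) j))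
  rho_range : ∀ t, ∀ q ∈ (scQ C C2 N' b T V hV).S t,
    levA (par N) t.1 j q.1.1 ≤ 6 * amp (par N) t.1 (x t) j (restAt N t.1 (x t) j) q ∧
    amp (par N) t.1 (x t) j (restAt N t.1 (x t) j) q ≤ 6 * levA (par N) t.1 j q.1.1
  ok : ∀ t, (Prof.ofNormal (levWave N (scQ C C2 N' b T V hV) x j t)
    (bendDir (par N) t.1 j (mapAt N t.1 (x t) j)) (1 / 2)).OK
  zz_lo : ∀ t, ∀ q ∈ (scQ C C2 N' b T V hV).S t,
    1 ≤ Kf t ^ (3 * cLev j) * ip (d1At N t.1 (x t) j (levE j) q) (d1At N t.1 (x t) j (levE j) q)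
  pvec : Cost (scQ C C2 N' b T V hV) (fun t _ => Kf t ^ (6 * cLev j))
    fun t => (Prof.ofNormal (levWave N (scQ C C2 N' b T V hV) x j t)
      (bendDir (par N) t.1 j (mapAt N t.1 (x t) j)) (1 / 2)).pvec
  ratio : Cost (scQ C C2 N' b T V hV) (fun t _ => Kf t ^ (5 * cLev j))
    fun t q => ip (d1At N t.1 (x t) j (levV j) q) (d1At N t.1 (x t) j (levE j) q) /
      ip (d1At N t.1 (x t) j (levE j) q) (d1At N t.1 (x t) j (levE j) q)
  speed_lo : ∀ t, ∀ q ∈ (scQ C C2 N' b T V hV).S t,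
    1 ≤ Kf t ^ (2 * cLev j) * (Prof.ofNormal (levWave N (scQ C C2 N' b T V hV) x j t)
      (bendDir (par N) t.1 j (mapAt N t.1 (x t) j)) (1 / 2)).aP q
  change : Cost (scQ C C2 N' b T V hV).fast
    (fun t p => levA (par N) t.1 j p.1.1.1 * Kf t ^ (11 * cLev j))
    fun t p => (freeWave N (scQ C C2 N' b T V hV) x j t).T p.1 p.2 -
      (freeWave N (scQ C C2 N' b T V hV) x j t).pv p.1
  dchange : Cost (scQ C C2 N' b T V hV).fast
    (fun t p => levA (par N) t.1 j p.1.1.1 * Kf t ^ (11 * cLev j))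
    fun t p => deriv ((freeWave N (scQ C C2 N' b T V hV) x j t).T p.1) p.2

/-- **A free level in the fine calculus.** -/
theorem free_fine (hb : bMin ≤ b) (hb' : b ≤ bExp) (hj : j = 9 ∨ j = 10)
    (hx : Small N' b s T V hV x) (hm : MapOK N N' b T V hV x j)
    (hB : BendCrude N N' b (cLev j) T V hV x j) :
    ∃ T', T ≤ T' ∧ FreeFine N N' b j T' V hV x := by
  obtain ⟨-, ε, hε, hv, he⟩ := free_dirs hj
  have hε2 : ε ^ 2 = 1 := by rcases hε with rfl | rfl <;> norm_num
  have hc : 100 ≤ cLev j ∧ j ≤ 10 := by rcases hj with rfl | rfl <;> norm_num [cLev]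
  obtain ⟨Ta, hTa, c, hc1, hNB⟩ := freeLevel_nbounds hb hb' hj hx hm
  obtain ⟨Tb, hTb, hr, hra⟩ := free_amp (N := N) (j := j) (hV := hV) hb hj hx
  obtain ⟨cy, hcy0, hcy⟩ := ((cost_d1 hm.d1s (levV j)).ip (cost_d1 hm.d1s (levV j))).abs_le
  obtain ⟨cz, hcz0, hcz⟩ := ((cost_d1 hm.d1s (levE j)).ip (cost_d1 hm.d1s (levE j))).abs_le
  set T' := max (max Ta Tb) (max (max cy cz) 2)
  have hTT : T ≤ T' := hTa.trans ((le_max_left _ _).trans (le_max_left _ _))
  set σ := scQ C C2 N' b T' V hV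
  set P : Fam C C2 → Prof (Ph × G) := fun t => Prof.ofNormal (levWave N σ x j t)
    (bendDir (par N) t.1 j (mapAt N t.1 (x t) j)) (1 / 2)
  have subA : ∀ t, σ.S t ⊆ (scQ C C2 N' b Ta V hV).S t := fun t =>
    scQ_subset ((le_max_left _ _).trans (le_max_left _ _)) t
  have sub : ∀ {t : Fam C C2} {q : Ph × G}, q ∈ σ.S t → q ∈ (scQ C C2 N' b T V hV).S t :=
    fun hq => scQ_subset hTT _ hq
  have bigK : ∀ {t : Fam C C2} {q : Ph × G}, q ∈ σ.S t → cy ≤ Kf t ∧ cz ≤ Kf t ∧ 2 ≤ Kf t :=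
    fun {t q} hq => ⟨(((le_max_left _ _).trans (le_max_left _ _)).trans (le_max_right _ _)).trans hq.1.1,
      (((le_max_right _ _).trans (le_max_left _ _)).trans (le_max_right _ _)).trans hq.1.1,
      ((le_max_right _ _).trans (le_max_right _ _)).trans hq.1.1⟩
  have ok : ∀ t, (P t).OK := fun t => by
    have h := hNB.ok t
    exact
      { open_ := σ.isOpen t
        smoothZ := h.smoothZ.mono (subA t)
        smoothErr := fun n i => (h.smoothErr n i).mono (prod_mono (subA t) subset_rfl)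
        perErr := fun n q hq => h.perErr n q (subA t hq)
        zz_pos := fun q hq => h.zz_pos q (subA t hq)
        pp_pos := fun q hq => h.pp_pos q (subA t hq)
        smoothL1 := h.smoothL1.mono (subA t)
        smoothL2 := h.smoothL2.mono (subA t)
        smoothC := h.smoothC.mono (subA t)
        unit1 := fun q hq => h.unit1 q (subA t hq)
        unit2 := fun q hq => h.unit2 q (subA t hq)
        ort12 := fun q hq => h.ort12 q (subA t hq)
        ortE1 := fun q hq => h.ortE1 q (subA t hq)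
        ortE2 := fun q hq => h.ortE2 q (subA t hq)
        ortV1 := fun q hq => h.ortV1 q (subA t hq)
        ortV2 := fun q hq => h.ortV2 q (subA t hq)
        m0_pos := fun q hq => h.m0_pos q (subA t hq) }
  have hd : ∀ a, Cost σ (fun t _ => Kf t ^ cLev j) fun t => d1At N t.1 (x t) j a := fun a =>
    cost_scQ (cost_d1 hm.d1s a) le_rfl hTT
  have hK0 : ∀ (a : ℕ) (t : Fam C C2), ∀ q ∈ σ.S t, (0 : ℝ) ≤ Kf t ^ a :=
    fun a t _ _ => pow_nonneg (Kf_pos t).le a
  have hzz := hNB.zz.rescale σ (fun _ => le_rfl) subA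
  set zz : Fam C C2 → Ph × G → ℝ := fun t q =>
    ip (d1At N t.1 (x t) j (levE j) q) (d1At N t.1 (x t) j (levE j) q)
  have zpos : ∀ t, ∀ q ∈ σ.S t, 0 < zz t q := fun t q hq => (hNB.ok t).zz_pos q (subA t hq)
  have eG : ∀ t (q : Ph × G), gram2 (d1At N t.1 (x t) j (levE j) q) (d1At N t.1 (x t) j (levV j) q) =
      areaAt N t.1 (x t) j q := fun t q => by
    rw [levels_d1 _ _ _ (levE j), levels_d1 _ _ _ (levV j), he, hv, areaAt]
    simp only [pt_zero, pt_one]
    rw [Legal.gram2_comb, show (1 * ε - -ε * 0) ^ 2 = 1 by linear_combination hε2, one_mul]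
  have garea : ∀ t, ∀ q ∈ σ.S t, 0 < areaAt N t.1 (x t) j q := fun t q hq =>
    pos_of_mul_pos_right (zero_lt_one.trans_le (hm.area_lo t q (sub hq)))
      (pow_nonneg (Kf_pos t).le _)
  have gbend : ∀ t, ∀ q ∈ σ.S t, 0 < bendAt N t.1 (x t) j q := fun t q hq =>
    pos_of_mul_pos_right (zero_lt_one.trans_le (hm.bend_lo t q (sub hq)))
      (pow_nonneg (Kf_pos t).le _)
  have zlo : ∀ t, ∀ q ∈ σ.S t, 1 ≤ Kf t ^ (3 * cLev j) * zz t q := fun t q hq => by
    have h1 : areaAt N t.1 (x t) j q ≤ zz t q *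
        ip (d1At N t.1 (x t) j (levV j) q) (d1At N t.1 (x t) j (levV j) q) := by
      rw [← eG]; exact sub_le_self _ (sq_nonneg _)
    have h2 := ((le_abs_self _).trans (hcy t q (sub hq))).trans
      (mul_le_mul_of_nonneg_right (bigK hq).1 (mul_self_nonneg _))
    refine (hm.area_lo t q (sub hq)).trans ((mul_le_mul_of_nonneg_left (h1.trans
      (mul_le_mul_of_nonneg_left h2 (zpos t q hq).le)) (pow_nonneg (Kf_pos t).le _)).trans ?_)
    rw [← pow_add, ← pow_succ', mul_comm (zz t q), ← mul_assoc, ← pow_add]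
    exact mul_le_mul_of_nonneg_right (pow_le_pow_right₀ (one_le_Kf t) (by omega)) (zpos t q hq).le
  have izz : Cost σ (fun t _ => Kf t ^ (3 * cLev j)) fun t q => (zz t q)⁻¹ :=
    (hzz.rel_inv zpos).mono zero_le_one (hK0 _) fun t q hq => by
      rw [one_mul]
      exact (inv_le_iff_one_le_mul₀ (zpos t q hq)).2 (zlo t q hq)
  have ratio : Cost σ (fun t _ => Kf t ^ (5 * cLev j))
      fun t q => ip (d1At N t.1 (x t) j (levV j) q) (d1At N t.1 (x t) j (levE j) q) / zz t q :=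
    ((((hd (levV j)).ip (hd (levE j))).mul izz).mono zero_le_one (hK0 _) fun t q _ => le_of_eq (by
      rw [one_mul, ← pow_add, ← pow_add]; congr 1; omega)).congr fun t q _ => div_eq_mul_inv _ _
  have pv : Cost σ (fun t _ => Kf t ^ (6 * cLev j)) fun t => (P t).pvec :=
    ((cost_pow_le (hd (levV j)) (by omega)).sub ((ratio.smul (hd (levE j))).mono zero_le_one
      (hK0 _) fun t q _ => le_of_eq (by rw [one_mul, ← pow_add]; congr 1; ring))).congr
      fun t q _ => rfl
  -- the speed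
  have epp : ∀ t, ∀ q ∈ σ.S t, (P t).aP q ^ 2 = areaAt N t.1 (x t) j q * (zz t q)⁻¹ :=
    fun t q hq => by
      have := (zpos t q hq).ne'
      simp only [zz, d1At] at this
      rw [Prof.aP, Real.sq_sqrt ((ok t).pp_pos q hq).le, ← eG]
      simp [P, Prof.ofNormal, Prof.pvec, Wave.Data.Ze, Wave.Data.Zv, levData, gram2, zz, d1At,
        Wave.ip_comm (D (vec (par N) t.1 G j (levV j)) (mapAt N t.1 (x t) j) q)
          (D (vec (par N) t.1 G j (levE j)) (mapAt N t.1 (x t) j) q)]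
      field_simp
      ring
  have apos : ∀ t, ∀ q ∈ σ.S t, 0 < (P t).aP q := fun t q hq => (Prof.frame (ok t) hq).1
  have ppRel : Cost σ (fun t q => (P t).aP q ^ 2) fun t q => (P t).aP q ^ 2 :=
    (((cost_scQ hm.area le_rfl hTT).mul (hzz.rel_inv zpos)).mono zero_le_one
      (fun t q _ => sq_nonneg _) fun t q hq => by rw [one_mul, epp t q hq]; exact le_rfl).congr epp
  have aRel : Cost σ (fun t q => (P t).aP q) fun t q => (P t).aP q := by
    refine ((ppRel.rel_sqrt fun t q hq => pow_pos (apos t q hq) 2).mono zero_le_one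
      (fun t q hq => (apos t q hq).le) fun t q hq => ?_).congr fun t q hq => ?_
    · rw [one_mul, Real.sqrt_sq (apos t q hq).le]
    · rw [Real.sqrt_sq (apos t q hq).le]
  have alo : ∀ t, ∀ q ∈ σ.S t, 1 ≤ Kf t ^ (2 * cLev j) * (P t).aP q := fun t q hq => by
    have hz := ((le_abs_self _).trans (hcz t q (sub hq))).trans
      (mul_le_mul_of_nonneg_right (bigK hq).2.1 (mul_self_nonneg _))
    refine (one_le_pow_iff_of_nonneg (mul_nonneg (pow_nonneg (Kf_pos t).le _)
      (apos t q hq).le) two_ne_zero).1 ?_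
    rw [mul_pow, epp t q hq, ← mul_assoc, le_mul_inv_iff₀ (zpos t q hq), one_mul]
    refine hz.trans ((le_mul_of_one_le_right (mul_nonneg (Kf_pos t).le (mul_self_nonneg _))
      (hm.area_lo t q (sub hq))).trans ?_)
    rw [← pow_add, ← pow_succ', ← mul_assoc, ← pow_add, ← pow_mul]
    exact mul_le_mul_of_nonneg_right (pow_le_pow_right₀ (one_le_Kf t) (by omega)) (garea t q hq).le
  have tau : Cost σ (fun t _ => Kf t ^ (8 * cLev j)) fun t => (P t).tauP :=
    ((((aRel.rel_inv apos).mono zero_le_one (hK0 (2 * cLev j)) fun t q hq => by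
      rw [one_mul]; exact (inv_le_iff_one_le_mul₀ (apos t q hq)).2 (alo t q hq)).smul pv).mono
      zero_le_one (hK0 _) fun t q _ => le_of_eq (by rw [one_mul, ← pow_add]; congr 1; ring)).congr
      fun t q _ => by simp only [Prof.tauP, one_div]
  -- the normals
  have hL2 : Cost σ (fun t _ => Kf t ^ (7 * cLev j))
      fun t => bendDir (par N) t.1 j (mapAt N t.1 (x t) j) := by
    have hp := cost_perp2 (hd (pt 1 0)) (hd (pt 0 1)) (cost_scQ hm.d2v (le_refl b) hTT)
      (cost_scQ hm.area (le_refl b) hTT) (L := fun t _ => Kf t ^ (4 + j))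
      (fun t q hq => hm.area_lo t q (sub hq)) fun t q _ => by
        have := one_le_pow_K t (cLev j)
        exact one_le_mul_of_one_le_of_one_le (one_le_mul_of_one_le_of_one_le (one_le_pow_K t _)
          (one_le_pow₀ this)) (one_le_pow₀ this)
    have hi := ((cost_scQ hm.bend (le_refl b) hTT).rel_sqrt gbend).rel_inv fun t q hq =>
      Real.sqrt_pos.2 (gbend t q hq)
    refine ((hi.smul hp).mono zero_le_one (hK0 _) fun t q hq => ?_).congr fun t q _ =>
      bendDir_eq t q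
    have hs := Real.sqrt_pos.2 (gbend t q hq)
    have hW : bendWeight N t.1 j q ≤ Kf t ^ cLev j * sqrt (bendAt N t.1 (x t) j q) := by
      refine le_of_pow_le_pow_left₀ two_ne_zero (mul_nonneg (pow_nonneg (Kf_pos t).le _) hs.le) ?_
      rw [mul_pow, Real.sq_sqrt (gbend t q hq).le, ← pow_mul]
      exact (hB.lower t q (sub hq)).trans (mul_le_mul_of_nonneg_right
        (pow_le_pow_right₀ (one_le_Kf t) (by omega)) (gbend t q hq).le)
    rw [one_mul, inv_mul_le_iff₀ hs]
    refine (mul_le_mul_of_nonneg_left (mul_le_mul_of_nonneg_left hW (hK0 _ t q hq))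
      (by have := Kf_pos t; positivity)).trans ?_
    rw [mul_comm (sqrt _) (Kf t ^ (7 * cLev j))]
    simp only [← mul_assoc, ← pow_mul, ← pow_add]
    exact mul_le_mul_of_nonneg_right (pow_le_pow_right₀ (one_le_Kf t) (by omega)) hs.le
  have hL1 : Cost σ (fun t _ => Kf t ^ (10 * cLev j)) fun t => (P t).L1 := by
    have hi : Cost σ (fun t _ => Kf t ^ (4 + j))
        fun t q => (sqrt (areaAt N t.1 (x t) j q))⁻¹ :=
      (((cost_scQ hm.area le_rfl hTT).rel_sqrt garea).rel_inv fun t q hq =>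
        Real.sqrt_pos.2 (garea t q hq)).mono zero_le_one (hK0 _) fun t q hq => by
        rw [one_mul, inv_le_iff_one_le_mul₀ (Real.sqrt_pos.2 (garea t q hq))]
        have h := hm.area_lo t q (sub hq)
        have := Real.sq_sqrt (garea t q hq).le
        nlinarith [one_le_pow_K t (4 + j), Real.sqrt_pos.2 (garea t q hq)]
    refine ((hi.smul (cost_cross (hd (levE j)) (hd (levV j)) hL2)).mono zero_le_one (hK0 _)
      fun t q _ => ?_).congr fun t q _ => ?_
    · rw [one_mul, ← pow_add, ← pow_add, ← pow_add]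
      exact pow_le_pow_right₀ (one_le_Kf t) (by omega)
    · simp only [P, Prof.ofNormal, one_div]
      rw [← eG]; rfl
  -- the amplitude
  have hρ : Cost σ (fun t q => levA (par N) t.1 j q.1.1)
      (fun t => amp (par N) t.1 (x t) j (restAt N t.1 (x t) j)) :=
    cost_scQ hr le_rfl ((le_max_right Ta Tb).trans (le_max_left _ _))
  have hρr : ∀ t, ∀ q ∈ σ.S t, _ := fun t q hq =>
    hra t q (scQ_subset ((le_max_right Ta Tb).trans (le_max_left _ (max (max cy cz) 2))) t hq)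
  have hrel : Cost σ (fun t q => sqrt ((P t).aP q ^ 2 +
      amp (par N) t.1 (x t) j (restAt N t.1 (x t) j) q ^ 2))
      (fun t => amp (par N) t.1 (x t) j (restAt N t.1 (x t) j)) :=
    hρ.mono (c := 6) (by norm_num) (fun _ _ _ => Real.sqrt_nonneg _) fun t q hq =>
      (hρr t q hq).1.trans (mul_le_mul_of_nonneg_left
        (Real.le_sqrt_of_sq_le (le_add_of_nonneg_left (sq_nonneg _))) (by norm_num))
  obtain ⟨ellRel, dell, amp1, ampW⟩ := Wave.amp_cost aRel apos hrel hρ
  set ρ : Fam C C2 → Ph × G → ℝ := fun t => amp (par N) t.1 (x t) j (restAt N t.1 (x t) j)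
  set ell : Fam C C2 → Ph × G → ℝ := fun t q => sqrt ((P t).aP q ^ 2 + ρ t q ^ 2)
  have lpos : ∀ t, ∀ q ∈ σ.S t, 0 < ell t q := fun t q hq => by
    have := apos t q hq; exact Real.sqrt_pos.2 (by positivity)
  have elc : Cost σ (fun t q => levA (par N) t.1 j q.1.1)
      fun t q => ell t q * Wave.ampOf ((P t).aP q) (ρ t q) :=
    (ellRel.mul ampW).mono zero_le_one hρ.nonneg fun t q hq => by
      rw [one_mul, mul_comm (levA _ _ _ _), ← mul_assoc, mul_inv_cancel₀ (lpos t q hq).ne', one_mul]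
  have key : ∀ g : ℝ × ℝ × ℝ → ℝ, ContDiff ℝ ∞ g → Cost σ.fast (fun _ _ => 1)
      fun t p => g (Wave.ampOf ((P t).aP p.1) (ρ t p.1), Real.sin p.2, Real.cos p.2) := by
    intro g hg
    obtain ⟨R, hR0, hR⟩ := amp1.abs_le
    obtain ⟨hsn, hcs⟩ := cost_sin_cos (σ := σ.fast)
    have h3 : Cost σ.fast (fun _ _ => 1) fun t p =>
        ((Wave.ampOf ((P t).aP p.1) (ρ t p.1), Real.sin p.2, Real.cos p.2) : ℝ × ℝ × ℝ) :=
      ((amp1.fast.clm (ContinuousLinearMap.inl ℝ ℝ (ℝ × ℝ))).add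
        (((hsn.clm (ContinuousLinearMap.inl ℝ ℝ ℝ)).add
          (hcs.clm (ContinuousLinearMap.inr ℝ ℝ ℝ))).clm
            (ContinuousLinearMap.inr ℝ ℝ (ℝ × ℝ)))).congr fun t p _ => by simp [ρ]
    refine h3.comp_smooth isOpen_univ ((isCompact_Icc (a := -R) (b := R)).prod
      ((isCompact_Icc (a := (-1 : ℝ)) (b := 1)).prod (isCompact_Icc (a := (-1 : ℝ)) (b := 1))))
      (subset_univ _) hg.contDiffOn fun t p hp => ⟨?_, ⟨?_, ?_⟩⟩
    · exact Set.mem_Icc.2 (abs_le.1 ((hR t p.1 hp.1).trans (le_of_eq (mul_one R))))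
    · exact Set.mem_Icc.2 ⟨Real.neg_one_le_sin _, Real.sin_le_one _⟩
    · exact Set.mem_Icc.2 ⟨Real.neg_one_le_cos _, Real.cos_le_one _⟩
  have hw : ∀ t, ∀ p ∈ σ.fast.S t,
      0 ≤ levA (par N) t.1 j p.1.1.1 * Kf t ^ (11 * cLev j) := fun t p hp =>
    mul_nonneg (hρ.nonneg t p.1 hp.1) (pow_nonneg (Kf_pos t).le _)
  have term : ∀ {n : ℕ} {f : Fam C C2 → Ph × G → V4}, Cost σ (fun t _ => Kf t ^ n) f →
      n ≤ 11 * cLev j → ∀ g : ℝ × ℝ × ℝ → ℝ, ContDiff ℝ ∞ g →
      Cost σ.fast (fun t p => levA (par N) t.1 j p.1.1.1 * Kf t ^ (11 * cLev j))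
        fun t p => (ell t p.1 * Wave.ampOf ((P t).aP p.1) (ρ t p.1) *
          g (Wave.ampOf ((P t).aP p.1) (ρ t p.1), Real.sin p.2, Real.cos p.2)) • f t p.1 :=
    fun {n f} hf hn g hg =>
      ((elc.fast.mul (key g hg)).smul hf.fast).mono zero_le_one hw fun t p hp => by
        rw [one_mul, mul_one]
        exact mul_le_mul_of_nonneg_left (pow_le_pow_right₀ (one_le_Kf t) hn) (hρ.nonneg t p.1 hp.1)
  have n8 : 8 * cLev j ≤ 11 * cLev j := by omega
  have n10 : 10 * cLev j ≤ 11 * cLev j := by omega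
  have n7 : 7 * cLev j ≤ 11 * cLev j := by omega
  have hlen : ∀ t, ∀ q ∈ σ.S t, (P t).len q = ell t q := fun t q hq =>
    Prof.m0_shapeOf (ok t) hq (μ := 1 / 2) (ρ := ρ t q) rfl
  have hcq : ∀ t (q : Ph × G),
      (P t).c q = (Wave.ampOf ((P t).aP q) (ρ t q), (1 / 2 : ℝ)) := fun t q => rfl
  refine ⟨T', hTT, ⟨hρ, hρr, ok, zlo, pv, ratio, alo, ?_, ?_⟩⟩
  · refine (((((dell.fast.smul tau.fast).mono zero_le_one hw fun t p hp => ?_).add
      (term tau n8 _ (contDiff_prof 0).1)).add (term hL1 n10 _ (contDiff_prof 1).1)).add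
      (term hL2 n7 _ (contDiff_prof 2).1)).congr fun t p hp => ?_
    · rw [one_mul]
      exact mul_le_mul_of_nonneg_left (pow_le_pow_right₀ (one_le_Kf t) n8) (hρ.nonneg t p.1 hp.1)
    · obtain ⟨-, -, -, -, -, hp'⟩ := Prof.frame (ok t) hp.1
      show (P t).len p.1 • (P t).unit p.1 p.2 - (P t).pvec p.1 = _
      rw [← hp', Prof.unit, hlen t p.1 hp.1, hcq]
      obtain ⟨⟨h0, h1, h2⟩, -⟩ := sh_prof (Wave.ampOf ((P t).aP p.1) (ρ t p.1)) p.2
      rw [h0, h1, h2, show (P t).L2 p.1 = bendDir (par N) t.1 j (mapAt N t.1 (x t) j) p.1 from rfl]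
      module
  · refine (((term tau n8 _ (contDiff_prof 0).2).add (term hL1 n10 _ (contDiff_prof 1).2)).add
      (term hL2 n7 _ (contDiff_prof 2).2)).congr fun t p hp => ?_
    show deriv ((P t).data.T p.1) p.2 = _
    rw [Prof.deriv_T (ok t) hp.1, hlen t p.1 hp.1, hcq]
    obtain ⟨-, h0, h1, h2⟩ := sh_prof (Wave.ampOf ((P t).aP p.1) (ρ t p.1)) p.2
    rw [h0, h1, h2, show (P t).L2 p.1 = bendDir (par N) t.1 j (mapAt N t.1 (x t) j) p.1 from rfl]
    module

end Vale.Agent.P205.Stage
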