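import Vale.Agent.P205.Stage.Setup

/-!
What is kept from level to level: the map and two derivatives at the phases, the area and the bend
`II(v,v)` with relative cost and lower bounds, closeness to the old map below the free levels, and
the size of what the free levels leave to the legal one.
-/

noncomputable section

open Set Real
open scoped ContDiff

namespace Vale.Agent.P205.Stage

open Wave

variable {G : Type} [NormedAddCommGroup G] [NormedSpace ℝ G] [FiniteDimensional ℝ G]

section quantities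

variable (N : ℕ) (I : Input) (x : Ph × G → Unk) (j : ℕ)

/-- The map before level `j`. -/
def mapAt : Ph × G → V4 := (levels (par N) I x j).1
/-- What the free levels below `j` leave to the legal one. -/
def restAt : Ph × G → ℝ := (levels (par N) I x j).2
/-- A derivative at the phases of the levels below `j`. -/
def d1At (a : R2) : Ph × G → V4 := D (vec (par N) I G j a) (mapAt N I x j)
/-- A second derivative at the phases of the levels below `j`. -/
def d2At (a b : R2) : Ph × G → V4 := D (vec (par N) I G j a) (d1At N I x j b)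
/-- The area before level `j`. -/
def areaAt (q : Ph × G) : ℝ := gram2 (d1At N I x j (pt 1 0) q) (d1At N I x j (pt 0 1) q)
/-- The normal part of the second derivative along `v`. -/
def bendVec (q : Ph × G) : V4 :=
  perp2 (d1At N I x j (pt 1 0) q) (d1At N I x j (pt 0 1) q) (d2At N I x j (pt 0 1) (pt 0 1) q)
/-- The squared bend before level `j`. -/
def bendAt (q : Ph × G) : ℝ := ip (bendVec N I x j q) (bendVec N I x j q)
/-- The squared derivative along `(1, 1)` before level `j`. -/
def zzAt (q : Ph × G) : ℝ := ip (d1At N I x j (pt 1 1) q) (d1At N I x j (pt 1 1) q)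
/-- The area of the first and second derivative along `v` before level `j`. -/
def kernelAt (q : Ph × G) : ℝ :=
  gram2 (d1At N I x j (pt 0 1) q) (d2At N I x j (pt 0 1) (pt 0 1) q)
/-- The weight of the bend: one plus the amplitude times the frequencies of the free levels. -/
def bendWeight (q : Ph × G) : ℝ :=
  1 + ∑ i ∈ Finset.Ico 9 j, (if i < 11 then (par N).k I i * levA (par N) I i q.1.1 else 0)

end quantities

variable {C : ℕ → ℝ} {C2 : ℕ → ℕ → ℝ}

/-- The exponent of what is known at level `j` without the frequencies. -/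
def cLev (j : ℕ) : ℕ := 1000 ^ (max j 9 - 8)

/-- The coordinate vectors. -/
def axes : Set R2 := {pt 1 0, pt 0 1}

/-- A small admissible family: of size `K ^ -s`, each derivative costing `K ^ b`. -/
structure Small (N' b s : ℕ) (T : ℝ) (V : Set G) (hV : IsOpen V)
    (x : Fam C C2 → Ph × G → Unk) : Prop where
  cost : Cost (scQ C C2 N' b T V hV) (fun t _ => (Kf t ^ s)⁻¹) x
  adm : admUnk C C2 N' G V T x

/-- What every level keeps, whatever the relative cost of the bend. -/
structure MapCore (N N' b : ℕ) (T : ℝ) (V : Set G) (hV : IsOpen V)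
    (x : Fam C C2 → Ph × G → Unk) (j : ℕ) : Prop where
  smooth : ∀ t, ContDiffOn ℝ ∞ (mapAt N t.1 (x t) j) ((scQ C C2 N' b T V hV).S t)
  d1 : ∀ a ∈ axes, Cost (scQ C C2 N' b T V hV) (fun t _ => Kf t ^ mExp j)
    fun t => d1At N t.1 (x t) j a
  d2 : ∀ a ∈ axes, ∀ a' ∈ axes, Cost (scQ C C2 N' b T V hV) (fun t _ => Kf t ^ (2 * mExp j))
    fun t => d2At N t.1 (x t) j a a'
  d1s : ∀ a ∈ axes, Cost (scQ C C2 N' b T V hV) (fun t _ => Kf t ^ cLev j)
    fun t => d1At N t.1 (x t) j a
  d2v : Cost (scQ C C2 N' b T V hV) (fun t q => Kf t ^ cLev j * bendWeight N t.1 j q)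
    fun t => d2At N t.1 (x t) j (pt 0 1) (pt 0 1)
  area : Cost (scQ C C2 N' b T V hV) (fun t => areaAt N t.1 (x t) j)
    fun t => areaAt N t.1 (x t) j
  area_lo : ∀ t, ∀ q ∈ (scQ C C2 N' b T V hV).S t,
    1 ≤ Kf t ^ (4 + j) * areaAt N t.1 (x t) j q
  bend_lo : ∀ t, ∀ q ∈ (scQ C C2 N' b T V hV).S t,
    1 ≤ Kf t ^ (4 + j) * bendAt N t.1 (x t) j q
  rest : Cost (scQ C C2 N' b T V hV) (fun t q => t.1.χ q.1.1 ^ 2 * (Kf t ^ bExp)⁻¹)
    fun t => restAt N t.1 (x t) j
  zz : j = 10 → Cost (scQ C C2 N' b T V hV) (fun t => zzAt N t.1 (x t) j)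
    fun t => zzAt N t.1 (x t) j
  close₁ : j ≤ 9 → ∀ a ∈ axes, Cost (scQ C C2 N' b T V hV) (fun t _ => (Kf t ^ (4 * bExp))⁻¹)
    fun t q => d1At N t.1 (x t) j a q - D a t.1.Z q.1.1
  close₂ : j ≤ 9 → ∀ a ∈ axes, ∀ a' ∈ axes,
    Cost (scQ C C2 N' b T V hV) (fun t _ => (Kf t ^ (4 * bExp))⁻¹)
      fun t q => d2At N t.1 (x t) j a a' q - D a (D a' t.1.Z) q.1.1

/-- The hypotheses of level `j`. -/
structure MapOK (N N' b : ℕ) (T : ℝ) (V : Set G) (hV : IsOpen V)
    (x : Fam C C2 → Ph × G → Unk) (j : ℕ) : Prop extends MapCore N N' b T V hV x j where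
  bend : Cost (scQ C C2 N' b T V hV) (fun t => bendAt N t.1 (x t) j)
    fun t => bendAt N t.1 (x t) j
  kernel : j = 11 → Cost (scQ C C2 N' b T V hV) (fun t => kernelAt N t.1 (x t) j)
    fun t => kernelAt N t.1 (x t) j

/-- The bend of a map with crude cost: at most and at least the weight up to `K ^ c`. -/
structure BendCrude (N N' b c : ℕ) (T : ℝ) (V : Set G) (hV : IsOpen V)
    (x : Fam C C2 → Ph × G → Unk) (j : ℕ) : Prop where
  upper : Cost (scQ C C2 N' b T V hV) (fun t q => Kf t ^ c * bendWeight N t.1 j q ^ 2)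
    fun t => bendAt N t.1 (x t) j
  lower : ∀ t, ∀ q ∈ (scQ C C2 N' b T V hV).S t,
    bendWeight N t.1 j q ^ 2 ≤ Kf t ^ c * bendAt N t.1 (x t) j q

/-- The area of the first and second derivative along `v` with crude cost. -/
structure KernelCrude (N N' b c : ℕ) (T : ℝ) (V : Set G) (hV : IsOpen V)
    (x : Fam C C2 → Ph × G → Unk) (j : ℕ) : Prop where
  upper : Cost (scQ C C2 N' b T V hV) (fun t q => Kf t ^ c * bendWeight N t.1 j q ^ 2)
    fun t => kernelAt N t.1 (x t) j
  lower : ∀ t, ∀ q ∈ (scQ C C2 N' b T V hV).S t,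
    bendWeight N t.1 j q ^ 2 ≤ Kf t ^ c * kernelAt N t.1 (x t) j q

end Vale.Agent.P205.Stage
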