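import Vale.Agent.P205.Stage.Specs
import Vale.Agent.P205.Stage.Perturb
import Vale.Agent.P205.Legal.Vec

/-!
Before the legal level the area of the first and second derivative along `v` is as crude as the
bend: from above by the costs of the two derivatives, from below by the area times the bend over
the squared derivative along `e`.
-/

noncomputable section

open Set Real
open scoped ContDiff

namespace Vale.Agent.P205.Stage

open Wave
open Legal (gram2_ge perp2_basis ip_self_nonneg)

theorem area_bend_le {p q : V4} (h : 0 < gram2 p q) (w : V4) :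
    gram2 p q * ip (perp2 p q w) (perp2 p q w) ≤ ip p p * gram2 q w := by
  have hs : gram2 q p = gram2 p q := by
    simp only [gram2, ip_comm q p]
    ring
  have e : perp2 q p w = perp2 p q w := by
    simpa using perp2_basis h.ne' (α := 0) (β := 1) (γ := 1) (δ := 0) (by norm_num) w
  have h1 := gram2_ge (p := q) (q := p) (hs.symm ▸ h) w
  rw [e] at h1
  have h2 : gram2 p q ≤ ip p p * ip q q := sub_le_self _ (sq_nonneg _)
  calc gram2 p q * ip (perp2 p q w) (perp2 p q w)
      ≤ ip p p * ip q q * ip (perp2 p q w) (perp2 p q w) :=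
        mul_le_mul_of_nonneg_right h2 (ip_self_nonneg _)
    _ = ip p p * (ip q q * ip (perp2 p q w) (perp2 p q w)) := mul_assoc _ _ _
    _ ≤ ip p p * gram2 q w := mul_le_mul_of_nonneg_left h1 (ip_self_nonneg _)

theorem kernelStep : KernelStep := by
  intro C C2 N N' b _ _ G _ _ _ V hV T x hM hB
  have hc : 100 ≤ cLev 11 := by norm_num [cLev]
  generalize hc' : cLev 11 = c at hB hc ⊢
  have hp : Cost (scQ C C2 N' b T V hV) (fun t _ => Kf t ^ c)
      fun t => d1At N t.1 (x t) 11 (pt 1 0) := hc' ▸ hM.d1s (pt 1 0) (by simp [axes])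
  have hq : Cost (scQ C C2 N' b T V hV) (fun t _ => Kf t ^ c)
      fun t => d1At N t.1 (x t) 11 (pt 0 1) := hc' ▸ hM.d1s (pt 0 1) (by simp [axes])
  have hw : Cost (scQ C C2 N' b T V hV) (fun t q => Kf t ^ c * bendWeight N t.1 11 q)
      fun t => d2At N t.1 (x t) 11 (pt 0 1) (pt 0 1) := hc' ▸ hM.d2v
  obtain ⟨R, hR0, hR⟩ := (hp.ip hp).abs_le
  have up : Cost (scQ C C2 N' b T V hV) (fun t q => Kf t ^ (10 * c) * bendWeight N t.1 11 q ^ 2)
      fun t => kernelAt N t.1 (x t) 11 := by
    have a := (hq.ip hq).mul (hw.ip hw)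
    have b' := (hq.ip hw).mul (hq.ip hw)
    have hle : ∀ (t : Fam C C2) (q : Ph × G),
        Kf t ^ c * Kf t ^ c * (Kf t ^ c * bendWeight N t.1 11 q * (Kf t ^ c * bendWeight N t.1 11 q)) ≤
          1 * (Kf t ^ (10 * c) * bendWeight N t.1 11 q ^ 2) := fun t q => by
      rw [one_mul]
      calc _ = Kf t ^ (4 * c) * bendWeight N t.1 11 q ^ 2 := by ring
        _ ≤ _ := mul_le_mul_of_nonneg_right (pow_le_pow_right₀ (one_le_Kf t) (by omega)) (sq_nonneg _)
    have hn : ∀ (t : Fam C C2), ∀ q ∈ (scQ C C2 N' b T V hV).S t,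
        0 ≤ Kf t ^ (10 * c) * bendWeight N t.1 11 q ^ 2 := fun t q _ =>
      mul_nonneg (pow_nonneg (Kf_pos t).le _) (sq_nonneg _)
    refine ((a.mono zero_le_one hn fun t q _ => hle t q).sub
      (b'.mono zero_le_one hn fun t q _ => le_trans (le_of_eq (by ring)) (hle t q))).congr
      fun t q _ => ?_
    simp only [kernelAt, gram2]
    ring
  refine ⟨max T R, le_max_left _ _, cost_scQ up le_rfl (le_max_left _ _), fun t q hq' => ?_⟩
  have hqT : q ∈ (scQ C C2 N' b T V hV).S t := scQ_subset (le_max_left T R) t hq'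
  have hK := Kf_pos t
  have hA := hM.area_lo t q hqT
  have hArea : 0 < areaAt N t.1 (x t) 11 q :=
    pos_of_mul_pos_right (zero_lt_one.trans_le hA) (pow_nonneg hK.le _)
  have hBl := hB.lower t q hqT
  have key := area_bend_le hArea (d2At N t.1 (x t) 11 (pt 0 1) (pt 0 1) q)
  have hpp := (le_abs_self _).trans (hR t q hqT)
  have hk : 0 ≤ kernelAt N t.1 (x t) 11 q :=
    nonneg_of_mul_nonneg_right ((mul_nonneg hArea.le (ip_self_nonneg _)).trans key)
      (lt_of_le_of_ne (ip_self_nonneg _) fun h0 => by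
        have := hArea
        simp only [areaAt, gram2, ← h0, zero_mul, zero_sub] at this
        linarith [sq_nonneg (ip (d1At N t.1 (x t) 11 (pt 1 0) q) (d1At N t.1 (x t) 11 (pt 0 1) q))])
  calc bendWeight N t.1 11 q ^ 2 ≤ Kf t ^ c * bendAt N t.1 (x t) 11 q := hBl
    _ ≤ Kf t ^ c * bendAt N t.1 (x t) 11 q * (Kf t ^ (4 + 11) * areaAt N t.1 (x t) 11 q) :=
        le_mul_of_one_le_right ((sq_nonneg _).trans hBl) hA
    _ = Kf t ^ (c + 15) * (areaAt N t.1 (x t) 11 q * bendAt N t.1 (x t) 11 q) := by ring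
    _ ≤ Kf t ^ (c + 15) * (R * (Kf t ^ c * Kf t ^ c) * kernelAt N t.1 (x t) 11 q) :=
        mul_le_mul_of_nonneg_left (key.trans (mul_le_mul_of_nonneg_right hpp hk))
          (pow_nonneg hK.le _)
    _ ≤ Kf t ^ (c + 15) * (Kf t * (Kf t ^ c * Kf t ^ c) * kernelAt N t.1 (x t) 11 q) := by
        refine mul_le_mul_of_nonneg_left (mul_le_mul_of_nonneg_right ?_ hk) (pow_nonneg hK.le _)
        exact mul_le_mul_of_nonneg_right ((le_max_right _ _).trans hq'.1.1) (by positivity)
    _ = Kf t ^ (3 * c + 16) * kernelAt N t.1 (x t) 11 q := by ring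
    _ ≤ _ := mul_le_mul_of_nonneg_right (pow_le_pow_right₀ (one_le_Kf t) (by omega)) hk

end Vale.Agent.P205.Stage
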