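import Vale.Agent.P205.Stage.FreeBounds
import Vale.Agent.P205.Wave.CostUpTo
import Vale.Agent.P205.Legal.Bend

/-!
The size hypotheses of the legal level of a stage, with the magnitude a power of the scale.
-/

noncomputable section

open Set Finset Real
open scoped ContDiff

namespace Vale.Agent.P205.Stage

open Wave (V4 ip D gram2 Cost Scale Mag Sz)
open Lev

variable {C : ℕ → ℝ} {C2 : ℕ → ℕ → ℝ} {N N' b s : ℕ} {T : ℝ} {G : Type} [NormedAddCommGroup G]
  [NormedSpace ℝ G] {V : Set G} {hV : IsOpen V}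

/-- The directions of the legal level. -/
theorem legal_dirs : levE 11 = pt 0 1 ∧ levV 11 = pt 1 0 := by simp [levE, levV]

/-- The charts of the legal level with the magnitude `c K ^ (3 mExp 11)` and the cut-off as
amplitude. -/
def legalMag (C : ℕ → ℝ) (C2 : ℕ → ℕ → ℝ) (N N' b : ℕ) (T : ℝ) (V : Set G) (hV : IsOpen V)
    (hb : b ≤ bExp) (c : ℝ) (hc : 1 ≤ c) : Mag (Fam C C2) (Ph × G) where
  toScale := scQ C C2 N' b T V hV
  M t := c * Kf t ^ (3 * mExp 11)
  A t q := levA (par N) t.1 11 q.1.1 / max 1 (C 0)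
  le_M t := (pow_le_pow_right₀ (one_le_Kf t) (by have := (mExp_grows 11).1; omega)).trans
    (le_mul_of_one_le_left (pow_nonneg (Kf_pos t).le _) hc)
  A_nonneg t q hq := div_nonneg (share_range N hq.1.2.1 11).2.2.2.2.2.1.le (by positivity)
  A_le t q hq := by
    obtain ⟨-, -, -, -, -, -, h1, h2, -⟩ := share_range N hq.1.2.1 11
    rw [div_le_one (by positivity)]
    exact (h1.trans h2).trans (le_max_right _ _)

variable [FiniteDimensional ℝ G] {x : Fam C C2 → Ph × G → Unk}

/-- The amplitude of the legal level. -/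
theorem legal_amp (hb : bMin ≤ b) (hx : Small N' b s T V hV x) (hm : MapCore N N' b T V hV x 11) :
    ∃ T' c, T ≤ T' ∧ 0 ≤ c ∧
      Cost (scQ C C2 N' b T' V hV)
        (fun t => amp (par N) t.1 (x t) 11 (restAt N t.1 (x t) 11))
        (fun t => amp (par N) t.1 (x t) 11 (restAt N t.1 (x t) 11)) ∧
      ∀ t, ∀ q ∈ (scQ C C2 N' b T' V hV).S t,
        0 < amp (par N) t.1 (x t) 11 (restAt N t.1 (x t) 11) q ∧
        amp (par N) t.1 (x t) 11 (restAt N t.1 (x t) 11) q ≤ c * levA (par N) t.1 11 q.1.1 := by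
  have hb2 : 2 ≤ b := by unfold bMin at hb; omega
  obtain ⟨Tg, hTg, hg, hr⟩ := gam_cost N (show 1 ≤ b by omega) hx
  set T1 := max Tg 64
  have hT1 : T ≤ T1 := hTg.trans (le_max_left _ _)
  set σ := scQ C C2 N' b T1 V hV
  have hχ : Cost σ (fun t q => t.1.χ q.1.1) fun t q => t.1.χ q.1.1 :=
    cost_of_plane (chi_cost N' hb2 T1)
  have hbig : Cost σ (fun t q => big (par N) t.1 q.1.1) fun t q => big (par N) t.1 q.1.1 :=
    cost_of_plane (share_cost N T1 hb2).1
  set f0 : Fam C C2 → Ph × G → ℝ := fun t q =>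
    t.1.χ q.1.1 ^ 2 * (gam (par N) t.1 (x t) 0 q * ((1 + big (par N) t.1 q.1.1 ^ 2) / 2))
  set g : Fam C C2 → Ph × G → ℝ := fun t q =>
    gam (par N) t.1 (x t) 0 q * ((1 + big (par N) t.1 q.1.1 ^ 2) / 2)
  have hrg : ∀ t, ∀ q ∈ σ.S t, 1 / 64 ≤ g t q ∧ g t q ≤ 17 := fun t q hq => by
    obtain ⟨g0, g1⟩ := hr t q (scQ_subset (le_max_left _ _) t hq) 0
    obtain ⟨b0, b1, -⟩ := share_range N hq.1.2.1 11
    constructor <;> simp only [g] <;> nlinarith
  have hgc : Cost σ (fun _ _ => 1) g := by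
    have h2 : Cost σ (fun _ _ => 1) fun t q => (1 + big (par N) t.1 q.1.1 ^ 2) / 2 := by
      have hb1 : Cost σ (fun _ _ => 1) fun t q => big (par N) t.1 q.1.1 :=
        hbig.mono zero_le_one (fun _ _ _ => zero_le_one) fun t q hq => by
          rw [one_mul]; exact (share_range N hq.1.2.1 11).2.1
      refine (((Cost.const (1 / 2 : ℝ)).add (((Cost.const (1 / 2 : ℝ)).mul (hb1.mul hb1)).mono
        zero_le_one (fun _ _ _ => zero_le_one) fun t q _ => le_of_eq (by ring)))).congr
          fun t q _ => ?_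
      ring
    exact ((cost_scQ (hg 0) le_rfl (le_max_left _ _)).mul h2).mono zero_le_one
      (fun _ _ _ => zero_le_one) fun t q _ => le_of_eq (by ring)
  have h0 : Cost σ f0 f0 :=
    ((hχ.mul hχ).mul hgc).mono (c := 64) (by norm_num)
      (fun t q hq => mul_nonneg (sq_nonneg _) (le_trans (by norm_num) (hrg t q hq).1))
      (fun t q hq => by
        have := (hrg t q hq).1
        have h2 := sq_nonneg (t.1.χ q.1.1)
        show _ ≤ 64 * (t.1.χ q.1.1 ^ 2 * g t q)
        nlinarith) |>.congr fun t q _ => by simp only [f0, g]; ring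
  have hrest := (cost_scQ hm.rest le_rfl hT1).neg
  obtain ⟨T2, hT2, hf, hlo⟩ := rel_perturb_scQ (f := fun t q => f0 t q - restAt N t.1 (x t) 11 q)
    h0 (hrest.congr fun t q _ => by ring) fun t q hq => by
      have hK : 64 ≤ Kf t := (le_max_right _ _).trans hq.1.1
      have h64 : 64 * Kf t ≤ Kf t ^ bExp :=
        (mul_le_mul_of_nonneg_right hK (Kf_pos t).le).trans (le_of_eq_of_le (sq (Kf t)).symm
          (pow_le_pow_right₀ (one_le_Kf t) (by norm_num [bExp])))
      have h2 := sq_nonneg (t.1.χ q.1.1)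
      have := (hrg t q hq).1
      show _ ≤ t.1.χ q.1.1 ^ 2 * g t q
      rw [← mul_assoc, mul_comm (Kf t), mul_assoc]
      refine mul_le_mul_of_nonneg_left ?_ h2
      rw [← div_eq_mul_inv, div_le_iff₀ (pow_pos (Kf_pos t) _)]
      nlinarith [Kf_pos t, pow_pos (Kf_pos t) bExp]
  obtain ⟨cr, hcr0, hcr⟩ := (cost_scQ hm.rest le_rfl (hT1.trans hT2)).abs_le
  have hpos : ∀ t, ∀ q ∈ (scQ C C2 N' b T2 V hV).S t,
      0 < f0 t q - restAt N t.1 (x t) 11 q := fun t q hq => by
    refine lt_of_lt_of_le ?_ (hlo t q hq)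
    have := (hrg t q (scQ_subset hT2 t hq)).1
    have := pow_pos (chi_pos hq.1.2.1) 2
    exact half_pos (mul_pos this (lt_of_lt_of_le (show (0 : ℝ) < 1 / 64 by norm_num) (by assumption)))
  refine ⟨T2, Real.sqrt (17 + cr), hT1.trans hT2, Real.sqrt_nonneg _,
    (hf.rel_sqrt hpos).congr fun t q _ => by simp [amp, f0], fun t q hq => ?_⟩
  have e : amp (par N) t.1 (x t) 11 (restAt N t.1 (x t) 11) q =
      sqrt (f0 t q - restAt N t.1 (x t) 11 q) := by simp [amp, f0]
  rw [e, show levA (par N) t.1 11 q.1.1 = t.1.χ q.1.1 by simp [levA]]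
  refine ⟨Real.sqrt_pos.2 (hpos t q hq), ?_⟩
  rw [← Real.sqrt_sq (chi_pos hq.1.2.1).le, ← Real.sqrt_mul (by positivity)]
  refine Real.sqrt_le_sqrt ?_
  have h1 := (hrg t q (scQ_subset hT2 t hq)).2
  have h2 := sq_nonneg (t.1.χ q.1.1)
  have h3 := (abs_le.1 (hcr t q hq)).1
  have h4 : t.1.χ q.1.1 ^ 2 * (Kf t ^ bExp)⁻¹ ≤ t.1.χ q.1.1 ^ 2 :=
    mul_le_of_le_one_right h2 (inv_le_one_of_one_le₀ (one_le_pow_K t _))
  show t.1.χ q.1.1 ^ 2 * g t q - _ ≤ _
  nlinarith

/-- **The size hypotheses of the legal level.** -/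
theorem legalLevel_bounds (hb : bMin ≤ b) (hb' : b ≤ bExp) (hx : Small N' b s T V hV x)
    (hm : MapOK N N' b T V hV x 11) :
    ∃ T', T ≤ T' ∧ ∃ (c : ℝ) (hc : 1 ≤ c),
      Wave.Data.Bounds (legalMag C C2 N N' b T' V hV hb' c hc)
        (levWave N (scQ C C2 N' b T' V hV) x 11) := by
  obtain ⟨he, hv⟩ := legal_dirs
  have hm5 : 100 * cLev 11 + 100 ≤ mExp 11 :=
    by
      have h1 : mExp 11 = eExp 10 + 1 := mExp_succ 10
      obtain ⟨h2, h3⟩ := mExp_grows 10
      have h4 : cLev 11 = 1000000000 := by norm_num [cLev]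
      simp only [bExp] at h2
      omega
  obtain ⟨Ta, ca, hTa, hca, hamp, hampr⟩ := legal_amp hb hx hm.toMapCore
  obtain ⟨ce, hce0, hce⟩ := exists_norm_vec (G := G) (levE 11) N 11
  obtain ⟨cv, hcv0, hcv⟩ := exists_norm_vec (G := G) (levV 11) N 11
  obtain ⟨cw, hcw, hW⟩ := bendWeight_le (G := G) C C2 N N' 11
  obtain ⟨cx, hcx0, hcx⟩ := ((hm.d1s _ (Or.inl rfl)).ip (hm.d1s _ (Or.inl rfl))).abs_le
  obtain ⟨cg, hcg0, hcg⟩ := (cost_gram2 (hm.d1s _ (Or.inr rfl)) hm.d2v).abs_le
  set c := max (max 1 (max ce cv)) (max cx (cg * cw ^ 2))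
  have hc1 : 1 ≤ c := (le_max_left _ _).trans (le_max_left _ _)
  have hK : ∀ (t : Fam C C2) {a : ℕ}, a ≤ 3 * mExp 11 → Kf t ^ a ≤ c * Kf t ^ (3 * mExp 11) :=
    fun t a ha => (pow_le_pow_right₀ (one_le_Kf t) ha).trans
      (le_mul_of_one_le_left (pow_nonneg (Kf_pos t).le _) hc1)
  set σ := scQ C C2 N' b Ta V hV
  set W := levWave N σ x 11
  have sub : ∀ {t : Fam C C2} {q : Ph × G}, q ∈ σ.S t → q ∈ (scQ C C2 N' b T V hV).S t :=
    fun hq => scQ_subset hTa _ hq
  have eZe : ∀ t q, (W t).Ze q = d1At N t.1 (x t) 11 (pt 0 1) q := fun t q => by rw [← he]; rfl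
  have eZv : ∀ t q, (W t).Zv q = d1At N t.1 (x t) 11 (pt 1 0) q := fun t q => by rw [← hv]; rfl
  have eZee : ∀ t q, (W t).Zee q = d2At N t.1 (x t) 11 (pt 0 1) (pt 0 1) q := fun t q => by
    rw [← he]; rfl
  have eG : ∀ t q, gram2 ((W t).Ze q) ((W t).Zee q) = kernelAt N t.1 (x t) 11 q := fun t q => by
    rw [eZe, eZee]; rfl
  have eA : ∀ t q, gram2 ((W t).Ze q) ((W t).Zv q) = areaAt N t.1 (x t) 11 q := fun t q => by
    rw [eZe, eZv, areaAt]; simp [gram2, Wave.ip_comm (d1At N t.1 (x t) 11 (pt 0 1) q)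
      (d1At N t.1 (x t) 11 (pt 1 0) q)]; ring
  have ga : ∀ {t : Fam C C2} {q : Ph × G}, q ∈ σ.S t → 0 < areaAt N t.1 (x t) 11 q := fun {t q} hq =>
    pos_of_mul_pos_right (zero_lt_one.trans_le (hm.area_lo t q (sub hq)))
      (pow_nonneg (Kf_pos t).le _)
  have gb : ∀ {t : Fam C C2} {q : Ph × G}, q ∈ σ.S t → 0 < bendAt N t.1 (x t) 11 q := fun {t q} hq =>
    pos_of_mul_pos_right (zero_lt_one.trans_le (hm.bend_lo t q (sub hq)))
      (pow_nonneg (Kf_pos t).le _)
  have eN : ∀ t, ∀ q ∈ σ.S t, Legal.nn (W t).e (W t).v (W t).Z (W t).e (W t).e q =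
      bendVec N t.1 (x t) 11 q := fun t q hq => by
    show perp2 ((W t).Ze q) ((W t).Zv q) ((W t).Zee q) = _
    rw [eZe, eZv, eZee, show d1At N t.1 (x t) 11 (pt 0 1) q = (0 : ℝ) • d1At N t.1 (x t) 11 (pt 1 0) q +
      (1 : ℝ) • d1At N t.1 (x t) 11 (pt 0 1) q by simp, show d1At N t.1 (x t) 11 (pt 1 0) q =
      (1 : ℝ) • d1At N t.1 (x t) 11 (pt 1 0) q + (0 : ℝ) • d1At N t.1 (x t) 11 (pt 0 1) q by simp]
    rw [bendVec, ← Legal.perp2_basis (ga hq).ne' (α := 0) (β := 1) (γ := 1) (δ := 0) (by norm_num)]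
    simp
  -- the lower bound of the Gram determinant of the kernel
  have glo : ∀ t, ∀ q ∈ σ.S t, areaAt N t.1 (x t) 11 q * bendAt N t.1 (x t) 11 q ≤
      cx * (Kf t ^ cLev 11 * Kf t ^ cLev 11) * kernelAt N t.1 (x t) 11 q := fun t q hq => by
    have hg := ga hq
    have h1 := Legal.gram_ge (W t) (x := q) (by rw [eA]; exact hg)
    rw [eN t q hq, eG] at h1
    have h2 : areaAt N t.1 (x t) 11 q ≤ ip (d1At N t.1 (x t) 11 (pt 1 0) q)
        (d1At N t.1 (x t) 11 (pt 1 0) q) * ip ((W t).Ze q) ((W t).Ze q) := by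
      rw [eZe]; exact sub_le_self _ (sq_nonneg _)
    have h3 := (le_abs_self _).trans (hcx t q (sub hq))
    calc areaAt N t.1 (x t) 11 q * bendAt N t.1 (x t) 11 q
        ≤ cx * (Kf t ^ cLev 11 * Kf t ^ cLev 11) * ip ((W t).Ze q) ((W t).Ze q) *
            bendAt N t.1 (x t) 11 q :=
          mul_le_mul_of_nonneg_right (h2.trans (mul_le_mul_of_nonneg_right h3
            (Legal.ip_self_nonneg _))) (gb hq).le
      _ ≤ _ := by
          rw [mul_assoc]
          exact mul_le_mul_of_nonneg_left h1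
            (mul_nonneg hcx0 (mul_self_nonneg _))
  have gG : ∀ {t : Fam C C2} {q : Ph × G}, q ∈ σ.S t → 0 < kernelAt N t.1 (x t) 11 q := fun {t q} hq =>
    pos_of_mul_pos_right ((mul_pos (ga hq) (gb hq)).trans_le (glo t q hq))
      (mul_nonneg hcx0 (mul_self_nonneg _))
  have eS : ∀ t, ∀ q ∈ σ.S t, (W t).aa q ^ 2 =
      bendAt N t.1 (x t) 11 q * areaAt N t.1 (x t) 11 q * (kernelAt N t.1 (x t) 11 q)⁻¹ :=
    fun t q hq => by
      have h := Legal.aa_sq_mul (W t) (x := q) (by rw [eA]; exact (ga hq).ne')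
        (by rw [eG]; exact (gG hq).ne')
      rw [eN t q hq, eG, eA] at h
      rw [eq_mul_inv_iff_mul_eq₀ (gG hq).ne']
      exact h
  refine ⟨Ta, hTa, c, hc1, ?_⟩
  exact
    { good := fun t =>
        { open_ := σ.isOpen t
          smoothZ := (hm.smooth t).mono fun q hq => sub hq
          smoothRho := hamp.smooth t
          smoothErr := fun n i => (contDiffOn_const (c := (0 : ℝ))).congr fun p _ => by
            simp [levData, errOf]
          perErr := fun n q _ i r => by simp [levData, errOf]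
          err1 := fun q _ r => by simp [levData, errOf]
          gram_pos := fun q hq => (eG t q).symm ▸ gG hq
          aa_pos := fun q hq => by
            refine Real.sqrt_pos.1 ?_
            show 0 < (W t).aa q
            refine lt_of_le_of_ne (Real.sqrt_nonneg _) fun h0 => ?_
            have h := eS t q hq
            rw [← h0, zero_pow two_ne_zero] at h
            exact (mul_pos (mul_pos (gb hq) (ga hq)) (inv_pos.2 (gG hq))).ne h }
      dom := fun t => subset_rfl
      norm_v := fun t => (hcv t.1 t.2.2).trans (mul_le_mul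
        ((le_max_right ce cv).trans ((le_max_right 1 _).trans (le_max_left _ _)))
        (pow_le_pow_right₀ (one_le_Kf t) (by omega)) (pow_nonneg (Kf_pos t).le _) (by positivity))
      norm_e := fun t => (hce t.1 t.2.2).trans (mul_le_mul
        ((le_max_left ce cv).trans ((le_max_right 1 _).trans (le_max_left _ _)))
        (pow_le_pow_right₀ (one_le_Kf t) (by omega)) (pow_nonneg (Kf_pos t).le _) (by positivity))
      ze := (Cost.sz (μ := legalMag C C2 N N' b Ta V hV hb' c hc1)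
        (cost_scQ (hm.d1s _ (Or.inr rfl)) le_rfl hTa) zero_le_one fun t q _ => by
          simp only [legalMag, pow_zero, one_mul, pow_one]; exact hK t (by omega)).congr
        fun t q _ => eZe t q
      zv := (Cost.sz (μ := legalMag C C2 N N' b Ta V hV hb' c hc1)
        (cost_scQ (hm.d1s _ (Or.inl rfl)) le_rfl hTa) zero_le_one fun t q _ => by
          simp only [legalMag, pow_zero, one_mul, pow_one]; exact hK t (by omega)).congr
        fun t q _ => eZv t q
      gram := ((cost_scQ (hm.kernel rfl) le_rfl hTa).mono zero_le_one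
        (fun t q hq => (eG t q).symm ▸ (gG hq).le)
        fun t q _ => by rw [one_mul]; exact le_of_eq (eG t q).symm).congr fun t q _ => eG t q
      gram_lo := fun t q hq => by
        show 1 ≤ c * Kf t ^ (3 * mExp 11) * gram2 ((W t).Ze q) ((W t).Zee q)
        rw [eG]
        have hp := pow_pos (Kf_pos t) (4 + 11)
        have h1 : 1 ≤ (Kf t ^ (4 + 11) * Kf t ^ (4 + 11)) *
            (areaAt N t.1 (x t) 11 q * bendAt N t.1 (x t) 11 q) := by
          rw [mul_mul_mul_comm]
          exact one_le_mul_of_one_le_of_one_le (hm.area_lo t q (sub hq)) (hm.bend_lo t q (sub hq))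
        refine h1.trans ((mul_le_mul_of_nonneg_left (glo t q hq) (mul_self_nonneg _)).trans ?_)
        rw [← mul_assoc, mul_left_comm, ← pow_add, ← pow_add, ← pow_add]
        exact mul_le_mul_of_nonneg_right (mul_le_mul ((le_max_left _ _).trans (le_max_right _ _))
          (pow_le_pow_right₀ (one_le_Kf t) (by omega)) (pow_nonneg (Kf_pos t).le _) (by positivity))
          (gG hq).le
      aaSq := (((((cost_scQ hm.bend le_rfl hTa).mul (cost_scQ hm.area le_rfl hTa)).mul
          ((cost_scQ (hm.kernel rfl) le_rfl hTa).rel_inv fun t q hq => gG hq))).mono zero_le_one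
          (fun t q _ => sq_nonneg _) fun t q hq => by
            rw [one_mul]; exact le_of_eq (eS t q hq).symm).congr eS
      aa_lo := fun t q hq => by
        show 1 ≤ c * Kf t ^ (3 * mExp 11) * (W t).aa q ^ 2
        rw [eS t q hq, ← mul_assoc, le_mul_inv_iff₀ (gG hq), one_mul]
        have h1 : 1 ≤ (Kf t ^ (4 + 11) * Kf t ^ (4 + 11)) *
            (bendAt N t.1 (x t) 11 q * areaAt N t.1 (x t) 11 q) := by
          rw [mul_mul_mul_comm]
          exact one_le_mul_of_one_le_of_one_le (hm.bend_lo t q (sub hq)) (hm.area_lo t q (sub hq))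
        have h2 : kernelAt N t.1 (x t) 11 q ≤
            cg * cw ^ 2 * Kf t ^ (4 * cLev 11 + 2 * mExp 11) := by
          refine ((le_abs_self _).trans (hcg t q (sub hq))).trans ?_
          have hw0 := one_le_bendWeight (N := N) hq.1.2.1 11
          calc cg * ((Kf t ^ cLev 11) ^ 2 * (Kf t ^ cLev 11 * bendWeight N t.1 11 q) ^ 2)
              ≤ cg * ((Kf t ^ cLev 11) ^ 2 * (Kf t ^ cLev 11 * (cw * Kf t ^ mExp 11)) ^ 2) := by
                have := hW t q hq.1.2.1
                have := Kf_pos t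
                gcongr
            _ = _ := by rw [show 4 * cLev 11 + 2 * mExp 11 = cLev 11 * 2 + (cLev 11 * 2 + mExp 11 * 2)
                  by ring, pow_add, pow_add, pow_mul, pow_mul]; ring
        have hp : (0 : ℝ) ≤ cg * cw ^ 2 * Kf t ^ (4 * cLev 11 + 2 * mExp 11) :=
          (gG hq).le.trans h2
        refine h2.trans ((le_mul_of_one_le_right hp h1).trans ?_)
        rw [← pow_add, mul_assoc (cg * cw ^ 2), ← mul_assoc (Kf t ^ (4 * cLev 11 + 2 * mExp 11)),
          ← pow_add, ← mul_assoc (cg * cw ^ 2)]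
        exact mul_le_mul_of_nonneg_right (mul_le_mul ((le_max_right _ _).trans (le_max_right _ _))
          (pow_le_pow_right₀ (one_le_Kf t) (by omega)) (pow_nonneg (Kf_pos t).le _) (by positivity))
          (mul_pos (gb hq) (ga hq)).le
      rho := Cost.sz (μ := legalMag C C2 N N' b Ta V hV hb' c hc1) hamp
        (c := ca * max 1 (C 0)) (by positivity) fun t q hq => by
          have h0 : (0 : ℝ) < max 1 (C 0) := by positivity
          simp only [legalMag, pow_one, pow_zero, mul_one]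
          rw [mul_assoc, mul_div_cancel₀ _ h0.ne']
          exact (hampr t q hq).2
      rhoRel := hamp.mono zero_le_one (fun t q _ => Real.sqrt_nonneg _) fun t q hq => by
        rw [one_mul]
        exact Real.le_sqrt_of_sq_le (le_add_of_nonneg_left (sq_nonneg _))
      err := fun n => Sz.zero.congr fun t p _ => by simp [levData, errOf] }

end Vale.Agent.P205.Stage
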