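import Vale.Agent.P205.Stage.PipeAlg

/-!
The stage telescopes: if every level adds its square, its prescribed term, its slow tensor, what
a free level leaves to the legal one and a rest, then the twelve levels add the cut-off tensor up
to the defect of the stage equation and the rests.
-/

noncomputable section

open Set Finset Real
open scoped ContDiff

namespace Vale.Agent.P205.Stage

open Wave (V4 ip D mean)

variable {G : Type}

theorem trunc_trunc {i j : ℕ} (h : i ≤ j) (q : Ph × G) : trunc i (trunc j q) = trunc i q := by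
  refine Prod.ext (Prod.ext rfl (funext fun l => ?_)) rfl
  simp only [trunc]
  split_ifs <;> first | rfl | omega

theorem trunc_trunc' {i j : ℕ} (h : i ≤ j) (q : Ph × G) : trunc j (trunc i q) = trunc i q := by
  refine Prod.ext (Prod.ext rfl (funext fun l => ?_)) rfl
  simp only [trunc]
  split_ifs <;> first | rfl | omega

theorem slot_trunc {i j : ℕ} (h : i < j) (q : Ph × G) : slot i (trunc j q) = slot i q := by
  unfold slot
  split_ifs <;> simp [trunc, h]

theorem put_slot (j : ℕ) (q : Ph × G) : put j (slot j q) (trunc j q) = trunc (j + 1) q := by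
  refine Prod.ext (Prod.ext rfl (funext fun l => ?_)) rfl
  simp only [put, trunc, slot]
  rcases lt_trichotomy (l : ℕ) j with h | h | h
  · simp [h, h.ne, Nat.lt_succ_of_lt h]
  · subst h
    simp
  · simp [h.ne', show ¬(l : ℕ) < j by omega, show ¬(l : ℕ) < j + 1 by omega]

theorem nominal_inv (T : Sym2) : Tiny.nominal (nominalInv T) = T := by
  funext i
  fin_cases i <;> simp [Tiny.nominal, nominalInv, sqForm] <;> ring

theorem nominal_add (a b : Fin 3 → ℝ) :
    Tiny.nominal (fun i => a i + b i) = Tiny.nominal a + Tiny.nominal b := by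
  simp [Tiny.nominal, add_smul]; abel

theorem nominal_smul (r : ℝ) (a : Fin 3 → ℝ) :
    Tiny.nominal (fun i => r * a i) = r • Tiny.nominal a := by
  simp [Tiny.nominal, smul_smul]

variable [NormedAddCommGroup G] [NormedSpace ℝ G] [FiniteDimensional ℝ G]
  (p : Par) (I : Input) (x : Ph × G → Unk)

/-- The defect of the stage equation in the prescribed tensor of a level. -/
def defectE (j : Fin 12) (q : Ph × G) : Sym2 :=
  if (j : ℕ) < 11 then (levA p I j q.1.1 / p.k I j ^ 2) •
    ((x (trunc (j + 1) q)).1 j - (stageOp p I x (trunc (j + 1) q)).1 j) else 0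

/-- The defect of the stage equation in the coefficients. -/
def defectG (q : Ph × G) : Sym2 :=
  I.χ q.1.1 ^ 2 • (I.K ^ p.L)⁻¹ •
    Tiny.nominal ((x (trunc 0 q)).2 - (stageOp p I x (trunc 0 q)).2)

/-- What level `j` adds, apart from the rest. -/
def levelGain (j : ℕ) (q : Ph × G) : Sym2 :=
  amp p I x j (levels p I x j).2 (trunc j q) ^ 2 • sqForm (levCov j).1 (levCov j).2 +
    (if h : j < 11 then (levA p I j q.1.1 / p.k I j ^ 2) • (x (trunc (j + 1) q)).1 ⟨j, by omega⟩
      else 0) +
    slowAt p I x j q +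
    ((levels p I x (j + 1)).2 (trunc (j + 1) q) - (levels p I x j).2 (trunc j q)) • sqForm 1 0

omit [FiniteDimensional ℝ G] in
theorem slowAt_trunc (j : ℕ) (q : Ph × G) : slowAt p I x j (trunc j q) = slowAt p I x j q := by
  simp only [slowAt, trunc_trunc le_rfl q]

omit [FiniteDimensional ℝ G] in
theorem above'_eq {j : ℕ} (hj : j < 12) (q : Ph × G) : above' p I x j q =
    slowAt p I x j q + mean fun r => above' p I x (j + 1) (put j r (trunc j q)) := by
  unfold above'
  rw [show 12 - j = (12 - (j + 1)) + 1 by omega, carried, show 11 - (12 - (j + 1)) = j by omega]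

omit [NormedAddCommGroup G] [NormedSpace ℝ G] [FiniteDimensional ℝ G] in
theorem amp_trunc {j : ℕ} (hj : j < 11) (α α' : Ph × G → ℝ) (i : ℕ) (q : Ph × G) :
    amp p I x j α (trunc i q) = amp p I x j α' q := by
  have hg : ∀ l, gam p I x l (trunc i q) = gam p I x l q := fun l => by
    simp only [gam, trunc_trunc (Nat.zero_le i) q]
    rfl
  simp only [amp, hg]
  split_ifs <;> first | rfl | omega

omit [FiniteDimensional ℝ G] in
/-- **Telescoping of the stage.** -/
theorem telescope (q : Ph × G) (M : ℕ → Ph × G → Sym2) (R : ℕ → Sym2)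
    (hχ : 0 < I.χ q.1.1) (hT : 0 < p.T I) (hk : ∀ j, p.k I j ≠ 0) (hK : I.K ≠ 0)
    (hb : 0 < bendSq I.Z q.1.1) (hγ : ∀ i, gam p I x i q ∈ Set.Icc (1 / 32 : ℝ) 32)
    (hlast : (levels p I x 11).2 (trunc 11 q) ≤
      I.χ q.1.1 ^ 2 * (gam p I x 0 q * ((1 + big p I q.1.1 ^ 2) / 2)))
    (step : ∀ j < 12,
      M (j + 1) (trunc (j + 1) q) = M j (trunc j q) + levelGain p I x j q + R j) :
    M 12 (trunc 12 q) = M 0 (trunc 0 q) + I.χ q.1.1 ^ 2 • Tiny.nominal (fun i => I.β i q.1.1) +
      ∑ j, defectE p I x j q + defectG p I x q + ∑ j ∈ range 12, R j := by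
  -- the chain
  have chain : ∀ n ≤ 12, M n (trunc n q) =
      M 0 (trunc 0 q) + ∑ j ∈ range n, levelGain p I x j q + ∑ j ∈ range n, R j := by
    intro n hn
    induction n with
    | zero => simp
    | succ n ih => rw [step n (by omega), ih (by omega), sum_range_succ, sum_range_succ]; abel
  rw [chain 12 le_rfl]
  -- the magnitudes
  have hbs : 0 < sqrt (I.χ q.1.1 ^ 2 + p.T I ^ 2) := Real.sqrt_pos.2 (by positivity)
  have hA : ∀ j, levA p I j q.1.1 ≠ 0 := fun j => by
    have h1 : 0 < big p I q.1.1 := div_pos hχ hbs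
    have h2 : 0 < small p I q.1.1 := div_pos hT hbs
    unfold levA
    split_ifs <;> positivity
  -- what is above each level
  set A : ℕ → Sym2 := fun j => above' p I x j (trunc j q) with hAdef
  have hA12 : A 12 = 0 := rfl
  have hlev : ∀ j : Fin 12, (if h : (j : ℕ) < 11 then
      (levA p I j q.1.1 / p.k I j ^ 2) • (x (trunc ((j : ℕ) + 1) q)).1 ⟨j, by omega⟩ else 0) +
      slowAt p I x j q = defectE p I x j q + (A j - A (j + 1)) := fun j => by
    have hj : (j : ℕ) < 12 := j.2
    have e : A j = slowAt p I x j q +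
        mean fun r => above' p I x ((j : ℕ) + 1) (put j r (trunc j q)) := by
      rw [hAdef]
      simp only []
      rw [above'_eq p I x hj, slowAt_trunc, trunc_trunc le_rfl]
    by_cases h : (j : ℕ) < 11
    · have hs : (levA p I j q.1.1 / p.k I j ^ 2) • (stageOp p I x (trunc ((j : ℕ) + 1) q)).1 j =
          -(A ((j : ℕ) + 1) -
            mean fun r => above' p I x ((j : ℕ) + 1) (put j r (trunc j q))) := by
        simp only [stageOp, trunc_trunc le_rfl, trunc_trunc (Nat.le_succ (j : ℕ)), hAdef]
        rw [show (trunc ((j : ℕ) + 1) q).1.1 = q.1.1 from rfl, smul_smul,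
          show levA p I j q.1.1 / p.k I j ^ 2 * -(p.k I j ^ 2 / levA p I j q.1.1) = -1 by
            have := hA j; have := hk j; field_simp, neg_one_smul]
      simp only [defectE, h, dite_true, if_true, smul_sub, hs, e, Fin.eta]
      abel
    · have hj11 : (j : ℕ) = 11 := by omega
      simp only [defectE, h, dite_false, if_false, e]
      rw [show ((j : ℕ) + 1) = 12 by omega, hA12, show above' p I x 12 = fun _ => 0 from rfl,
        Wave.mean_const]
      abel
  have e0 : (∑ j ∈ range 12, ((if h : j < 11 then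
      (levA p I j q.1.1 / p.k I j ^ 2) • (x (trunc (j + 1) q)).1 ⟨j, by omega⟩ else 0) +
      slowAt p I x j q)) = ∑ j, defectE p I x j q + A 0 := by
    rw [← Fin.sum_univ_eq_sum_range (fun j => (if h : j < 11 then
      (levA p I j q.1.1 / p.k I j ^ 2) • (x (trunc (j + 1) q)).1 ⟨j, by omega⟩ else 0) +
      slowAt p I x j q) 12, sum_congr rfl fun j _ => hlev j, sum_add_distrib,
      Fin.sum_univ_eq_sum_range (fun j => A j - A (j + 1)) 12, sum_range_sub', hA12, sub_zero]
  -- what is left to the legal level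
  have eα : (∑ j ∈ range 12,
      ((levels p I x (j + 1)).2 (trunc (j + 1) q) - (levels p I x j).2 (trunc j q))) =
      (levels p I x 11).2 (trunc 11 q) := by
    rw [sum_range_sub (fun j => (levels p I x j).2 (trunc j q))]
    rw [show levels p I x 12 = next p I x 11 (levels p I x 11) from rfl,
      show (levels p I x 0).2 (trunc 0 q) = 0 from rfl, sub_zero]
    simp only [next, isFree, show decide (11 = 9 ∨ 11 = 10) = false from rfl,
      Bool.false_eq_true, if_false, add_zero, trunc_trunc (show 11 ≤ 12 by norm_num)]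
  -- the squares
  have eamp : ∀ j ∈ range 12, amp p I x j (levels p I x j).2 (trunc j q) =
      amp p I x j (fun _ => (levels p I x 11).2 (trunc 11 q)) q := fun j hj => by
    rcases lt_or_ge j 11 with h | h
    · exact amp_trunc p I x h _ _ j q
    · obtain rfl : j = 11 := by have := mem_range.1 hj; omega
      simp only [amp, gam, trunc_trunc (Nat.zero_le 11)]
      rfl
  have esq := sum_amp_sq p I x (fun _ => (levels p I x 11).2 (trunc 11 q)) q hT.ne' hb hγ hlast
  have eg : I.χ q.1.1 ^ 2 • Tiny.nominal (fun i => gam p I x i q) =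
      I.χ q.1.1 ^ 2 • Tiny.nominal (fun i => I.β i q.1.1) + defectG p I x q - A 0 := by
    have e2 : (I.χ q.1.1 ^ 2 * (I.K ^ p.L)⁻¹) • Tiny.nominal ((stageOp p I x (trunc 0 q)).2) =
        -A 0 := by
      have : (stageOp p I x (trunc 0 q)).2 =
          fun i => (-(I.K ^ p.L) / I.χ q.1.1 ^ 2) * nominalInv (A 0) i := by
        funext i
        simp only [stageOp, trunc_trunc le_rfl, hAdef]
        rw [show (trunc 0 q).1.1 = q.1.1 from rfl]
        ring
      rw [this, nominal_smul, nominal_inv, smul_smul,
        show I.χ q.1.1 ^ 2 * (I.K ^ p.L)⁻¹ * (-(I.K ^ p.L) / I.χ q.1.1 ^ 2) = -1 by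
          have := pow_ne_zero p.L hK; field_simp, neg_one_smul]
    have e3 : Tiny.nominal ((x (trunc 0 q)).2 - (stageOp p I x (trunc 0 q)).2) =
        Tiny.nominal (x (trunc 0 q)).2 - Tiny.nominal (stageOp p I x (trunc 0 q)).2 := by
      simp [Tiny.nominal, sub_smul]; abel
    simp only [gam, nominal_add, nominal_smul, defectG, e3, smul_add, smul_sub, smul_smul, e2]
    abel
  simp only [levelGain, sum_add_distrib] at *
  rw [sum_congr rfl fun j hj => by rw [eamp j hj], ← sum_smul, eα]
  calc _ = M 0 (trunc 0 q) + ((∑ j ∈ range 12, amp p I x j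
          (fun _ => (levels p I x 11).2 (trunc 11 q)) q ^ 2 • sqForm (levCov j).1 (levCov j).2) +
          (levels p I x 11).2 (trunc 11 q) • sqForm 1 0) +
        ((∑ j ∈ range 12, if h : j < 11 then (levA p I j q.1.1 / p.k I j ^ 2) •
            (x (trunc (j + 1) q)).1 ⟨j, by omega⟩ else 0) +
          ∑ j ∈ range 12, slowAt p I x j q) + ∑ j ∈ range 12, R j := by abel
    _ = _ := by rw [esq, eg, e0]; abel

end Vale.Agent.P205.Stage
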