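import Vale.Agent.P205.Stage.Pipe
import Vale.Agent.P205.Legal.Gauss

/-!
Algebra of the pipeline: frames of the levels, components of tensors, the tiny weights and the
sum of the squares of the twelve amplitudes.
-/

noncomputable section

open Set Finset Real
open scoped ContDiff

namespace Vale.Agent.P205.Stage

open Wave (V4 ip D mean)

/-- The frame vectors of a level are independent. -/
theorem lev_det (j : ℕ) : levE j 0 * levV j 1 - levE j 1 * levV j 0 ≠ 0 := by
  unfold levE levV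
  split_ifs with h1 h2 h3
  · have := Tiny.cov_ne (tripleOf j) (memberOf j)
    have h2 : (Tiny.cov (tripleOf j) (memberOf j)).1 ^ 2 +
        (Tiny.cov (tripleOf j) (memberOf j)).2 ^ 2 ≠ 0 := by positivity
    simp [Tiny.ker, Tiny.dir, pt]
    field_simp
    intro h0
    apply h2
    linear_combination -h0
  all_goals simp [pt]

/-- The frame of a level: `f e = 0`, `f v = 1`, `g e = 1`, `g v = 0`. -/
theorem lev_frame (j : ℕ) : phase j (levE j) = 0 ∧ phase j (levV j) = 1 ∧
    (psi j).1 * levE j 0 + (psi j).2 * levE j 1 = 1 ∧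
    (psi j).1 * levV j 0 + (psi j).2 * levV j 1 = 0 := by
  have key : phase j (levE j) = 0 ∧ phase j (levV j) = 1 := by
    unfold phase levCov levE levV
    split_ifs with h1 h2 h3
    · exact Tiny.cov_ker _ _
    all_goals simp [pt]
  have hd := lev_det j
  refine ⟨key.1, key.2, ?_, ?_⟩
  · simp only [psi]
    rw [div_mul_eq_mul_div, div_mul_eq_mul_div, ← add_div, div_eq_one_iff_eq hd]
    ring
  · simp only [psi]
    rw [div_mul_eq_mul_div, div_mul_eq_mul_div, ← add_div]
    simp [mul_comm]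

/-- A tensor from its components. -/
theorem ofComp_toComp (j : ℕ) (T : Sym2) : ofComp j (toComp j T) = T := by
  obtain ⟨h1, h2, -, -⟩ := lev_frame j
  have hd := lev_det j
  unfold phase at h1 h2
  have ea : (levCov j).1 = -levE j 1 / (levE j 0 * levV j 1 - levE j 1 * levV j 0) := by
    rw [eq_div_iff hd]
    linear_combination levV j 1 * h1 - levE j 1 * h2
  have eb : (levCov j).2 = levE j 0 / (levE j 0 * levV j 1 - levE j 1 * levV j 0) := by
    rw [eq_div_iff hd]
    linear_combination -levV j 0 * h1 + levE j 0 * h2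
  funext i
  fin_cases i <;> simp [ofComp, toComp, qf, sqForm, psi, ea, eb] <;> field_simp <;> ring

/-- Components of a tensor with given components. -/
theorem toComp_ofComp (j : ℕ) (c : Fin 3 → ℝ) : toComp j (ofComp j c) = c := by
  obtain ⟨h1, h2, h3, h4⟩ := lev_frame j
  unfold phase at h1 h2
  set a := (levCov j).1
  set b := (levCov j).2
  set g0 := (psi j).1
  set g1 := (psi j).2
  set e0 := levE j 0
  set e1 := levE j 1
  set v0 := levV j 0
  set v1 := levV j 1
  funext i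
  fin_cases i <;> simp [toComp, ofComp, qf, sqForm]
  · linear_combination (c 0 * (g0 * e0 + g1 * e1 + 1)) * h3 +
      (2 * c 1 * (g0 * e0 + g1 * e1) + c 2 * (a * e0 + b * e1)) * h1
  · linear_combination (c 0 * (g0 * e0 + g1 * e1)) * h4 + (c 1 * (a * v0 + b * v1)) * h3 +
      c 1 * h2 + (c 1 * (g0 * v0 + g1 * v1) + c 2 * (a * v0 + b * v1)) * h1
  · linear_combination (c 0 * (g0 * v0 + g1 * v1) + 2 * c 1 * (a * v0 + b * v1)) * h4 +
      (c 2 * (a * v0 + b * v1 + 1)) * h2

/-- The second form before the stage on a vector. -/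
theorem evalQ_bend0 (I : Input) {z : R2} (hZ : ContDiffAt ℝ 2 I.Z z) (e : R2) :
    Tiny.evalQ (bend0 I z) e = sff I.Z z e e := by
  rw [Legal.sff_comb hZ e e]
  simp [Tiny.evalQ, bend0]
  module

/-- The tiny weights are as constructed. -/
theorem tinyWeight_spec : (∀ k, ContDiffOn ℝ ∞ (tinyWeight k) {q | q ≠ 0}) ∧
    (∀ k q, 0 ≤ tinyWeight k q ∧ tinyWeight k q ≤ 1) ∧
    (∀ q, q ≠ 0 → ∑ k, tinyWeight k q ^ 2 = 1) ∧
    ∀ k i, ∀ q, tinyWeight k q ≠ 0 → Tiny.exists_weights.choose * Tiny.sizeQ q ≤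
      ip (Tiny.evalQ q (Tiny.ker k i)) (Tiny.evalQ q (Tiny.ker k i)) := by
  obtain ⟨h1, -, h2, h3, h4⟩ := Tiny.exists_weights.choose_spec.2.choose_spec
  exact ⟨h1, h2, h3, h4⟩

theorem tinyWeight_const_pos : 0 < Tiny.exists_weights.choose :=
  Tiny.exists_weights.choose_spec.1

/-- The bend bounds the size of the second form from below. -/
theorem bendSq_le_size (I : Input) (z : R2) : bendSq I.Z z ≤ Tiny.sizeQ (bend0 I z) := by
  have h : ∀ w : V4, 0 ≤ ip w w := fun w => sum_nonneg fun _ _ => mul_self_nonneg _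
  simp only [bendSq, Tiny.sizeQ, bend0, Matrix.cons_val]
  linarith [h (sff I.Z z (pt 1 0) (pt 1 0)), h (sff I.Z z (pt 1 0) (pt 0 1))]

theorem bend0_ne (I : Input) {z : R2} (h : 0 < bendSq I.Z z) : bend0 I z ≠ 0 := fun e => by
  have := bendSq_le_size I z
  simp [e, Tiny.sizeQ] at this
  linarith

variable {G : Type}

/-- **Order zero of the stage.** The squares of the twelve amplitudes fill the cut-off tensor
with the changed coefficients, less what the free levels leave to the legal one. -/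
theorem sum_amp_sq (p : Par) (I : Input) (x : Ph × G → Unk) (α : Ph × G → ℝ) (q : Ph × G)
    (hK : p.T I ≠ 0) (hb : 0 < bendSq I.Z q.1.1)
    (hγ : ∀ i, gam p I x i q ∈ Set.Icc (1 / 32 : ℝ) 32)
    (hlast : α q ≤ I.χ q.1.1 ^ 2 * (gam p I x 0 q * ((1 + big p I q.1.1 ^ 2) / 2))) :
    (∑ j ∈ range 12, amp p I x j α q ^ 2 • sqForm (levCov j).1 (levCov j).2) + α q • sqForm 1 0 =
      I.χ q.1.1 ^ 2 • Tiny.nominal fun i => gam p I x i q := by
  have hc : ∀ k i, 0 ≤ Tiny.coefT k i (Tiny.nominal ![gam p I x 0 q / 2, gam p I x 1 q, gam p I x 2 q]) := fun k i => by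
    refine le_trans (by norm_num) (Tiny.coefT_nominal k i fun l => ?_)
    obtain ⟨a0, b0⟩ := hγ 0
    obtain ⟨a1, b1⟩ := hγ 1
    obtain ⟨a2, b2⟩ := hγ 2
    fin_cases l <;> constructor <;> simp <;> linarith
  have hden : 0 < I.χ q.1.1 ^ 2 + p.T I ^ 2 := by positivity
  have hbs : big p I q.1.1 ^ 2 + small p I q.1.1 ^ 2 = 1 := by
    simp only [big, small, div_pow, Real.sq_sqrt hden.le]
    field_simp
  have htiny : ∀ k i : Fin 3, amp p I x (3 * (k : ℕ) + (i : ℕ)) α q ^ 2 •
      sqForm (levCov (3 * (k : ℕ) + (i : ℕ))).1 (levCov (3 * (k : ℕ) + (i : ℕ))).2 =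
      (tinyWeight k (bend0 I q.1.1) ^ 2 * (small p I q.1.1 ^ 2 * I.χ q.1.1 ^ 2)) •
        (Tiny.coefT k i (Tiny.nominal ![gam p I x 0 q / 2, gam p I x 1 q, gam p I x 2 q]) •
          sqForm (Tiny.cov k i).1 (Tiny.cov k i).2) := by
    intro k i
    have h9 : 3 * (k : ℕ) + (i : ℕ) < 9 := by omega
    have et : tripleOf (3 * (k : ℕ) + (i : ℕ)) = k := Fin.ext (by simp [tripleOf]; omega)
    have em : memberOf (3 * (k : ℕ) + (i : ℕ)) = i := Fin.ext (by simp [memberOf])
    simp only [amp, levCov, h9, if_true, et, em, mul_pow, Real.sq_sqrt (hc k i), smul_smul]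
    ring_nf
  have hsum := (tinyWeight_spec).2.2.1 _ (bend0_ne I hb)
  have h9 : ∑ j ∈ range 9, amp p I x j α q ^ 2 • sqForm (levCov j).1 (levCov j).2 =
      (small p I q.1.1 ^ 2 * I.χ q.1.1 ^ 2) • Tiny.nominal ![gam p I x 0 q / 2, gam p I x 1 q, gam p I x 2 q] := by
    have e : ∀ f : ℕ → Sym2, ∑ j ∈ range 9, f j =
        ∑ k : Fin 3, ∑ i : Fin 3, f (3 * (k : ℕ) + (i : ℕ)) := fun f => by
      simp [Finset.sum_range_succ, Fin.sum_univ_three]
      abel
    rw [e]
    simp only [htiny, ← smul_sum, Tiny.sum_coefT, ← sum_smul, ← sum_mul, hsum, one_mul]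
  obtain ⟨a1, -⟩ := hγ 1
  obtain ⟨a2, -⟩ := hγ 2
  rw [sum_range_succ, sum_range_succ, sum_range_succ, h9]
  simp only [amp, levCov, if_true, show ¬(11 : ℕ) < 9 by norm_num, show ¬(10 : ℕ) < 9 by norm_num,
    show ¬(9 : ℕ) < 9 by norm_num, show ¬(10 : ℕ) = 9 by norm_num, show ¬(11 : ℕ) = 9 by norm_num,
    show ¬(11 : ℕ) = 10 by norm_num, if_false, mul_pow]
  rw [Real.sq_sqrt (by linarith), Real.sq_sqrt (by linarith), Real.sq_sqrt (by linarith)]
  funext l
  fin_cases l <;> simp [Tiny.nominal, sqForm]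
  · linear_combination
      (I.χ q.1.1 ^ 2 * (gam p I x 0 q / 2 + gam p I x 1 q + gam p I x 2 q)) * hbs
  · linear_combination (I.χ q.1.1 ^ 2 * (gam p I x 1 q - gam p I x 2 q)) * hbs
  · linear_combination (I.χ q.1.1 ^ 2 * (gam p I x 1 q + gam p I x 2 q)) * hbs

end Vale.Agent.P205.Stage
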