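import Vale.Agent.P205.Stage.Perturb
import Vale.Agent.P205.Stage.Invariant
import Vale.Agent.P205.Stage.PipeAlg

/-!
Costs and ranges of the weights of a stage: the cut-off, the shares, the magnitudes of the levels,
the coefficients and the weights of the tiny triples.
-/

noncomputable section

open Set Finset Real
open scoped ContDiff

namespace Vale.Agent.P205.Stage

open Wave (V4 ip D gram2 lift2 Scale Cost)

section generic

variable {ι X : Type} [NormedAddCommGroup X] [NormedSpace ℝ X] {F : Type} [NormedAddCommGroup F]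
  [NormedSpace ℝ F] {σ : Scale ι X} {w : ι → X → ℝ}

/-- A crude cost and a pointwise bound by `g` give the cost `g`, each derivative costing `L`
more. -/
theorem cost_of_crude {f : ι → X → F} {g : ι → X → ℝ} {L : ι → ℝ} {c : ℝ} (hc : 0 ≤ c)
    (hL : ∀ t, 1 ≤ L t) (hf : Cost σ w f) (hg0 : ∀ t, ∀ x ∈ σ.S t, 0 ≤ g t x)
    (hfg : ∀ t, ∀ x ∈ σ.S t, ‖f t x‖ ≤ c * g t x)
    (hw : ∀ t, ∀ x ∈ σ.S t, w t x ≤ L t * g t x) (τ : Scale ι X)
    (hB : ∀ t, σ.B t * L t ≤ τ.B t) (hS : ∀ t, τ.S t ⊆ σ.S t) : Cost τ g f := by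
  refine ⟨fun t => (hf.smooth t).mono (hS t), fun t x hx => hg0 t x (hS t hx), fun i => ?_⟩
  obtain ⟨C, hC0, hC⟩ := hf.bound i
  refine ⟨max C c, le_max_of_le_right hc, fun t x hx => ?_⟩
  have hx' := hS t hx
  have hb : 0 ≤ σ.B t := zero_le_one.trans (σ.one_le t)
  rcases Nat.eq_zero_or_pos i with rfl | hi
  · rw [norm_iteratedFDeriv_zero, pow_zero, mul_one]
    exact (hfg t x hx').trans (mul_le_mul_of_nonneg_right (le_max_right _ _) (hg0 t x hx'))
  · calc ‖iteratedFDeriv ℝ i (f t) x‖ ≤ C * w t x * σ.B t ^ i := hC t x hx'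
      _ ≤ C * (L t ^ i * g t x) * σ.B t ^ i := by
        refine mul_le_mul_of_nonneg_right (mul_le_mul_of_nonneg_left ((hw t x hx').trans
          (mul_le_mul_of_nonneg_right (le_self_pow₀ (hL t) hi.ne') (hg0 t x hx'))) hC0)
          (pow_nonneg hb i)
      _ = C * g t x * (σ.B t * L t) ^ i := by ring
      _ ≤ max C c * g t x * τ.B t ^ i := by
        have := hg0 t x hx'
        have : 0 ≤ σ.B t * L t := mul_nonneg hb (zero_le_one.trans (hL t))
        gcongr
        · exact le_max_left _ _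
        · exact hB t

/-- A positive constant of each index costs itself. -/
theorem cost_index (c : ι → ℝ) (hc : ∀ t, 0 ≤ c t) :
    Cost σ (fun t _ => c t) fun t _ => c t := by
  refine ⟨fun t => contDiffOn_const, fun t _ _ => hc t, fun i => ⟨1, zero_le_one, fun t x _ => ?_⟩⟩
  rcases i with _ | i
  · simp [norm_iteratedFDeriv_zero, abs_of_nonneg (hc t)]
  · rw [iteratedFDeriv_succ_const]
    simp [mul_nonneg (hc t) (pow_nonneg (zero_le_one.trans (σ.one_le t)) _)]

/-- Three vectors as one family. -/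
theorem cost_triple {f : Fin 3 → ι → X → F} (hf : ∀ i, Cost σ w (f i)) :
    Cost σ w fun t x i => f i t x :=
  (((hf 0).clm (ContinuousLinearMap.single ℝ (fun _ : Fin 3 => F) 0)).add
    ((hf 1).clm (ContinuousLinearMap.single ℝ (fun _ : Fin 3 => F) 1))).add
      ((hf 2).clm (ContinuousLinearMap.single ℝ (fun _ : Fin 3 => F) 2)) |>.congr fun t x _ => by
    funext i; fin_cases i <;> simp

end generic

variable {C : ℕ → ℝ} {C2 : ℕ → ℕ → ℝ}

/-- The charts in the plane above a threshold of the scale. -/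
abbrev scZ (C : ℕ → ℝ) (C2 : ℕ → ℕ → ℝ) (N' b : ℕ) (T : ℝ) : Scale (Fam C C2) R2 :=
  above (sc C C2 N' b) Kf T

theorem scZ_le {N' b b' : ℕ} (hb : b ≤ b') {T T' : ℝ} (hT : T ≤ T') :
    (∀ t, (scZ C C2 N' b T).B t ≤ (scZ C C2 N' b' T').B t) ∧
      ∀ t, (scZ C C2 N' b' T').S t ⊆ (scZ C C2 N' b T).S t :=
  ⟨fun t => pow_le_pow_right₀ (one_le_Kf t) hb, fun _ _ hp => ⟨hT.trans hp.1, hp.2⟩⟩

/-- A family on the plane as a family on the charts with slots. -/
theorem cost_of_plane {F : Type} [NormedAddCommGroup F] [NormedSpace ℝ F] {N' b : ℕ} {T : ℝ}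
    {G : Type} [NormedAddCommGroup G] [NormedSpace ℝ G] {V : Set G} {hV : IsOpen V}
    {w : Fam C C2 → R2 → ℝ} {f : Fam C C2 → R2 → F} (h : Cost (scZ C C2 N' b T) w f) :
    Cost (scQ C C2 N' b T V hV) (fun t q => w t q.1.1) fun t q => f t q.1.1 := by
  set L : Fam C C2 → (Ph × G) →L[ℝ] R2 := fun _ =>
    (ContinuousLinearMap.fst ℝ R2 (Fin 12 → ℝ)).comp (ContinuousLinearMap.fst ℝ Ph G) with hLdef
  have hL : ∀ t, ‖L t‖ ≤ 1 := fun t =>
    ContinuousLinearMap.opNorm_le_bound _ zero_le_one fun q => by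
      rw [one_mul]
      exact (norm_fst_le _).trans (norm_fst_le _)
  have key := h.comp_affine (scQ C C2 N' b T V hV) L (fun _ => 0)
    (fun t => mul_le_of_le_one_right (zero_le_one.trans ((scZ C C2 N' b T).one_le t)) (hL t))
    fun t q hq => by
      simpa [hLdef] using (show q.1.1 ∈ (scZ C C2 N' b T).S t from ⟨hq.1.1, hq.1.2.1⟩)
  simpa [hLdef] using key

theorem K_pos_of_low {N' : ℕ} {t : Fam C C2} {z : R2} (hz : z ∈ dom N' t) :
    1 ≤ C 0 * Kf t * area t.1.Z z ∧ 1 ≤ C 0 * Kf t * bendSq t.1.Z z :=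
  t.2.1.low z (dom_subset N' t hz)

theorem flatFam (C : ℕ → ℝ) (C2 : ℕ → ℕ → ℝ) (N' : ℕ) (T : ℝ) :
    FlatFam (scZ C C2 N' 1 T) fun t => t.1.χ :=
  FlatFam.of_chart (S := fun t => t.1.S) (c := max (C 0) 0) (C2 := C2)
    (fun t z hz => dom_subset N' t hz.2) (le_max_right _ _)
    (fun t z => (t.2.1.chi_le z).trans (le_max_left _ _)) (fun t => t.2.1.smoothChi)
    fun t => by simpa [scZ, above, sc, Kf] using t.2.1.flat

/-- **The cut-off has relative cost** where it exceeds `K ^ -N'`. -/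
theorem chi_cost (N' : ℕ) {b : ℕ} (hb : 2 ≤ b) (T : ℝ) :
    Cost (scZ C C2 N' b T) (fun t => t.1.χ) fun t => t.1.χ := by
  refine cost_of_crude (g := fun t => t.1.χ) zero_le_one one_le_Kf
    ((flatFam C C2 N' T).cost N') (fun t x hx => (chi_pos hx.2).le)
    (fun t x hx => by rw [one_mul, Real.norm_eq_abs, abs_of_pos (chi_pos hx.2)])
    (fun t x hx => ?_) (scZ C C2 N' b T) (fun t => ?_) fun t => (scZ_le (by omega) le_rfl).2 t
  · have h0 := chi_pos hx.2
    have hK := one_le_Kf t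
    have e : t.1.χ x ^ ((N' : ℝ) / (N' + 1)) = t.1.χ x * ((t.1.χ x)⁻¹) ^ (1 / ((N' : ℝ) + 1)) := by
      have hadd : ∀ y : ℝ, t.1.χ x * t.1.χ x ^ y = t.1.χ x ^ (1 + y) := fun y => by
        rw [Real.rpow_add h0, Real.rpow_one]
      rw [Real.inv_rpow h0.le, ← Real.rpow_neg h0.le, hadd]
      congr 1; field_simp; ring
    have h1 : (t.1.χ x)⁻¹ ≤ Kf t ^ N' :=
      inv_le_of_inv_le₀ (pow_pos (Kf_pos t) N') hx.2.2.le
    rw [e, mul_comm (Kf t)]
    refine mul_le_mul_of_nonneg_left ?_ h0.le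
    calc ((t.1.χ x)⁻¹) ^ (1 / ((N' : ℝ) + 1)) ≤ (Kf t ^ N') ^ (1 / ((N' : ℝ) + 1)) :=
          Real.rpow_le_rpow (inv_nonneg.2 h0.le) h1 (by positivity)
      _ ≤ Kf t := by
          rw [← Real.rpow_natCast, ← Real.rpow_mul (zero_le_one.trans hK)]
          calc Kf t ^ ((N' : ℝ) * (1 / ((N' : ℝ) + 1))) ≤ Kf t ^ (1 : ℝ) :=
                Real.rpow_le_rpow_of_exponent_le hK (by
                  rw [mul_one_div, div_le_one (by positivity)]; linarith)
            _ = Kf t := Real.rpow_one _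
  · show Kf t ^ 1 * Kf t ≤ Kf t ^ b
    rw [pow_one, ← pow_two]
    exact pow_le_pow_right₀ (one_le_Kf t) hb

section shares

variable (N : ℕ) {N' b : ℕ} (T : ℝ)

theorem T_pos (t : Fam C C2) : 0 < (par N).T t.1 := by
  have := Kf_pos t
  unfold Par.T
  exact inv_pos.2 (pow_pos this _)

/-- The root `√(χ² + T²)`. -/
def root (t : Fam C C2) (z : R2) : ℝ := sqrt (t.1.χ z ^ 2 + (par N).T t.1 ^ 2)

theorem root_pos (t : Fam C C2) (z : R2) : 0 < root N t z :=
  Real.sqrt_pos.2 (add_pos_of_nonneg_of_pos (sq_nonneg _) (pow_pos (T_pos N t) 2))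

/-- **The shares and the magnitudes of the levels have relative cost.** -/
theorem share_cost (hb : 2 ≤ b) :
    Cost (scZ C C2 N' b T) (fun t => big (par N) t.1) (fun t => big (par N) t.1) ∧
      Cost (scZ C C2 N' b T) (fun t => small (par N) t.1) (fun t => small (par N) t.1) ∧
      ∀ j, Cost (scZ C C2 N' b T) (fun t => levA (par N) t.1 j) fun t => levA (par N) t.1 j := by
  set σ := scZ C C2 N' b T
  have hχ := chi_cost (C := C) (C2 := C2) N' hb T
  have hpos : ∀ t, ∀ x ∈ σ.S t, 0 < t.1.χ x := fun t x hx => chi_pos hx.2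
  have hT : Cost σ (fun t _ => (par N).T t.1) fun t _ => (par N).T t.1 :=
    cost_index _ fun t => (T_pos N t).le
  set r2 : Fam C C2 → R2 → ℝ := fun t z => t.1.χ z ^ 2 + (par N).T t.1 ^ 2
  have h0 : ∀ t, ∀ x ∈ σ.S t, 0 ≤ r2 t x := fun t x _ => by positivity
  have hr : Cost σ r2 r2 := by
    have a := (hχ.mul hχ).mono zero_le_one h0 fun t x _ => by
      simp only [r2]; nlinarith [sq_nonneg ((par N).T t.1)]
    have c := (hT.mul hT).mono zero_le_one h0 fun t x _ => by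
      simp only [r2]; nlinarith [sq_nonneg (t.1.χ x)]
    exact (a.add c).congr fun t x _ => by simp only [r2]; ring
  have hs := hr.rel_sqrt fun t x hx => by
    have := T_pos N t
    simp only [r2]
    positivity
  have hi := hs.rel_inv fun t x _ => root_pos N t x
  have hbig : Cost σ (fun t => big (par N) t.1) fun t => big (par N) t.1 :=
    ((hχ.mul hi).mono zero_le_one (fun t x hx => div_nonneg (hpos t x hx).le (Real.sqrt_nonneg _))
      fun t x _ => le_of_eq (by simp only [one_mul, r2]; rfl)).congr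
      fun t x _ => by simp only [big, div_eq_mul_inv, r2]
  have hsmall : Cost σ (fun t => small (par N) t.1) fun t => small (par N) t.1 :=
    ((hT.mul hi).mono zero_le_one (fun t x _ => div_nonneg (T_pos N t).le (Real.sqrt_nonneg _))
      fun t x _ => le_of_eq (by simp only [one_mul, r2]; rfl)).congr
      fun t x _ => by simp only [small, div_eq_mul_inv, r2]
  refine ⟨hbig, hsmall, fun j => ?_⟩
  unfold levA
  split_ifs
  · exact hsmall.mul hχ
  · exact hbig.mul hχ
  · exact hχ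

variable {N' : ℕ}

/-- Ranges of the shares and magnitudes. -/
theorem share_range {t : Fam C C2} {z : R2} (hz : z ∈ dom N' t) (j : ℕ) :
    0 < big (par N) t.1 z ∧ big (par N) t.1 z ≤ 1 ∧ 0 < small (par N) t.1 z ∧
      small (par N) t.1 z ≤ 1 ∧ small (par N) t.1 z * t.1.χ z ≤ (par N).T t.1 ∧
      0 < levA (par N) t.1 j z ∧ levA (par N) t.1 j z ≤ t.1.χ z ∧ t.1.χ z ≤ C 0 ∧
      t.1.χ z / small (par N) t.1 z ≤ (C 0 + 1) ^ 2 * Kf t ^ pExp ∧
      t.1.χ z ^ 2 / levA (par N) t.1 j z ≤ (C 0 + 1) ^ 2 * Kf t ^ pExp := by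
  have hχ := chi_pos hz
  have hT := T_pos N t
  have hR := root_pos N t z
  have hC := t.2.1.chi_le z
  have hK := one_le_pow_K t pExp
  have hT1 : (par N).T t.1 ≤ 1 := inv_le_one_of_one_le₀ hK
  have hχR : t.1.χ z ≤ root N t z :=
    Real.le_sqrt_of_sq_le (le_add_of_nonneg_right (sq_nonneg _))
  have hTR : (par N).T t.1 ≤ root N t z :=
    Real.le_sqrt_of_sq_le (le_add_of_nonneg_left (sq_nonneg _))
  have hRle : root N t z ≤ C 0 + 1 :=
    Real.sqrt_le_iff.2 ⟨by linarith, by nlinarith⟩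
  have b1 : big (par N) t.1 z = t.1.χ z / root N t z := rfl
  have s1 : small (par N) t.1 z = (par N).T t.1 / root N t z := rfl
  have hb0 : 0 < big (par N) t.1 z := by rw [b1]; positivity
  have hs0 : 0 < small (par N) t.1 z := by rw [s1]; positivity
  have hb1 : big (par N) t.1 z ≤ 1 := by rw [b1, div_le_one hR]; exact hχR
  have hs1 : small (par N) t.1 z ≤ 1 := by rw [s1, div_le_one hR]; exact hTR
  have hq : t.1.χ z / small (par N) t.1 z ≤ (C 0 + 1) ^ 2 * Kf t ^ pExp := by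
    rw [s1, div_div_eq_mul_div, show (par N).T t.1 = (Kf t ^ pExp)⁻¹ from rfl, div_inv_eq_mul]
    refine mul_le_mul_of_nonneg_right ?_ (zero_le_one.trans hK)
    nlinarith
  refine ⟨hb0, hb1, hs0, hs1, ?_, ?_, ?_, hC, hq, ?_⟩
  · rw [s1, div_mul_eq_mul_div, div_le_iff₀ hR]
    exact mul_le_mul_of_nonneg_left hχR hT.le
  · unfold levA; split_ifs <;> positivity
  · unfold levA
    split_ifs
    · exact mul_le_of_le_one_left hχ.le hs1
    · exact mul_le_of_le_one_left hχ.le hb1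
    · exact le_rfl
  · have hbig : t.1.χ z / big (par N) t.1 z ≤ (C 0 + 1) ^ 2 * Kf t ^ pExp := by
      rw [b1, div_div_eq_mul_div, mul_div_cancel_left₀ _ hχ.ne']
      nlinarith
    unfold levA
    split_ifs
    · rw [pow_two, mul_div_mul_right _ _ hχ.ne']; exact hq
    · rw [pow_two, mul_div_mul_right _ _ hχ.ne']; exact hbig
    · rw [pow_two, mul_div_assoc, div_self hχ.ne', mul_one]; nlinarith

end shares

/-- The threshold above which the constants of the data are absorbed. -/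
def cT (C : ℕ → ℝ) : ℝ := max 1 (C 0)

/-- The derivatives of the map before the stage. -/
theorem Z_cost (N' : ℕ) (T : ℝ) (a a' : R2) :
    Cost (scZ C C2 N' 1 T) (fun t _ => Kf t ^ 1) (fun t => D a t.1.Z) ∧
      Cost (scZ C C2 N' 1 T) (fun t _ => Kf t ^ 2) fun t => D a (D a' t.1.Z) := by
  have h : Cost (scZ C C2 N' 1 T) (fun _ _ => 1) fun t => t.1.Z := by
    refine ⟨fun t => t.2.1.smoothZ.mono fun z hz => hz.2.1, fun _ _ _ => zero_le_one,
      fun i => ⟨|C i|, abs_nonneg _, fun t z hz => ?_⟩⟩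
    refine (t.2.1.bdZ i z (dom_subset N' t hz.2)).trans ?_
    simp only [scZ, above, sc, pow_one, mul_one, Kf]
    exact mul_le_mul_of_nonneg_right (le_abs_self _) (pow_nonneg (zero_le_one.trans t.2.2) _)
  have h1 := h.deriv_dir a'
  refine ⟨(h.deriv_dir a).mono zero_le_one (fun t _ _ => zero_le_one.trans (one_le_pow_K t 1))
      fun t x _ => le_of_eq (by simp [scZ, above, sc]),
    (h1.deriv_dir a).mono zero_le_one (fun t _ _ => zero_le_one.trans (one_le_pow_K t 2))
      fun t x _ => le_of_eq (by simp [scZ, above, sc, pow_two])⟩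

/-- The area before the stage has relative cost and is at least `K ^ -2`. -/
theorem area_cost (N' : ℕ) {b : ℕ} (hb : 7 ≤ b) {T : ℝ} (hT : cT C ≤ T) :
    Cost (scZ C C2 N' b T) (fun t => area t.1.Z) (fun t => area t.1.Z) ∧
      ∀ t, ∀ z ∈ (scZ C C2 N' b T).S t, 1 ≤ Kf t ^ 2 * area t.1.Z z := by
  have hp := (Z_cost (C := C) (C2 := C2) N' T (pt 1 0) 0).1
  have hq := (Z_cost (C := C) (C2 := C2) N' T (pt 0 1) 0).1
  have hlo : ∀ t, ∀ z ∈ (scZ C C2 N' 1 T).S t, 1 ≤ Kf t ^ 2 * area t.1.Z z := fun t z hz => by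
    have h := (K_pos_of_low hz.2).1
    have h0 : 0 < area t.1.Z z := t.2.1.imm z hz.2.1
    have hC : C 0 ≤ Kf t := (le_max_right _ _).trans (hT.trans hz.1)
    calc 1 ≤ C 0 * Kf t * area t.1.Z z := h
      _ ≤ Kf t * Kf t * area t.1.Z z := by
          have := Kf_pos t
          gcongr
      _ = _ := by rw [pow_two]
  refine ⟨?_, fun t z hz => hlo t z ((scZ_le (by omega) le_rfl).2 t hz)⟩
  have hg : Cost (scZ C C2 N' 1 T) (fun t _ => Kf t ^ 4) fun t => area t.1.Z := by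
    have a := (hp.ip hp).mul (hq.ip hq)
    have c := (hp.ip hq).mul (hp.ip hq)
    refine ((a.mono zero_le_one (fun t _ _ => zero_le_one.trans (one_le_pow_K t 4))
      fun t x _ => le_of_eq (by ring)).sub (c.mono zero_le_one
        (fun t _ _ => zero_le_one.trans (one_le_pow_K t 4)) fun t x _ => le_of_eq (by ring))).congr
      fun t x _ => by simp only [area, gram2, pow_two]
  refine Cost.rescale (rel_of_lower (L := fun t => Kf t ^ 6) (fun t => one_le_pow_K t 6) hg
    (fun t z hz => ?_) (fun t z hz => (t.2.1.imm z hz.2.1).le) (scZ C C2 N' 7 T)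
    (fun t => ?_) fun t => (scZ_le (by omega) le_rfl).2 t) _ (scZ_le hb le_rfl).1
    fun t => (scZ_le hb le_rfl).2 t
  · calc Kf t ^ 4 = Kf t ^ 4 * 1 := (mul_one _).symm
      _ ≤ Kf t ^ 4 * (Kf t ^ 2 * area t.1.Z z) :=
          mul_le_mul_of_nonneg_left (hlo t z hz) (zero_le_one.trans (one_le_pow_K t 4))
      _ = _ := by ring
  · show Kf t ^ 1 * Kf t ^ 6 ≤ Kf t ^ 7
    rw [← pow_add]

/-- A component of the second form before the stage. -/
theorem sff_cost (N' : ℕ) {b : ℕ} (hb : 7 ≤ b) {T : ℝ} (hT : cT C ≤ T) (a a' : R2) :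
    Cost (scZ C C2 N' b T) (fun t _ => Kf t ^ 8) fun t z => sff t.1.Z z a a' := by
  obtain ⟨hg, hlo⟩ := area_cost (C := C) (C2 := C2) N' hb hT
  have hS := fun t => (scZ_le (C := C) (C2 := C2) (N' := N') (b := 1) (b' := b) (by omega)
    (le_refl T)).2 t
  have hB := fun t => (scZ_le (C := C) (C2 := C2) (N' := N') (b := 1) (b' := b) (by omega)
    (le_refl T)).1 t
  have hp := ((Z_cost (C := C) (C2 := C2) N' T (pt 1 0) 0).1).rescale _ hB hS
  have hq := ((Z_cost (C := C) (C2 := C2) N' T (pt 0 1) 0).1).rescale _ hB hS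
  have hw := ((Z_cost (C := C) (C2 := C2) N' T a a').2).rescale _ hB hS
  have hK : ∀ n : ℕ, ∀ t : Fam C C2, ∀ x ∈ (scZ C C2 N' b T).S t, (0 : ℝ) ≤ Kf t ^ n :=
    fun n t _ _ => zero_le_one.trans (one_le_pow_K t n)
  have hi : Cost (scZ C C2 N' b T) (fun t _ => Kf t ^ 2) fun t z => (area t.1.Z z)⁻¹ :=
    (hg.rel_inv fun t z hz => t.2.1.imm z hz.2.1).mono zero_le_one (hK 2) fun t z hz => by
      rw [one_mul, inv_le_iff_one_le_mul₀ (t.2.1.imm z hz.2.1)]
      exact hlo t z hz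
  have c1 := ((((hp.ip hw).mul (hq.ip hq)).sub (((hq.ip hw).mul (hp.ip hq)).mono zero_le_one
    (fun t x _ => by have := Kf_pos t; positivity) fun t x _ => le_of_eq (by ring))).mul hi).smul hp
  have c2 := ((((hq.ip hw).mul (hp.ip hp)).sub (((hp.ip hw).mul (hp.ip hq)).mono zero_le_one
    (fun t x _ => by have := Kf_pos t; positivity) fun t x _ => le_of_eq (by ring))).mul hi).smul hq
  refine ((hw.mono zero_le_one (hK 8) fun t x _ => ?_).sub
    ((c1.mono zero_le_one (hK 8) fun t x _ => le_of_eq (by ring)).add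
      (c2.mono zero_le_one (hK 8) fun t x _ => le_of_eq (by ring)))).congr fun t z _ => ?_
  · rw [one_mul]; exact pow_le_pow_right₀ (one_le_Kf t) (by norm_num)
  · simp only [sff, perp2, lift2, area, div_eq_mul_inv]

/-- The second form before the stage: cost, lower bound and relative size. -/
theorem bend0_cost (N' : ℕ) {b : ℕ} (hb : 25 ≤ b) {T : ℝ} (hT : cT C ≤ T) :
    Cost (scZ C C2 N' b T) (fun t _ => Kf t ^ 8) (fun t => bend0 t.1) ∧
      (∀ t, ∀ z ∈ (scZ C C2 N' b T).S t, 1 ≤ Kf t ^ 2 * Tiny.sizeQ (bend0 t.1 z)) ∧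
      Cost (scZ C C2 N' b T) (fun t z => Tiny.sizeQ (bend0 t.1 z))
        fun t z => Tiny.sizeQ (bend0 t.1 z) := by
  have hK : ∀ n : ℕ, ∀ t : Fam C C2, ∀ x ∈ (scZ C C2 N' 7 T).S t, (0 : ℝ) ≤ Kf t ^ n :=
    fun n t _ _ => zero_le_one.trans (one_le_pow_K t n)
  have hs := fun i : Fin 3 => sff_cost (C := C) (C2 := C2) N' (le_refl 7) hT
    (![pt 1 0, pt 1 0, pt 0 1] i) (![pt 1 0, pt 0 1, pt 0 1] i)
  have hq : Cost (scZ C C2 N' 7 T) (fun t _ => Kf t ^ 8) fun t => bend0 t.1 :=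
    (cost_triple hs).congr fun t z _ => by funext i; fin_cases i <;> simp [bend0]
  have hlo : ∀ t, ∀ z ∈ (scZ C C2 N' 7 T).S t, 1 ≤ Kf t ^ 2 * Tiny.sizeQ (bend0 t.1 z) :=
    fun t z hz => by
      have h := (K_pos_of_low hz.2).2
      have hb0 : 0 < bendSq t.1.Z z := t.2.1.bend z hz.2.1
      have hC : C 0 ≤ Kf t := (le_max_right _ _).trans (hT.trans hz.1)
      calc 1 ≤ C 0 * Kf t * bendSq t.1.Z z := h
        _ ≤ Kf t * Kf t * bendSq t.1.Z z := by
            have := Kf_pos t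
            gcongr
        _ ≤ Kf t ^ 2 * Tiny.sizeQ (bend0 t.1 z) := by
            rw [pow_two]
            exact mul_le_mul_of_nonneg_left (bendSq_le_size t.1 z) (mul_self_nonneg _)
  have hS := fun t => (scZ_le (C := C) (C2 := C2) (N' := N') (b := 7) (b' := b) (by omega)
    (le_refl T)).2 t
  refine ⟨hq.rescale _ (scZ_le (by omega) le_rfl).1 hS, fun t z hz => hlo t z (hS t hz), ?_⟩
  have hn : Cost (scZ C C2 N' 7 T) (fun t _ => Kf t ^ 16) fun t z => Tiny.sizeQ (bend0 t.1 z) :=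
    ((((hq.clm (ContinuousLinearMap.proj 0)).ip (hq.clm (ContinuousLinearMap.proj 0))).add
      ((hq.clm (ContinuousLinearMap.proj 1)).ip (hq.clm (ContinuousLinearMap.proj 1)))).add
      ((hq.clm (ContinuousLinearMap.proj 2)).ip (hq.clm (ContinuousLinearMap.proj 2)))).mono
      zero_le_one (hK 16) fun t x _ => le_of_eq (by ring)
  refine Cost.rescale (rel_of_lower (L := fun t => Kf t ^ 18) (fun t => one_le_pow_K t 18) hn
    (fun t z hz => ?_) (fun t z hz => (Tiny.sizeQ_pos (bend0_ne t.1 (t.2.1.bend z hz.2.1))).le)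
    (scZ C C2 N' 25 T) (fun t => ?_) fun t => (scZ_le (by omega) le_rfl).2 t) _
    (scZ_le hb le_rfl).1 fun t => (scZ_le hb le_rfl).2 t
  · calc Kf t ^ 16 = Kf t ^ 16 * 1 := (mul_one _).symm
      _ ≤ Kf t ^ 16 * (Kf t ^ 2 * Tiny.sizeQ (bend0 t.1 z)) :=
          mul_le_mul_of_nonneg_left (hlo t z hz) (zero_le_one.trans (one_le_pow_K t 16))
      _ = _ := by ring
  · show Kf t ^ 7 * Kf t ^ 18 ≤ Kf t ^ 25
    rw [← pow_add]

/-- **The weights of the tiny triples are bounded in the calculus.** -/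
theorem tinyWeight_cost (N' : ℕ) {b : ℕ} (hb : 25 ≤ b) {T : ℝ} (hT : cT C ≤ T) (k : Fin 3) :
    Cost (scZ C C2 N' b T) (fun _ _ => 1) fun t z => tinyWeight k (bend0 t.1 z) := by
  obtain ⟨-, hlo, hs⟩ := bend0_cost (C := C) (C2 := C2) N' hb hT
  obtain ⟨hq, -, -⟩ := bend0_cost (C := C) (C2 := C2) N' (le_refl 25) hT
  have hpos : ∀ t, ∀ z ∈ (scZ C C2 N' b T).S t, 0 < Tiny.sizeQ (bend0 t.1 z) :=
    fun t z hz => Tiny.sizeQ_pos (bend0_ne t.1 (t.2.1.bend z hz.2.1))
  have hr := hs.rel_sqrt hpos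
  have hnorm : ∀ q : Fin 3 → V4, ‖q‖ ≤ 1 * sqrt (Tiny.sizeQ q) := fun q => by
    rw [one_mul]
    refine (pi_norm_le_iff_of_nonneg (Real.sqrt_nonneg _)).2 fun i =>
      (pi_norm_le_iff_of_nonneg (Real.sqrt_nonneg _)).2 fun l => ?_
    rw [Real.norm_eq_abs]
    refine Real.abs_le_sqrt ?_
    have h : ∀ j, q j l * q j l ≤ ip (q j) (q j) := fun j =>
      single_le_sum (f := fun m => q j m * q j m) (fun m _ => mul_self_nonneg _) (mem_univ l)
    have hn : ∀ j, 0 ≤ ip (q j) (q j) := fun j => sum_nonneg fun m _ => mul_self_nonneg _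
    have := h i; have := hn 0; have := hn 1; have := hn 2
    unfold Tiny.sizeQ
    rw [pow_two]
    fin_cases i <;> simp at * <;> linarith
  have hqb : Cost (scZ C C2 N' b T) (fun t z => sqrt (Tiny.sizeQ (bend0 t.1 z)))
      fun t => bend0 t.1 := by
    have hq7 := (bend0_cost (C := C) (C2 := C2) N' (le_refl 25) hT)
    have hs7 := fun i : Fin 3 => sff_cost (C := C) (C2 := C2) N' (le_refl 7) hT
      (![pt 1 0, pt 1 0, pt 0 1] i) (![pt 1 0, pt 0 1, pt 0 1] i)
    have h7 : Cost (scZ C C2 N' 7 T) (fun t _ => Kf t ^ 8) fun t => bend0 t.1 :=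
      (cost_triple hs7).congr fun t z _ => by funext i; fin_cases i <;> simp [bend0]
    refine Cost.rescale (cost_of_crude (L := fun t => Kf t ^ 9) zero_le_one
      (fun t => one_le_pow_K t 9) h7 (fun t z _ => Real.sqrt_nonneg _) (fun t z _ => hnorm _)
      (fun t z hz => ?_) (scZ C C2 N' 16 T) (fun t => ?_)
      fun t => (scZ_le (by omega) le_rfl).2 t) _ (scZ_le (by omega) le_rfl).1
      fun t => (scZ_le (by omega) le_rfl).2 t
    · have h1 : 1 ≤ Kf t ^ 2 * Tiny.sizeQ (bend0 t.1 z) :=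
        (bend0_cost (C := C) (C2 := C2) N' (le_refl 25) hT).2.1 t z hz
      have h2 : 1 ≤ Kf t * sqrt (Tiny.sizeQ (bend0 t.1 z)) := by
        have := Real.sqrt_le_sqrt h1
        rwa [Real.sqrt_one, Real.sqrt_mul (sq_nonneg _), Real.sqrt_sq (Kf_pos t).le] at this
      calc Kf t ^ 8 = Kf t ^ 8 * 1 := (mul_one _).symm
        _ ≤ Kf t ^ 8 * (Kf t * sqrt (Tiny.sizeQ (bend0 t.1 z))) :=
            mul_le_mul_of_nonneg_left h2 (zero_le_one.trans (one_le_pow_K t 8))
        _ = _ := by ring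
    · show Kf t ^ 7 * Kf t ^ 9 ≤ Kf t ^ 16
      rw [← pow_add]
  have hn : Cost (scZ C C2 N' b T) (fun _ _ => 1)
      fun t z => (sqrt (Tiny.sizeQ (bend0 t.1 z)))⁻¹ • bend0 t.1 z :=
    ((hr.rel_inv fun t z hz => Real.sqrt_pos.2 (hpos t z hz)).smul hqb).mono zero_le_one
      (fun _ _ _ => zero_le_one) fun t z hz => by
        rw [inv_mul_cancel₀ (Real.sqrt_pos.2 (hpos t z hz)).ne', one_mul]
  obtain ⟨hsm, hhom, -⟩ := Tiny.exists_weights.choose_spec.2.choose_spec
  have hKc : IsCompact {q : Fin 3 → V4 | Tiny.sizeQ q = 1} := by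
    refine Metric.isCompact_of_isClosed_isBounded
      (isClosed_eq (by unfold Tiny.sizeQ ip; fun_prop) continuous_const)
      ((Metric.isBounded_closedBall (x := (0 : Fin 3 → V4)) (r := 1)).subset fun q hq => ?_)
    rw [mem_closedBall_zero_iff]
    have := hnorm q
    rwa [show Tiny.sizeQ q = 1 from hq, Real.sqrt_one, mul_one] at this
  refine (hn.comp_smooth (g := tinyWeight k) (isOpen_ne) hKc (fun q hq h0 => by
    simp [show q = 0 from h0, Tiny.sizeQ] at hq) (hsm k) fun t z hz => ?_).congr fun t z hz => ?_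
  · have h0 := hpos t z hz
    show Tiny.sizeQ _ = 1
    simp only [Tiny.sizeQ, Pi.smul_apply, Wave.ip_smul_left, Wave.ip_smul_right] at *
    field_simp
    rw [Real.sq_sqrt h0.le]
  · exact (hhom k _ (inv_ne_zero (Real.sqrt_pos.2 (hpos t z hz)).ne') _).symm

section coefficients

variable {G : Type} [NormedAddCommGroup G] [NormedSpace ℝ G] [FiniteDimensional ℝ G] {V : Set G}
  {hV : IsOpen V}

/-- **The coefficients stay in range and are bounded in the calculus.** -/
theorem gam_cost (N : ℕ) {N' b s : ℕ} (hb : 1 ≤ b) {T : ℝ} {x : Fam C C2 → Ph × G → Unk}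
    (hx : Small N' b s T V hV x) :
    ∃ T', T ≤ T' ∧
      (∀ i, Cost (scQ C C2 N' b T' V hV) (fun _ _ => 1) fun t => gam (par N) t.1 (x t) i) ∧
      ∀ t, ∀ q ∈ (scQ C C2 N' b T' V hV).S t, ∀ i,
        gam (par N) t.1 (x t) i q ∈ Set.Icc (1 / 32 : ℝ) 17 := by
  set σ := scQ C C2 N' b T V hV
  set L : Fam C C2 → (Ph × G) →L[ℝ] Ph × G := fun _ =>
    ((ContinuousLinearMap.fst ℝ R2 (Fin 12 → ℝ)).comp (ContinuousLinearMap.fst ℝ Ph G) |>.prod
      0).prod (ContinuousLinearMap.snd ℝ Ph G) with hLdef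
  have hLn : ∀ t, ‖L t‖ ≤ 1 := fun t =>
    ContinuousLinearMap.opNorm_le_bound _ zero_le_one fun q => by
      simp only [hLdef, ContinuousLinearMap.prod_apply, ContinuousLinearMap.comp_apply,
        ContinuousLinearMap.coe_fst', ContinuousLinearMap.coe_snd', zero_apply, one_mul,
        Prod.norm_def, norm_zero]
      refine max_le (max_le ?_ (le_max_of_le_left (le_max_of_le_left (norm_nonneg _))))
        (le_max_right _ _)
      exact le_max_of_le_left (le_max_left _ _)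
  have he : ∀ t (q : Ph × G), L t q + (fun _ : Fam C C2 => (0 : Ph × G)) t = trunc 0 q :=
    fun t q => by simp [hLdef, trunc]; rfl
  have hmap : ∀ t, ∀ q ∈ σ.S t, L t q + (fun _ : Fam C C2 => (0 : Ph × G)) t ∈ σ.S t :=
    fun t q hq => by rw [he t q]; exact ⟨⟨hq.1.1, hq.1.2.1, trivial⟩, hq.2⟩
  have hd := hx.cost.comp_affine σ L (fun _ => 0)
    (fun t => mul_le_of_le_one_right (zero_le_one.trans (σ.one_le t)) (hLn t)) hmap
  simp only [he] at hd
  have hd2 : ∀ i, Cost σ (fun _ _ => 1) fun t q => (x t (trunc 0 q)).2 i := fun i =>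
    ((hd.clm (ContinuousLinearMap.snd ℝ (Fin 12 → Sym2) (Fin 3 → ℝ))).proj i).mono zero_le_one
      (fun _ _ _ => zero_le_one) fun t q _ => by
        rw [one_mul]; exact inv_le_one_of_one_le₀ (one_le_pow_K t s)
  have hK : Cost σ (fun _ _ => 1) fun (t : Fam C C2) _ => (Kf t ^ (par N).L)⁻¹ :=
    (cost_index _ fun t => inv_nonneg.2 (zero_le_one.trans (one_le_pow_K t _))).mono zero_le_one
      (fun _ _ _ => zero_le_one) fun t _ _ => by
        rw [one_mul]; exact inv_le_one_of_one_le₀ (one_le_pow_K t _)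
  have hβ : ∀ i, Cost (scZ C C2 N' b T) (fun _ _ => 1) fun t => t.1.β i := fun i => by
    refine Cost.rescale (σ := scZ C C2 N' 1 T) ⟨fun t => (t.2.1.smoothBeta i).mono fun z hz => hz.2.1,
      fun _ _ _ => zero_le_one, fun l => ⟨|C l|, abs_nonneg _, fun t z hz => ?_⟩⟩ _
      (scZ_le hb le_rfl).1 fun t => (scZ_le hb le_rfl).2 t
    refine (t.2.1.bdBeta i l z (dom_subset N' t hz.2)).trans ?_
    simp only [scZ, above, sc, pow_one, mul_one, Kf]
    exact mul_le_mul_of_nonneg_right (le_abs_self _) (pow_nonneg (zero_le_one.trans t.2.2) _)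
  have hg : ∀ i, Cost σ (fun _ _ => 1) fun t => gam (par N) t.1 (x t) i := fun i =>
    ((cost_of_plane (hV := hV) (V := V) (hβ i)).add ((hK.mul (hd2 i)).mono zero_le_one
      (fun _ _ _ => zero_le_one) fun t q _ => le_of_eq (by ring))).congr fun t q _ => rfl
  choose Ci hCi0 hCi using fun i => (hd2 i).abs_le
  set T' := max T (32 * (Ci 0 + Ci 1 + Ci 2) + 1)
  refine ⟨T', le_max_left _ _, fun i => cost_scQ (hg i) le_rfl (le_max_left _ _),
    fun t q hq i => ?_⟩
  have hq' : q ∈ σ.S t := scQ_subset (le_max_left T _) t hq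
  have h1 : |(x t (trunc 0 q)).2 i| ≤ Ci 0 + Ci 1 + Ci 2 := by
    refine (hCi i t q hq').trans ?_
    rw [mul_one]
    have := hCi0 0; have := hCi0 1; have := hCi0 2
    fin_cases i <;> simp <;> linarith
  have hK1 : 32 * (Ci 0 + Ci 1 + Ci 2) + 1 ≤ Kf t := (le_max_right _ _).trans hq.1.1
  have hKL : (Kf t ^ (par N).L)⁻¹ * |(x t (trunc 0 q)).2 i| ≤ 1 / 32 := by
    have hp : Kf t ≤ Kf t ^ (par N).L := le_self_pow₀ (one_le_Kf t) (by simp [par, bExp])
    rw [inv_mul_le_iff₀ (pow_pos (Kf_pos t) _)]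
    linarith
  have hβr := t.2.1.beta_range i q.1.1 (dom_subset N' t hq.1.2.1)
  have ha := abs_le.1 ((abs_mul _ _).trans_le (by
    rw [abs_of_pos (inv_pos.2 (pow_pos (Kf_pos t) (par N).L))]; exact hKL) :
      |(Kf t ^ (par N).L)⁻¹ * (x t (trunc 0 q)).2 i| ≤ 1 / 32)
  have e : gam (par N) t.1 (x t) i q =
      t.1.β i q.1.1 + (Kf t ^ (par N).L)⁻¹ * (x t (trunc 0 q)).2 i := rfl
  rw [e]
  constructor <;> [linarith [hβr.1]; linarith [hβr.2]]

end coefficients

end Vale.Agent.P205.Stage
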