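import Vale.Agent.P205.Stage.Natural
import Vale.Agent.P205.Stage.Invariant
import Vale.Agent.P205.Stage.Weights
import Vale.Agent.P205.Stage.Telescope
import Vale.Agent.P205.Legal.Bend
import Vale.Agent.P205.Legal.Levels

/-!
The waves of the levels on their domains: frames, smoothness and periods of the data, the
recursions work where the kernel bends, and vanish where nothing is prescribed.
-/

noncomputable section

open Set Finset Real Filter
open scoped ContDiff Topology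

namespace Vale.Agent.P205.Stage

open Wave Legal

section off

open Wave.Data

variable {E : Type} [NormedAddCommGroup E] [NormedSpace ℝ E]

/-- Locality without any condition on the frame: on an open set free of amplitude and of prescribed terms every corrector is zero. -/
theorem upTo_off {W : Wave.Data E} {U : Set E} (hU : IsOpen U)
    (hr : ∀ x ∈ U, W.rho x = 0) (hE : ∀ n, ∀ x ∈ U, W.Err n x = 0) :
    ∀ (m j : ℕ), ∀ x ∈ U, ∀ s, W.upTo (m + 1) j x s = 0 := by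
  have hcs : ∀ x ∈ U, W.ell x = W.aa x ∧ W.cs x = 1 ∧ W.sn x = 0 := fun x hx => by
    have : 0 ≤ W.aa x := Real.sqrt_nonneg _
    refine ⟨by simp [ell, hr x hx, Real.sqrt_sq this], ?_, ?_⟩ <;> funext r <;>
      simp [cs, sn, Wave.Data.amp, hr x hx]
  have hY1 : ∀ x ∈ U, ∀ s, W.Y1 x s = 0 := fun x hx s => by
    obtain ⟨e1, e2, e3⟩ := hcs x hx
    have : W.dY1 x = fun _ => 0 := funext fun r => by simp [dY1, e1, e2, e3]
    simp [Y1, this, prim, mean]
  intro m
  induction m with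
  | zero =>
    intro j x hx s
    rcases eq_or_ne j 1 with rfl | hj
    · rw [show W.upTo 1 1 = W.Y1 from Function.update_self _ _ _]; exact hY1 x hx s
    · rw [show W.upTo 1 j = fun _ _ => 0 from Function.update_of_ne hj _ _]
  | succ m ih =>
    intro j x hx s
    rw [show W.upTo (m + 1 + 1) = Function.update (W.upTo (m + 1)) (m + 2)
      (W.step (W.upTo (m + 1)) (m + 1)) from rfl]
    rcases eq_or_ne j (m + 2) with rfl | hj
    swap
    · rw [Function.update_of_ne hj]; exact ih j x hx s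
    rw [Function.update_self]
    obtain ⟨e1, e2, e3⟩ := hcs x hx
    have hY : ∀ i, ∀ y ∈ U, W.upTo (m + 1) i y = fun _ => 0 := fun i y hy => funext (ih i y hy)
    have hDa : ∀ (a : E) i r, D a (fun y => W.upTo (m + 1) i y r) x = 0 := fun a i r => by
      have e : (fun y => W.upTo (m + 1) i y r) =ᶠ[nhds x] fun _ => (0 : V4) := by
        filter_upwards [hU.mem_nhds hx] with y hy using ih i y hy r
      simp [D, e.fderiv_eq]
    have hde : ∀ i, 0 < i → ∀ r, W.de (W.upTo (m + 1)) i x r = 0 :=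
      fun i hi r => by simp [de, hi.ne', hDa]
    have hdv : ∀ i, 0 < i → ∀ r, W.dv (W.upTo (m + 1)) i x r = 0 :=
      fun i hi r => by simp [dv, hi.ne', hDa, hY (i + 1) x hx]
    have hc : ∀ (A B : ℕ → E → ℝ → V4), (∀ i, 0 < i → ∀ r, A i x r = 0) →
        (∀ i, 0 < i → ∀ r, B i x r = 0) → ∀ n, 0 < n → ∀ r,
          ∑ i ∈ range (n + 1), ip (A i x r) (B (n - i) x r) = 0 :=
      fun A B hA hB n hn r => sum_eq_zero fun i hi => by
        rcases Nat.eq_zero_or_pos i with rfl | h0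
        · rw [hB _ (by omega), ip_zero_right]
        · rw [hA i h0, ip_zero_left]
    have r1 : ∀ y ∈ U, W.res1 (W.upTo (m + 1)) (m + 1) y = fun _ => 0 := fun y hy => by
      funext r
      have hy1 : ∀ i, 0 < i → ∀ t, W.de (W.upTo (m + 1)) i y t = 0 := fun i hi t => by
        have e : (fun z => W.upTo (m + 1) i z t) =ᶠ[nhds y] fun _ => (0 : V4) := by
          filter_upwards [hU.mem_nhds hy] with z hz using ih i z hz t
        simp [de, hi.ne', D, e.fderiv_eq]
      have hy2 : ∀ i, 0 < i → ∀ t, W.dv (W.upTo (m + 1)) i y t = 0 := fun i hi t => by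
        have e : (fun z => W.upTo (m + 1) i z t) =ᶠ[nhds y] fun _ => (0 : V4) := by
          filter_upwards [hU.mem_nhds hy] with z hz using ih i z hz t
        simp [dv, hi.ne', D, e.fderiv_eq, hY (i + 1) y hy]
      have : W.coefVE (W.upTo (m + 1)) (m + 1) y r = 0 := sum_eq_zero fun i hi => by
        rcases Nat.eq_zero_or_pos i with rfl | h0
        · rw [hy1 _ (by omega), ip_zero_right]
        · rw [hy2 i h0, ip_zero_left]
      simp [res1, this, hE _ y hy]
    have u1z : ∀ y ∈ U, W.u1 (W.upTo (m + 1)) (m + 1) y = fun _ => 0 := fun y hy => by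
      funext r
      have : W.du1 (W.upTo (m + 1)) (m + 1) y = fun _ => 0 := funext fun t => by
        simp [du1, r1 y hy, mean]
      simp [u1, this, prim, mean]
    have r0 : W.res0 (W.upTo (m + 1)) (m + 1) x = fun _ => 0 := funext fun r => by
      have e : (fun y => W.u1 (W.upTo (m + 1)) (m + 1) y r) =ᶠ[nhds x] fun _ => (0 : ℝ) := by
        filter_upwards [hU.mem_nhds hx] with y hy using congrFun (u1z y hy) r
      simp [res0, coefEE, hc _ _ hde hde (m + 2) (by omega) r, D, e.fderiv_eq, hE _ x hx]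
    have u2z : W.u2 (W.upTo (m + 1)) (m + 1) x = fun _ => 0 := funext fun r => by
      simp [u2, r0, mean]
    have gz : W.gvv (W.upTo (m + 1)) (m + 1) x = fun _ => 0 := funext fun r => by
      simp [gvv, coefVV, hc _ _ hdv hdv (m + 1) (by omega) r, hE _ x hx, u2z, du1, r1 x hx, mean,
        lift, lift2]
    have qz : W.dq (W.upTo (m + 1)) (m + 1) x = fun _ => 0 := funext fun r => by
      simp [dq, wvv, cvv, mvv, gz, mean]
    simp [step, congrFun (u1z x hx), congrFun u2z, qz, prim, mean, lift, lift2]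

/-- Where every corrector vanishes nearby so do the coefficients of positive order. -/
theorem coef_off {W : Wave.Data E} {Y : ℕ → E → ℝ → V4} {U : Set E} (hU : IsOpen U)
    (hY : ∀ j, ∀ x ∈ U, ∀ s, Y j x s = 0) {n : ℕ} (hn : 1 ≤ n) {x : E} (hx : x ∈ U) (s : ℝ) :
    W.coefEE Y n x s = 0 ∧ W.coefVE Y n x s = 0 ∧ W.coefVV Y n x s = 0 := by
  have hD : ∀ (a : E) i, D a (fun y => Y i y s) x = 0 := fun a i => by
    have e : (fun y => Y i y s) =ᶠ[nhds x] fun _ => (0 : V4) := by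
      filter_upwards [hU.mem_nhds hx] with y hy using hY i y hy s
    simp [D, e.fderiv_eq]
  have hz : ∀ i, Y i x = fun _ => 0 := fun i => funext (hY i x hx)
  have hde : ∀ i, 0 < i → W.de Y i x s = 0 := fun i hi => by simp [de, hi.ne', hD]
  have hdv : ∀ i, 0 < i → W.dv Y i x s = 0 := fun i hi => by
    simp [dv, hi.ne', hD, hz (i + 1)]
  refine ⟨sum_eq_zero fun i hi => ?_, sum_eq_zero fun i hi => ?_, sum_eq_zero fun i hi => ?_⟩ <;>
    rcases Nat.eq_zero_or_pos i with rfl | h0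
  · rw [hde (n - 0) (by omega), ip_zero_right]
  · rw [hde i h0, ip_zero_left]
  · rw [hde (n - 0) (by omega), ip_zero_right]
  · rw [hdv i h0, ip_zero_left]
  · rw [hdv (n - 0) (by omega), ip_zero_right]
  · rw [hdv i h0, ip_zero_left]

end off

/-- The Gram determinant of three vectors is Lipschitz on bounded sets. -/
theorem gram3_close {p q w p' q' w' : V4} {R δ : ℝ} (h : ‖p‖ ≤ R ∧ ‖q‖ ≤ R ∧ ‖w‖ ≤ R)
    (h' : ‖p'‖ ≤ R ∧ ‖q'‖ ≤ R ∧ ‖w'‖ ≤ R)
    (hd : ‖p - p'‖ ≤ δ ∧ ‖q - q'‖ ≤ δ ∧ ‖w - w'‖ ≤ δ) :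
    |gram3 p q w - gram3 p' q' w'| ≤ 2304 * R ^ 5 * δ := by
  have hn : ∀ a b a' b' : V4, ‖a‖ ≤ R → ‖b‖ ≤ R → ‖a'‖ ≤ R → ‖b'‖ ≤ R → ‖a - a'‖ ≤ δ →
      ‖b - b'‖ ≤ δ → Near (4 * R ^ 2) (8 * R * δ) (ip a b) (ip a' b') := by
    intro a b a' b' ha hb ha' hb' hda hdb
    have k : ∀ (u : V4) (c : ℝ), ‖u‖ ≤ c → ∀ i, |u i| ≤ c := fun u c hu i =>
      (norm_le_pi_norm u i).trans hu
    have hR : 0 ≤ R := (norm_nonneg a).trans ha
    refine ⟨?_, ?_, ?_⟩
    · refine (abs_sum_le_sum_abs _ _).trans ((sum_le_card_nsmul _ _ (R * R) fun i _ => ?_).trans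
        (le_of_eq (by simp; ring)))
      rw [abs_mul]; exact mul_le_mul (k a R ha i) (k b R hb i) (abs_nonneg _) hR
    · refine (abs_sum_le_sum_abs _ _).trans ((sum_le_card_nsmul _ _ (R * R) fun i _ => ?_).trans
        (le_of_eq (by simp; ring)))
      rw [abs_mul]; exact mul_le_mul (k a' R ha' i) (k b' R hb' i) (abs_nonneg _) hR
    · rw [ip, ip, ← sum_sub_distrib]
      refine (abs_sum_le_sum_abs _ _).trans ((sum_le_card_nsmul _ _ (2 * (R * δ)) fun i _ => ?_).trans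
        (le_of_eq (by simp; ring)))
      rw [show a i * b i - a' i * b' i = a i * (b - b') i + (a - a') i * b' i by simp; ring]
      refine (abs_add_le _ _).trans ?_
      rw [abs_mul, abs_mul, two_mul, mul_comm (|(a - a') i|)]
      exact add_le_add (mul_le_mul (k a R ha i) (k _ δ hdb i) (abs_nonneg _) hR)
        (mul_le_mul (k b' R hb' i) (k _ δ hda i) (abs_nonneg _) hR)
  obtain ⟨p1, q1, w1⟩ := h
  obtain ⟨p2, q2, w2⟩ := h'
  obtain ⟨dp, dq, dw⟩ := hd
  have pp := hn p p p' p' p1 p1 p2 p2 dp dp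
  have qq := hn q q q' q' q1 q1 q2 q2 dq dq
  have ww := hn w w w' w' w1 w1 w2 w2 dw dw
  have pq := hn p q p' q' p1 q1 p2 q2 dp dq
  have pw := hn p w p' w' p1 w1 p2 w2 dp dw
  have qw := hn q w q' w' q1 w1 q2 w2 dq dw
  have t1 := abs_le.1 (triple_diff ww pp qq).1
  have t2 := abs_le.1 (triple_diff ww pq pq).1
  have t3 := abs_le.1 (triple_diff pw pw qq).1
  have t4 := abs_le.1 (triple_diff pq pw qw).1
  have t5 := abs_le.1 (triple_diff qw qw pp).1
  rw [abs_le]
  simp only [gram3, gram2]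
  constructor <;> linarith

/-- The second form before the stage is smooth. -/
theorem smooth_bend0 {I : Input} {U : Set R2} (hU : IsOpen U) (hZ : ContDiffOn ℝ ∞ I.Z U)
    (hA : ∀ z ∈ U, 0 < area I.Z z) : ContDiffOn ℝ ∞ (bend0 I) U := by
  have h1 := contDiffOn_D hU hZ (pt 1 0)
  have h2 := contDiffOn_D hU hZ (pt 0 1)
  have hne : ∀ z ∈ U, gram2 (D (pt 1 0) I.Z z) (D (pt 0 1) I.Z z) ≠ 0 := fun z hz => (hA z hz).ne'
  have hg : ContDiffOn ℝ ∞ (fun z => gram2 (D (pt 1 0) I.Z z) (D (pt 0 1) I.Z z)) U :=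
    ((contDiffOn_ip h1 h1).mul (contDiffOn_ip h2 h2)).sub ((contDiffOn_ip h1 h2).pow 2)
  have k : ∀ a b, ContDiffOn ℝ ∞ (fun z => sff I.Z z a b) U := fun a b => by
    have h3 := contDiffOn_D hU (contDiffOn_D hU hZ b) a
    simp only [sff, perp2, lift2]
    exact h3.sub (((((contDiffOn_ip h1 h3).mul (contDiffOn_ip h2 h2)).sub
      ((contDiffOn_ip h2 h3).mul (contDiffOn_ip h1 h2))).div hg hne).smul h1 |>.add
        (((((contDiffOn_ip h2 h3).mul (contDiffOn_ip h1 h1)).sub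
          ((contDiffOn_ip h1 h3).mul (contDiffOn_ip h1 h2))).div hg hne).smul h2))
  refine contDiffOn_pi.2 fun i => ?_
  fin_cases i
  · exact k _ _
  · exact k _ _
  · exact k _ _

section frame

variable {G : Type} [NormedAddCommGroup G] [NormedSpace ℝ G]

/-- The chart vectors are linear in the vector. -/
theorem vec_comb (p : Par) (I : Input) (j : ℕ) (a : R2) :
    vec p I G j a = a 0 • vec p I G j (pt 1 0) + a 1 • vec p I G j (pt 0 1) := by
  refine Prod.ext (Prod.ext ?_ ?_) ?_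
  · simpa [vec] using coord_pt a
  · funext i
    simp [vec, phase, pt]
    split_ifs <;> ring
  · simp [vec]

variable (N : ℕ) (I : Input) (x : Ph × G → Unk) [FiniteDimensional ℝ G] (j : ℕ)

omit [FiniteDimensional ℝ G] in
/-- The derivatives at the phases are linear in the vector. -/
theorem d1At_comb (a : R2) : d1At N I x j a =
    fun q => a 0 • d1At N I x j (pt 1 0) q + a 1 • d1At N I x j (pt 0 1) q := by
  funext q
  simp only [d1At]
  conv_lhs => rw [vec_comb]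
  rw [D_comb]

omit [FiniteDimensional ℝ G] in
/-- The second derivatives at the phases are bilinear in the vectors. -/
theorem d2At_comb {S : Set (Ph × G)} (hS : IsOpen S) (hX : ContDiffOn ℝ ∞ (mapAt N I x j) S)
    (a b : R2) {q : Ph × G} (hq : q ∈ S) : d2At N I x j a b q =
      (a 0 * b 0) • d2At N I x j (pt 1 0) (pt 1 0) q +
        (a 0 * b 1) • d2At N I x j (pt 1 0) (pt 0 1) q +
        (a 1 * b 0) • d2At N I x j (pt 0 1) (pt 1 0) q +
        (a 1 * b 1) • d2At N I x j (pt 0 1) (pt 0 1) q := by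
  have h : ContDiffAt ℝ 2 (mapAt N I x j) q :=
    (hX.contDiffAt (hS.mem_nhds hq)).of_le (by exact WithTop.coe_le_coe.2 le_top)
  show D (vec (par N) I G j a) (D (vec (par N) I G j b) (mapAt N I x j)) q = _
  rw [vec_comb (par N) I j b, D2_comb h, vec_comb (par N) I j a, D_comb, D_comb]
  simp only [smul_add, smul_smul, d2At, d1At, mul_comm (b 0), mul_comm (b 1)]
  abel

/-- The normal part of the second derivative along the kernel of a level. -/
def kerBend (q : Ph × G) : V4 :=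
  perp2 (d1At N I x j (pt 1 0) q) (d1At N I x j (pt 0 1) q) (d2At N I x j (levE j) (levE j) q)

variable {N I x j}

omit [FiniteDimensional ℝ G] in
/-- The frame of a level spans the plane. -/
theorem gram_frame (q : Ph × G) :
    gram2 (d1At N I x j (levE j) q) (d1At N I x j (levV j) q) =
      (levE j 0 * levV j 1 - levE j 1 * levV j 0) ^ 2 * areaAt N I x j q := by
  rw [d1At_comb N I x j (levE j), d1At_comb N I x j (levV j)]
  exact gram2_comb _ _ _ _ _ _

omit [FiniteDimensional ℝ G] in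
/-- The bend of the kernel in the frame of the level. -/
theorem kerBend_eq {q : Ph × G} (hA : areaAt N I x j q ≠ 0) :
    perp2 (d1At N I x j (levE j) q) (d1At N I x j (levV j) q)
      (d2At N I x j (levE j) (levE j) q) = kerBend N I x j q := by
  rw [d1At_comb N I x j (levE j), d1At_comb N I x j (levV j)]
  exact perp2_basis hA (lev_det j) _

/-- Where the kernel bends the recursion of a legal wave works. -/
theorem kernel_pos {q : Ph × G} (hA : 0 < areaAt N I x j q)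
    (hb : 0 < ip (kerBend N I x j q) (kerBend N I x j q)) (α : Ph × G → ℝ) (Ω : Set (Ph × G)) :
    let W := levData (par N) I x Ω j (mapAt N I x j) α
    0 < gram2 (W.Ze q) (W.Zee q) ∧ 0 < ip (W.Zv q - W.bb q) (W.Zv q - W.bb q) := by
  intro W
  have hg : 0 < gram2 (W.Ze q) (W.Zv q) := by
    show 0 < gram2 (d1At N I x j (levE j) q) (d1At N I x j (levV j) q)
    rw [gram_frame]
    exact mul_pos (pow_two_pos_of_ne_zero (lev_det j)) hA
  have hn : nn W.e W.v W.Z W.e W.e q = kerBend N I x j q := kerBend_eq (N := N) hA.ne'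
  have hz : 0 < ip (W.Ze q) (W.Ze q) := by
    refine lt_of_le_of_ne (ip_self_nonneg _) fun h0 => ?_
    rw [gram2, ← h0] at hg
    nlinarith [sq_nonneg (ip (W.Ze q) (W.Zv q))]
  have h1 : 0 < gram2 (W.Ze q) (W.Zee q) :=
    lt_of_lt_of_le (by rw [hn]; exact mul_pos hz hb) (gram_ge W hg)
  refine ⟨h1, ?_⟩
  have e := aa_sq_mul W hg.ne' h1.ne'
  rw [hn, Wave.Data.aa, Real.sq_sqrt (ip_self_nonneg _)] at e
  exact pos_of_mul_pos_left (e ▸ mul_pos hb hg) h1.le

end frame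

variable {C : ℕ → ℝ} {C2 : ℕ → ℕ → ℝ} {G : Type} [NormedAddCommGroup G] [NormedSpace ℝ G]
  [FiniteDimensional ℝ G] {N N' b s j : ℕ} {V : Set G} {hV : IsOpen V} {T : ℝ}
  {x : Fam C C2 → Ph × G → Unk}

omit [FiniteDimensional ℝ G] in
theorem mem_scQ {t : Fam C C2} {q : Ph × G} :
    q ∈ (scQ C C2 N' b T V hV).S t ↔ T ≤ Kf t ∧ q.1.1 ∈ dom N' t ∧ q.2 ∈ V := by
  simp [scQ, withParam, above, scPh, and_assoc]

omit [FiniteDimensional ℝ G] in
theorem trunc_mem {t : Fam C C2} {q : Ph × G} (i : ℕ) (hq : q ∈ (scQ C C2 N' b T V hV).S t) :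
    trunc i q ∈ (scQ C C2 N' b T V hV).S t :=
  (mem_scQ (N' := N') (b := b) (hV := hV)).2 ((mem_scQ (q := q)).1 hq :)

omit [FiniteDimensional ℝ G] in
theorem put_mem {t : Fam C C2} {q : Ph × G} (i : ℕ) (r : ℝ)
    (hq : q ∈ (scQ C C2 N' b T V hV).S t) : put i r q ∈ (scQ C C2 N' b T V hV).S t :=
  (mem_scQ (N' := N') (b := b) (hV := hV)).2 ((mem_scQ (q := q)).1 hq :)

omit [FiniteDimensional ℝ G] in
theorem contDiff_trunc (i : ℕ) : ContDiff ℝ ∞ (trunc (G := G) i) := by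
  refine ((contDiff_fst.comp contDiff_fst).prodMk (contDiff_pi.2 fun l => ?_)).prodMk contDiff_snd
  by_cases h : (l : ℕ) < i
  · simp only [h, if_true]
    exact (contDiff_apply ℝ ℝ l).comp (contDiff_snd.comp contDiff_fst)
  · simp only [h, if_false]
    exact contDiff_const

omit [FiniteDimensional ℝ G] in
theorem contDiff_put (i : ℕ) : ContDiff ℝ ∞ fun p : (Ph × G) × ℝ => put i p.2 p.1 := by
  refine ((contDiff_fst.comp (contDiff_fst.comp contDiff_fst)).prodMk
    (contDiff_pi.2 fun l => ?_)).prodMk (contDiff_snd.comp contDiff_fst)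
  by_cases h : (l : ℕ) = i
  · simp only [h, if_true]
    exact contDiff_snd
  · simp only [h, if_false]
    exact (contDiff_apply ℝ ℝ l).comp (contDiff_snd.comp (contDiff_fst.comp contDiff_fst))

/-- What the free levels leave is below the share of the legal one from a threshold on. -/
theorem rest_lt (hb1 : 1 ≤ b) (hx : Small N' b s T V hV x) (hM : MapOK N N' b T V hV x j) :
    ∃ T', T ≤ T' ∧ ∀ t, ∀ q ∈ (scQ C C2 N' b T' V hV).S t,
      restAt N t.1 (x t) j q <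
        t.1.χ q.1.1 ^ 2 * (gam (par N) t.1 (x t) 0 q * ((1 + big (par N) t.1 q.1.1 ^ 2) / 2)) := by
  obtain ⟨T₁, hT₁, -, hg⟩ := gam_cost N hb1 hx
  obtain ⟨c, hc0, hc⟩ := hM.rest.bound 0
  refine ⟨max T₁ (max 1 (128 * c)), hT₁.trans (le_max_left _ _), fun t q hq => ?_⟩
  obtain ⟨hT, hz, hgV⟩ := mem_scQ.1 hq
  have h := hc t q (mem_scQ.2 ⟨(hT₁.trans (le_max_left _ _)).trans hT, hz, hgV⟩)
  rw [norm_iteratedFDeriv_zero, pow_zero, mul_one] at h
  have hχ : 0 < t.1.χ q.1.1 ^ 2 := pow_pos (chi_pos hz) 2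
  have hK : max 1 (128 * c) ≤ Kf t := (le_max_right _ _).trans hT
  have hb : 128 * c ≤ Kf t ^ bExp :=
    ((le_max_right _ _).trans hK).trans (le_self_pow₀ (one_le_Kf t) (by simp [bExp]))
  have h1 : c * (Kf t ^ bExp)⁻¹ ≤ 1 / 128 := by
    rw [← div_eq_mul_inv, div_le_iff₀ (pow_pos (Kf_pos t) _)]
    linarith
  obtain ⟨g1, -⟩ := hg t q (mem_scQ.2 ⟨(le_max_left _ _).trans hT, hz, hgV⟩) 0
  have hbig : 1 / 64 ≤ gam (par N) t.1 (x t) 0 q * ((1 + big (par N) t.1 q.1.1 ^ 2) / 2) := by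
    nlinarith [sq_nonneg (big (par N) t.1 q.1.1)]
  calc restAt N t.1 (x t) j q ≤ c * (t.1.χ q.1.1 ^ 2 * (Kf t ^ bExp)⁻¹) :=
        (le_abs_self _).trans h
    _ ≤ t.1.χ q.1.1 ^ 2 * (1 / 128) := by nlinarith
    _ < _ := mul_lt_mul_of_pos_left (by linarith) hχ

/-- The components are smooth in the tensor. -/
theorem contDiff_toComp (j : ℕ) : ContDiff ℝ ∞ (toComp j) := by
  refine contDiff_pi.2 fun i => ?_
  fin_cases i <;> simp [toComp, qf] <;> fun_prop

/-- The share of the big and of the small waves and the magnitudes are smooth. -/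
theorem smooth_levA (N : ℕ) (t : Fam C C2) (j : ℕ) :
    ContDiff ℝ ∞ (small (par N) t.1) ∧ ContDiff ℝ ∞ (big (par N) t.1) ∧
      ContDiff ℝ ∞ (levA (par N) t.1 j) := by
  have hχ := t.2.1.smoothChi
  have hT : 0 < (par N).T t.1 := inv_pos.2 (pow_pos (Kf_pos t) _)
  have hd : ∀ z, 0 < t.1.χ z ^ 2 + (par N).T t.1 ^ 2 := fun z => by positivity
  have hs : ContDiff ℝ ∞ fun z => sqrt (t.1.χ z ^ 2 + (par N).T t.1 ^ 2) :=
    ((hχ.pow 2).add contDiff_const).sqrt fun z => (hd z).ne'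
  have h1 : ContDiff ℝ ∞ (small (par N) t.1) :=
    contDiff_const.div hs fun z => (Real.sqrt_pos.2 (hd z)).ne'
  have h2 : ContDiff ℝ ∞ (big (par N) t.1) := hχ.div hs fun z => (Real.sqrt_pos.2 (hd z)).ne'
  refine ⟨h1, h2, ?_⟩
  unfold levA
  split_ifs
  · exact h1.mul hχ
  · exact h2.mul hχ
  · exact hχ

omit [FiniteDimensional ℝ G] in
/-- The amplitudes are smooth where the coefficients are in their range. -/
theorem smooth_amp (t : Fam C C2) (j : ℕ) {α : Ph × G → ℝ} {U : Set (Ph × G)}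
    (hU : ∀ q ∈ U, q.1.1 ∈ dom N' t)
    (hxs : ∀ i, ContDiffOn ℝ ∞ (fun q => gam (par N) t.1 (x t) i q) U)
    (hγ : ∀ q ∈ U, ∀ i, gam (par N) t.1 (x t) i q ∈ Icc (1 / 32 : ℝ) 17)
    (hα : 11 ≤ j → ContDiffOn ℝ ∞ α U ∧ ∀ q ∈ U,
      α q < t.1.χ q.1.1 ^ 2 * (gam (par N) t.1 (x t) 0 q * ((1 + big (par N) t.1 q.1.1 ^ 2) / 2))) :
    ContDiffOn ℝ ∞ (amp (par N) t.1 (x t) j α) U := by
  obtain ⟨h1, h2, -⟩ := smooth_levA N t j
  have hz : ContDiffOn ℝ ∞ (fun q : Ph × G => q.1.1) U :=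
    (contDiff_fst.comp contDiff_fst).contDiffOn
  have pull : ∀ {f : R2 → ℝ}, ContDiff ℝ ∞ f → ContDiffOn ℝ ∞ (fun q : Ph × G => f q.1.1) U :=
    fun hf => hf.comp_contDiffOn hz
  unfold amp
  split_ifs with h9 e9 e10
  · have hb0 : ContDiffOn ℝ ∞ (fun q : Ph × G =>
        tinyWeight (tripleOf j) (bend0 t.1 q.1.1)) U := by
      refine (tinyWeight_spec.1 _).comp ((smooth_bend0 t.2.1.open_ t.2.1.smoothZ t.2.1.imm).comp
        hz fun q hq => t.2.1.sub (dom_subset N' t (hU q hq))) fun q hq => ?_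
      exact bend0_ne _ (t.2.1.bend _ (t.2.1.sub (dom_subset N' t (hU q hq))))
    refine ((hb0.mul (pull h1)).mul (pull t.2.1.smoothChi)).mul (ContDiffOn.sqrt ?_ fun q hq => ?_)
    · refine (Tiny.contDiff_coefT _ _).comp_contDiffOn ?_
      refine contDiffOn_pi.2 fun l => ?_
      have := hxs 0; have := hxs 1; have := hxs 2
      fin_cases l <;> simp [Tiny.nominal, sqForm] <;> fun_prop
    · refine (lt_of_lt_of_le (by norm_num) (Tiny.coefT_nominal _ _ fun l => ?_)).ne'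
      obtain ⟨a0, b0⟩ := hγ q hq 0
      obtain ⟨a1, b1⟩ := hγ q hq 1
      obtain ⟨a2, b2⟩ := hγ q hq 2
      fin_cases l <;> constructor <;> simp <;> linarith
  · exact ((pull h2).mul (pull t.2.1.smoothChi)).mul ((hxs 1).sqrt fun q hq => by
      linarith [(hγ q hq 1).1])
  · exact ((pull h2).mul (pull t.2.1.smoothChi)).mul ((hxs 2).sqrt fun q hq => by
      linarith [(hγ q hq 2).1])
  · obtain ⟨ha, hlt⟩ := hα (by omega)
    exact ((((pull t.2.1.smoothChi).pow 2).mul ((hxs 0).mul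
      ((contDiffOn_const.add ((pull h2).pow 2)).div_const 2))).sub ha).sqrt fun q hq => by
      linarith [hlt q hq]

theorem smooth_gam (hx : Small N' b s T V hV x) (t : Fam C C2) (i : Fin 3) :
    ContDiffOn ℝ ∞ (gam (par N) t.1 (x t) i) ((scQ C C2 N' b T V hV).S t) := by
  have h1 := (hx.cost.smooth t).comp (contDiff_trunc 0).contDiffOn fun q hq => trunc_mem 0 hq
  have h2 := (contDiff_apply ℝ ℝ i).comp_contDiffOn (contDiff_snd.comp_contDiffOn h1)
  exact ((t.2.1.smoothBeta i).comp (contDiff_fst.comp contDiff_fst).contDiffOn fun q hq =>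
    t.2.1.sub (dom_subset N' t (mem_scQ.1 hq).2.1)).add (contDiffOn_const.mul h2)

/-- Shifts by periods, and shifts of the slot of a tiny level where it is switched off, change
nothing. -/
theorem periods (hx : Small N' b s T V hV x) {t : Fam C C2} {q : Ph × G}
    (hq : q ∈ (scQ C C2 N' b T V hV).S t) {u : Fin 12 → ℝ}
    (hu : ∀ i : Fin 12, (∃ m : ℤ, u i = m * (2 * π)) ∨ ((i : ℕ) < 9 ∧ q.1.1 ∈ offZone i t)) :
    x t ((q.1.1, q.1.2 + u), q.2) = x t q := by
  obtain ⟨hT, hz, hg⟩ := mem_scQ.1 hq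
  suffices h : ∀ (S : Finset (Fin 12)) (σ : Fin 12 → ℝ),
      x t ((q.1.1, σ + fun i => if i ∈ S then u i else 0), q.2) = x t ((q.1.1, σ), q.2) by
    simpa using h Finset.univ q.1.2
  intro S
  induction S using Finset.induction with
  | empty =>
    intro σ
    rw [show (σ + fun i : Fin 12 => if i ∈ (∅ : Finset (Fin 12)) then u i else 0) = σ from
      funext fun i => by simp]
  | insert a S ha ih =>
    intro σ
    set σ' := σ + fun i => if i ∈ S then u i else 0 with hσ'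
    have e : (σ + fun i => if i ∈ insert a S then u i else 0) =
        Function.update σ' a (σ a + u a) := by
      funext i
      rcases eq_or_ne i a with rfl | hne
      · simp
      · simp [hne, hσ']
    have e' : Function.update σ' a (σ a) = σ' :=
      Function.update_eq_self_iff.2 (by simp [hσ', ha])
    rw [← ih σ, e]
    have key : x t ((q.1.1, Function.update σ' a (σ a + u a)), q.2) =
        x t ((q.1.1, Function.update σ' a (σ a)), q.2) := by
      rcases hu a with ⟨m, hm⟩ | ⟨h9, hoff⟩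
      · have hp : Function.Periodic (fun r => x t ((q.1.1, Function.update σ' a r), q.2))
            (2 * π) := fun r => by
          have := (hx.adm t hT ((q.1.1, Function.update σ' a r), q.2) hz hg).1 a
          simpa using this
        rw [hm]
        exact (hp.int_mul m) (σ a)
      · have h4 := (hx.adm t hT ((q.1.1, σ'), q.2) hz hg).2.2.2 a h9 hoff
        exact (h4 _).trans (h4 _).symm
    rw [key, e']

/-- The prescribed terms are smooth and periodic, and vanish where the families have to. -/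
theorem err_good (hx : Small N' b s T V hV x) (t : Fam C C2) (j : ℕ) :
    (∀ n i, Smooth2 ((scQ C C2 N' b T V hV).S t)
      fun q r => errOf (par N) t.1 (x t) j n q r i) ∧
    (∀ n, ∀ q ∈ (scQ C C2 N' b T V hV).S t, ∀ i,
      Function.Periodic (fun r => errOf (par N) t.1 (x t) j n q r i) (2 * π)) ∧
    (j < 9 → ∀ n, ∀ q ∈ (scQ C C2 N' b T V hV).S t, q.1.1 ∈ offZone j t →
      errOf (par N) t.1 (x t) j n q = 0) := by
  refine ⟨fun n i => ?_, fun n q hq i r => ?_, fun hj n q hq hoff => ?_⟩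
  · suffices h : ContDiffOn ℝ ∞ (fun p : (Ph × G) × ℝ => errOf (par N) t.1 (x t) j n p.1 p.2)
        ((scQ C C2 N' b T V hV).S t ×ˢ univ) from contDiffOn_pi.1 h i
    unfold errOf
    by_cases h : j < 11
    · simp only [h, dite_true]
      have hm : ContDiff ℝ ∞ fun p : (Ph × G) × ℝ => put j p.2 (trunc j p.1) :=
        (contDiff_put j).comp (((contDiff_trunc j).comp contDiff_fst).prodMk contDiff_snd)
      have h1 : ContDiffOn ℝ ∞ (fun p : (Ph × G) × ℝ =>
          toComp j ((x t (put j p.2 (trunc j p.1))).1 ⟨j, by omega⟩))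
          ((scQ C C2 N' b T V hV).S t ×ˢ univ) :=
        (contDiff_toComp j).comp_contDiffOn ((contDiff_apply ℝ Sym2 (⟨j, by omega⟩ : Fin 12)).comp_contDiffOn
          (contDiff_fst.comp_contDiffOn ((hx.cost.smooth t).comp hm.contDiffOn fun p hp =>
            put_mem j _ (trunc_mem j hp.1))))
      have h2 : ContDiffOn ℝ ∞ (fun p : (Ph × G) × ℝ =>
          levA (par N) t.1 j p.1.1.1) ((scQ C C2 N' b T V hV).S t ×ˢ univ) :=
        ((smooth_levA N t j).2.2.comp (contDiff_fst.comp (contDiff_fst.comp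
          contDiff_fst))).contDiffOn
      cases isFree j <;> simp only [Bool.false_eq_true, if_false, if_true] <;> split_ifs <;>
        first
          | exact contDiffOn_const
          | exact (contDiffOn_const.mul (h2.div_const _)).smul h1
    · simp only [h, dite_false]
      exact contDiffOn_const
  · simp only
    by_cases h : j < 11
    · obtain ⟨hT, hz, hg⟩ := mem_scQ.1 hq
      have e := (hx.adm t hT (put j r (trunc j q)) hz hg).1 ⟨j, by omega⟩
      have e2 : ((q.1.1, Function.update (put j r (trunc j q)).1.2 (⟨j, by omega⟩ : Fin 12)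
          ((put j r (trunc j q)).1.2 ⟨j, by omega⟩ + 2 * π)), q.2) =
          put j (r + 2 * π) (trunc j q) := by
        refine Prod.ext (Prod.ext rfl (funext fun l => ?_)) rfl
        rcases eq_or_ne l (⟨j, by omega⟩ : Fin 12) with rfl | hne
        · simp [put]
        · have : (l : ℕ) ≠ j := fun e => hne (Fin.ext e)
          simp [put, hne, this]
      simp only [errOf, h, dite_true]
      rw [← e2]
      simp only [show (put j r (trunc j q)).1.1 = q.1.1 from rfl,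
        show (put j r (trunc j q)).2 = q.2 from rfl] at e
      rw [e]
    · simp [errOf, h]
  · funext r
    obtain ⟨hT, hz, hg⟩ := mem_scQ.1 hq
    have e := (hx.adm t hT (put j r (trunc j q)) hz hg).2.2.1 ⟨j, by omega⟩ hj hoff
    have e2 : put j ((put j r (trunc j q)).1.2 ⟨j, by omega⟩) (trunc j (put j r (trunc j q))) =
        put j r (trunc j q) := by
      refine Prod.ext (Prod.ext rfl (funext fun l => ?_)) rfl
      simp only [put, trunc]
      split_ifs <;> rfl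
    rw [e2] at e
    funext i
    simp only [errOf, show j < 11 by omega, dite_true, e]
    fin_cases i <;> (split_ifs <;> simp [toComp, qf])

/-- The recursion of a tiny or legal level works on an open set where its kernel bends. -/
theorem legal_good (hx : Small N' b s T V hV x) (t : Fam C C2) (hj : isFree j = false)
    {U : Set (Ph × G)} (hU : IsOpen U) (hUS : U ⊆ (scQ C C2 N' b T V hV).S t)
    (hX : ContDiffOn ℝ ∞ (mapAt N t.1 (x t) j) U) (hα : ContDiffOn ℝ ∞ (restAt N t.1 (x t) j) U)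
    (hγ : ∀ q ∈ U, ∀ i, gam (par N) t.1 (x t) i q ∈ Icc (1 / 32 : ℝ) 17)
    (hlt : 11 ≤ j → ∀ q ∈ U, restAt N t.1 (x t) j q <
      t.1.χ q.1.1 ^ 2 * (gam (par N) t.1 (x t) 0 q * ((1 + big (par N) t.1 q.1.1 ^ 2) / 2)))
    (hA : ∀ q ∈ U, 0 < areaAt N t.1 (x t) j q)
    (hb : ∀ q ∈ U, 0 < ip (kerBend N t.1 (x t) j q) (kerBend N t.1 (x t) j q)) :
    (levData (par N) t.1 (x t) U j (mapAt N t.1 (x t) j) (restAt N t.1 (x t) j)).Good where
  open_ := hU
  smoothZ := hX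
  smoothRho := smooth_amp (x := x) (N' := N') t j (fun q hq => (mem_scQ.1 (hUS hq)).2.1)
    (fun i => (smooth_gam hx t i).mono hUS) hγ fun h => ⟨hα, hlt h⟩
  smoothErr n i := ((err_good hx t j).1 n i).mono (prod_mono hUS subset_rfl)
  perErr n q hq i := (err_good hx t j).2.1 n q (hUS hq) i
  err1 q _ r := by
    show errOf (par N) t.1 (x t) j 1 q r 0 = 0
    simp [errOf, hj]
  gram_pos q hq := (kernel_pos (hA q hq) (hb q hq) _ U).1
  aa_pos q hq := (kernel_pos (hA q hq) (hb q hq) _ U).2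

omit [FiniteDimensional ℝ G] in
theorem isFree_iff : isFree j = true ↔ j = 9 ∨ j = 10 := by simp [isFree]

omit [FiniteDimensional ℝ G] in
/-- The unit normal of the bend. -/
theorem bendDir_unit {I : Input} {z : Ph × G → Unk} {q : Ph × G} (hA : 0 < areaAt N I z j q)
    (hb : 0 < bendAt N I z j q) :
    let n := bendDir (par N) I j (mapAt N I z j) q
    ip n n = 1 ∧ ip n (d1At N I z j (levE j) q) = 0 ∧ ip n (d1At N I z j (levV j) q) = 0 := by
  intro n
  have en : n = (sqrt (bendAt N I z j q))⁻¹ • bendVec N I z j q := rfl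
  have hs := Real.sq_sqrt hb.le
  have hb' : ip (bendVec N I z j q) (bendVec N I z j q) = bendAt N I z j q := rfl
  obtain ⟨o1, o2⟩ := perp2_orth (p := d1At N I z j (pt 1 0) q) (q := d1At N I z j (pt 0 1) q)
    hA.ne' (d2At N I z j (pt 0 1) (pt 0 1) q)
  have o1' : ip (bendVec N I z j q) (d1At N I z j (pt 1 0) q) = 0 := (ip_comm _ _).trans o1
  have o2' : ip (bendVec N I z j q) (d1At N I z j (pt 0 1) q) = 0 := (ip_comm _ _).trans o2
  refine ⟨?_, ?_, ?_⟩
  · rw [en, ip_smul_left, ip_smul_right, hb']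
    have := Real.sqrt_pos.2 hb
    field_simp
    linarith
  all_goals rw [en, d1At_comb, ip_smul_left, ip_add_right, ip_smul_right, ip_smul_right, o1', o2']
  all_goals simp

/-- The hypotheses of a free level hold where the map is immersed and bends. -/
theorem free_good (hx : Small N' b s T V hV x) (t : Fam C C2) (hj : isFree j = true)
    {U : Set (Ph × G)} (hU : IsOpen U) (hUS : U ⊆ (scQ C C2 N' b T V hV).S t)
    (hX : ContDiffOn ℝ ∞ (mapAt N t.1 (x t) j) U) (α : Ph × G → ℝ)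
    (hγ : ∀ q ∈ U, ∀ i, gam (par N) t.1 (x t) i q ∈ Icc (1 / 32 : ℝ) 17)
    (hA : ∀ q ∈ U, 0 < areaAt N t.1 (x t) j q) (hb : ∀ q ∈ U, 0 < bendAt N t.1 (x t) j q) :
    (Free.Prof.ofNormal (levData (par N) t.1 (x t) U j (mapAt N t.1 (x t) j) α)
        (bendDir (par N) t.1 j (mapAt N t.1 (x t) j)) (1 / 2)).OK ∧
      (freeData (par N) t.1 (x t) U j (mapAt N t.1 (x t) j) α).Good := by
  suffices h : (Free.Prof.ofNormal (levData (par N) t.1 (x t) U j (mapAt N t.1 (x t) j) α)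
      (bendDir (par N) t.1 j (mapAt N t.1 (x t) j)) (1 / 2)).OK from ⟨h, Free.Prof.good h⟩
  have hj11 : j < 11 := by rcases isFree_iff.1 hj with h | h <;> omega
  have h1 := fun a => contDiffOn_D hU hX (vec (par N) t.1 G j a)
  have h2 := contDiffOn_D hU (h1 (pt 0 1)) (vec (par N) t.1 G j (pt 0 1))
  have hne : ∀ q ∈ U, gram2 (d1At N t.1 (x t) j (pt 1 0) q) (d1At N t.1 (x t) j (pt 0 1) q) ≠ 0 :=
    fun q hq => (hA q hq).ne'
  have hg : ContDiffOn ℝ ∞ (fun q => gram2 (d1At N t.1 (x t) j (pt 1 0) q)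
      (d1At N t.1 (x t) j (pt 0 1) q)) U :=
    ((contDiffOn_ip (h1 _) (h1 _)).mul (contDiffOn_ip (h1 _) (h1 _))).sub
      ((contDiffOn_ip (h1 _) (h1 _)).pow 2)
  have hv : ContDiffOn ℝ ∞ (bendVec N t.1 (x t) j) U := by
    have p1 := h1 (pt 1 0)
    have p2 := h1 (pt 0 1)
    unfold bendVec perp2 lift2
    exact h2.sub (((((contDiffOn_ip p1 h2).mul (contDiffOn_ip p2 p2)).sub
      ((contDiffOn_ip p2 h2).mul (contDiffOn_ip p1 p2))).div hg hne).smul p1 |>.add
        (((((contDiffOn_ip p2 h2).mul (contDiffOn_ip p1 p1)).sub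
          ((contDiffOn_ip p1 h2).mul (contDiffOn_ip p1 p2))).div hg hne).smul p2))
  have hbv := contDiffOn_ip hv hv
  refine Free.Prof.ok_ofNormal (1 / 2) hU hX ?_ ?_ ?_ ?_ ?_ fun q hq => bendDir_unit (hA q hq) (hb q hq)
  · exact smooth_amp (x := x) (N' := N') t j (fun q hq => (mem_scQ.1 (hUS hq)).2.1)
      (fun i => (smooth_gam hx t i).mono hUS) hγ fun h => absurd h (by omega)
  · exact fun k i => ((err_good hx t j).1 k i).mono (prod_mono hUS subset_rfl)
  · exact fun k q hq i => (err_good hx t j).2.1 k q (hUS hq) i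
  · show ContDiffOn ℝ ∞ (fun q => (sqrt (bendAt N t.1 (x t) j q))⁻¹ • bendVec N t.1 (x t) j q) U
    exact ((hbv.sqrt fun q hq => (hb q hq).ne').inv fun q hq =>
      (Real.sqrt_pos.2 (hb q hq)).ne').smul hv
  · intro q hq
    show 0 < gram2 (d1At N t.1 (x t) j (levE j) q) (d1At N t.1 (x t) j (levV j) q)
    rw [gram_frame]
    exact mul_pos (pow_two_pos_of_ne_zero (lev_det j)) (hA q hq)

/-- Outside the zone where the weight vanishes the kernel of a tiny level bends in `Z`. -/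
theorem bend0_lower (t : Fam C C2) (hj : j < 9) {z : R2} (hz : z ∈ dom N' t)
    (hoff : z ∉ offZone j t) :
    Tiny.exists_weights.choose * Tiny.sizeQ (bend0 t.1 z) ≤
      ip (Tiny.evalQ (bend0 t.1 z) (levE j)) (Tiny.evalQ (bend0 t.1 z) (levE j)) := by
  have hΩ := t.2.1.sub (dom_subset N' t hz)
  have hb : ContinuousAt (bend0 t.1) z :=
    (smooth_bend0 t.2.1.open_ t.2.1.smoothZ t.2.1.imm).continuousOn.continuousAt
      (t.2.1.open_.mem_nhds hΩ)
  have he : levE j = Tiny.ker (tripleOf j) (memberOf j) := if_pos hj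
  by_contra hlt
  refine hoff ?_
  rw [offZone, mem_interior_iff_mem_nhds]
  have hc : Continuous fun Q : Fin 3 → V4 => Tiny.exists_weights.choose * Tiny.sizeQ Q -
      ip (Tiny.evalQ Q (levE j)) (Tiny.evalQ Q (levE j)) := by
    unfold Tiny.sizeQ Tiny.evalQ ip; fun_prop
  filter_upwards [(hc.continuousAt.comp hb).eventually (lt_mem_nhds (sub_pos.2 (not_le.1 hlt)))]
    with w hw
  by_contra h0
  have := tinyWeight_spec.2.2.2 (tripleOf j) (memberOf j) (bend0 t.1 w) h0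
  simp only [Function.comp_apply] at hw
  rw [he] at hw
  linarith

/-- A determinant bounded below by a power of the scale stays positive under changes by a high
negative power. -/
theorem gram3_pos_of_close {p q w p' q' w' : V4} {K R η c₀ D₀ : ℝ} {n : ℕ} (hn : 13 ≤ n)
    (hK1 : 1 ≤ K) (hc₀ : 0 < c₀) (hD : 0 < D₀)
    (hp : ‖p‖ ≤ R * K ^ 2 ∧ ‖q‖ ≤ R * K ^ 2 ∧ ‖w‖ ≤ R * K ^ 2)
    (hp' : ‖p'‖ ≤ R * K ^ 2 ∧ ‖q'‖ ≤ R * K ^ 2 ∧ ‖w'‖ ≤ R * K ^ 2)
    (hd : ‖p - p'‖ ≤ η * (K ^ n)⁻¹ ∧ ‖q - q'‖ ≤ η * (K ^ n)⁻¹ ∧ ‖w - w'‖ ≤ η * (K ^ n)⁻¹)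
    (hge : c₀ / (D₀ * K ^ 2) ≤ gram3 p' q' w')
    (hbig : 2304 * R ^ 5 * η * (D₀ / c₀) + 1 ≤ K) : 0 < gram3 p q w := by
  have hcl := (abs_le.1 (gram3_close hp hp' hd)).1
  have h : 2304 * (R * K ^ 2) ^ 5 * (η * (K ^ n)⁻¹) < c₀ / (D₀ * K ^ 2) := by
    rw [lt_div_iff₀ (by positivity),
      show 2304 * (R * K ^ 2) ^ 5 * (η * (K ^ n)⁻¹) * (D₀ * K ^ 2) =
        (2304 * R ^ 5 * η * (D₀ / c₀)) * (c₀ * K ^ 12) / K ^ n by field_simp,
      div_lt_iff₀ (by positivity)]
    calc (2304 * R ^ 5 * η * (D₀ / c₀)) * (c₀ * K ^ 12) < K * (c₀ * K ^ 12) :=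
          mul_lt_mul_of_pos_right (by linarith) (by positivity)
      _ = c₀ * K ^ 13 := by ring
      _ ≤ _ := mul_le_mul_of_nonneg_left (pow_le_pow_right₀ hK1 hn) hc₀.le
  linarith

omit [FiniteDimensional ℝ G] in
/-- The second derivative along the kernel is as close to the old one as those along the axes. -/
theorem d2_close {I : Input} {z : Ph × G → Unk} {S : Set (Ph × G)} (hS : IsOpen S)
    (hX : ContDiffOn ℝ ∞ (mapAt N I z j) S) {q : Ph × G} (hq : q ∈ S)
    (hZ : ContDiffAt ℝ 2 I.Z q.1.1) (e : R2) {c : R2 → R2 → ℝ} {δ : ℝ}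
    (h : ∀ a ∈ axes, ∀ a' ∈ axes,
      ‖d2At N I z j a a' q - D a (D a' I.Z) q.1.1‖ ≤ c a a' * δ) :
    ‖d2At N I z j e e q - D e (D e I.Z) q.1.1‖ ≤
      (|e 0 * e 0| * c (pt 1 0) (pt 1 0) + |e 0 * e 1| * c (pt 1 0) (pt 0 1) +
        |e 1 * e 0| * c (pt 0 1) (pt 1 0) + |e 1 * e 1| * c (pt 0 1) (pt 0 1)) * δ := by
  have ew : D e (D e I.Z) q.1.1 = (e 0 * e 0) • D (pt 1 0) (D (pt 1 0) I.Z) q.1.1 +
      (e 0 * e 1) • D (pt 1 0) (D (pt 0 1) I.Z) q.1.1 +
      (e 1 * e 0) • D (pt 0 1) (D (pt 1 0) I.Z) q.1.1 +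
      (e 1 * e 1) • D (pt 0 1) (D (pt 0 1) I.Z) q.1.1 := by
    conv_lhs => rw [coord_pt e]
    rw [D_comb, D2_comb hZ, D2_comb hZ]
    simp only [smul_add, smul_smul]
    module
  rw [d2At_comb N I z j hS hX e e hq, ew]
  refine le_trans (le_of_eq (congrArg norm (show _ =
    (e 0 * e 0) • (d2At N I z j (pt 1 0) (pt 1 0) q - D (pt 1 0) (D (pt 1 0) I.Z) q.1.1) +
    (e 0 * e 1) • (d2At N I z j (pt 1 0) (pt 0 1) q - D (pt 1 0) (D (pt 0 1) I.Z) q.1.1) +
    (e 1 * e 0) • (d2At N I z j (pt 0 1) (pt 1 0) q - D (pt 0 1) (D (pt 1 0) I.Z) q.1.1) +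
    (e 1 * e 1) • (d2At N I z j (pt 0 1) (pt 0 1) q - D (pt 0 1) (D (pt 0 1) I.Z) q.1.1)
    by module))) ?_
  refine (norm_add_le _ _).trans ?_
  refine (add_le_add norm_add₃_le le_rfl).trans ?_
  simp only [norm_smul, Real.norm_eq_abs, add_mul, mul_assoc (|_|)]
  gcongr
  exacts [h _ (Or.inl rfl) _ (Or.inl rfl), h _ (Or.inl rfl) _ (Or.inr rfl),
    h _ (Or.inr rfl) _ (Or.inl rfl), h _ (Or.inr rfl) _ (Or.inr rfl)]

/-- The determinant of the old map along the kernel of a tiny level from below. -/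
theorem old_bend_lower (t : Fam C C2) (hj : j < 9) {z : R2} (hz : z ∈ dom N' t)
    (hoff : z ∉ offZone j t) :
    0 < C 0 ^ 2 ∧ Tiny.exists_weights.choose / (C 0 ^ 2 * Kf t ^ 2) ≤
      gram3 (D (pt 1 0) t.1.Z z) (D (pt 0 1) t.1.Z z) (D (levE j) (D (levE j) t.1.Z) z) := by
  have hΩ : z ∈ t.1.Ω := t.2.1.sub (dom_subset N' t hz)
  have hZ2 : ContDiffAt ℝ 2 t.1.Z z :=
    (t.2.1.smoothZ.contDiffAt (t.2.1.open_.mem_nhds hΩ)).of_le
      (by exact WithTop.coe_le_coe.2 le_top)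
  have hA0 : 0 < area t.1.Z z := t.2.1.imm z hΩ
  obtain ⟨low1, low2⟩ := t.2.1.low z (dom_subset N' t hz)
  have hlo := bend0_lower t hj hz hoff
  rw [evalQ_bend0 _ hZ2] at hlo
  have hC : C 0 ≠ 0 := fun h => by rw [h] at low1; norm_num at low1
  have hC2 : 0 < C 0 ^ 2 := pow_two_pos_of_ne_zero hC
  have hc0 := tinyWeight_const_pos
  refine ⟨hC2, ?_⟩
  rw [← perp2_sq (p := D (pt 1 0) t.1.Z z) (q := D (pt 0 1) t.1.Z z) hA0.ne',
    div_le_iff₀ (mul_pos hC2 (pow_pos (Kf_pos t) 2))]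
  calc Tiny.exists_weights.choose = Tiny.exists_weights.choose * 1 * 1 := by rw [mul_one, mul_one]
    _ ≤ Tiny.exists_weights.choose * (C 0 * t.1.K * bendSq t.1.Z z) *
        (C 0 * t.1.K * area t.1.Z z) :=
      mul_le_mul (mul_le_mul_of_nonneg_left low2 hc0.le) low1 zero_le_one
        (mul_nonneg hc0.le (zero_le_one.trans low2))
    _ = (Tiny.exists_weights.choose * bendSq t.1.Z z) * area t.1.Z z *
        (C 0 ^ 2 * Kf t ^ 2) := by simp only [Kf]; ring
    _ ≤ _ := mul_le_mul_of_nonneg_right (mul_le_mul_of_nonneg_right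
      ((mul_le_mul_of_nonneg_left (bendSq_le_size _ _) hc0.le).trans hlo) hA0.le)
      (mul_nonneg hC2.le (pow_nonneg (Kf_pos t).le 2))

/-- **The kernel of a tiny level bends where it is used**, from a threshold on. -/
theorem tiny_bend (hM : MapOK N N' b T V hV x j) (hj : j < 9) :
    ∃ T', T ≤ T' ∧ ∀ t, ∀ q ∈ (scQ C C2 N' b T' V hV).S t, q.1.1 ∉ offZone j t →
      0 < ip (kerBend N t.1 (x t) j q) (kerBend N t.1 (x t) j q) := by
  -- bounds of order zero for the old map and the changes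
  have hBd : Cost (sc C C2 N' 1) (fun _ _ => 1) fun t => t.1.Z :=
    Cost.of_bd (σ := sc C C2 N' 1)
      (fun t => t.2.1.smoothZ.mono fun z hz => t.2.1.sub (dom_subset N' t hz))
      (S := fun t => t.1.S) (fun t => dom_subset N' t) (C := C)
      (fun t i z hz => by simpa [sc, Kf] using t.2.1.bdZ i z hz)
  set c0 := Tiny.exists_weights.choose
  have hc0 : 0 < c0 := tinyWeight_const_pos
  have P : ∀ a, ∃ c, 0 ≤ c ∧ ∀ t, ∀ z ∈ dom N' t, ‖D a t.1.Z z‖ ≤ c * Kf t := fun a => by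
    obtain ⟨c, h0, h⟩ := (hBd.deriv_dir a).bound 0
    exact ⟨c, h0, fun t z hz => by simpa [norm_iteratedFDeriv_zero, sc] using h t z hz⟩
  have Q : ∀ a a', ∃ c, 0 ≤ c ∧ ∀ t, ∀ z ∈ dom N' t, ‖D a (D a' t.1.Z) z‖ ≤ c * Kf t ^ 2 :=
    fun a a' => by
      obtain ⟨c, h0, h⟩ := ((hBd.deriv_dir a').deriv_dir a).bound 0
      exact ⟨c, h0, fun t z hz => by simpa [norm_iteratedFDeriv_zero, sc, pow_two] using h t z hz⟩
  have E1 : ∀ a ∈ axes, ∃ c, 0 ≤ c ∧ ∀ t, ∀ q ∈ (scQ C C2 N' b T V hV).S t,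
      ‖d1At N t.1 (x t) j a q - D a t.1.Z q.1.1‖ ≤ c * (Kf t ^ (4 * bExp))⁻¹ := fun a ha => by
    obtain ⟨c, h0, h⟩ := (hM.close₁ (by omega) a ha).bound 0
    exact ⟨c, h0, fun t q hq => by simpa [norm_iteratedFDeriv_zero] using h t q hq⟩
  have E2 : ∀ a ∈ axes, ∀ a' ∈ axes, ∃ c, 0 ≤ c ∧ ∀ t, ∀ q ∈ (scQ C C2 N' b T V hV).S t,
      ‖d2At N t.1 (x t) j a a' q - D a (D a' t.1.Z) q.1.1‖ ≤ c * (Kf t ^ (4 * bExp))⁻¹ :=
    fun a ha a' ha' => by
      obtain ⟨c, h0, h⟩ := (hM.close₂ (by omega) a ha a' ha').bound 0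
      exact ⟨c, h0, fun t q hq => by simpa [norm_iteratedFDeriv_zero] using h t q hq⟩
  have E2' : ∀ a a', ∃ c, 0 ≤ c ∧ ∀ t, a ∈ axes → a' ∈ axes →
      ∀ q ∈ (scQ C C2 N' b T V hV).S t,
        ‖d2At N t.1 (x t) j a a' q - D a (D a' t.1.Z) q.1.1‖ ≤ c * (Kf t ^ (4 * bExp))⁻¹ :=
    fun a a' => by
      by_cases h : a ∈ axes ∧ a' ∈ axes
      · obtain ⟨c, h0, hc⟩ := E2 a h.1 a' h.2
        exact ⟨c, h0, fun t _ _ q hq => hc t q hq⟩
      · exact ⟨0, le_rfl, fun t ha ha' => absurd ⟨ha, ha'⟩ h⟩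
  have hx1 : pt 1 0 ∈ axes := Or.inl rfl
  have hy1 : pt 0 1 ∈ axes := Or.inr rfl
  obtain ⟨p1, p10, hp1⟩ := P (pt 1 0)
  obtain ⟨p2, p20, hp2⟩ := P (pt 0 1)
  obtain ⟨q0, q00, hq0⟩ := Q (levE j) (levE j)
  obtain ⟨r1, r10, hr1⟩ := E1 _ hx1
  obtain ⟨r2, r20, hr2⟩ := E1 _ hy1
  choose cc hcc0 hcc using E2'
  set e0 := levE j 0
  set e1 := levE j 1
  set S := |e0 * e0| * cc (pt 1 0) (pt 1 0) + |e0 * e1| * cc (pt 1 0) (pt 0 1) +
      |e1 * e0| * cc (pt 0 1) (pt 1 0) + |e1 * e1| * cc (pt 0 1) (pt 0 1) with hS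
  have hS0 : 0 ≤ S := by
    have := hcc0 (pt 1 0) (pt 1 0); have := hcc0 (pt 1 0) (pt 0 1)
    have := hcc0 (pt 0 1) (pt 1 0); have := hcc0 (pt 0 1) (pt 0 1)
    positivity
  set η := r1 + r2 + S
    with hη
  set R := p1 + p2 + q0 + η + 1 with hR
  have hη0 : 0 ≤ η := by positivity
  refine ⟨max T (max 1 (2304 * R ^ 5 * η * (C 0 ^ 2 / c0) + 1)), le_max_left _ _,
    fun t q hq hoff => ?_⟩
  obtain ⟨hT, hz, hg⟩ := mem_scQ.1 hq
  have hq' : q ∈ (scQ C C2 N' b T V hV).S t := mem_scQ.2 ⟨(le_max_left _ _).trans hT, hz, hg⟩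
  set z := q.1.1
  set K := Kf t with hK
  have hK1 : 1 ≤ K := one_le_Kf t
  set δ := (K ^ (4 * bExp))⁻¹ with hδ
  have hδ0 : 0 ≤ δ := by positivity
  have hδ1 : δ ≤ 1 := inv_le_one_of_one_le₀ (one_le_pow_K t _)
  have hΩ : z ∈ t.1.Ω := t.2.1.sub (dom_subset N' t hz)
  set e := levE j
  set p := d1At N t.1 (x t) j (pt 1 0) q
  set r := d1At N t.1 (x t) j (pt 0 1) q
  set w := d2At N t.1 (x t) j e e q
  set p' := D (pt 1 0) t.1.Z z
  set r' := D (pt 0 1) t.1.Z z
  set w' := D e (D e t.1.Z) z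
  have hZ2 : ContDiffAt ℝ 2 t.1.Z z :=
    (t.2.1.smoothZ.contDiffAt (t.2.1.open_.mem_nhds hΩ)).of_le
      (by exact WithTop.coe_le_coe.2 le_top)
  have dw : ‖w - w'‖ ≤ (|e0 * e0| * cc (pt 1 0) (pt 1 0) + |e0 * e1| * cc (pt 1 0) (pt 0 1) +
      |e1 * e0| * cc (pt 0 1) (pt 1 0) + |e1 * e1| * cc (pt 0 1) (pt 0 1)) * δ :=
    d2_close ((scQ C C2 N' b T V hV).isOpen t) (hM.smooth t) hq' hZ2 e
      fun a ha a' ha' => hcc a a' t ha ha' q hq'
  have dp : ‖p - p'‖ ≤ r1 * δ := hr1 t q hq'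
  have dr : ‖r - r'‖ ≤ r2 * δ := hr2 t q hq'
  have hK2 : K ≤ K ^ 2 := le_self_pow₀ hK1 (by norm_num)
  have hK2' : 1 ≤ K ^ 2 := one_le_pow₀ hK1
  have bp : ‖p'‖ ≤ p1 * K ^ 2 := (hp1 t z hz).trans (by gcongr)
  have br : ‖r'‖ ≤ p2 * K ^ 2 := (hp2 t z hz).trans (by gcongr)
  have bw : ‖w'‖ ≤ q0 * K ^ 2 := hq0 t z hz
  have hdd : ‖p - p'‖ ≤ η * δ ∧ ‖r - r'‖ ≤ η * δ ∧ ‖w - w'‖ ≤ η * δ := by
    refine ⟨dp.trans ?_, dr.trans ?_, dw.trans ?_⟩ <;>
      refine mul_le_mul_of_nonneg_right ?_ hδ0 <;> simp only [hη] <;> linarith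
  have hηδ : η * δ ≤ η * K ^ 2 :=
    (mul_le_of_le_one_right hη0 hδ1).trans (le_mul_of_one_le_right hη0 hK2')
  have up : ∀ {u u' : V4} {c : ℝ}, ‖u'‖ ≤ c * K ^ 2 → ‖u - u'‖ ≤ η * δ → c + η ≤ R →
      ‖u‖ ≤ R * K ^ 2 ∧ ‖u'‖ ≤ R * K ^ 2 := fun {u u' c} h1 h2 h3 => by
    have h0 := norm_le_norm_add_norm_sub' u u'
    have h5 : 0 ≤ η * K ^ 2 := mul_nonneg hη0 (zero_le_one.trans hK2')
    have h4 : (c + η) * K ^ 2 ≤ R * K ^ 2 := mul_le_mul_of_nonneg_right h3 (zero_le_one.trans hK2')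
    rw [add_mul] at h4
    constructor <;> linarith only [h0, h1, h2, h4, h5, hηδ]
  obtain ⟨P1, P2⟩ := up bp hdd.1 (by simp only [hR]; linarith)
  obtain ⟨R1, R2⟩ := up br hdd.2.1 (by simp only [hR]; linarith)
  obtain ⟨W1, W2⟩ := up bw hdd.2.2 (by simp only [hR]; linarith)
  obtain ⟨hC, hge⟩ := old_bend_lower t hj hz hoff
  have hgt : 0 < gram3 p r w :=
    gram3_pos_of_close (n := 4 * bExp) (by simp [bExp]) hK1 hc0 hC
      ⟨P1, R1, W1⟩ ⟨P2, R2, W2⟩ hdd hge
      (((le_max_right _ _).trans (le_max_right _ _)).trans hT)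
  have hA : 0 < areaAt N t.1 (x t) j q :=
    pos_of_mul_pos_right (zero_lt_one.trans_le (hM.area_lo t q hq')) (pow_nonneg (Kf_pos t).le _)
  have hk := perp2_sq (p := p) (q := r) hA.ne' w
  show 0 < ip (perp2 p r w) (perp2 p r w)
  exact pos_of_mul_pos_left (hgt.trans_le hk.ge) hA.le

end Vale.Agent.P205.Stage
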