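import Vale.Agent.P205.Stage.LevelGood
import Vale.Agent.P205.Stage.Specs

/-!
The levels commute with affine substitutions of the parameter, with periods of the phases and
with the phase of a tiny level where that level is switched off.
-/

noncomputable section

open Set Finset Real
open scoped ContDiff Topology

namespace Vale.Agent.P205.Stage

open Wave Legal

variable {C : ℕ → ℝ} {C2 : ℕ → ℕ → ℝ} {G G' : Type} [NormedAddCommGroup G] [NormedSpace ℝ G]
  [NormedAddCommGroup G'] [NormedSpace ℝ G'] {N N' b s i : ℕ}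

/-- A shift of the slots by periods, or of the slot of a tiny level which is switched off. -/
def IsShift (t : Fam C C2) (U : Set R2) (w : Fin 12 → ℝ) : Prop :=
  ∀ l : Fin 12, (∃ m : ℤ, w l = m * (2 * π)) ∨ ((l : ℕ) < 9 ∧ U ⊆ offZone l t)

/-- The shifted point. -/
def shiftPt (L : G →L[ℝ] G') (c : G') (w : Fin 12 → ℝ) (q : Ph × G) : Ph × G' :=
  ((q.1.1, q.1.2 + w), L q.2 + c)

/-- The shift of the slots below `i`. -/
def below (i : ℕ) (w : Fin 12 → ℝ) : Fin 12 → ℝ := fun l => if (l : ℕ) < i then w l else 0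

theorem IsShift.below {t : Fam C C2} {U : Set R2} {w : Fin 12 → ℝ} (h : IsShift t U w) (i : ℕ) :
    IsShift t U (below i w) := fun l => by
  by_cases hl : (l : ℕ) < i
  · simpa [Stage.below, hl] using h l
  · exact Or.inl ⟨0, by simp [Stage.below, hl]⟩

theorem trunc_shift (L : G →L[ℝ] G') (c : G') (w : Fin 12 → ℝ) (i : ℕ) (q : Ph × G) :
    trunc i (shiftPt L c w q) = shiftPt L c (below i w) (trunc i q) := by
  refine Prod.ext (Prod.ext rfl (funext fun l => ?_)) rfl
  simp only [trunc, shiftPt, below, Pi.add_apply]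
  split_ifs <;> simp

theorem put_shift (L : G →L[ℝ] G') (c : G') (w : Fin 12 → ℝ) (i : ℕ) (r : ℝ) (q : Ph × G) :
    put i r (trunc i (shiftPt L c w q)) = shiftPt L c (below i w) (put i r (trunc i q)) := by
  refine Prod.ext (Prod.ext rfl (funext fun l => ?_)) rfl
  simp only [trunc, put, shiftPt, below, Pi.add_apply]
  split_ifs <;> first | omega | simp

theorem slot_shift (L : G →L[ℝ] G') (c : G') (w : Fin 12 → ℝ) (hi : i < 12) (q : Ph × G) :
    slot i (shiftPt L c w q) = slot i q + w ⟨i, hi⟩ := by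
  simp [slot, hi, shiftPt]

/-- The linear part of a shift. -/
def shiftLin (L : G →L[ℝ] G') : Ph × G →L[ℝ] Ph × G' :=
  (ContinuousLinearMap.fst ℝ Ph G).prod (L.comp (ContinuousLinearMap.snd ℝ Ph G))

theorem shiftLin_add (L : G →L[ℝ] G') (c : G') (w : Fin 12 → ℝ) (q : Ph × G) :
    shiftLin L q + ((0, w), c) = shiftPt L c w q := by
  refine Prod.ext (Prod.ext ?_ ?_) ?_ <;> simp [shiftLin, shiftPt]

theorem shiftLin_vec (L : G →L[ℝ] G') (p : Par) (I : Input) (i : ℕ) (a : R2) :
    shiftLin L (vec p I G i a) = vec p I G' i a := by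
  refine Prod.ext ?_ ?_ <;> simp [shiftLin, vec]

theorem levE_last : levE 11 = pt 0 1 := by simp [levE]

variable [FiniteDimensional ℝ G] [FiniteDimensional ℝ G'] {V' : Set G'} {hV' : IsOpen V'}
  {T : ℝ} {x' : Fam C C2 → Ph × G' → Unk}

/-- The recursions at a level of the target, with what makes them work. -/
structure Ready (N N' b i : ℕ) (T : ℝ) (V' : Set G') (hV' : IsOpen V')
    (x' : Fam C C2 → Ph × G' → Unk) (t : Fam C C2) : Prop where
  ok : MapOK N N' b T V' hV' x' i
  big : T ≤ Kf t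
  range : ∀ q ∈ (scQ C C2 N' b T V' hV').S t, ∀ l,
    gam (par N) t.1 (x' t) l q ∈ Icc (1 / 32 : ℝ) 17
  last : 11 ≤ i → ∀ q ∈ (scQ C C2 N' b T V' hV').S t, restAt N t.1 (x' t) i q <
    t.1.χ q.1.1 ^ 2 * (gam (par N) t.1 (x' t) 0 q * ((1 + Stage.big (par N) t.1 q.1.1 ^ 2) / 2))
  zone : i < 9 → ∀ q ∈ (scQ C C2 N' b T V' hV').S t, q.1.1 ∉ offZone i t →
    0 < ip (kerBend N t.1 (x' t) i q) (kerBend N t.1 (x' t) i q)

namespace Ready

variable {t : Fam C C2} (R : Ready N N' b i T V' hV' x' t) (hi : i < 12)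
include R

omit hi [FiniteDimensional ℝ G'] in
theorem area_pos {q : Ph × G'} (hq : q ∈ (scQ C C2 N' b T V' hV').S t) :
    0 < areaAt N t.1 (x' t) i q :=
  pos_of_mul_pos_right (zero_lt_one.trans_le (R.ok.area_lo t q hq)) (pow_nonneg (Kf_pos t).le _)

omit hi [FiniteDimensional ℝ G'] in
theorem bend_pos {q : Ph × G'} (hq : q ∈ (scQ C C2 N' b T V' hV').S t) :
    0 < bendAt N t.1 (x' t) i q :=
  pos_of_mul_pos_right (zero_lt_one.trans_le (R.ok.bend_lo t q hq)) (pow_nonneg (Kf_pos t).le _)

omit hi in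
/-- Where the kernel bends. -/
theorem isOpen_zone : IsOpen ((scQ C C2 N' b T V' hV').S t ∩
    {q | 0 < ip (kerBend N t.1 (x' t) i q) (kerBend N t.1 (x' t) i q)}) := by
  set S := (scQ C C2 N' b T V' hV').S t
  have hS : IsOpen S := (scQ C C2 N' b T V' hV').isOpen t
  have h1 := fun a => contDiffOn_D hS (R.ok.smooth t) (vec (par N) t.1 G' i a)
  have p1 := h1 (pt 1 0)
  have p2 := h1 (pt 0 1)
  have h2 := contDiffOn_D hS (h1 (levE i)) (vec (par N) t.1 G' i (levE i))
  have hne : ∀ q ∈ S, gram2 (d1At N t.1 (x' t) i (pt 1 0) q) (d1At N t.1 (x' t) i (pt 0 1) q) ≠ 0 :=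
    fun q hq => (R.area_pos hq).ne'
  have hg : ContDiffOn ℝ ∞ (fun q => gram2 (d1At N t.1 (x' t) i (pt 1 0) q)
      (d1At N t.1 (x' t) i (pt 0 1) q)) S :=
    ((contDiffOn_ip p1 p1).mul (contDiffOn_ip p2 p2)).sub ((contDiffOn_ip p1 p2).pow 2)
  have hk : ContDiffOn ℝ ∞ (kerBend N t.1 (x' t) i) S := by
    unfold kerBend perp2 lift2
    exact h2.sub (((((contDiffOn_ip p1 h2).mul (contDiffOn_ip p2 p2)).sub
      ((contDiffOn_ip p2 h2).mul (contDiffOn_ip p1 p2))).div hg hne).smul p1 |>.add
        (((((contDiffOn_ip p2 h2).mul (contDiffOn_ip p1 p1)).sub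
          ((contDiffOn_ip p1 h2).mul (contDiffOn_ip p1 p2))).div hg hne).smul p2))
  exact (contDiffOn_ip hk hk).continuousOn.isOpen_inter_preimage hS isOpen_Ioi

include hi in
/-- A point is in the zone where the kernel bends, or the level is switched off there. -/
theorem cover (hf : isFree i = false) {q : Ph × G'} (hq : q ∈ (scQ C C2 N' b T V' hV').S t) :
    0 < ip (kerBend N t.1 (x' t) i q) (kerBend N t.1 (x' t) i q) ∨
      (i < 9 ∧ q.1.1 ∈ offZone i t) := by
  rcases lt_or_ge i 9 with h9 | h9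
  · by_cases ho : q.1.1 ∈ offZone i t
    · exact Or.inr ⟨h9, ho⟩
    · exact Or.inl (R.zone h9 q hq ho)
  · have h11 : i = 11 := by simp [isFree] at hf; omega
    refine Or.inl ?_
    have := R.bend_pos hq
    simp only [bendAt, bendVec] at this
    rw [kerBend, h11, levE_last]
    rwa [h11] at this

end Ready

/-- The amplitude of a tiny level vanishes where it is switched off. -/
theorem amp_off {H : Type} [NormedAddCommGroup H] (t : Fam C C2) (z : Ph × H → Unk)
    (hi : i < 9) (α : Ph × H → ℝ) {q : Ph × H} (hq : q.1.1 ∈ offZone i t) :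
    amp (par N) t.1 z i α q = 0 := by
  have h := interior_subset hq
  simp only [amp, hi, if_true]
  rw [show tinyWeight (tripleOf i) (bend0 t.1 q.1.1) = 0 from h]
  ring

section level

variable {t : Fam C C2} {U : Set R2} {V : Set G} {x : Ph × G → Unk}
  (R : Ready N N' b i T V' hV' x' t) (hx' : Small N' b s T V' hV' x') (hi : i < 12)
  (hU : IsOpen U) (hV : IsOpen V) (L : G →L[ℝ] G') (c : G')
  (hmap : MapsTo (fun g => L g + c) V V')

omit [FiniteDimensional ℝ G] in
include hx' hi hU hV hmap R in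
/-- **One level is natural.** -/
theorem level_natural {w : Fin 12 → ℝ}
    (hX : ∀ q : Ph × G, q.1.1 ∈ dom N' t ∩ U → q.2 ∈ V →
      mapAt N t.1 x i q = mapAt N t.1 (x' t) i (shiftPt L c w q))
    (hrho : ∀ q : Ph × G, q.1.1 ∈ dom N' t ∩ U → q.2 ∈ V →
      amp (par N) t.1 x i (restAt N t.1 x i) q =
        amp (par N) t.1 (x' t) i (restAt N t.1 (x' t) i) (shiftPt L c w q))
    (hErr : ∀ n, ∀ q : Ph × G, q.1.1 ∈ dom N' t ∩ U → q.2 ∈ V →
      errOf (par N) t.1 x i n q = errOf (par N) t.1 (x' t) i n (shiftPt L c w q))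
    {q : Ph × G} (hz : q.1.1 ∈ dom N' t ∩ U) (hg : q.2 ∈ V) :
    let X := mapAt N t.1 x i
    let α := restAt N t.1 x i
    let X' := mapAt N t.1 (x' t) i
    let α' := restAt N t.1 (x' t) i
    let y := shiftPt L c w q
    (∀ n, cor (par N) t.1 x i X α n q = cor (par N) t.1 (x' t) i X' α' n y) ∧
      (∀ n, 1 ≤ n → coefsAt (par N) t.1 x i n q = coefsAt (par N) t.1 (x' t) i n y) ∧
      (isFree i = true → ∀ n, (freeData (par N) t.1 x univ i X α).oscEE N n q =
        (freeData (par N) t.1 (x' t) univ i X' α').oscEE N n y) := by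
  intro X α X' α' y
  set S' := (scQ C C2 N' b T V' hV').S t
  have hS' : IsOpen S' := (scQ C C2 N' b T V' hV').isOpen t
  set Uq : Set (Ph × G) := {q | q.1.1 ∈ dom N' t ∩ U ∧ q.2 ∈ V} with hUq
  have hUqo : IsOpen Uq := ((((isOpen_dom N' t).inter hU).preimage
    (continuous_fst.comp continuous_fst)).inter (hV.preimage continuous_snd))
  have hmem : ∀ q ∈ Uq, shiftPt L c w q ∈ S' := fun q hq =>
    mem_scQ.2 ⟨R.big, hq.1.1, hmap hq.2⟩
  have hyS : y ∈ S' := hmem q ⟨hz, hg⟩
  set c₀ : Ph × G' := ((0, w), c)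
  have hc₀ : ∀ q, shiftLin L q + c₀ = shiftPt L c w q := fun q => shiftLin_add L c w q
  have idp : ∀ y : Ph × G', ContinuousLinearMap.id ℝ (Ph × G') y + 0 = y := fun y => by simp
  by_cases hf : isFree i = true
  · obtain ⟨-, hgood⟩ := free_good hx' t hf hS' subset_rfl (R.ok.smooth t) α' R.range
      (fun q hq => R.area_pos hq) fun q hq => R.bend_pos hq
    set W := levData (par N) t.1 (x' t) S' i X' α'
    have hsm : ContDiffOn ℝ ∞ W.Z W.Ω := R.ok.smooth t
    have P : Pullback W (levData (par N) t.1 x univ i X α) (shiftLin L) c₀ Uq :=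
      ⟨hUqo, fun q hq => by rw [hc₀]; exact hmem q hq, shiftLin_vec L _ _ _ _,
        shiftLin_vec L _ _ _ _, fun q hq => by rw [hc₀]; exact hX q hq.1 hq.2,
        fun q hq => by rw [hc₀]; exact hrho q hq.1 hq.2,
        fun n q hq => by rw [hc₀]; exact hErr n q hq.1 hq.2⟩
    have P' : Pullback W (levData (par N) t.1 (x' t) univ i X' α')
        (ContinuousLinearMap.id ℝ (Ph × G')) 0 S' :=
      ⟨hS', fun y hy => by rw [idp]; exact hy, rfl, rfl, fun y _ => by rw [idp]; rfl,
        fun y _ => by rw [idp]; rfl, fun n y _ => by rw [idp]; rfl⟩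
    have hn : ∀ q ∈ Uq, bendDir (par N) t.1 i X q =
        bendDir (par N) t.1 i X' (shiftLin L q + c₀) := fun q hq => by
      have h1 : ∀ a, ∀ q ∈ Uq, D (vec (par N) t.1 G i a) X q =
          D (vec (par N) t.1 G' i a) X' (shiftLin L q + c₀) := fun a q hq => by
        refine (P.deriv_eq hS' hsm P.Z _ hq).trans ?_
        rw [shiftLin_vec]
        rfl
      have h2 : D (vec (par N) t.1 G i (pt 0 1)) (D (vec (par N) t.1 G i (pt 0 1)) X) q =
          D (vec (par N) t.1 G' i (pt 0 1)) (D (vec (par N) t.1 G' i (pt 0 1)) X')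
            (shiftLin L q + c₀) := by
        refine (P.deriv_eq hS' (contDiffOn_D hS' hsm _) (h1 _) _ hq).trans ?_
        rw [shiftLin_vec]
        rfl
      simp only [bendDir, h1 _ q hq, h2]
    have F := P.ofNormal hS' hsm hn (1 / 2)
    have F' := P'.ofNormal hS' hsm (n' := bendDir (par N) t.1 i X')
      (n := bendDir (par N) t.1 i X') (fun y _ => by rw [idp]) (1 / 2)
    have hqU : q ∈ Uq := ⟨hz, hg⟩
    refine ⟨fun n => ?_, fun n hn => ?_, fun _ n => ?_⟩
    · simp only [cor, hf, if_true]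
      have e := F.upTo_eq hgood N n q hqU
      have e' := F'.upTo_eq hgood N n y hyS
      rw [hc₀] at e; rw [idp] at e'
      exact e.trans e'.symm
    · obtain ⟨a1, a2, a3, -⟩ := F.coef_upTo hgood N n hqU
      obtain ⟨b1, b2, b3, -⟩ := F'.coef_upTo hgood N n hyS
      rw [hc₀] at a1 a2 a3; rw [idp] at b1 b2 b3
      funext r
      simp only [coefsAt, cor, hf, if_true]
      exact congrArg₂ (fun (a : ℝ) (v : Fin 2 → ℝ) => Matrix.vecCons a v)
        (congrFun (a1.trans b1.symm) r) (congrArg₂ (fun a b => ![a, b])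
          (congrFun (a2.trans b2.symm) r) (congrFun (a3.trans b3.symm) r))
    · obtain ⟨-, -, -, a4⟩ := F.coef_upTo hgood N n hqU
      obtain ⟨-, -, -, b4⟩ := F'.coef_upTo hgood N n hyS
      rw [hc₀] at a4; rw [idp] at b4
      exact a4.trans b4.symm
  · have hf' : isFree i = false := by simpa using hf
    refine and_assoc.1 ⟨?_, fun h' => absurd h' hf⟩
    rcases R.cover hi hf' hyS with hb | ⟨h9, hoff⟩
    · set U1' := S' ∩ {q | 0 < ip (kerBend N t.1 (x' t) i q) (kerBend N t.1 (x' t) i q)}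
      have hgood := legal_good hx' t hf' R.isOpen_zone inter_subset_left
        ((R.ok.smooth t).mono inter_subset_left) ((R.ok.rest.smooth t).mono inter_subset_left)
        (fun q hq => R.range q hq.1) (fun h q hq => R.last h q hq.1)
        (fun q hq => R.area_pos hq.1) fun q hq => hq.2
      set W := levData (par N) t.1 (x' t) U1' i X' α'
      set Uz := Uq ∩ (fun q => shiftLin L q + c₀) ⁻¹' U1'
      have P : Pullback W (levData (par N) t.1 x univ i X α) (shiftLin L) c₀ Uz :=
        ⟨hUqo.inter (R.isOpen_zone.preimage (by fun_prop)), fun q hq => hq.2,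
          shiftLin_vec L _ _ _ _, shiftLin_vec L _ _ _ _,
          fun q hq => by rw [hc₀]; exact hX q hq.1.1 hq.1.2,
          fun q hq => by rw [hc₀]; exact hrho q hq.1.1 hq.1.2,
          fun n q hq => by rw [hc₀]; exact hErr n q hq.1.1 hq.1.2⟩
      have P' : Pullback W (levData (par N) t.1 (x' t) univ i X' α')
          (ContinuousLinearMap.id ℝ (Ph × G')) 0 U1' :=
        ⟨R.isOpen_zone, fun y hy => by rw [idp]; exact hy, rfl, rfl, fun y _ => by rw [idp]; rfl,
          fun y _ => by rw [idp]; rfl, fun n y _ => by rw [idp]; rfl⟩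
      have hy1 : y ∈ U1' := ⟨hyS, hb⟩
      have hqz : q ∈ Uz := ⟨⟨hz, hg⟩, by show shiftLin L q + c₀ ∈ U1'; rw [hc₀]; exact hy1⟩
      refine ⟨fun n => ?_, fun n hn => ?_⟩
      · simp only [cor, hf', Bool.false_eq_true, if_false]
        have e := P.upTo_eq hgood N n q hqz
        have e' := P'.upTo_eq hgood N n y hy1
        rw [hc₀] at e; rw [idp] at e'
        exact e.trans e'.symm
      · obtain ⟨a1, a2, a3⟩ := P.coef_upTo hgood N n hqz
        obtain ⟨b1, b2, b3⟩ := P'.coef_upTo hgood N n hy1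
        rw [hc₀] at a1 a2 a3; rw [idp] at b1 b2 b3
        funext r
        simp only [coefsAt, cor, hf', Bool.false_eq_true, if_false]
        exact congrArg₂ (fun (a : ℝ) (v : Fin 2 → ℝ) => Matrix.vecCons a v)
          (congrFun (a1.trans b1.symm) r) (congrArg₂ (fun a b => ![a, b])
            (congrFun (a2.trans b2.symm) r) (congrFun (a3.trans b3.symm) r))
    · set Uo : Set (Ph × G) := Uq ∩ (fun q => q.1.1) ⁻¹' offZone i t
      set Uo' : Set (Ph × G') := S' ∩ (fun q => q.1.1) ⁻¹' offZone i t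
      have hUo : IsOpen Uo := hUqo.inter (isOpen_interior.preimage
        (continuous_fst.comp continuous_fst))
      have hUo' : IsOpen Uo' := hS'.inter (isOpen_interior.preimage
        (continuous_fst.comp continuous_fst))
      have hE' : ∀ n, ∀ y ∈ Uo', errOf (par N) t.1 (x' t) i n y = 0 := fun n y hy =>
        (err_good hx' t i).2.2 h9 n y hy.1 hy.2
      have z0 : ∀ j, ∀ q ∈ Uo, ∀ r,
          (levData (par N) t.1 x univ i X α).upTo (N + 1) j q r = 0 :=
        upTo_off (W := levData (par N) t.1 x univ i X α) hUo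
          (fun q hq => amp_off (N := N) t x h9 α hq.2)
          (fun n q hq => (hErr n q hq.1.1 hq.1.2).trans (hE' n _ ⟨hmem q hq.1, hq.2⟩)) N
      have z1 : ∀ j, ∀ y ∈ Uo', ∀ r,
          (levData (par N) t.1 (x' t) univ i X' α').upTo (N + 1) j y r = 0 :=
        upTo_off (W := levData (par N) t.1 (x' t) univ i X' α') hUo'
          (fun y hy => amp_off (N := N) t (x' t) h9 α' hy.2) hE' N
      have hqo : q ∈ Uo := ⟨⟨hz, hg⟩, hoff⟩
      have hyo : y ∈ Uo' := ⟨hyS, hoff⟩
      refine ⟨fun n => funext fun r => ?_, fun n hn => funext fun r => ?_⟩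
      · simp only [cor, hf', Bool.false_eq_true, if_false]
        exact (z0 n q hqo r).trans (z1 n y hyo r).symm
      · obtain ⟨a1, a2, a3⟩ := coef_off (W := levData (par N) t.1 x univ i X α) hUo z0 hn hqo r
        obtain ⟨b1, b2, b3⟩ :=
          coef_off (W := levData (par N) t.1 (x' t) univ i X' α') hUo' z1 hn hyo r
        simp only [coefsAt, cor, hf', Bool.false_eq_true, if_false]
        exact congrArg₂ (fun (a : ℝ) (v : Fin 2 → ℝ) => Matrix.vecCons a v) (a1.trans b1.symm)
          (congrArg₂ (fun a b => ![a, b]) (a2.trans b2.symm) (a3.trans b3.symm))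

include hx' hi R in
/-- The correctors do not see an admitted shift of their own slot. -/
theorem level_periodic {y : Ph × G'} (hy : y ∈ (scQ C C2 N' b T V' hV').S t) {δ : ℝ}
    (hδ : (∃ m : ℤ, δ = m * (2 * π)) ∨ (i < 9 ∧ y.1.1 ∈ offZone i t)) (r : ℝ) :
    let X' := mapAt N t.1 (x' t) i
    let α' := restAt N t.1 (x' t) i
    (∀ n, cor (par N) t.1 (x' t) i X' α' n y (r + δ) = cor (par N) t.1 (x' t) i X' α' n y r) ∧
      (isFree i = true → ∀ n, (freeData (par N) t.1 (x' t) univ i X' α').oscEE N n y (r + δ) =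
        (freeData (par N) t.1 (x' t) univ i X' α').oscEE N n y r) := by
  intro X' α'
  set S' := (scQ C C2 N' b T V' hV').S t
  have hS' : IsOpen S' := (scQ C C2 N' b T V' hV').isOpen t
  have idp : ∀ y : Ph × G', ContinuousLinearMap.id ℝ (Ph × G') y + 0 = y := fun y => by simp
  by_cases hf : isFree i = true
  · obtain ⟨m, rfl⟩ : ∃ m : ℤ, δ = m * (2 * π) := hδ.resolve_right fun h => by
      rcases isFree_iff.1 hf with e | e <;> omega
    obtain ⟨-, hgood⟩ := free_good hx' t hf hS' subset_rfl (R.ok.smooth t) α' R.range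
      (fun q hq => R.area_pos hq) fun q hq => R.bend_pos hq
    have P' : Pullback (levData (par N) t.1 (x' t) S' i X' α')
        (levData (par N) t.1 (x' t) univ i X' α') (ContinuousLinearMap.id ℝ (Ph × G')) 0 S' :=
      ⟨hS', fun y hy => by rw [idp]; exact hy, rfl, rfl, fun y _ => by rw [idp]; rfl,
        fun y _ => by rw [idp]; rfl, fun n y _ => by rw [idp]; rfl⟩
    have F' := P'.ofNormal hS' (R.ok.smooth t) (n' := bendDir (par N) t.1 i X')
      (n := bendDir (par N) t.1 i X') (fun y _ => by rw [idp]) (1 / 2)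
    refine ⟨fun n => ?_, fun _ n => ?_⟩
    · simp only [cor, hf, if_true]
      have e := F'.upTo_eq hgood N n y hy
      rw [idp] at e
      refine (congrFun e _).trans (Eq.trans ?_ (congrFun e r).symm)
      exact (((Free.Data.inv_upTo hgood N).sp n).per y hy).int_mul m r
    · obtain ⟨-, -, -, e⟩ := F'.coef_upTo hgood N n hy
      rw [idp] at e
      refine (congrFun e _).trans (Eq.trans ?_ (congrFun e r).symm)
      exact ((Free.Data.sp_oscEE hgood N n).1.per y hy).int_mul m r
  · have hf' : isFree i = false := by simpa using hf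
    refine ⟨fun n => ?_, fun h => absurd h hf⟩
    simp only [cor, hf', Bool.false_eq_true, if_false]
    by_cases hoff : i < 9 ∧ y.1.1 ∈ offZone i t
    · set Uo' : Set (Ph × G') := S' ∩ (fun q => q.1.1) ⁻¹' offZone i t
      have hUo' : IsOpen Uo' := hS'.inter (isOpen_interior.preimage
        (continuous_fst.comp continuous_fst))
      have z := upTo_off (W := levData (par N) t.1 (x' t) univ i X' α') hUo'
        (fun y hy => amp_off (N := N) t (x' t) hoff.1 α' hy.2)
        (fun n y hy => (err_good hx' t i).2.2 hoff.1 n y hy.1 hy.2) N n y ⟨hy, hoff.2⟩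
      exact (z _).trans (z r).symm
    · obtain ⟨m, rfl⟩ := hδ.resolve_right hoff
      have hb := (R.cover hi hf' hy).resolve_right hoff
      have hgood := legal_good hx' t hf' R.isOpen_zone inter_subset_left
        ((R.ok.smooth t).mono inter_subset_left) ((R.ok.rest.smooth t).mono inter_subset_left)
        (fun q hq => R.range q hq.1) (fun h q hq => R.last h q hq.1)
        (fun q hq => R.area_pos hq.1) fun q hq => hq.2
      have P' : Pullback (levData (par N) t.1 (x' t) _ i X' α')
          (levData (par N) t.1 (x' t) univ i X' α') (ContinuousLinearMap.id ℝ (Ph × G')) 0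
          (S' ∩ {q | 0 < ip (kerBend N t.1 (x' t) i q) (kerBend N t.1 (x' t) i q)}) :=
        ⟨R.isOpen_zone, fun y hy => by rw [idp]; exact hy, rfl, rfl, fun y _ => by rw [idp]; rfl,
          fun y _ => by rw [idp]; rfl, fun n y _ => by rw [idp]; rfl⟩
      have e := P'.upTo_eq hgood N n y ⟨hy, hb⟩
      rw [idp] at e
      refine (congrFun e _).trans (Eq.trans ?_ (congrFun e r).symm)
      exact (((Wave.Data.inv_upTo hgood N).sp n).per y ⟨hy, hb⟩).int_mul m r

end level

/-- **The levels are natural.** -/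
theorem naturalStep : NaturalStep := by
  intro C C2 N N' b s j hb _ _ hj G G' _ _ _ _ _ _ V hV V' hV' L c u T U x x' hU hmaps hu hx' hM
    hxx
  have hb1 : 1 ≤ b := le_trans (by norm_num [bMin]) hb
  obtain ⟨T₁, hT₁, -, hgam⟩ := gam_cost N hb1 hx'
  have hthr : ∀ i, ∃ T', T ≤ T' ∧ (i < j → ∀ t, ∀ q ∈ (scQ C C2 N' b T' V' hV').S t,
      restAt N t.1 (x' t) i q <
          t.1.χ q.1.1 ^ 2 * (gam (par N) t.1 (x' t) 0 q * ((1 + big (par N) t.1 q.1.1 ^ 2) / 2)) ∧
        (i < 9 → q.1.1 ∉ offZone i t →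
          0 < ip (kerBend N t.1 (x' t) i q) (kerBend N t.1 (x' t) i q))) := by
    intro i
    by_cases hij : i < j
    · obtain ⟨T₂, hT₂, hr⟩ := rest_lt hb1 hx' (hM i hij)
      by_cases h9 : i < 9
      · obtain ⟨T₃, hT₃, hz⟩ := tiny_bend (hM i hij) h9
        exact ⟨max T₂ T₃, hT₂.trans (le_max_left _ _), fun _ t q hq =>
          ⟨hr t q (scQ_subset (le_max_left _ _) t hq),
            fun _ => hz t q (scQ_subset (le_max_right _ _) t hq)⟩⟩
      · exact ⟨T₂, hT₂, fun _ t q hq => ⟨hr t q hq, fun h => absurd h h9⟩⟩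
    · exact ⟨T, le_rfl, fun h => absurd h hij⟩
  choose Ti hTi hi using hthr
  refine ⟨T₁ + ∑ i ∈ range j, (Ti i - T), le_add_of_le_of_nonneg hT₁
    (sum_nonneg fun i _ => sub_nonneg.2 (hTi i)), fun t ht => ?_⟩
  have hsum : ∀ i, i < j → Ti i - T ≤ ∑ l ∈ range j, (Ti l - T) := fun i h =>
    single_le_sum (f := fun l => Ti l - T) (fun l _ => sub_nonneg.2 (hTi l)) (mem_range.2 h)
  have hnn : 0 ≤ ∑ i ∈ range j, (Ti i - T) := sum_nonneg fun i _ => sub_nonneg.2 (hTi i)
  have hT : T ≤ Kf t := by linarith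
  have hS : ∀ {q : Ph × G'}, q ∈ (scQ C C2 N' b T V' hV').S t → ∀ T'' ≤ Kf t,
      q ∈ (scQ C C2 N' b T'' V' hV').S t :=
    fun hq T'' h => mem_scQ.2 ⟨h, (mem_scQ.1 hq).2⟩
  have hR : ∀ i, i < j → Ready N N' b i T V' hV' x' t := fun i hij =>
    { ok := hM i hij
      big := hT
      range := fun q hq => hgam t q (hS hq T₁ (by linarith))
      last := fun _ q hq =>
        (hi i hij t q (hS hq (Ti i) (by have := hsum i hij; linarith))).1
      zone := fun h9 q hq => (hi i hij t q (hS hq (Ti i) (by have := hsum i hij; linarith))).2 h9 }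
  -- the families agree up to any admitted shift
  have hrel : ∀ w, IsShift t (U t) w → ∀ q : Ph × G, q.1.1 ∈ dom N' t ∩ U t → q.2 ∈ V →
      x t q = x' t (shiftPt L (c t) w q) := fun w hw q hz hg => by
    refine (hxx t hT q.1 hz q.2 hg).trans ?_
    have hm : shiftPt L (c t) (u t) q ∈ (scQ C C2 N' b T V' hV').S t :=
      mem_scQ.2 ⟨hT, hz.1, hmaps t hT hg⟩
    refine ((periods hx' hm (u := w - u t) fun l => ?_).symm.trans ?_)
    · rcases hw l with ⟨m, hm⟩ | ⟨h9, ho⟩
      · rcases hu t l with ⟨m', hm'⟩ | ⟨h9, ho⟩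
        · exact Or.inl ⟨m - m', by simp [hm, hm']; ring⟩
        · exact Or.inr ⟨h9, ho hz.2⟩
      · exact Or.inr ⟨h9, ho hz.2⟩
    · simp [shiftPt]
  have hgamEq : ∀ w, IsShift t (U t) w → ∀ q : Ph × G, q.1.1 ∈ dom N' t ∩ U t → q.2 ∈ V → ∀ l,
      gam (par N) t.1 (x t) l q = gam (par N) t.1 (x' t) l (shiftPt L (c t) w q) :=
    fun w hw q hz hg l => by
      simp only [gam, trunc_shift, hrel _ (hw.below 0) (trunc 0 q) hz hg]
      rfl
  have hErr : ∀ w, IsShift t (U t) w → ∀ i n, ∀ q : Ph × G, q.1.1 ∈ dom N' t ∩ U t → q.2 ∈ V →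
      errOf (par N) t.1 (x t) i n q = errOf (par N) t.1 (x' t) i n (shiftPt L (c t) w q) :=
    fun w hw i n q hz hg => by
      funext r
      simp only [errOf, put_shift, hrel _ (hw.below i) (put i r (trunc i q)) hz hg]
      rfl
  -- the induction over the levels
  have key : ∀ i, i ≤ j → ∀ w, IsShift t (U t) w → ∀ q : Ph × G,
      q.1.1 ∈ dom N' t ∩ U t → q.2 ∈ V →
      mapAt N t.1 (x t) i q = mapAt N t.1 (x' t) i (shiftPt L (c t) w q) ∧
        restAt N t.1 (x t) i q = restAt N t.1 (x' t) i (shiftPt L (c t) w q) := by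
    intro i hij
    induction i with
    | zero => intro w _ q _ _; exact ⟨rfl, rfl⟩
    | succ i ih =>
      intro w hw q hz hg
      have hi12 : i < 12 := by omega
      have hlev := level_natural (hR i hij) hx' hi12 (hU t) hV L (c t) (hmaps t hT)
        (w := below i w) (x := x t)
        (fun q hz hg => (ih (by omega) _ (hw.below i) q hz hg).1)
        (fun q hz hg => by
          simp only [amp, hgamEq _ (hw.below i) q hz hg, (ih (by omega) _ (hw.below i) q hz hg).2]
          rfl)
        (fun n => hErr _ (hw.below i) i n)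
        (q := trunc i q) hz hg
      obtain ⟨hc, -, ho⟩ := hlev
      have hyS : trunc i (shiftPt L (c t) w q) ∈ (scQ C C2 N' b T V' hV').S t :=
        mem_scQ.2 ⟨hT, hz.1, hmaps t hT hg⟩
      have hδ : (∃ m : ℤ, w ⟨i, hi12⟩ = m * (2 * π)) ∨
          (i < 9 ∧ (trunc i (shiftPt L (c t) w q)).1.1 ∈ offZone i t) := by
        rcases hw ⟨i, hi12⟩ with h | ⟨h9, ho⟩
        · exact Or.inl h
        · exact Or.inr ⟨h9, ho hz.2⟩
      obtain ⟨hp, hpo⟩ := level_periodic (hR i hij) hx' hi12 hyS hδ (slot i q)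
      obtain ⟨i1, i2⟩ := ih (by omega) _ (hw.below i) (trunc i q) hz hg
      have et := trunc_shift L (c t) w i q
      have es := slot_shift L (c t) w hi12 q
      constructor
      · show (levels (par N) t.1 (x t) i).1 (trunc i q) + _ =
          (levels (par N) t.1 (x' t) i).1 (trunc i (shiftPt L (c t) w q)) + _
        rw [et] at hp ⊢
        refine congrArg₂ (· + ·) i1 (sum_congr rfl fun n _ => ?_)
        rw [es]
        exact congrArg _ ((congrFun (hc (n + 1)) _).trans (hp (n + 1)).symm)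
      · show (levels (par N) t.1 (x t) i).2 (trunc i q) + _ =
          (levels (par N) t.1 (x' t) i).2 (trunc i (shiftPt L (c t) w q)) + _
        rw [et] at hpo ⊢
        refine congrArg₂ (· + ·) i2 ?_
        by_cases hf : isFree i = true
        · simp only [hf, if_true]
          refine sum_congr rfl fun n _ => ?_
          rw [es]
          exact congrArg _ ((congrFun (ho hf n) _).trans (hpo hf n).symm)
        · simp [hf]
  intro p hp g hg i hij
  have hw : IsShift t (U t) (u t) := hu t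
  obtain ⟨h1, h2⟩ := key i hij _ hw (p, g) hp hg
  refine ⟨h1, h2, fun hlt => ?_⟩
  have hlev := level_natural (hR i hlt) hx' (show i < 12 by omega) (hU t) hV L (c t) (hmaps t hT)
    (w := below i (u t)) (x := x t)
    (fun q hz hg => (key i hij _ (hw.below i) q hz hg).1)
    (fun q hz hg => by
      simp only [amp, hgamEq _ (hw.below i) q hz hg, (key i hij _ (hw.below i) q hz hg).2]
      rfl)
    (fun n => hErr _ (hw.below i) i n)
    (q := trunc i (p, g)) hp hg
  show slowAt (par N) t.1 (x t) i (p, g) = slowAt (par N) t.1 (x' t) i (shiftPt L (c t) (u t) (p, g))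
  simp only [slowAt, trunc_shift]
  congr 1
  refine sum_congr rfl fun n hn => ?_
  rw [hlev.2.1 n (Finset.mem_Icc.1 hn).1, hErr _ (hw.below i) i n (trunc i (p, g)) hp hg]

end Vale.Agent.P205.Stage
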