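import Vale.Agent.P205.Stage.Invariant
import Vale.Agent.P205.Stage.Perturb
import Vale.Agent.P205.Stage.PipeAlg
import Vale.Agent.P205.Stage.Weights
import Vale.Agent.P205.Legal.Vec

/-!
The linear maps of a level on the charts with slots, the chart vectors of a level, and the cost
of the Gram determinant and of the normal part.
-/

noncomputable section

open Set Finset Real
open scoped ContDiff

namespace Vale.Agent.P205.Stage.Lev

open Wave (V4 ip D gram2 Cost Scale)

section maps

variable (G : Type) [NormedAddCommGroup G] [NormedSpace ℝ G]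

/-- The slots from `j` on set to zero, as a linear map. -/
def truncL (j : ℕ) : Ph × G →L[ℝ] Ph × G :=
  LinearMap.mkContinuous
    { toFun := trunc j
      map_add' := fun p q => by
        refine Prod.ext (Prod.ext rfl (funext fun i => ?_)) rfl
        simp only [trunc, Prod.snd_add, Prod.fst_add, Pi.add_apply]
        split_ifs <;> simp
      map_smul' := fun r q => by
        refine Prod.ext (Prod.ext rfl (funext fun i => ?_)) rfl
        simp only [trunc, Prod.smul_snd, Prod.smul_fst, Pi.smul_apply, RingHom.id_apply]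
        split_ifs <;> simp }
    1 fun q => by
      rw [one_mul]
      show ‖trunc j q‖ ≤ ‖q‖
      simp only [trunc, Prod.norm_def]
      refine max_le_max (max_le_max le_rfl ((pi_norm_le_iff_of_nonneg (norm_nonneg _)).2 fun i => ?_))
        le_rfl
      split_ifs
      · exact norm_le_pi_norm q.1.2 i
      · simp

theorem truncL_apply (j : ℕ) (q : Ph × G) : truncL G j q = trunc j q := rfl

theorem norm_truncL (j : ℕ) : ‖truncL G j‖ ≤ 1 := LinearMap.mkContinuous_norm_le _ zero_le_one _

/-- The slot `j`, as a linear map. -/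
def slotL (j : ℕ) : Ph × G →L[ℝ] ℝ :=
  if h : j < 12 then
    (ContinuousLinearMap.proj (R := ℝ) (φ := fun _ : Fin 12 => ℝ) ⟨j, h⟩).comp
      ((ContinuousLinearMap.snd ℝ R2 (Fin 12 → ℝ)).comp (ContinuousLinearMap.fst ℝ Ph G))
  else 0

theorem slotL_apply (j : ℕ) (q : Ph × G) : slotL G j q = slot j q := by
  unfold slotL slot
  split_ifs <;> simp

theorem norm_slotL (j : ℕ) : ‖slotL G j‖ ≤ 1 := by
  refine ContinuousLinearMap.opNorm_le_bound _ zero_le_one fun q => ?_
  rw [one_mul, slotL_apply]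
  unfold slot
  split_ifs with h
  · exact (norm_le_pi_norm q.1.2 _).trans ((norm_snd_le q.1).trans (norm_fst_le q))
  · simp

/-- The space of a level: the lower slots, and the own slot. -/
def splitL (j : ℕ) : Ph × G →L[ℝ] (Ph × G) × ℝ := (truncL G j).prod (slotL G j)

theorem splitL_apply (j : ℕ) (q : Ph × G) : splitL G j q = (trunc j q, slot j q) :=
  Prod.ext rfl (slotL_apply G j q)

theorem norm_splitL (j : ℕ) : ‖splitL G j‖ ≤ 1 := by
  refine ContinuousLinearMap.opNorm_le_bound _ zero_le_one fun q => ?_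
  rw [one_mul, Prod.norm_def]
  exact max_le (((truncL G j).le_opNorm q).trans
      (mul_le_of_le_one_left (norm_nonneg q) (norm_truncL G j)))
    (((slotL G j).le_opNorm q).trans (mul_le_of_le_one_left (norm_nonneg q) (norm_slotL G j)))

/-- The lower slots and a value of the own slot. -/
def putL (j : ℕ) : (Ph × G) × ℝ →L[ℝ] Ph × G :=
  LinearMap.mkContinuous
    { toFun := fun p => put j p.2 (trunc j p.1)
      map_add' := fun p q => by
        refine Prod.ext (Prod.ext rfl (funext fun i => ?_)) rfl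
        simp only [put, trunc, Prod.snd_add, Prod.fst_add, Pi.add_apply]
        split_ifs <;> simp
      map_smul' := fun r q => by
        refine Prod.ext (Prod.ext rfl (funext fun i => ?_)) rfl
        simp only [put, trunc, Prod.smul_snd, Prod.smul_fst, Pi.smul_apply, RingHom.id_apply]
        split_ifs <;> simp }
    1 fun p => by
      rw [one_mul]
      show ‖put j p.2 (trunc j p.1)‖ ≤ ‖p‖
      simp only [put, trunc, Prod.norm_def]
      refine max_le (max_le ?_ ((pi_norm_le_iff_of_nonneg ?_).2 fun i => ?_)) ?_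
      · exact le_max_of_le_left (le_max_of_le_left (le_max_left _ _))
      · exact le_max_of_le_right (norm_nonneg _)
      · split_ifs
        · exact le_max_of_le_right le_rfl
        · exact le_max_of_le_left (le_max_of_le_left (le_max_of_le_right (norm_le_pi_norm _ i)))
        · exact le_max_of_le_right (by simp)
      · exact le_max_of_le_left (le_max_right _ _)

theorem putL_apply (j : ℕ) (p : (Ph × G) × ℝ) : putL G j p = put j p.2 (trunc j p.1) := rfl

theorem norm_putL (j : ℕ) : ‖putL G j‖ ≤ 1 := LinearMap.mkContinuous_norm_le _ zero_le_one _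

/-- The chart point. -/
def zL : Ph × G →L[ℝ] R2 :=
  (ContinuousLinearMap.fst ℝ R2 (Fin 12 → ℝ)).comp (ContinuousLinearMap.fst ℝ Ph G)

theorem zL_apply (q : Ph × G) : zL G q = q.1.1 := rfl

theorem norm_zL : ‖zL G‖ ≤ 1 :=
  ContinuousLinearMap.opNorm_le_bound _ zero_le_one fun q => by
    rw [one_mul, zL_apply]; exact (norm_fst_le q.1).trans (norm_fst_le q)

end maps

theorem mExp_mono {i j : ℕ} (h : i ≤ j) : mExp i ≤ mExp j := by
  induction h with
  | refl => exact le_rfl
  | @step m _ ih => exact ih.trans (by rw [mExp_succ]; have := (mExp_grows m).2; omega)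

theorem eExp_lt {i j : ℕ} (h : i < j) : eExp i < mExp j := by
  have := mExp_mono (Nat.succ_le_of_lt h)
  rw [mExp_succ] at this
  omega

section vec

variable {G : Type} [NormedAddCommGroup G] [NormedSpace ℝ G] {p : Par} {I : Input}

theorem vec_comb (j : ℕ) (r r' : ℝ) (a a' : R2) :
    vec p I G j (r • a + r' • a') = r • vec p I G j a + r' • vec p I G j a' := by
  refine Prod.ext (Prod.ext rfl (funext fun i => ?_)) (by simp [vec])
  simp only [vec, phase, Prod.smul_mk, Prod.mk_add_mk, Pi.add_apply, Pi.smul_apply, smul_eq_mul,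
    PiLp.add_apply, PiLp.smul_apply]
  split_ifs <;> ring

theorem pt_eq (a : R2) : a = a 0 • pt 1 0 + a 1 • pt 0 1 := by
  ext i; fin_cases i <;> simp [pt]

/-- A chart vector from the coordinate ones. -/
theorem vec_pt (j : ℕ) (a : R2) :
    vec p I G j a = a 0 • vec p I G j (pt 1 0) + a 1 • vec p I G j (pt 0 1) := by
  conv_lhs => rw [pt_eq a]
  exact vec_comb j _ _ _ _

theorem split_vec {j : ℕ} (hj : j < 12) (a : R2) :
    splitL G j (vec p I G (j + 1) a) = (vec p I G j a, p.k I j * phase j a) := by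
  rw [splitL_apply]
  refine Prod.ext (Prod.ext (Prod.ext rfl (funext fun i => ?_)) rfl) ?_
  · simp only [trunc, vec]
    split_ifs <;> first | rfl | omega
  · simp [slot, vec, hj]

omit [NormedSpace ℝ G] in
theorem exists_norm_vec (a : R2) (N j : ℕ) : ∃ c : ℝ, 0 ≤ c ∧
    ∀ I : Input, 1 ≤ I.K → ‖vec (par N) I G j a‖ ≤ c * I.K ^ mExp j := by
  refine ⟨‖a‖ + ∑ i : Fin 12, |phase i a|, by positivity, fun I hK => ?_⟩
  have h1 : (1 : ℝ) ≤ I.K ^ mExp j := one_le_pow₀ hK
  have hS : 0 ≤ ∑ i : Fin 12, |phase i a| := by positivity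
  simp only [vec, Prod.norm_def]
  refine max_le (max_le ?_ ((pi_norm_le_iff_of_nonneg (by positivity)).2 fun i => ?_))
    (by simp only [norm_zero]; positivity)
  · exact (le_add_of_nonneg_right hS).trans (le_mul_of_one_le_right (by positivity) h1)
  · split_ifs with h
    · rw [norm_mul, Real.norm_eq_abs, Real.norm_eq_abs, mul_comm (‖a‖ + _)]
      refine mul_le_mul ?_ ((single_le_sum (f := fun i : Fin 12 => |phase i a|)
        (fun _ _ => abs_nonneg _) (Finset.mem_univ i)).trans (le_add_of_nonneg_left (norm_nonneg _)))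
        (abs_nonneg _) (by positivity)
      rw [abs_of_nonneg (by unfold Par.k; positivity)]
      exact pow_le_pow_right₀ hK (eExp_lt h).le
    · simp only [norm_zero]; positivity

omit [NormedAddCommGroup G] [NormedSpace ℝ G] in
theorem D_comb {E F : Type} [NormedAddCommGroup E] [NormedSpace ℝ E] [NormedAddCommGroup F]
    [NormedSpace ℝ F] (r r' : ℝ) (a a' : E) (f : E → F) (x : E) :
    D (r • a + r' • a') f x = r • D a f x + r' • D a' f x := by
  simp [D]

end vec

section costs

variable {ι X : Type} [NormedAddCommGroup X] [NormedSpace ℝ X] {σ : Scale ι X}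
  {p p' q q' w : ι → X → V4} {P Q D₁ D₂ : ι → X → ℝ}

theorem cost_gram2 (hp : Cost σ P p) (hq : Cost σ Q q) :
    Cost σ (fun t x => P t x ^ 2 * Q t x ^ 2) fun t x => gram2 (p t x) (q t x) := by
  have hn : ∀ t, ∀ x ∈ σ.S t, 0 ≤ P t x ^ 2 * Q t x ^ 2 := fun t x _ => by positivity
  refine (((hp.ip hp).mul (hq.ip hq)).mono zero_le_one hn fun t x _ => le_of_eq (by ring)).sub
    (((hp.ip hq).mul (hp.ip hq)).mono zero_le_one hn fun t x _ => le_of_eq (by ring)) |>.congr
    fun t x _ => ?_
  simp only [gram2, sq]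

/-- The change of the Gram determinant. -/
theorem cost_gram2_sub (hp : Cost σ P p) (hp' : Cost σ P p') (hq : Cost σ Q q) (hq' : Cost σ Q q')
    (h₁ : Cost σ D₁ fun t x => p' t x - p t x) (h₂ : Cost σ D₂ fun t x => q' t x - q t x) :
    Cost σ (fun t x => P t x * Q t x * (D₁ t x * Q t x + D₂ t x * P t x))
      fun t x => gram2 (p' t x) (q' t x) - gram2 (p t x) (q t x) := by
  have hn : ∀ t, ∀ x ∈ σ.S t, 0 ≤ P t x * Q t x * (D₁ t x * Q t x + D₂ t x * P t x) :=
    fun t x hx => by
      have := hp.nonneg t x hx; have := hq.nonneg t x hx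
      have := h₁.nonneg t x hx; have := h₂.nonneg t x hx
      positivity
  have l1 : ∀ t, ∀ x ∈ σ.S t, D₁ t x * P t x * (Q t x * Q t x) ≤
      1 * (P t x * Q t x * (D₁ t x * Q t x + D₂ t x * P t x)) := fun t x hx => by
    have := hp.nonneg t x hx; have := hq.nonneg t x hx; have := h₂.nonneg t x hx
    nlinarith [show 0 ≤ P t x * Q t x * (D₂ t x * P t x) by positivity]
  have l2 : ∀ t, ∀ x ∈ σ.S t, D₂ t x * Q t x * (P t x * P t x) ≤
      1 * (P t x * Q t x * (D₁ t x * Q t x + D₂ t x * P t x)) := fun t x hx => by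
    have := hp.nonneg t x hx; have := hq.nonneg t x hx; have := h₁.nonneg t x hx
    nlinarith [show 0 ≤ P t x * Q t x * (D₁ t x * Q t x) by positivity]
  have a := ((h₁.ip (hp.add hp')).mul (hq.ip hq)).mono zero_le_one hn l1
  have b := (((h₁.ip hq).mul ((hp.add hp').ip hq))).mono zero_le_one hn fun t x hx =>
    le_trans (le_of_eq (by ring)) (l1 t x hx)
  have c := ((h₂.ip (hq.add hq')).mul (hp'.ip hp')).mono zero_le_one hn l2
  have d := (((h₂.ip hp').mul ((hq.add hq').ip hp'))).mono zero_le_one hn fun t x hx =>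
    le_trans (le_of_eq (by ring)) (l2 t x hx)
  refine ((a.sub b).add (c.sub d)).congr fun t x _ => ?_
  simp [gram2, Wave.ip_comm (q t x) (p' t x), Wave.ip_comm (p' t x) (p t x),
    Wave.ip_comm (q' t x) (p' t x), Wave.ip_comm (q' t x) (q t x)]
  ring

/-- The normal part, from a relative Gram determinant with a lower bound. -/
theorem cost_perp2 {W : ι → X → ℝ} {L : ι → X → ℝ}
    (hp : Cost σ P p) (hq : Cost σ Q q) (hw : Cost σ W w)
    (hg : Cost σ (fun t x => gram2 (p t x) (q t x)) fun t x => gram2 (p t x) (q t x))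
    (hlo : ∀ t, ∀ x ∈ σ.S t, 1 ≤ L t x * gram2 (p t x) (q t x))
    (h1 : ∀ t, ∀ x ∈ σ.S t, 1 ≤ L t x * P t x ^ 2 * Q t x ^ 2) :
    Cost σ (fun t x => L t x * P t x ^ 2 * Q t x ^ 2 * W t x)
      fun t x => perp2 (p t x) (q t x) (w t x) := by
  have gp : ∀ t, ∀ x ∈ σ.S t, 0 < gram2 (p t x) (q t x) := fun t x hx => by
    rcases (hg.nonneg t x hx).eq_or_lt with h | h
    · have := hlo t x hx; rw [← h, mul_zero] at this; linarith
    · exact h
  have gi : Cost σ L fun t x => (gram2 (p t x) (q t x))⁻¹ :=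
    (hg.rel_inv gp).mono zero_le_one (fun t x hx => by
      nlinarith [hlo t x hx, gp t x hx]) fun t x hx => by
      rw [one_mul, inv_le_iff_one_le_mul₀ (gp t x hx)]; exact hlo t x hx
  have hn : ∀ t, ∀ x ∈ σ.S t, 0 ≤ L t x * P t x ^ 2 * Q t x ^ 2 * W t x := fun t x hx => by
    have := gi.nonneg t x hx; have := hw.nonneg t x hx; positivity
  have m1 := ((((hp.ip hw).mul (hq.ip hq)).mul gi).smul hp).mono zero_le_one hn
    fun t x _ => le_of_eq (by ring)
  have m2 := ((((hq.ip hw).mul (hp.ip hq)).mul gi).smul hp).mono zero_le_one hn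
    fun t x _ => le_of_eq (by ring)
  have m3 := ((((hq.ip hw).mul (hp.ip hp)).mul gi).smul hq).mono zero_le_one hn
    fun t x _ => le_of_eq (by ring)
  have m4 := ((((hp.ip hw).mul (hp.ip hq)).mul gi).smul hq).mono zero_le_one hn
    fun t x _ => le_of_eq (by ring)
  refine ((hw.mono zero_le_one hn fun t x hx => ?_).sub ((m1.sub m2).add (m3.sub m4))).congr
    fun t x _ => ?_
  · rw [one_mul]; exact le_mul_of_one_le_left (hw.nonneg t x hx) (h1 t x hx)
  · simp only [perp2, Wave.lift2, div_eq_mul_inv]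
    module

end costs

section charts

variable {C : ℕ → ℝ} {C2 : ℕ → ℕ → ℝ} {N N' b : ℕ} {T : ℝ} {G : Type} [NormedAddCommGroup G]
  [NormedSpace ℝ G] {V : Set G} {hV : IsOpen V}

omit [NormedSpace ℝ G] in
theorem memS {t : Fam C C2} {q : Ph × G} (hT : T ≤ Kf t) (hz : q.1.1 ∈ dom N' t) (hg : q.2 ∈ V)
    [NormedSpace ℝ G] : q ∈ (scQ C C2 N' b T V hV).S t := ⟨⟨hT, hz, trivial⟩, hg⟩

theorem trunc_mem {j : ℕ} {t : Fam C C2} {q : Ph × G} (hq : q ∈ (scQ C C2 N' b T V hV).S t) :
    trunc j q ∈ (scQ C C2 N' b T V hV).S t := ⟨⟨hq.1.1, hq.1.2.1, trivial⟩, hq.2⟩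

theorem put_mem {j : ℕ} {r : ℝ} {t : Fam C C2} {q : Ph × G}
    (hq : q ∈ (scQ C C2 N' b T V hV).S t) : put j r (trunc j q) ∈ (scQ C C2 N' b T V hV).S t :=
  ⟨⟨hq.1.1, hq.1.2.1, trivial⟩, hq.2⟩

/-- A family at the lower slots. -/
theorem cost_trunc {F : Type} [NormedAddCommGroup F] [NormedSpace ℝ F]
    {w : Fam C C2 → Ph × G → ℝ} {f : Fam C C2 → Ph × G → F}
    (h : Cost (scQ C C2 N' b T V hV) w f) (j : ℕ) :
    Cost (scQ C C2 N' b T V hV) (fun t q => w t (trunc j q)) fun t q => f t (trunc j q) := by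
  simpa only [add_zero, truncL_apply] using h.comp_affine (scQ C C2 N' b T V hV)
    (fun _ => truncL G j) (fun _ => 0)
    (fun t => mul_le_of_le_one_right (zero_le_one.trans ((scQ C C2 N' b T V hV).one_le t))
      (norm_truncL G j))
    fun t q hq => by rw [add_zero, truncL_apply]; exact trunc_mem hq

/-- A power of the scale in the place of a smaller one. -/
theorem cost_pow_le {F : Type} [NormedAddCommGroup F] [NormedSpace ℝ F] {a a' : ℕ}
    {f : Fam C C2 → Ph × G → F} (h : Cost (scQ C C2 N' b T V hV) (fun t _ => Kf t ^ a) f)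
    (ha : a ≤ a') : Cost (scQ C C2 N' b T V hV) (fun t _ => Kf t ^ a') f :=
  h.mono zero_le_one (fun t _ _ => pow_nonneg (Kf_pos t).le a') fun t q _ => by
    rw [one_mul]; exact pow_le_pow_right₀ (one_le_Kf t) ha

theorem levels_d1 (I : Input) (x : Ph × G → Unk) (j : ℕ) (a : R2) (q : Ph × G)
    [FiniteDimensional ℝ G] : d1At N I x j a q =
      a 0 • d1At N I x j (pt 1 0) q + a 1 • d1At N I x j (pt 0 1) q := by
  simp only [d1At]
  conv_lhs => rw [vec_pt]
  exact D_comb _ _ _ _ _ _

variable [FiniteDimensional ℝ G] {x : Fam C C2 → Ph × G → Unk} {j : ℕ}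

/-- The first derivative in any fixed direction. -/
theorem cost_d1 {w : Fam C C2 → Ph × G → ℝ}
    (h : ∀ a ∈ axes, Cost (scQ C C2 N' b T V hV) w fun t => d1At N t.1 (x t) j a) (a : R2) :
    Cost (scQ C C2 N' b T V hV) w fun t => d1At N t.1 (x t) j a := by
  have m : ∀ c : ℝ, ∀ a' ∈ axes,
      Cost (scQ C C2 N' b T V hV) w fun t q => c • d1At N t.1 (x t) j a' q := fun c a' ha =>
    ((Cost.const c).smul (h a' ha)).mono zero_le_one (h a' ha).nonneg fun t q _ => le_rfl
  exact ((m (a 0) _ (Or.inl rfl)).add (m (a 1) _ (Or.inr rfl))).congr fun t q _ =>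
    levels_d1 t.1 (x t) j a q

omit [NormedAddCommGroup G] [NormedSpace ℝ G] [FiniteDimensional ℝ G] in
theorem one_le_bendWeight {t : Fam C C2} {q : Ph × G} (hz : q.1.1 ∈ dom N' t) (i : ℕ) :
    1 ≤ bendWeight N t.1 i q := by
  refine le_add_of_nonneg_right (Finset.sum_nonneg fun l _ => ?_)
  split_ifs
  · exact mul_nonneg (pow_nonneg (Kf_pos t).le _) (share_range N hz l).2.2.2.2.2.1.le
  · exact le_rfl

omit [NormedAddCommGroup G] [NormedSpace ℝ G] [FiniteDimensional ℝ G] in
theorem bendWeight_succ (I : Input) (hj : 9 ≤ j) (hj' : j < 11) (q : Ph × G) :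
    bendWeight N I (j + 1) q = bendWeight N I j q + (par N).k I j * levA (par N) I j q.1.1 := by
  simp only [bendWeight, Finset.sum_Ico_succ_top hj, if_pos hj', add_assoc]

omit [NormedAddCommGroup G] [NormedSpace ℝ G] [FiniteDimensional ℝ G] in
theorem bendWeight_le (C : ℕ → ℝ) (C2 : ℕ → ℕ → ℝ) (N N' j : ℕ) : ∃ c, 1 ≤ c ∧
    ∀ (t : Fam C C2) (q : Ph × G), q.1.1 ∈ dom N' t →
      bendWeight N t.1 j q ≤ c * Kf t ^ mExp j := by
  refine ⟨1 + ∑ _i ∈ Finset.Ico 9 j, max (C 0) 0,
    le_add_of_nonneg_right (Finset.sum_nonneg fun _ _ => le_max_right _ _), fun t q hz => ?_⟩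
  have hK := one_le_pow_K t (mExp j)
  rw [bendWeight, add_mul, one_mul, Finset.sum_mul]
  refine add_le_add hK (Finset.sum_le_sum fun i hi => ?_)
  obtain ⟨-, -, -, -, -, h0, h1, h2, -⟩ := share_range N hz i
  split_ifs
  · rw [mul_comm]
    exact mul_le_mul ((h1.trans h2).trans (le_max_left _ _))
      (pow_le_pow_right₀ (one_le_Kf t) (eExp_lt (Finset.mem_Ico.1 hi).2).le)
      (pow_nonneg (Kf_pos t).le _) (le_max_right _ _)
  · positivity

end charts

end Vale.Agent.P205.Stage.Lev
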