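import Vale.Agent.P205.Stage.LevelGood
import Vale.Agent.P205.Stage.LevelLin
import Vale.Agent.P205.Stage.FreeBounds
import Vale.Agent.P205.Tame.Amp

/-!
The size hypotheses of a tiny level on the open set where the kernel of its phase bends in the
map before the stage; with the set where the level is switched off this covers the charts.
-/

noncomputable section

open Set Finset Real
open scoped ContDiff

namespace Vale.Agent.P205.Stage

open Wave (V4 ip D gram2 Cost Scale Mag Sz)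
open Legal (gram3 ip_self_nonneg)
open Lev

variable {C : ℕ → ℝ} {C2 : ℕ → ℕ → ℝ}

/-! ### Two families close to each other. -/

section near

variable {X : Type} [NormedAddCommGroup X] [NormedSpace ℝ X] {σ : Scale (Fam C C2) X}
  {F : Type} [NormedAddCommGroup F] [NormedSpace ℝ F]

/-- Size at most `K ^ n`, difference at most `K ^ n` times `K ^ -r`. -/
structure Nr (σ : Scale (Fam C C2) X) (n r : ℕ) (f g : Fam C C2 → X → F) : Prop where
  fst : Cost σ (fun t _ => Kf t ^ n) f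
  snd : Cost σ (fun t _ => Kf t ^ n) g
  diff : Cost σ (fun t _ => Kf t ^ n * (Kf t ^ r)⁻¹) fun t x => f t x - g t x

namespace Nr

variable {n m r : ℕ}

omit [NormedSpace ℝ X] in
theorem wnn (n r : ℕ) : ∀ t : Fam C C2, ∀ x ∈ σ.S t, 0 ≤ Kf t ^ n * (Kf t ^ r)⁻¹ :=
  fun t _ _ => mul_nonneg (pow_nonneg (Kf_pos t).le _) (inv_nonneg.2 (pow_nonneg (Kf_pos t).le _))

omit [NormedSpace ℝ X] in
theorem pnn (n : ℕ) : ∀ t : Fam C C2, ∀ x ∈ σ.S t, 0 ≤ Kf t ^ n :=
  fun t _ _ => pow_nonneg (Kf_pos t).le _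

theorem refl {g : Fam C C2 → X → F} (hg : Cost σ (fun t _ => Kf t ^ n) g) (r : ℕ) :
    Nr σ n r g g :=
  ⟨hg, hg, (Cost.zero (wnn n r)).congr fun _ _ _ => sub_self _⟩

theorem of_diff {f g : Fam C C2 → X → F} (hg : Cost σ (fun t _ => Kf t ^ n) g)
    (hd : Cost σ (fun t _ => (Kf t ^ r)⁻¹) fun t x => f t x - g t x) : Nr σ n r f g := by
  have hd' : Cost σ (fun t _ => Kf t ^ n * (Kf t ^ r)⁻¹) fun t x => f t x - g t x :=
    hd.mono zero_le_one (wnn n r) fun t x _ => by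
      rw [one_mul]
      exact le_mul_of_one_le_left (inv_nonneg.2 (pow_nonneg (Kf_pos t).le _)) (one_le_pow_K t n)
  refine ⟨(hg.add (hd'.mono zero_le_one (pnn n) fun t x _ => ?_)).congr fun t x _ => by abel,
    hg, hd'⟩
  rw [one_mul]
  exact mul_le_of_le_one_right (pow_nonneg (Kf_pos t).le _)
    (inv_le_one_of_one_le₀ (one_le_pow_K t r))

theorem add {f g f' g' : Fam C C2 → X → F} (h : Nr σ n r f g) (h' : Nr σ n r f' g') :
    Nr σ n r (fun t x => f t x + f' t x) fun t x => g t x + g' t x :=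
  ⟨h.fst.add h'.fst, h.snd.add h'.snd, (h.diff.add h'.diff).congr fun t x _ => by abel⟩

theorem sub {f g f' g' : Fam C C2 → X → F} (h : Nr σ n r f g) (h' : Nr σ n r f' g') :
    Nr σ n r (fun t x => f t x - f' t x) fun t x => g t x - g' t x :=
  ⟨h.fst.sub h'.fst, h.snd.sub h'.snd, (h.diff.sub h'.diff).congr fun t x _ => by abel⟩

theorem mul {f g f' g' : Fam C C2 → X → ℝ} (h : Nr σ n r f g) (h' : Nr σ m r f' g') :
    Nr σ (n + m) r (fun t x => f t x * f' t x) fun t x => g t x * g' t x := by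
  refine ⟨(h.fst.mul h'.fst).mono zero_le_one (pnn _) fun t x _ => le_of_eq (by rw [pow_add]; ring),
    (h.snd.mul h'.snd).mono zero_le_one (pnn _) fun t x _ => le_of_eq (by rw [pow_add]; ring), ?_⟩
  exact (((h.diff.mul h'.fst).mono zero_le_one (wnn _ r) fun t x _ =>
    le_of_eq (by rw [pow_add]; ring)).add ((h.snd.mul h'.diff).mono zero_le_one (wnn _ r)
      fun t x _ => le_of_eq (by rw [pow_add]; ring))).congr fun t x _ => by ring

theorem ip {f g f' g' : Fam C C2 → X → V4} (h : Nr σ n r f g) (h' : Nr σ m r f' g') :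
    Nr σ (n + m) r (fun t x => Wave.ip (f t x) (f' t x)) fun t x => Wave.ip (g t x) (g' t x) := by
  refine ⟨(h.fst.ip h'.fst).mono zero_le_one (pnn _) fun t x _ => le_of_eq (by rw [pow_add]; ring),
    (h.snd.ip h'.snd).mono zero_le_one (pnn _) fun t x _ => le_of_eq (by rw [pow_add]; ring), ?_⟩
  exact (((h.diff.ip h'.fst).mono zero_le_one (wnn _ r) fun t x _ =>
    le_of_eq (by rw [pow_add]; ring)).add ((h.snd.ip h'.diff).mono zero_le_one (wnn _ r)
      fun t x _ => le_of_eq (by rw [pow_add]; ring))).congr fun t x _ => by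
        rw [Wave.ip_sub_left, Wave.ip_sub_right]; ring

theorem gram2 {p p' q q' : Fam C C2 → X → V4} (hp : Nr σ 2 r p p') (hq : Nr σ 2 r q q') :
    Nr σ 8 r (fun t x => Wave.gram2 (p t x) (q t x)) fun t x => Wave.gram2 (p' t x) (q' t x) := by
  simpa [Wave.gram2, pow_two] using ((hp.ip hp).mul (hq.ip hq)).sub ((hp.ip hq).mul (hp.ip hq))

theorem gram3 {p p' q q' w w' : Fam C C2 → X → V4} (hp : Nr σ 2 r p p') (hq : Nr σ 2 r q q')
    (hw : Nr σ 2 r w w') : Nr σ 12 r (fun t x => Legal.gram3 (p t x) (q t x) (w t x))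
      fun t x => Legal.gram3 (p' t x) (q' t x) (w' t x) := by
  have t3 : Nr σ 12 r _ _ := ((hp.ip hq).mul (hp.ip hw)).mul (hq.ip hw)
  simpa [Legal.gram3, pow_two, two_mul] using
    ((((hw.ip hw).mul (hp.gram2 hq)).sub (((hp.ip hw).mul (hp.ip hw)).mul (hq.ip hq))).add
      (t3.add t3)).sub (((hq.ip hw).mul (hq.ip hw)).mul (hp.ip hp))

/-- A family close to a relative one with a lower bound is relative and comparable to it. -/
theorem rel {f g : Fam C C2 → X → ℝ} (h : Nr σ n r f g) (h0 : Cost σ g g) {q : ℕ}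
    (hlo : ∀ t, ∀ x ∈ σ.S t, 1 ≤ Kf t ^ q * g t x) (hr : n + q + 1 ≤ r) :
    ∃ T, Cost (above σ Kf T) f f ∧
      ∀ t, ∀ x ∈ (above σ Kf T).S t, g t x / 2 ≤ f t x ∧ f t x ≤ 2 * g t x := by
  have hw : ∀ t, ∀ x ∈ σ.S t, Kf t * (Kf t ^ n * (Kf t ^ r)⁻¹) ≤ g t x := fun t x hx => by
    have hg : 0 ≤ g t x := h0.nonneg t x hx
    rw [← mul_assoc, ← pow_succ', ← div_eq_mul_inv, div_le_iff₀ (pow_pos (Kf_pos t) r)]
    calc Kf t ^ (n + 1) ≤ Kf t ^ (n + 1) * (Kf t ^ q * g t x) :=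
          le_mul_of_one_le_right (pow_nonneg (Kf_pos t).le _) (hlo t x hx)
      _ = g t x * Kf t ^ (n + 1 + q) := by rw [pow_add (Kf t) (n + 1) q]; ring
      _ ≤ g t x * Kf t ^ r :=
          mul_le_mul_of_nonneg_left (pow_le_pow_right₀ (one_le_Kf t) (by omega)) hg
  obtain ⟨T, hf, hlow⟩ := rel_perturb h0 h.diff hw
  obtain ⟨c, hc0, hc⟩ := h.diff.abs_le
  refine ⟨max T c, hf.rescale _ (fun _ => le_rfl) fun t x hx =>
    ⟨(le_max_left _ _).trans hx.1, hx.2⟩, fun t x hx =>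
      ⟨hlow t x ⟨(le_max_left _ _).trans hx.1, hx.2⟩, ?_⟩⟩
  have h1 := (abs_le.1 (hc t x hx.2)).2
  have h2 : c * (Kf t ^ n * (Kf t ^ r)⁻¹) ≤ g t x :=
    (mul_le_mul_of_nonneg_right ((le_max_right _ _).trans hx.1) (wnn n r t x hx.2)).trans
      (hw t x hx.2)
  linarith

end Nr

end near

/-! ### The zone. -/

/-- The determinant of the plane and of the second derivative along the kernel before the stage. -/
def oldDet (j : ℕ) (t : Fam C C2) (z : R2) : ℝ :=
  gram3 (D (pt 1 0) t.1.Z z) (D (pt 0 1) t.1.Z z) (D (levE j) (D (levE j) t.1.Z) z)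

/-- Where the kernel of a level bends in the map before the stage. -/
def kerZone (N' j : ℕ) (t : Fam C C2) : Set R2 :=
  {z | z ∈ dom N' t ∧ 1 < Kf t ^ 5 * oldDet j t z}

theorem isOpen_kerZone (N' j : ℕ) (t : Fam C C2) : IsOpen (kerZone N' j t) := by
  have h : ∀ a, ContDiffOn ℝ ∞ (D a t.1.Z) t.1.Ω := fun a =>
    Wave.contDiffOn_D t.2.1.open_ t.2.1.smoothZ a
  have p := h (pt 1 0)
  have q := h (pt 0 1)
  have w := Wave.contDiffOn_D t.2.1.open_ (h (levE j)) (levE j)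
  have hd : ContDiffOn ℝ ∞ (oldDet j t) t.1.Ω :=
    ((((Wave.contDiffOn_ip w w).mul (((Wave.contDiffOn_ip p p).mul (Wave.contDiffOn_ip q q)).sub
      ((Wave.contDiffOn_ip p q).pow 2))).sub (((Wave.contDiffOn_ip p w).pow 2).mul
        (Wave.contDiffOn_ip q q))).add (contDiffOn_const.mul (((Wave.contDiffOn_ip p q).mul
          (Wave.contDiffOn_ip p w)).mul (Wave.contDiffOn_ip q w)))).sub
      (((Wave.contDiffOn_ip q w).pow 2).mul (Wave.contDiffOn_ip p p))
  exact (continuousOn_const.mul (hd.continuousOn.mono fun z hz =>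
    t.2.1.sub (dom_subset N' t hz))).isOpen_inter_preimage (isOpen_dom N' t) isOpen_Ioi

/-- Above a threshold every point is in the zone or the level is switched off there. -/
theorem zone_cover (C : ℕ → ℝ) (C2 : ℕ → ℕ → ℝ) (N' : ℕ) {j : ℕ} (hj : j < 9) :
    ∃ T, ∀ t : Fam C C2, T ≤ Kf t → ∀ z ∈ dom N' t, z ∈ kerZone N' j t ∨ z ∈ offZone j t := by
  set c := Tiny.exists_weights.choose
  refine ⟨max 2 (C 0 ^ 2 / c), fun t ht z hz => ?_⟩
  by_cases ho : z ∈ offZone j t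
  · exact Or.inr ho
  refine Or.inl ⟨hz, ?_⟩
  obtain ⟨hC, hlo⟩ := old_bend_lower t hj hz ho
  have hK := Kf_pos t
  have h2 : (2 : ℝ) ≤ Kf t := (le_max_left _ _).trans ht
  have hc : C 0 ^ 2 ≤ Kf t * c :=
    (div_le_iff₀ tinyWeight_const_pos).1 ((le_max_right _ _).trans ht)
  have h1 : c / (C 0 ^ 2 * Kf t ^ 2) * (C 0 ^ 2 * Kf t ^ 2) = c := div_mul_cancel₀ _ (by positivity)
  have h3 : c ≤ oldDet j t z * (C 0 ^ 2 * Kf t ^ 2) :=
    h1.symm.le.trans (mul_le_mul_of_nonneg_right hlo (by positivity))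
  have h4 : 1 ≤ Kf t ^ 3 * oldDet j t z := by
    refine le_of_mul_le_mul_left ?_ hC
    calc C 0 ^ 2 * 1 ≤ Kf t * (oldDet j t z * (C 0 ^ 2 * Kf t ^ 2)) := by
          rw [mul_one]; exact hc.trans (mul_le_mul_of_nonneg_left h3 hK.le)
      _ = _ := by ring
  calc (1 : ℝ) < Kf t ^ 2 * 1 := by nlinarith
    _ ≤ Kf t ^ 2 * (Kf t ^ 3 * oldDet j t z) := mul_le_mul_of_nonneg_left h4 (sq_nonneg _)
    _ = _ := by ring

/-- The charts in the plane inside the zone. -/
def kerPlane (C : ℕ → ℝ) (C2 : ℕ → ℕ → ℝ) (N' b j : ℕ) (T : ℝ) : Scale (Fam C C2) R2 where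
  S t := (scZ C C2 N' b T).S t ∩ kerZone N' j t
  B := (scZ C C2 N' b T).B
  isOpen t := ((scZ C C2 N' b T).isOpen t).inter (isOpen_kerZone N' j t)
  one_le := (scZ C C2 N' b T).one_le

section space

variable {G : Type} [NormedAddCommGroup G] [NormedSpace ℝ G] {V : Set G} {hV : IsOpen V}

/-- The charts of a family inside the zone. -/
def kerScale (C : ℕ → ℝ) (C2 : ℕ → ℕ → ℝ) (N' b j : ℕ) (T : ℝ) (V : Set G) (hV : IsOpen V) :
    Scale (Fam C C2) (Ph × G) where
  S t := (scQ C C2 N' b T V hV).S t ∩ {q | q.1.1 ∈ kerZone N' j t}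
  B := (scQ C C2 N' b T V hV).B
  isOpen t := ((scQ C C2 N' b T V hV).isOpen t).inter
    ((isOpen_kerZone N' j t).preimage (continuous_fst.comp continuous_fst))
  one_le := (scQ C C2 N' b T V hV).one_le

variable {N N' b s j : ℕ} {T T' : ℝ}

theorem kerScale_subset (hT : T ≤ T') (t : Fam C C2) :
    (kerScale C C2 N' b j T' V hV).S t ⊆ (kerScale C C2 N' b j T V hV).S t :=
  inter_subset_inter_left _ (scQ_subset hT t)

theorem cost_ker {F : Type} [NormedAddCommGroup F] [NormedSpace ℝ F]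
    {w : Fam C C2 → Ph × G → ℝ} {f : Fam C C2 → Ph × G → F}
    (h : Cost (scQ C C2 N' b T V hV) w f) (hT : T ≤ T') (j : ℕ) :
    Cost (kerScale C C2 N' b j T' V hV) w f :=
  h.rescale _ (fun _ => le_rfl) fun t _ hq => scQ_subset hT t hq.1

theorem cost_ker_mono {F : Type} [NormedAddCommGroup F] [NormedSpace ℝ F]
    {w : Fam C C2 → Ph × G → ℝ} {f : Fam C C2 → Ph × G → F}
    (h : Cost (kerScale C C2 N' b j T V hV) w f) (hT : T ≤ T') :
    Cost (kerScale C C2 N' b j T' V hV) w f :=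
  h.rescale _ (fun _ => le_rfl) (kerScale_subset hT)

theorem cost_of_kerPlane {F : Type} [NormedAddCommGroup F] [NormedSpace ℝ F]
    {w : Fam C C2 → R2 → ℝ} {f : Fam C C2 → R2 → F} {b' : ℕ}
    (h : Cost (kerPlane C C2 N' b' j T) w f) (hb : b' ≤ b) :
    Cost (kerScale C C2 N' b j T V hV) (fun t q => w t q.1.1) fun t q => f t q.1.1 := by
  simpa only [add_zero, zL_apply] using h.comp_affine (kerScale C C2 N' b j T V hV)
    (fun _ => zL G) (fun _ => 0)
    (fun t => (mul_le_of_le_one_right (zero_le_one.trans ((kerPlane C C2 N' b' j T).one_le t))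
      (norm_zL G)).trans (pow_le_pow_right₀ (one_le_Kf t) hb))
    fun t q hq => by rw [add_zero, zL_apply]; exact ⟨⟨hq.1.1.1, hq.1.1.2.1⟩, hq.2⟩

/-- The charts of a tiny level inside its zone, with its magnitude and amplitude. -/
def tinyMag (C : ℕ → ℝ) (C2 : ℕ → ℕ → ℝ) (N N' b j : ℕ) (T : ℝ) (V : Set G) (hV : IsOpen V)
    (hb : b ≤ bExp) (c : ℝ) (hc : 1 ≤ c) : Mag (Fam C C2) (Ph × G) where
  toScale := kerScale C C2 N' b j T V hV
  M := (levMag C C2 N N' b j T V hV hb c hc).M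
  A := (levMag C C2 N N' b j T V hV hb c hc).A
  le_M := (levMag C C2 N N' b j T V hV hb c hc).le_M
  A_nonneg t q hq := (levMag C C2 N N' b j T V hV hb c hc).A_nonneg t q hq.1
  A_le t q hq := (levMag C C2 N N' b j T V hV hb c hc).A_le t q hq.1

/-- The wave of a tiny level on its zone. -/
abbrev tinyWave [FiniteDimensional ℝ G] (N : ℕ) (hs : Scale (Fam C C2) (Ph × G))
    (x : Fam C C2 → Ph × G → Unk) (j : ℕ) (t : Fam C C2) : Wave.Data (Ph × G) :=
  levData (par N) t.1 (x t) (hs.S t) j (mapAt N t.1 (x t) j) (restAt N t.1 (x t) j)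

theorem tiny_sz {F : Type} [NormedAddCommGroup F] [NormedSpace ℝ F] (hb : b ≤ bExp) {a m : ℕ}
    {c : ℝ} (hc : 1 ≤ c) {f : Fam C C2 → Ph × G → F}
    (h : Cost (kerScale C C2 N' b j T V hV) (fun t _ => Kf t ^ a) f) (ha : a ≤ 2 * mExp j * m) :
    Sz (tinyMag C C2 N N' b j T V hV hb c hc) 0 m f :=
  Cost.sz (μ := tinyMag C C2 N N' b j T V hV hb c hc) h zero_le_one fun t q _ => by
    simp only [tinyMag, levMag, pow_zero, one_mul, mul_pow, ← pow_mul]
    exact (pow_le_pow_right₀ (one_le_Kf t) ha).trans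
      (le_mul_of_one_le_left (pow_nonneg (Kf_pos t).le _) (one_le_pow₀ hc))

end space

/-! ### The old determinants. -/

theorem det_gram_le {p q : V4} (h : 0 < gram2 p q) (w : V4) (e v : R2) :
    (e 0 * v 1 - e 1 * v 0) ^ 2 * gram3 p q w ≤
      gram2 (e 0 • p + e 1 • q) w * ip (v 0 • p + v 1 • q) (v 0 • p + v 1 • q) := by
  rcases eq_or_ne (e 0 * v 1 - e 1 * v 0) 0 with hd | hd
  · rw [hd, zero_pow two_ne_zero, zero_mul]
    refine mul_nonneg ?_ (ip_self_nonneg _)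
    have := Legal.abs_ip_le (e 0 • p + e 1 • q) w
    rw [gram2, sub_nonneg, ← Legal.len_sq, ← Legal.len_sq, ← mul_pow, ← sq_abs]
    exact pow_le_pow_left₀ (abs_nonneg _) this 2
  set a := e 0 • p + e 1 • q
  set a' := v 0 • p + v 1 • q
  have hg : gram2 a a' = (e 0 * v 1 - e 1 * v 0) ^ 2 * gram2 p q := Legal.gram2_comb _ _ _ _ _ _
  have hpos : 0 < gram2 a a' := hg ▸ mul_pos (pow_two_pos_of_ne_zero hd) h
  have h1 := Legal.gram2_ge hpos w
  rw [Legal.perp2_basis h.ne' hd] at h1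
  have h2 : gram2 a a' ≤ ip a a * ip a' a' := sub_le_self _ (sq_nonneg _)
  rw [← Legal.perp2_sq h.ne' w]
  calc (e 0 * v 1 - e 1 * v 0) ^ 2 * (ip (perp2 p q w) (perp2 p q w) * gram2 p q)
      = ip (perp2 p q w) (perp2 p q w) * gram2 a a' := by rw [hg]; ring
    _ ≤ ip (perp2 p q w) (perp2 p q w) * (ip a a * ip a' a') :=
        mul_le_mul_of_nonneg_left h2 (ip_self_nonneg _)
    _ = ip a a * ip (perp2 p q w) (perp2 p q w) * ip a' a' := by ring
    _ ≤ _ := mul_le_mul_of_nonneg_right h1 (ip_self_nonneg _)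

/-- The old gram determinant of a level. -/
def oldGram (j : ℕ) (t : Fam C C2) (z : R2) : ℝ :=
  gram2 (D (levE j) t.1.Z z) (D (levE j) (D (levE j) t.1.Z) z)

/-- In the zone both old determinants have relative cost and are bounded below. -/
theorem old_cost (C : ℕ → ℝ) (C2 : ℕ → ℕ → ℝ) (N' j : ℕ) :
    ∃ T, Cost (kerPlane C C2 N' 19 j T) (oldDet j) (oldDet j) ∧
      Cost (kerPlane C C2 N' 19 j T) (oldGram j) (oldGram j) ∧
      ∀ t, ∀ z ∈ (kerPlane C C2 N' 19 j T).S t,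
        1 ≤ Kf t ^ 5 * oldDet j t z ∧ 1 ≤ Kf t ^ 10 * oldGram j t z ∧ oldGram j t z ≤ Kf t ^ 9 := by
  set σ := kerPlane C C2 N' 1 j 1
  have hs : ∀ t, σ.S t ⊆ (scZ C C2 N' 1 1).S t := fun t => inter_subset_left
  have d1 : ∀ a, Cost σ (fun t _ => Kf t ^ 2) fun t => D a t.1.Z := fun a =>
    ((Z_cost N' 1 a 0).1.rescale σ (fun _ => le_rfl) hs).mono zero_le_one (Nr.pnn 2)
      fun t _ _ => by rw [one_mul]; exact pow_le_pow_right₀ (one_le_Kf t) (by norm_num)
  have d2 : Cost σ (fun t _ => Kf t ^ 2) fun t => D (levE j) (D (levE j) t.1.Z) :=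
    (Z_cost N' 1 (levE j) (levE j)).2.rescale σ (fun _ => le_rfl) hs
  have n1 := fun a => Nr.refl (d1 a) 0
  have n2 := Nr.refl d2 0
  have hdet : Cost σ (fun t _ => Kf t ^ 12) (oldDet j) :=
    ((n1 (pt 1 0)).gram3 (n1 (pt 0 1)) n2).fst
  have hgr : Cost σ (fun t _ => Kf t ^ 8) (oldGram j) := ((n1 (levE j)).gram2 n2).fst
  have hvv : Cost σ (fun t _ => Kf t ^ 4)
      fun t z => ip (D (levV j) t.1.Z z) (D (levV j) t.1.Z z) :=
    ((n1 (levV j)).ip (n1 (levV j))).fst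
  obtain ⟨cv, hcv0, hcv⟩ := hvv.abs_le
  obtain ⟨cg, hcg0, hcg⟩ := hgr.abs_le
  set δ := (levE j 0 * levV j 1 - levE j 1 * levV j 0) ^ 2
  have hδ : 0 < δ := pow_two_pos_of_ne_zero (lev_det j)
  set T := max (max 1 cg) (cv / δ)
  have hsub : ∀ t, (kerPlane C C2 N' 19 j T).S t ⊆ σ.S t := fun t z hz =>
    ⟨⟨((le_max_left 1 cg).trans (le_max_left _ _)).trans hz.1.1, hz.1.2⟩, hz.2⟩
  have key : ∀ t, ∀ z ∈ (kerPlane C C2 N' 19 j T).S t,
      1 ≤ Kf t ^ 5 * oldDet j t z ∧ 1 ≤ Kf t ^ 10 * oldGram j t z ∧ oldGram j t z ≤ Kf t ^ 9 := by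
    intro t z hz
    have hK := Kf_pos t
    have hd : 1 ≤ Kf t ^ 5 * oldDet j t z := hz.2.2.le
    have hΩ : z ∈ t.1.Ω := hz.1.2.1
    have hle := det_gram_le (t.2.1.imm z hΩ) (D (levE j) (D (levE j) t.1.Z) z) (levE j) (levV j)
    have ec : ∀ a : R2, a 0 • D (pt 1 0) t.1.Z z + a 1 • D (pt 0 1) t.1.Z z = D a t.1.Z z :=
      fun a => by rw [← Legal.D_comb, ← pt_eq]
    rw [ec, ec] at hle
    have hv := (le_abs_self _).trans (hcv t z (hsub t hz))
    have hcvK : cv ≤ Kf t * δ := (div_le_iff₀ hδ).1 ((le_max_right _ _).trans hz.1.1)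
    have hdet0 : 0 < oldDet j t z :=
      pos_of_mul_pos_right (zero_lt_one.trans_le hd) (pow_nonneg hK.le _)
    have hG : 0 ≤ oldGram j t z := by
      by_contra hneg
      exact absurd ((mul_pos hδ hdet0).trans_le hle) (not_lt.2
        (mul_nonpos_of_nonpos_of_nonneg (not_le.1 hneg).le (ip_self_nonneg _)))
    refine ⟨hd, ?_, ((le_abs_self _).trans (hcg t z (hsub t hz))).trans ?_⟩
    · refine le_of_mul_le_mul_left ?_ hδ
      calc δ * 1 ≤ δ * (Kf t ^ 5 * oldDet j t z) := mul_le_mul_of_nonneg_left hd hδ.le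
        _ = Kf t ^ 5 * (δ * oldDet j t z) := by ring
        _ ≤ Kf t ^ 5 * (oldGram j t z * (cv * Kf t ^ 4)) :=
            mul_le_mul_of_nonneg_left (hle.trans (mul_le_mul_of_nonneg_left hv hG))
              (pow_nonneg hK.le _)
        _ ≤ Kf t ^ 5 * (oldGram j t z * (Kf t * δ * Kf t ^ 4)) := by gcongr
        _ = _ := by ring
    · calc cg * Kf t ^ 8 ≤ Kf t * Kf t ^ 8 := mul_le_mul_of_nonneg_right
            (((le_max_right 1 cg).trans (le_max_left _ _)).trans hz.1.1) (pow_nonneg hK.le _)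
        _ = _ := (pow_succ' _ _).symm
  set σ' := kerPlane C C2 N' 1 j T
  have hsub' : ∀ t, σ'.S t ⊆ σ.S t := fun t z hz => hsub t ⟨⟨hz.1.1, hz.1.2⟩, hz.2⟩
  have rel : ∀ {f : Fam C C2 → R2 → ℝ} {a q : ℕ}, Cost σ (fun t _ => Kf t ^ a) f →
      (∀ t, ∀ z ∈ σ'.S t, 1 ≤ Kf t ^ q * f t z) → 1 + (a + q) ≤ 19 →
      Cost (kerPlane C C2 N' 19 j T) f f := fun {f a q} h hlo haq =>
    (h.rescale σ' (fun _ => le_rfl) hsub').rel_of_lower (Q := fun t => Kf t ^ q)
      (fun t => one_le_pow_K t a) (fun t => one_le_pow_K t q) hlo _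
      (fun t z hz => ⟨⟨hz.1.1, hz.1.2⟩, hz.2⟩) fun t => by
        show Kf t ^ 1 * (Kf t ^ a * Kf t ^ q) ≤ Kf t ^ 19
        rw [← pow_add, ← pow_add]
        exact pow_le_pow_right₀ (one_le_Kf t) haq
  exact ⟨T, rel hdet (fun t z hz => (key t z ⟨⟨hz.1.1, hz.1.2⟩, hz.2⟩).1) (by norm_num),
    rel hgr (fun t z hz => (key t z ⟨⟨hz.1.1, hz.1.2⟩, hz.2⟩).2.1) (by norm_num), key⟩

/-! ### The level. -/

section level

variable {G : Type} [NormedAddCommGroup G] [NormedSpace ℝ G] [FiniteDimensional ℝ G] {V : Set G}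
  {hV : IsOpen V} {N N' b s j : ℕ} {T : ℝ} {x : Fam C C2 → Ph × G → Unk}

/-- The amplitude of a tiny level. -/
theorem tiny_amp (hb : bMin ≤ b) (hj : j < 9) (hx : Small N' b s T V hV x) :
    ∃ T', T ≤ T' ∧
      Cost (scQ C C2 N' b T' V hV) (fun t q => levA (par N) t.1 j q.1.1)
        (fun t => amp (par N) t.1 (x t) j (restAt N t.1 (x t) j)) := by
  obtain ⟨T₁, hT₁, hg, hr⟩ := gam_cost N (show 1 ≤ b by unfold bMin at hb; omega) hx
  refine ⟨max T₁ (cT C), hT₁.trans (le_max_left _ _), ?_⟩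
  set T' := max T₁ (cT C)
  set σ := scQ C C2 N' b T' V hV
  have hw := cost_of_plane (hV := hV) (tinyWeight_cost (C := C) (C2 := C2) N' (b := b) (T := T')
    (show 25 ≤ b by unfold bMin at hb; omega) (le_max_right _ _) (tripleOf j))
  have h1 : ∀ t, ∀ q ∈ σ.S t, (0 : ℝ) ≤ 1 := fun _ _ _ => zero_le_one
  have hγ : ∀ i, Cost σ (fun _ _ => 1) fun t => gam (par N) t.1 (x t) i := fun i =>
    cost_scQ (hg i) le_rfl (le_max_left _ _)
  have hvec : Cost σ (fun _ _ => 1) fun t q => (![gam (par N) t.1 (x t) 0 q / 2,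
      gam (par N) t.1 (x t) 1 q, gam (par N) t.1 (x t) 2 q] : Fin 3 → ℝ) := by
    refine Cost.pi h1 fun i => ?_
    fin_cases i
    · exact (((Cost.const (1 / 2 : ℝ)).mul (hγ 0)).mono zero_le_one h1 fun _ _ _ => by
        simp).congr fun t q _ => by simp; ring
    · exact (hγ 1).congr fun t q _ => by simp
    · exact (hγ 2).congr fun t q _ => by simp
  set g : (Fin 3 → ℝ) → ℝ := fun β =>
    Tiny.coefT (tripleOf j) (memberOf j) (Tiny.nominal β)
  have hgc : ContDiff ℝ ∞ g := by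
    refine (Tiny.contDiff_coefT _ _).comp ?_
    unfold Tiny.nominal sqForm
    fun_prop
  have hpos : ∀ β ∈ Icc (fun _ : Fin 3 => (1 / 64 : ℝ)) (fun _ => 32), 0 < g β := fun β hβ =>
    lt_of_lt_of_le (by norm_num) (Tiny.coefT_nominal _ _ fun l => ⟨hβ.1 l, hβ.2 l⟩)
  have hs : Cost σ (fun _ _ => 1) fun t q => sqrt (g ![gam (par N) t.1 (x t) 0 q / 2,
      gam (par N) t.1 (x t) 1 q, gam (par N) t.1 (x t) 2 q]) := by
    refine hvec.comp_smooth (g := fun β => sqrt (g β)) (U := {β | 0 < g β})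
      (isOpen_lt continuous_const hgc.continuous) (isCompact_Icc) hpos
      (hgc.contDiffOn.sqrt fun β hβ => ne_of_gt hβ) fun t q hq => ?_
    have h := hr t q (scQ_subset (le_max_left _ _) t hq)
    obtain ⟨a0, b0⟩ := h 0
    obtain ⟨a1, b1⟩ := h 1
    obtain ⟨a2, b2⟩ := h 2
    constructor <;> intro l <;> fin_cases l <;> simp <;> linarith
  have hA : Cost σ (fun t q => levA (par N) t.1 j q.1.1)
      fun t q => levA (par N) t.1 j q.1.1 := levA_cost hb j
  exact (((hw.mul hA).mul hs).mono zero_le_one hA.nonneg fun t q _ => le_of_eq (by ring)).congr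
    fun t q _ => by simp only [amp, levA, if_pos hj, g]; ring

omit [FiniteDimensional ℝ G] in
theorem frame_det (j : ℕ) : 0 < (levE j 0 * levV j 1 - levE j 1 * levV j 0) ^ 2 :=
  pow_two_pos_of_ne_zero (lev_det j)

omit [FiniteDimensional ℝ G] in
/-- The closeness along the kernel. -/
theorem ker_close (hM : MapOK N N' b T V hV x j) (hj : j < 9) :
    Cost (scQ C C2 N' b T V hV) (fun t _ => (Kf t ^ (4 * bExp))⁻¹)
        (fun t q => d1At N t.1 (x t) j (levE j) q - D (levE j) t.1.Z q.1.1) ∧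
      Cost (scQ C C2 N' b T V hV) (fun t _ => (Kf t ^ (4 * bExp))⁻¹)
        fun t q => d2At N t.1 (x t) j (levE j) (levE j) q -
          D (levE j) (D (levE j) t.1.Z) q.1.1 := by
  set σ := scQ C C2 N' b T V hV
  set e := levE j
  have hn : ∀ t, ∀ q ∈ σ.S t, 0 ≤ (Kf t ^ (4 * bExp))⁻¹ := fun t _ _ =>
    inv_nonneg.2 (pow_nonneg (Kf_pos t).le _)
  have sm : ∀ (r : ℝ) {f : Fam C C2 → Ph × G → V4},
      Cost σ (fun t _ => (Kf t ^ (4 * bExp))⁻¹) f →
      Cost σ (fun t _ => (Kf t ^ (4 * bExp))⁻¹) fun t q => r • f t q := fun r f h =>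
    ((Cost.const r).smul h).mono zero_le_one hn fun t q _ => le_rfl
  have c1 := fun a (ha : a ∈ axes) => hM.close₁ (by omega) a ha
  have c2 := fun a (ha : a ∈ axes) a' (ha' : a' ∈ axes) => hM.close₂ (by omega) a ha a' ha'
  refine ⟨((sm (e 0) (c1 _ (Or.inl rfl))).add (sm (e 1) (c1 _ (Or.inr rfl)))).congr
      fun t q _ => ?_,
    ((((sm (e 0 * e 0) (c2 _ (Or.inl rfl) _ (Or.inl rfl))).add
      (sm (e 0 * e 1) (c2 _ (Or.inl rfl) _ (Or.inr rfl)))).add
      (sm (e 1 * e 0) (c2 _ (Or.inr rfl) _ (Or.inl rfl)))).add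
      (sm (e 1 * e 1) (c2 _ (Or.inr rfl) _ (Or.inr rfl)))).congr fun t q hq => ?_⟩
  · have ez : D e t.1.Z q.1.1 =
        e 0 • D (pt 1 0) t.1.Z q.1.1 + e 1 • D (pt 0 1) t.1.Z q.1.1 := by
      rw [← Legal.D_comb, ← pt_eq]
    rw [congrFun (d1At_comb N t.1 (x t) j e) q, ez]
    module
  · have hZ : ContDiffAt ℝ 2 t.1.Z q.1.1 :=
      (t.2.1.smoothZ.contDiffAt (t.2.1.open_.mem_nhds hq.1.2.1.1)).of_le
        (by exact WithTop.coe_le_coe.2 le_top)
    have ez : D e (D e t.1.Z) q.1.1 = (e 0 * e 0) • D (pt 1 0) (D (pt 1 0) t.1.Z) q.1.1 +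
        (e 0 * e 1) • D (pt 1 0) (D (pt 0 1) t.1.Z) q.1.1 +
        (e 1 * e 0) • D (pt 0 1) (D (pt 1 0) t.1.Z) q.1.1 +
        (e 1 * e 1) • D (pt 0 1) (D (pt 0 1) t.1.Z) q.1.1 := by
      conv_lhs => rw [pt_eq e]
      rw [Legal.D_comb, Legal.D2_comb hZ, Legal.D2_comb hZ]
      simp only [smul_add, smul_smul]
      module
    rw [d2At_comb N t.1 (x t) j (σ.isOpen t) (hM.smooth t) e e hq, ez]
    module

/-- The determinants of a tiny level in its zone. -/
theorem tiny_dets (hb : bMin ≤ b) (hM : MapOK N N' b T V hV x j) (hj : j < 9) :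
    ∃ T', T ≤ T' ∧
      Cost (kerScale C C2 N' b j T' V hV)
        (fun t q => gram2 (d1At N t.1 (x t) j (levE j) q) (d2At N t.1 (x t) j (levE j) (levE j) q))
        (fun t q => gram2 (d1At N t.1 (x t) j (levE j) q) (d2At N t.1 (x t) j (levE j) (levE j) q)) ∧
      Cost (kerScale C C2 N' b j T' V hV)
        (fun t q => gram3 (d1At N t.1 (x t) j (pt 1 0) q) (d1At N t.1 (x t) j (pt 0 1) q)
          (d2At N t.1 (x t) j (levE j) (levE j) q))
        (fun t q => gram3 (d1At N t.1 (x t) j (pt 1 0) q) (d1At N t.1 (x t) j (pt 0 1) q)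
          (d2At N t.1 (x t) j (levE j) (levE j) q)) ∧
      ∀ t, ∀ q ∈ (kerScale C C2 N' b j T' V hV).S t,
        1 ≤ Kf t ^ 6 * gram3 (d1At N t.1 (x t) j (pt 1 0) q) (d1At N t.1 (x t) j (pt 0 1) q)
          (d2At N t.1 (x t) j (levE j) (levE j) q) ∧
        1 ≤ Kf t ^ 11 *
          gram2 (d1At N t.1 (x t) j (levE j) q) (d2At N t.1 (x t) j (levE j) (levE j) q) ∧
        gram2 (d1At N t.1 (x t) j (levE j) q) (d2At N t.1 (x t) j (levE j) (levE j) q) ≤
          Kf t ^ 10 := by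
  obtain ⟨T₀, hd, hg, hlo⟩ := old_cost C C2 N' j
  have hb' : 30 ≤ b := hb
  set T₁ := max (max T T₀) 2
  set σ := kerScale C C2 N' b j T₁ V hV
  have hT₀ : ∀ t, ∀ q ∈ σ.S t, q.1.1 ∈ (kerPlane C C2 N' 19 j T₀).S t := fun t q hq =>
    ⟨⟨((le_max_right T T₀).trans (le_max_left _ 2)).trans hq.1.1.1, hq.1.1.2.1⟩, hq.2⟩
  have hd' : Cost σ (fun t q => oldDet j t q.1.1) fun t q => oldDet j t q.1.1 :=
    cost_ker_mono (cost_of_kerPlane hd (by omega)) ((le_max_right T T₀).trans (le_max_left _ 2))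
  have hg' : Cost σ (fun t q => oldGram j t q.1.1) fun t q => oldGram j t q.1.1 :=
    cost_ker_mono (cost_of_kerPlane hg (by omega)) ((le_max_right T T₀).trans (le_max_left _ 2))
  have hZ : ∀ a, Cost σ (fun t _ => Kf t ^ 2) fun t q => D a t.1.Z q.1.1 := fun a =>
    (cost_ker (cost_of_plane (hV := hV) ((Z_cost N' T₁ a 0).1.rescale (scZ C C2 N' b T₁)
      (scZ_le (by omega) le_rfl).1 fun t => (scZ_le (by omega) le_rfl).2 t)) le_rfl j).mono
        zero_le_one (Nr.pnn 2) fun t q _ => by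
          rw [one_mul]; exact pow_le_pow_right₀ (one_le_Kf t) (by norm_num)
  have hZ2 : Cost σ (fun t _ => Kf t ^ 2) fun t q => D (levE j) (D (levE j) t.1.Z) q.1.1 :=
    cost_ker (cost_of_plane (hV := hV) ((Z_cost N' T₁ (levE j) (levE j)).2.rescale
      (scZ C C2 N' b T₁) (scZ_le (by omega) le_rfl).1
        fun t => (scZ_le (by omega) le_rfl).2 t)) le_rfl j
  have hTT : T ≤ T₁ := (le_max_left _ _).trans (le_max_left _ _)
  obtain ⟨k1, k2⟩ := ker_close hM hj
  have npe := Nr.of_diff (hZ (levE j)) (cost_ker k1 hTT j)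
  have nw := Nr.of_diff hZ2 (cost_ker k2 hTT j)
  have np := Nr.of_diff (hZ (pt 1 0)) (cost_ker (hM.close₁ (by omega) _ (Or.inl rfl)) hTT j)
  have nq := Nr.of_diff (hZ (pt 0 1)) (cost_ker (hM.close₁ (by omega) _ (Or.inr rfl)) hTT j)
  have hr : 12 + 5 + 1 ≤ 4 * bExp := by simp [bExp]
  obtain ⟨Td, hD, hD2⟩ := (np.gram3 nq nw).rel hd' (q := 5)
    (fun t q hq => (hlo t _ (hT₀ t q hq)).1) hr
  obtain ⟨Tg, hG, hG2⟩ := (npe.gram2 nw).rel hg' (q := 10)
    (fun t q hq => (hlo t _ (hT₀ t q hq)).2.1) (by simp [bExp])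
  set T' := max T₁ (max Td Tg)
  have hsd : ∀ t, (kerScale C C2 N' b j T' V hV).S t ⊆ (above σ Kf Td).S t := fun t q hq =>
    ⟨((le_max_left Td Tg).trans (le_max_right T₁ _)).trans hq.1.1.1,
      kerScale_subset (le_max_left T₁ _) t hq⟩
  have hsg : ∀ t, (kerScale C C2 N' b j T' V hV).S t ⊆ (above σ Kf Tg).S t := fun t q hq =>
    ⟨((le_max_right Td Tg).trans (le_max_right T₁ _)).trans hq.1.1.1,
      kerScale_subset (le_max_left T₁ _) t hq⟩
  refine ⟨T', hTT.trans (le_max_left _ _), hG.rescale _ (fun _ => le_rfl) hsg,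
    hD.rescale _ (fun _ => le_rfl) hsd, fun t q hq => ?_⟩
  have hK := Kf_pos t
  have h2 : (2 : ℝ) ≤ Kf t := ((le_max_right _ _).trans (le_max_left T₁ _)).trans hq.1.1.1
  obtain ⟨l1, l2, l3⟩ := hlo t _ (hT₀ t q (kerScale_subset (le_max_left T₁ _) t hq))
  obtain ⟨a1, -⟩ := hD2 t q (hsd t hq)
  obtain ⟨b1, b2⟩ := hG2 t q (hsg t hq)
  have p1 : 0 ≤ Kf t ^ 5 := pow_nonneg hK.le _
  have p2 : 0 ≤ Kf t ^ 10 := pow_nonneg hK.le _
  simp only [oldDet, oldGram] at l1 l2 l3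
  refine ⟨?_, ?_, ?_⟩
  · rw [pow_succ, mul_assoc]
    nlinarith [mul_le_mul_of_nonneg_left a1 p1]
  · rw [pow_succ, mul_assoc]
    nlinarith [mul_le_mul_of_nonneg_left b1 p2]
  · rw [pow_succ]
    nlinarith [pow_nonneg hK.le 9]

/-- **The recursion of a tiny level is in the calculus on its zone**, with magnitude
`c K ^ (2 mExp j)`, and zone and switched-off set cover the charts. -/
theorem tiny_bounds (hb : bMin ≤ b) (hb' : b ≤ bExp) (hj : j < 9)
    (hx : Small N' b s T V hV x) (hM : MapOK N N' b T V hV x j) :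
    ∃ T', T ≤ T' ∧ (∃ (c : ℝ) (hc : 1 ≤ c),
        Wave.Data.Bounds (tinyMag C C2 N N' b j T' V hV hb' c hc)
          (tinyWave N (kerScale C C2 N' b j T' V hV) x j)) ∧
      ∀ t, ∀ q ∈ (scQ C C2 N' b T' V hV).S t,
        q.1.1 ∈ kerZone N' j t ∨ q.1.1 ∈ offZone j t := by
  obtain ⟨T₁, hT₁, hG, hD, hlo⟩ := tiny_dets hb hM hj
  obtain ⟨T₂, hT₂, hρ⟩ := tiny_amp (N := N) hb hj hx
  obtain ⟨T₃, hT₃, -, hr⟩ := gam_cost N (show 1 ≤ b by unfold bMin at hb; omega) hx
  obtain ⟨T₄, hcov⟩ := zone_cover C C2 N' hj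
  obtain ⟨cv, hcv0, hcv⟩ := exists_norm_vec (G := G) (levV j) N j
  obtain ⟨ce, hce0, hce⟩ := exists_norm_vec (G := G) (levE j) N j
  set δ := (levE j 0 * levV j 1 - levE j 1 * levV j 0) ^ 2 with hδ'
  have hδ : 0 < δ := pow_two_pos_of_ne_zero (lev_det j)
  set T' := max (max (max T₁ T₂) (max T₃ T₄)) (max 1 δ⁻¹)
  have u1 : T₁ ≤ T' := (le_max_left _ _).trans ((le_max_left _ _).trans (le_max_left _ _))
  have u2 : T₂ ≤ T' := (le_max_right _ _).trans ((le_max_left _ _).trans (le_max_left _ _))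
  have u3 : T₃ ≤ T' := (le_max_left _ _).trans ((le_max_right _ _).trans (le_max_left _ _))
  have u4 : T₄ ≤ T' := (le_max_right _ _).trans ((le_max_right _ _).trans (le_max_left _ _))
  have hT : T ≤ T' := hT₁.trans u1
  refine ⟨T', hT, ?_, fun t q hq => hcov t (u4.trans hq.1.1) _ hq.1.2.1⟩
  set c := max 1 (max cv ce)
  have hc : 1 ≤ c := le_max_left _ _
  refine ⟨c, hc, ?_⟩
  set σ := kerScale C C2 N' b j T' V hV
  have sub : ∀ {t : Fam C C2} {q : Ph × G}, q ∈ σ.S t → q ∈ (scQ C C2 N' b T V hV).S t :=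
    fun {t q} hq => scQ_subset hT t hq.1
  have hm : bExp ≤ mExp j := (mExp_grows j).1
  have hcl : cLev j = 1000 := by simp [cLev, max_eq_right (show j ≤ 9 by omega)]
  have ga : ∀ {t : Fam C C2} {q : Ph × G}, q ∈ σ.S t → 0 < areaAt N t.1 (x t) j q :=
    fun {t q} hq => pos_of_mul_pos_right (zero_lt_one.trans_le (hM.area_lo t q (sub hq)))
      (pow_nonneg (Kf_pos t).le _)
  have lo : ∀ t, ∀ q ∈ σ.S t, _ := fun t q hq => hlo t q (kerScale_subset u1 t hq)
  have gd : ∀ {t : Fam C C2} {q : Ph × G}, q ∈ σ.S t → 0 <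
      gram3 (d1At N t.1 (x t) j (pt 1 0) q) (d1At N t.1 (x t) j (pt 0 1) q)
        (d2At N t.1 (x t) j (levE j) (levE j) q) := fun {t q} hq =>
    pos_of_mul_pos_right (zero_lt_one.trans_le (lo t q hq).1) (pow_nonneg (Kf_pos t).le _)
  have gg : ∀ {t : Fam C C2} {q : Ph × G}, q ∈ σ.S t → 0 <
      gram2 (d1At N t.1 (x t) j (levE j) q) (d2At N t.1 (x t) j (levE j) (levE j) q) :=
    fun {t q} hq =>
      pos_of_mul_pos_right (zero_lt_one.trans_le (lo t q hq).2.1) (pow_nonneg (Kf_pos t).le _)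
  have gk : ∀ {t : Fam C C2} {q : Ph × G}, q ∈ σ.S t →
      0 < ip (kerBend N t.1 (x t) j q) (kerBend N t.1 (x t) j q) := fun {t q} hq => by
    have := gd hq
    rw [← Legal.perp2_sq (ga hq).ne'] at this
    exact pos_of_mul_pos_left this (ga hq).le
  set W := tinyWave N σ x j
  have ea : ∀ t, ∀ q ∈ σ.S t, (W t).aa q ^ 2 = δ *
      (gram3 (d1At N t.1 (x t) j (pt 1 0) q) (d1At N t.1 (x t) j (pt 0 1) q)
        (d2At N t.1 (x t) j (levE j) (levE j) q) *
      (gram2 (d1At N t.1 (x t) j (levE j) q) (d2At N t.1 (x t) j (levE j) (levE j) q))⁻¹) := by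
    intro t q hq
    have hf : gram2 ((W t).Ze q) ((W t).Zv q) = δ * areaAt N t.1 (x t) j q := gram_frame (N := N) q
    have h := Legal.aa_sq_mul (W t) (x := q)
      (hf ▸ mul_ne_zero hδ.ne' (ga hq).ne') (gg hq).ne'
    rw [show Legal.nn (W t).e (W t).v (W t).Z (W t).e (W t).e q = kerBend N t.1 (x t) j q from
      kerBend_eq (N := N) (ga hq).ne', hf] at h
    rw [← Legal.perp2_sq (ga hq).ne', ← mul_assoc, eq_mul_inv_iff_mul_eq₀ (gg hq).ne']
    exact h.trans (by simp only [kerBend, areaAt]; ring)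
  have hA : ∀ t, ∀ q ∈ σ.S t, 1 ≤ Kf t ^ 17 * (W t).aa q ^ 2 := fun t q hq => by
    obtain ⟨l1, -, l3⟩ := lo t q hq
    have hK := Kf_pos t
    have hKd : 1 ≤ Kf t * δ := (inv_le_iff_one_le_mul₀ hδ).1
      (((le_max_right _ _).trans (le_max_right _ _)).trans hq.1.1.1)
    rw [ea t q hq]
    set D3 := gram3 (d1At N t.1 (x t) j (pt 1 0) q) (d1At N t.1 (x t) j (pt 0 1) q)
      (d2At N t.1 (x t) j (levE j) (levE j) q)
    set G2 := gram2 (d1At N t.1 (x t) j (levE j) q) (d2At N t.1 (x t) j (levE j) (levE j) q)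
    have hG0 : 0 < G2 := gg hq
    rw [← mul_assoc, ← mul_assoc, ← div_eq_mul_inv, le_div_iff₀ hG0, one_mul]
    calc G2 ≤ Kf t ^ 10 * 1 * 1 := by rw [mul_one, mul_one]; exact l3
      _ ≤ Kf t ^ 10 * (Kf t * δ) * (Kf t ^ 6 * D3) := by gcongr
      _ = _ := by ring
  have hd : ∀ a, Cost σ (fun t _ => Kf t ^ cLev j) fun t => d1At N t.1 (x t) j a := fun a =>
    cost_ker (Lev.cost_d1 hM.d1s a) hT j
  have hγ : ∀ t, ∀ q ∈ σ.S t, ∀ i, gam (par N) t.1 (x t) i q ∈ Icc (1 / 32 : ℝ) 17 :=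
    fun t q hq => hr t q (scQ_subset u3 t hq.1)
  have nv : ∀ t : Fam C C2, ∀ {a : R2} {ca : ℝ}, ‖vec (par N) t.1 G j a‖ ≤ ca * Kf t ^ mExp j →
      ca ≤ c → ‖vec (par N) t.1 G j a‖ ≤ c * Kf t ^ (2 * mExp j) := fun t {a ca} h hca =>
    h.trans (mul_le_mul hca (pow_le_pow_right₀ (one_le_Kf t) (by omega))
      (pow_nonneg (Kf_pos t).le _) (zero_le_one.trans hc))
  have hM2 : ∀ (t : Fam C C2) (n : ℕ), n ≤ 2 * mExp j → Kf t ^ n ≤ c * Kf t ^ (2 * mExp j) :=
    fun t n hn => (pow_le_pow_right₀ (one_le_Kf t) hn).trans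
      (le_mul_of_one_le_left (pow_nonneg (Kf_pos t).le _) hc)
  exact
    { good := fun t => legal_good hx t (by simp [isFree]; omega) (σ.isOpen t)
        (fun q hq => sub hq) ((hM.smooth t).mono fun q hq => sub hq)
        ((hM.rest.smooth t).mono fun q hq => sub hq) (hγ t) (fun h => by omega)
        (fun q hq => ga hq) fun q hq => gk hq
      dom := fun t => subset_rfl
      norm_v := fun t => nv t (hcv t.1 t.2.2) ((le_max_left _ _).trans (le_max_right _ _))
      norm_e := fun t => nv t (hce t.1 t.2.2) ((le_max_right _ _).trans (le_max_right _ _))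
      ze := tiny_sz hb' hc (hd (levE j)) (by simp only [bExp] at hm; omega)
      zv := tiny_sz hb' hc (hd (levV j)) (by simp only [bExp] at hm; omega)
      gram := cost_ker_mono hG u1
      gram_lo := fun t q hq => by
        show 1 ≤ c * Kf t ^ (2 * mExp j) *
          gram2 (d1At N t.1 (x t) j (levE j) q) (d2At N t.1 (x t) j (levE j) (levE j) q)
        exact (lo t q hq).2.1.trans (mul_le_mul_of_nonneg_right
          (hM2 t 11 (by simp only [bExp] at hm; omega)) (gg hq).le)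
      aaSq := by
        have h := ((Cost.const (σ := σ) δ).mul
          ((cost_ker_mono hD u1).mul ((cost_ker_mono hG u1).rel_inv fun t q hq => gg hq))).congr
            (g := fun t q => (W t).aa q ^ 2) fun t q hq => ea t q hq
        refine h.mono (c := δ⁻¹) (inv_nonneg.2 hδ.le) (fun t q _ => sq_nonneg _) fun t q hq => ?_
        rw [ea t q hq, ← mul_assoc δ⁻¹, inv_mul_cancel₀ hδ.ne']
      aa_lo := fun t q hq => (hA t q hq).trans (mul_le_mul_of_nonneg_right
        (hM2 t 17 (by simp only [bExp] at hm; omega)) (sq_nonneg _))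
      rho := by
        refine Cost.sz (μ := tinyMag C C2 N N' b j T' V hV hb' c hc) (cost_ker hρ u2 j)
          (c := max 1 (C 0)) (by positivity) fun t q hq => ?_
        simp only [tinyMag, levMag, pow_one, pow_zero, mul_one]
        rw [mul_div_cancel₀ _ (by positivity)]
      rhoRel := (cost_ker hρ u2 j).mono zero_le_one (fun _ _ _ => Real.sqrt_nonneg _) fun t q hq => by
        rw [one_mul]
        have hz : q.1.1 ∈ dom N' t := hq.1.1.2.1
        have hA2 : levA (par N) t.1 j q.1.1 ≤ (Kf t ^ 17)⁻¹ := by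
          rw [levA, if_pos hj]
          refine (share_range N hz j).2.2.2.2.1.trans (inv_anti₀ (pow_pos (Kf_pos t) 17)
            (pow_le_pow_right₀ (one_le_Kf t) ?_))
          show 17 ≤ pExp
          have := bExp_le_tinyM 9
          simp only [pExp, bExp] at *
          omega
        refine Real.le_sqrt_of_sq_le ?_
        have h0 : 0 ≤ levA (par N) t.1 j q.1.1 := (share_range N hz j).2.2.2.2.2.1.le
        have h1 : (Kf t ^ 17)⁻¹ ≤ (W t).aa q ^ 2 := by
          rw [inv_le_iff_one_le_mul₀' (pow_pos (Kf_pos t) 17)]; exact hA t q hq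
        have h2 : levA (par N) t.1 j q.1.1 ≤ 1 :=
          hA2.trans (inv_le_one_of_one_le₀ (one_le_pow_K t 17))
        nlinarith [sq_nonneg ((W t).rho q), mul_le_of_le_one_right h0 h2]
      err := fun n => by
        rcases eq_or_ne n 2 with rfl | hn
        · refine Cost.sz (μ := (tinyMag C C2 N N' b j T' V hV hb' c hc).fast)
            ((err_cost hb hx j 2).rescale _ (fun _ => le_rfl)
              fun t => prod_mono (fun q hq => sub hq) subset_rfl)
            (c := max 1 (C 0)) (by positivity) fun t p hp => ?_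
          have hA : 0 ≤ levA (par N) t.1 j p.1.1.1 :=
            (share_range N hp.1.1.1.2.1 j).2.2.2.2.2.1.le
          have h0 : (0 : ℝ) < max 1 (C 0) := by positivity
          have hk : 0 < Kf t ^ eExp j := pow_pos (Kf_pos t) _
          simp only [tinyMag, levMag, Mag.fast, pow_one]
          rw [← mul_assoc (max 1 (C 0)), mul_div_cancel₀ _ h0.ne']
          calc (Kf t ^ eExp j) ^ 2 * (levA (par N) t.1 j p.1.1.1 / (Kf t ^ eExp j) ^ 2) *
                (Kf t ^ s)⁻¹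
              = levA (par N) t.1 j p.1.1.1 * (Kf t ^ s)⁻¹ := by field_simp
            _ ≤ levA (par N) t.1 j p.1.1.1 :=
                mul_le_of_le_one_right hA (inv_le_one_of_one_le₀ (one_le_pow_K t s))
            _ ≤ _ := le_mul_of_one_le_right hA (one_le_pow₀
                (one_le_mul_of_one_le_of_one_le hc (one_le_pow_K t _)))
        · refine Sz.zero.congr fun t p _ => ?_
          have hf : isFree j = false := by simp [isFree]; omega
          simp [W, levData, errOf, hf, hn] }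

end level

end Vale.Agent.P205.Stage
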