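import Vale.Agent.P205.Stage.LevelMetric
import Vale.Agent.P205.Stage.FreeBounds
import Vale.Agent.P205.Stage.LegalBounds
import Vale.Agent.P205.Stage.TinyBounds
import Vale.Agent.P205.Stage.NaturalStep

/-!
What the sizes at a level need from its correctors, from the size hypotheses of the recursions;
the correctors of a tiny level vanish off the zone where its kernel bends.
-/

noncomputable section

open Set Finset Real
open scoped ContDiff

namespace Vale.Agent.P205.Stage

open Wave Wave.Data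

section transfer

variable {ι E : Type} [NormedAddCommGroup E] [NormedSpace ℝ E]

/-- Correctors vanish beyond the order. -/
theorem upTo_beyond (W : Wave.Data E) : ∀ m j, m + 1 < j → ∀ x s, W.upTo (m + 1) j x s = 0 := by
  intro m
  induction m with
  | zero =>
    intro j hj x s
    rw [show W.upTo 1 j = fun _ _ => 0 from Function.update_of_ne (by omega) _ _]
  | succ m ih =>
    intro j hj x s
    rw [show W.upTo (m + 1 + 1) = Function.update (W.upTo (m + 1)) (m + 2)
      (W.step (W.upTo (m + 1)) (m + 1)) from rfl, Function.update_of_ne (by omega)]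
    exact ih j (by omega) x s

/-- Free correctors vanish beyond the order. -/
theorem free_beyond (W : Free.Data E) : ∀ m j, m + 1 < j → ∀ x s, W.upTo (m + 1) j x s = 0 := by
  intro m
  induction m with
  | zero =>
    intro j hj x s
    rw [show W.upTo 1 j = fun _ _ => 0 from Function.update_of_ne (by omega) _ _]
  | succ m ih =>
    intro j hj x s
    rw [show W.upTo (m + 1 + 1) = Function.update (W.upTo (m + 1)) (m + 2)
      (W.step (W.upTo (m + 1)) (m + 1)) from rfl, Function.update_of_ne (by omega)]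
    exact ih j (by omega) x s

variable {F : Type} [NormedAddCommGroup F] [NormedSpace ℝ F]

/-- Sizes pass to larger magnitudes on smaller charts. -/
theorem sz_transfer {μ μ' : Mag ι E} {d m : ℕ} {f : ι → E → F} (hf : Sz μ d m f)
    (hS : ∀ t, μ'.S t ⊆ μ.S t) (hB : ∀ t, μ.B t ≤ μ'.B t) (hM : ∀ t, μ.M t ≤ μ'.M t)
    (hA : ∀ t, ∀ x ∈ μ'.S t, μ.A t x ≤ μ'.A t x) : Sz μ' d m f :=
  Cost.sz (μ := μ') (hf.rescale μ'.toScale hB hS) zero_le_one fun t x hx => by
    rw [one_mul]
    exact mul_le_mul (pow_le_pow_left₀ (μ.A_nonneg t x (hS t hx)) (hA t x hx) d)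
      (pow_le_pow_left₀ (zero_le_one.trans (μ.one_le_M t)) (hM t) m)
      (pow_nonneg (zero_le_one.trans (μ.one_le_M t)) m) (pow_nonneg (μ'.A_nonneg t x hx) d)

/-- Correctors of the calculus pass to larger magnitudes and to equal families. -/
theorem kin_transfer {μ μ' : Mag ι E} {W W' : ι → Wave.Data E}
    {Y Y' : ι → ℕ → E → ℝ → V4} {n : ℕ} (h : Kin μ W Y n)
    (hS : ∀ t, μ'.S t ⊆ μ.S t) (hB : ∀ t, μ.B t ≤ μ'.B t) (hM : ∀ t, μ.M t ≤ μ'.M t)
    (hA : ∀ t, ∀ x ∈ μ'.S t, μ.A t x ≤ μ'.A t x)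
    (he : ∀ t, (W' t).e = (W t).e) (hv : ∀ t, (W' t).v = (W t).v) (hZ : ∀ t, (W' t).Z = (W t).Z)
    (hY : ∀ t j, ∀ x ∈ μ'.S t, Y' t j x = Y t j x)
    (hbey : ∀ t j, n < j → ∀ x s, Y' t j x s = 0) : Kin μ' W' Y' n where
  one := h.one
  norm_v t := (hv t).symm ▸ (h.norm_v t).trans (hM t)
  norm_e t := (he t).symm ▸ (h.norm_e t).trans (hM t)
  ze := (sz_transfer h.ze hS hB hM hA).congr fun t x _ => by simp only [Ze, he, hZ]
  zv := (sz_transfer h.zv hS hB hM hA).congr fun t x _ => by simp only [Zv, hv, hZ]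
  beyond := hbey
  size j := (sz_transfer (μ' := μ'.fast) (h.size j) (fun t p hp => ⟨hS t hp.1, hp.2⟩) hB hM
    fun t p hp => hA t p.1 hp.1).congr fun t p hp => congrFun (hY t j p.1 hp.1) p.2
  dv0 := (sz_transfer (μ' := μ'.fast) h.dv0 (fun t p hp => ⟨hS t hp.1, hp.2⟩) hB hM
    fun t p hp => hA t p.1 hp.1).congr fun t p hp => by
      have := hY t 1 p.1 hp.1
      simp only [dv, Zv, hv, hZ, zero_add, this, if_true]
  per t j x hx := by rw [hY t j x hx]; exact h.per t j x (hS t hx)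

/-- Coefficients only see a wave near the point. -/
theorem coef_congr {W W' : Wave.Data E} {Y Y' : ℕ → E → ℝ → V4} {U : Set E} (hU : IsOpen U)
    (he : W'.e = W.e) (hv : W'.v = W.v) (hZ : W'.Z = W.Z)
    (hY : ∀ j, ∀ x ∈ U, Y' j x = Y j x) {x : E} (hx : x ∈ U) (n : ℕ) (s : ℝ) :
    W'.coefEE Y' n x s = W.coefEE Y n x s ∧ W'.coefVE Y' n x s = W.coefVE Y n x s ∧
      W'.coefVV Y' n x s = W.coefVV Y n x s := by
  have hD : ∀ (a : E) i, D a (fun y => Y' i y s) x = D a (fun y => Y i y s) x := fun a i => by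
    have e : (fun y => Y' i y s) =ᶠ[nhds x] fun y => Y i y s := by
      filter_upwards [hU.mem_nhds hx] with y hy using congrFun (hY i y hy) s
    simp only [D, e.fderiv_eq]
  have h1 : ∀ i, W'.de Y' i x s = W.de Y i x s := fun i => by simp only [de, Ze, he, hZ, hD]
  have h2 : ∀ i, W'.dv Y' i x s = W.dv Y i x s := fun i => by
    simp only [dv, Zv, hv, hZ, hD, hY (i + 1) x hx]
  exact ⟨by simp only [coefEE, h1], by simp only [coefVE, h1, h2], by simp only [coefVV, h2]⟩

/-- Sizes glue where the family vanishes outside the old charts. -/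
theorem sz_glue {μ μ' : Mag ι E} {d m : ℕ} {f : ι → E → F} (hf : Sz μ d m f) (U : ι → Set E)
    (hU : ∀ t, IsOpen (U t)) (h0 : ∀ t, ∀ x ∈ U t, f t x = 0)
    (hcov : ∀ t, μ'.S t ⊆ μ.S t ∪ U t) (hB : ∀ t, μ.B t ≤ μ'.B t) (hM : ∀ t, μ.M t ≤ μ'.M t)
    (hA : ∀ t, ∀ x ∈ μ'.S t, x ∈ μ.S t → μ.A t x ≤ μ'.A t x) : Sz μ' d m f := by
  let ν : Mag ι E :=
    { toScale := { S := fun t => μ'.S t ∩ μ.S t, B := μ'.B,
                   isOpen := fun t => (μ'.isOpen t).inter (μ.isOpen t), one_le := μ'.one_le }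
      M := μ'.M
      A := μ'.A
      le_M := μ'.le_M
      A_nonneg := fun t x hx => μ'.A_nonneg t x hx.1
      A_le := fun t x hx => μ'.A_le t x hx.1 }
  have h : Sz ν d m f := sz_transfer hf (fun t => inter_subset_right) hB hM fun t x hx =>
    hA t x hx.1 hx.2
  have hz : ∀ t, ∀ x ∈ U t, f t =ᶠ[nhds x] fun _ => (0 : F) := fun t x hx =>
    Filter.eventually_of_mem ((hU t).mem_nhds hx) (h0 t)
  refine ⟨fun t x hx => ?_, μ'.weight_nonneg d m, fun i => ?_⟩
  · rcases hcov t hx with hμ | hu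
    · exact ((h.smooth t).contDiffAt ((ν.isOpen t).mem_nhds ⟨hx, hμ⟩)).contDiffWithinAt
    · exact (contDiffAt_const.congr_of_eventuallyEq (hz t x hu)).contDiffWithinAt
  · obtain ⟨K, hK0, hK⟩ := h.bound i
    refine ⟨K, hK0, fun t x hx => ?_⟩
    rcases hcov t hx with hμ | hu
    · exact hK t x ⟨hx, hμ⟩
    · rw [((hz t x hu).iteratedFDeriv ℝ i).eq_of_nhds, iteratedFDeriv_fun_zero, Pi.zero_apply,
        norm_zero]
      exact mul_nonneg (mul_nonneg hK0 (μ'.weight_nonneg d m t x hx))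
        (pow_nonneg (zero_le_one.trans (μ'.one_le t)) i)

end transfer

variable {C : ℕ → ℝ} {C2 : ℕ → ℕ → ℝ} {G : Type} [NormedAddCommGroup G] [NormedSpace ℝ G]
  [FiniteDimensional ℝ G] {N N' b s j : ℕ} {V : Set G} {hV : IsOpen V} {T : ℝ}
  {x : Fam C C2 → Ph × G → Unk}

/-- The recursion of a wave does not see the domain. -/
theorem wave_upTo_dom {W W' : Wave.Data (Ph × G)} (hW : W.Good) (he : W'.e = W.e) (hv : W'.v = W.v)
    (hZ : W'.Z = W.Z) (hr : W'.rho = W.rho) (hE : W'.Err = W.Err) {q : Ph × G} (hq : q ∈ W.Ω)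
    (N n : ℕ) : W'.upTo (N + 1) n q = W.upTo (N + 1) n q := by
  have idp : ∀ y : Ph × G, ContinuousLinearMap.id ℝ (Ph × G) y + 0 = y := fun y => by simp
  have P : Pullback W W' (ContinuousLinearMap.id ℝ (Ph × G)) 0 W.Ω :=
    ⟨hW.open_, fun y hy => by rw [idp]; exact hy, by simpa using he, by simpa using hv,
      fun y _ => by rw [idp, hZ], fun y _ => by rw [idp, hr], fun n y _ => by rw [idp, hE]⟩
  have e := P.upTo_eq hW N n q hq
  rwa [idp] at e

/-- A magnitude with a constant is the magnitude of a level from a threshold on. -/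
theorem mag_le {c : ℝ} {m : ℕ} (hm : m + 1 ≤ mLev j) (t : Fam C C2) (hT : c ≤ Kf t) :
    c * Kf t ^ m ≤ Kf t ^ mLev j :=
  (mul_le_mul_of_nonneg_right hT (pow_nonneg (Kf_pos t).le m)).trans
    (by rw [← pow_succ']; exact pow_le_pow_right₀ (one_le_Kf t) hm)

theorem Small.above {T' : ℝ} (hx : Small N' b s T V hV x) (hT : T ≤ T') :
    Small N' b s T' V hV x :=
  ⟨cost_scQ hx.cost le_rfl hT, fun t ht => hx.adm t (hT.trans ht)⟩

/-- **The free levels have what the sizes need.** -/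
theorem levelKin_free (hb : bMin ≤ b) (hb' : b ≤ bExp) (hj : j = 9 ∨ j = 10)
    (hx : Small N' b s T V hV x) (hM : MapOK N N' b T V hV x j) :
    ∃ T', T ≤ T' ∧ ∃ (c₀ : ℝ) (hc₀ : 1 ≤ c₀), LevelKin N N' b hb' c₀ hc₀ T' V hV x j := by
  obtain ⟨T₁, hT₁, c, hc, hP⟩ := freeLevel_nbounds hb hb' hj hx hM
  obtain ⟨c', hc', hB⟩ := hP.bounds
  have hf : isFree j = true := isFree_iff.2 hj
  set T' := max T₁ (c' * c ^ 64)
  have hsub : ∀ t, (scQ C C2 N' b T' V hV).S t ⊆ (scQ C C2 N' b T₁ V hV).S t :=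
    fun t => scQ_subset (le_max_left _ _) t
  set Wd := fun t => freeWave N (scQ C C2 N' b T₁ V hV) x j t
  have hgood : ∀ t, (Wd t).Good := hB.good
  have idp : ∀ y : Ph × G, ContinuousLinearMap.id ℝ (Ph × G) y + 0 = y := fun y => by simp
  have P : ∀ t, FreePullback (Wd t)
      (freeData (par N) t.1 (x t) univ j (mapAt N t.1 (x t) j) (restAt N t.1 (x t) j))
      (ContinuousLinearMap.id ℝ (Ph × G)) 0 ((scQ C C2 N' b T₁ V hV).S t) := fun t => by
    have P0 : Pullback (levWave N (scQ C C2 N' b T₁ V hV) x j t)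
        (levData (par N) t.1 (x t) univ j (mapAt N t.1 (x t) j) (restAt N t.1 (x t) j))
        (ContinuousLinearMap.id ℝ (Ph × G)) 0 ((scQ C C2 N' b T₁ V hV).S t) :=
      ⟨(scQ C C2 N' b T₁ V hV).isOpen t, fun y hy => by rw [idp]; exact hy, rfl, rfl,
        fun y _ => by rw [idp]; rfl, fun y _ => by rw [idp]; rfl, fun n y _ => by rw [idp]; rfl⟩
    exact P0.ofNormal ((scQ C C2 N' b T₁ V hV).isOpen t)
      ((hM.smooth t).mono (scQ_subset hT₁ t)) (n' := bendDir (par N) t.1 j (mapAt N t.1 (x t) j))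
      (n := bendDir (par N) t.1 j (mapAt N t.1 (x t) j)) (fun y _ => by rw [idp]) (1 / 2)
  have hY : ∀ t i, ∀ q ∈ (scQ C C2 N' b T₁ V hV).S t,
      cor (par N) t.1 (x t) j (mapAt N t.1 (x t) j) (restAt N t.1 (x t) j) i q =
        (Wd t).upTo (N + 1) i q := fun t i q hq => by
    simp only [cor, hf, if_true]
    have e := (P t).upTo_eq (hgood t) N i q hq
    rwa [idp] at e
  have hco : ∀ n t, ∀ q ∈ (scQ C C2 N' b T₁ V hV).S t,
      coefsAt (par N) t.1 (x t) j n q = Free.Data.Bounds.coefs Wd N n t q := fun n t q hq => by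
    funext r
    obtain ⟨a, b', c⟩ := coef_congr (W := (Wd t).toData)
      (W' := levData (par N) t.1 (x t) univ j (mapAt N t.1 (x t) j) (restAt N t.1 (x t) j))
      (Y := (Wd t).upTo (N + 1))
      (Y' := cor (par N) t.1 (x t) j (mapAt N t.1 (x t) j) (restAt N t.1 (x t) j))
      ((scQ C C2 N' b T₁ V hV).isOpen t) rfl rfl rfl (hY t) hq n r
    exact congrArg₂ (fun (u : ℝ) (v : Fin 2 → ℝ) => Matrix.vecCons u v) a
      (congrArg₂ (fun u v => ![u, v]) b' c)
  have hc₀ : 1 ≤ c' * c ^ 64 := one_le_mul_of_one_le_of_one_le hc' (one_le_pow₀ hc)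
  refine ⟨T', hT₁.trans (le_max_left _ _), c' * c ^ 64, hc₀, ?_⟩
  refine
    { kin := ?_
      mean0 := fun t i q hq => ?_
      zero := fun t q hq r => ?_
      eq := fun t q hq n hn hN r => ?_ }
  · refine kin_transfer (μ := (levMag C C2 N N' b j T' V hV hb' c hc).boost 64 (by norm_num) c' hc')
      (W := fun t => (Wd t).toData) (Y := fun t => (Wd t).upTo (N + 1)) ?_ (fun _ => subset_rfl)
      (fun _ => le_rfl) ?_ (fun _ _ _ => le_rfl) (fun _ => rfl) (fun _ => rfl) (fun _ => rfl)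
      (fun t i q hq => hY t i q (hsub t hq)) fun t i hi q r => ?_
    · exact kin_transfer (hB.kin (hB.grows N)) hsub (fun _ => le_rfl) (fun _ => le_rfl)
        (fun _ _ _ => le_rfl) (fun _ => rfl) (fun _ => rfl) (fun _ => rfl) (fun _ _ _ _ => rfl)
        fun t i hi q r => free_beyond _ N i hi q r
    · intro t
      show c' * (c * Kf t ^ (2 * mExp j)) ^ 64 ≤ (if T' ≤ Kf t then 1 else _) * Kf t ^ mLev j
      rw [mul_pow, ← pow_mul, ← mul_assoc]
      have hm : 2 * mExp j * 64 + 1 ≤ mLev j := by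
        have := (mExp_grows j).1
        unfold mLev
        simp [bExp] at this
        omega
      split_ifs with hT
      · rw [one_mul]; exact mag_le hm t ((le_max_right _ _).trans hT)
      · exact mul_le_mul_of_nonneg_left (pow_le_pow_right₀ (one_le_Kf t) (by omega))
          (zero_le_one.trans hc₀)
    · simp only [cor, hf, if_true]
      exact free_beyond _ N i hi q r
  · rw [hY t i q (hsub t hq)]
    exact Free.Data.mean_upTo (hgood t) N i q (hB.dom t (hsub t hq))
  · rw [hco 0 t q (hsub t hq)]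
    refine (hB.coefs_zero N (hsub t hq) r).trans ?_
    congr 1; congr 1; congr 1
    show _ + (Free.Prof.ofNormal (levWave N (scQ C C2 N' b T₁ V hV) x j t) _ _).data.amp2 q = _
    rw [Free.Prof.amp2_shapeOf (hP.ok t) (hsub t hq) rfl]
    rfl
  · rw [hco n t q (hsub t hq)]
    refine (hB.coefs_eq hn hN (hsub t hq) r).trans ?_
    simp only [hf, if_true]
    obtain ⟨-, -, -, e⟩ := (P t).coef_upTo (hgood t) N n (hsub t hq)
    rw [idp] at e
    rw [e]
    rfl

omit [FiniteDimensional ℝ G] in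
/-- The magnitude of the sizes dominates a smaller power of the scale. -/
theorem sizeMag_ge {hb : b ≤ bExp} {c c₁ : ℝ} {hc : 1 ≤ c} (hc₁ : c₁ ≤ c) {m : ℕ}
    (hm : m + 1 ≤ mLev j) {T' : ℝ} (hT : c ≤ T') (t : Fam C C2) :
    c₁ * Kf t ^ m ≤ (sizeMag C C2 N N' hb c hc T' V hV j).M t := by
  show _ ≤ (if T' ≤ Kf t then (1 : ℝ) else c) * _
  split_ifs with h
  · rw [one_mul]; exact mag_le hm t ((hc₁.trans hT).trans h)
  · exact mul_le_mul hc₁ (pow_le_pow_right₀ (one_le_Kf t) (by omega)) (pow_nonneg (Kf_pos t).le _)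
      (zero_le_one.trans hc)

/-- The exponent of what is known at a level is small. -/
theorem cLev_le (hj : j < 12) : cLev j ≤ bExp :=
  (Nat.pow_le_pow_right (by norm_num) (show max j 9 - 8 ≤ 3 by omega)).trans (by norm_num [bExp])

/-- **A legal wave on charts that, with an open set free of amplitude, cover those of the stage
has what the sizes need.** -/
theorem levelKin_wave (hb : b ≤ bExp) (hj : j < 12) (hf : isFree j = false)
    (hM : MapOK N N' b T V hV x j) {T₁ : ℝ} (hT₁ : T ≤ T₁) (μ : Mag (Fam C C2) (Ph × G))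
    (hμB : ∀ t, μ.B t ≤ Kf t ^ b)
    (hμA : ∀ t, ∀ q ∈ μ.S t, μ.A t q ≤ levA (par N) t.1 j q.1.1 / max 1 (C 0)) {c₁ : ℝ} {m : ℕ}
    (hm : m + 1 ≤ mLev j) (hμM : ∀ t, μ.M t ≤ c₁ * Kf t ^ m)
    (hW : Wave.Data.Bounds μ fun t =>
      levData (par N) t.1 (x t) (μ.S t) j (mapAt N t.1 (x t) j) (restAt N t.1 (x t) j))
    (U : Fam C C2 → Set (Ph × G)) (hU : ∀ t, IsOpen (U t))
    (hoff : ∀ t, ∀ q ∈ U t, amp (par N) t.1 (x t) j (restAt N t.1 (x t) j) q = 0 ∧
      ∀ n, errOf (par N) t.1 (x t) j n q = 0)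
    (hcov : ∀ t, (scQ C C2 N' b T₁ V hV).S t ⊆ μ.S t ∪ U t) :
    ∃ T', T ≤ T' ∧ ∃ (c₀ : ℝ) (hc₀ : 1 ≤ c₀), LevelKin N N' b hb c₀ hc₀ T' V hV x j := by
  obtain ⟨cv, hcv0, hcv⟩ := Lev.exists_norm_vec (G := G) (levV j) N j
  obtain ⟨ce, hce0, hce⟩ := Lev.exists_norm_vec (G := G) (levE j) N j
  set c₀ := max (max 1 c₁) (max cv ce)
  have hc₀ : 1 ≤ c₀ := (le_max_left _ _).trans (le_max_left _ _)
  set T' := max T₁ c₀
  have hT' : T ≤ T' := hT₁.trans (le_max_left _ _)
  refine ⟨T', hT', c₀, hc₀, ?_⟩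
  set μ' := sizeMag C C2 N N' hb c₀ hc₀ T' V hV j
  set W := fun t : Fam C C2 =>
    levData (par N) t.1 (x t) univ j (mapAt N t.1 (x t) j) (restAt N t.1 (x t) j)
  set Y := fun t : Fam C C2 => (W t).upTo (N + 1)
  set Wd := fun t : Fam C C2 =>
    levData (par N) t.1 (x t) (μ.S t) j (mapAt N t.1 (x t) j) (restAt N t.1 (x t) j)
  have hcor : ∀ t, cor (par N) t.1 (x t) j (mapAt N t.1 (x t) j) (restAt N t.1 (x t) j) = Y t :=
    fun t => by simp only [cor, hf, Bool.false_eq_true, if_false]; rfl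
  have hY : ∀ t i, ∀ q ∈ μ.S t, Y t i q = (Wd t).upTo (N + 1) i q := fun t i q hq =>
    wave_upTo_dom (W := Wd t) (W' := W t) (hW.good t) rfl rfl rfl rfl rfl (hW.dom t hq) N i
  have hz : ∀ t i, ∀ q ∈ U t, ∀ r, Y t i q r = 0 := fun t i q hq =>
    upTo_off (W := W t) (hU t) (fun y hy => (hoff t y hy).1) (fun n y hy => (hoff t y hy).2 n) N i q
      hq
  have hK := hW.kin (hW.grows N)
  have hsub : ∀ t, μ'.S t ⊆ μ.S t ∪ U t := fun t q hq =>
    hcov t (scQ_subset (le_max_left _ _) t hq)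
  have hB : ∀ t, μ.B t ≤ μ'.B t := hμB
  have hMM : ∀ t, μ.M t ≤ μ'.M t := fun t => (hμM t).trans
    (sizeMag_ge ((le_max_right _ _).trans (le_max_left _ _)) hm (le_max_right _ _) t)
  have hbe := (mExp_grows j).1
  have hn : ∀ t a ca, ‖vec (par N) t.1 G j a‖ ≤ ca * Kf t ^ mExp j → ca ≤ c₀ →
      ‖vec (par N) t.1 G j a‖ ≤ μ'.M t := fun t a ca h hca => h.trans
    (sizeMag_ge hca (by unfold mLev; simp only [bExp] at hbe; omega) (le_max_right _ _) t)
  have hd : ∀ a, Sz μ' 0 1 fun t => d1At N t.1 (x t) j a := fun a =>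
    Cost.sz (μ := μ') (cost_scQ (Lev.cost_d1 hM.d1s a) le_rfl hT') zero_le_one fun t q _ => by
      rw [pow_zero, pow_one, one_mul, one_mul]
      refine le_trans (le_of_eq (one_mul _).symm) (sizeMag_ge hc₀ ?_ (le_max_right _ _) t)
      have := cLev_le hj
      simp only [bExp] at hbe this
      unfold mLev
      omega
  have hderiv : ∀ t, ∀ q ∈ U t, ∀ r, deriv (Y t 1 q) r = 0 := fun t q hq r => by
    rw [show Y t 1 q = fun _ => 0 from funext (hz t 1 q hq), deriv_const]
  have hfast : ∀ i, Sz μ.fast 1 (expo i) fun t p => Y t i p.1 p.2 := fun i =>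
    (hK.size i).congr fun t p hp => congrFun (hY t i p.1 hp.1) p.2
  have hdv0 : Sz μ.fast 1 44 fun t p => (W t).dv (Y t) 0 p.1 p.2 - (W t).Zv p.1 :=
    hK.dv0.congr fun t p hp => by
      have := hY t 1 p.1 hp.1
      simp only [dv, zero_add, if_true, this]
      rfl
  have cfast : ∀ t, μ'.fast.S t ⊆ μ.fast.S t ∪ U t ×ˢ univ := fun t p hp =>
    (hsub t hp.1).imp (fun h => ⟨h, trivial⟩) fun h => ⟨h, trivial⟩
  refine
    { kin := ?_, mean0 := fun t i q hq => ?_, zero := fun t q hq r => ?_,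
      eq := fun t q hq n hn' hN r => ?_ }
  · simp only [hcor]
    exact
      { one := hK.one
        norm_v := fun t => hn t _ cv (hcv t.1 t.2.2) ((le_max_left _ _).trans (le_max_right _ _))
        norm_e := fun t => hn t _ ce (hce t.1 t.2.2) ((le_max_right _ _).trans (le_max_right _ _))
        ze := hd (levE j)
        zv := hd (levV j)
        beyond := fun t i hi q r => upTo_beyond _ N i hi q r
        size := fun i => sz_glue (μ := μ.fast) (μ' := μ'.fast) (hfast i) (fun t => U t ×ˢ univ)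
          (fun t => (hU t).prod isOpen_univ) (fun t p hp => hz t i p.1 hp.1 p.2) cfast hB hMM
          fun t p _ hp => hμA t p.1 hp.1
        dv0 := sz_glue (μ := μ.fast) (μ' := μ'.fast) hdv0 (fun t => U t ×ˢ univ)
          (fun t => (hU t).prod isOpen_univ)
          (fun t p hp => by simp [dv, hderiv t p.1 hp.1]) cfast hB hMM
          fun t p _ hp => hμA t p.1 hp.1
        per := fun t i q hq => by
          rcases hsub t hq with h | h
          · rw [hY t i q h]; exact hK.per t i q h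
          · exact fun r => (hz t i q h _).trans (hz t i q h r).symm }
  · rw [hcor]
    rcases hsub t hq with h | h
    · rw [hY t i q h]; exact mean_upTo (hW.good t) N i q (hW.dom t h)
    · rw [show Y t i q = fun _ => 0 from funext (hz t i q h), mean_const]
  · rw [show coefsAt (par N) t.1 (x t) j 0 q r =
        ![(W t).coefEE (Y t) 0 q r, (W t).coefVE (Y t) 0 q r, (W t).coefVV (Y t) 0 q r] by
      rw [← hcor]; rfl]
    rcases hsub t hq with h | h
    · obtain ⟨a, b', c⟩ := coef_congr (W := Wd t) (W' := W t) (Y := (Wd t).upTo (N + 1)) (Y' := Y t)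
        (μ.isOpen t) rfl rfl rfl (hY t) h 0 r
      rw [a, b', c]
      exact hW.coefs_zero N h r
    · simp [coefEE, coefVE, coefVV, de, dv, hderiv t q h, (hoff t q h).1]
      exact ⟨rfl, rfl, rfl⟩
  · simp only [hf, Bool.false_eq_true, if_false, add_zero]
    have e : ∀ r, coefsAt (par N) t.1 (x t) j n q r =
        ![(W t).coefEE (Y t) n q r, (W t).coefVE (Y t) n q r, (W t).coefVV (Y t) n q r] := fun r => by
      rw [← hcor]; rfl
    rcases hsub t hq with h | h
    · have e' : coefsAt (par N) t.1 (x t) j n q = Wave.Data.Bounds.coefs Wd N n t q := funext fun r => by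
        obtain ⟨a, b', c⟩ := coef_congr (W := Wd t) (W' := W t) (Y := (Wd t).upTo (N + 1))
          (Y' := Y t) (μ.isOpen t) rfl rfl rfl (hY t) h n r
        rw [e, a, b', c]
        rfl
      rw [e']
      exact hW.coefs_eq hn' hN h r
    · have e0 : coefsAt (par N) t.1 (x t) j n q = fun _ => 0 := funext fun r => by
        obtain ⟨a, b', c⟩ := coef_off (W := W t) (hU t) (fun i => hz t i) hn' h r
        rw [e, a, b', c]
        funext i; fin_cases i <;> rfl
      simp [e0, (hoff t q h).2 n, mean]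

/-- **The tiny levels have what the sizes need.** -/
theorem levelKin_tiny (hb : bMin ≤ b) (hb' : b ≤ bExp) (hj : j < 9)
    (hx : Small N' b s T V hV x) (hM : MapOK N N' b T V hV x j) :
    ∃ T', T ≤ T' ∧ ∃ (c₀ : ℝ) (hc₀ : 1 ≤ c₀), LevelKin N N' b hb' c₀ hc₀ T' V hV x j := by
  obtain ⟨T₁, hT₁, ⟨c, hc, hW⟩, hcov⟩ := tiny_bounds hb hb' hj hx hM
  refine levelKin_wave hb' (by omega) (by simp [isFree]; omega) hM hT₁
    (tinyMag C C2 N N' b j T₁ V hV hb' c hc) (fun _ => le_rfl) (fun t q _ => le_rfl)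
    (c₁ := c) (m := 2 * mExp j) ?_ (fun t => le_rfl) hW
    (fun t => (scQ C C2 N' b T V hV).S t ∩ {q | q.1.1 ∈ offZone j t})
    (fun t => ((scQ C C2 N' b T V hV).isOpen t).inter
      (isOpen_interior.preimage (continuous_fst.comp continuous_fst)))
    (fun t q hq => ⟨amp_off t (x t) hj _ hq.2, fun n => (err_good hx t j).2.2 hj n q hq.1 hq.2⟩)
    fun t q hq => ?_
  · have := (mExp_grows j).1
    simp only [bExp] at this
    unfold mLev
    omega
  · rcases hcov t q hq with h | h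
    · exact Or.inl ⟨hq, h⟩
    · exact Or.inr ⟨scQ_subset hT₁ t hq, h⟩

/-- **The legal level has what the sizes need.** -/
theorem levelKin_legal (hb : bMin ≤ b) (hb' : b ≤ bExp)
    (hx : Small N' b s T V hV x) (hM : MapOK N N' b T V hV x 11) :
    ∃ T', T ≤ T' ∧ ∃ (c₀ : ℝ) (hc₀ : 1 ≤ c₀), LevelKin N N' b hb' c₀ hc₀ T' V hV x 11 := by
  obtain ⟨T₁, hT₁, c, hc, hW⟩ := legalLevel_bounds hb hb' hx hM
  refine levelKin_wave hb' (by norm_num) (by simp [isFree]) hM hT₁
    (legalMag C C2 N N' b T₁ V hV hb' c hc) (fun _ => le_rfl) (fun t q _ => le_rfl)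
    (c₁ := c) (m := 3 * mExp 11) ?_ (fun t => le_rfl) hW (fun _ => ∅) (fun _ => isOpen_empty)
    (fun t q hq => (Set.notMem_empty q hq).elim) fun t q hq => Or.inl hq
  have := (mExp_grows 11).1
  simp only [bExp] at this
  unfold mLev
  omega

end Vale.Agent.P205.Stage
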