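import Vale.Agent.P205.Stage.LevelGood
import Vale.Agent.P205.Stage.LevelLin
import Vale.Agent.P205.Stage.Specs

/-!
The sizes at one level, from the sizes of its correctors: the slow tensor, what the metric gains
apart from the intended terms, and the change of the map.
-/

noncomputable section

open Set Finset Real
open scoped ContDiff

namespace Vale.Agent.P205.Stage

open Wave Wave.Data

variable {C : ℕ → ℝ} {C2 : ℕ → ℕ → ℝ} {G : Type} [NormedAddCommGroup G] [NormedSpace ℝ G]
  [FiniteDimensional ℝ G] {N N' b s j : ℕ} {V : Set G} {hV : IsOpen V} {T : ℝ}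
  {x : Fam C C2 → Ph × G → Unk}

/-- The exponent of the magnitude for the correctors of a level. -/
def mLev (j : ℕ) : ℕ := 150 * mExp j

/-- The magnitude and the amplitude of a level on the charts of a stage; below the threshold,
where the charts are empty, the constant `c` is kept. -/
def sizeMag (C : ℕ → ℝ) (C2 : ℕ → ℕ → ℝ) (N N' : ℕ) {b : ℕ} (hb : b ≤ bExp) (c : ℝ) (hc : 1 ≤ c)
    (T : ℝ) (V : Set G) (hV : IsOpen V) (j : ℕ) : Mag (Fam C C2) (Ph × G) where
  toScale := scQ C C2 N' b T V hV
  M t := (if T ≤ Kf t then 1 else c) * Kf t ^ mLev j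
  A t q := levA (par N) t.1 j q.1.1 / max 1 (C 0)
  le_M t := (pow_le_pow_right₀ (one_le_Kf t)
    (by have := (mExp_grows j).1; unfold mLev; omega)).trans
      (le_mul_of_one_le_left (pow_nonneg (Kf_pos t).le _) (by split_ifs <;> [rfl; exact hc]))
  A_nonneg t q hq := div_nonneg (share_range N (mem_scQ.1 hq).2.1 j).2.2.2.2.2.1.le
    (zero_le_one.trans (le_max_left _ _))
  A_le t q hq := by
    obtain ⟨-, -, -, -, -, -, h1, h2, -⟩ := share_range N (mem_scQ.1 hq).2.1 j
    exact (div_le_one (zero_lt_one.trans_le (le_max_left _ _))).2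
      (h1.trans (h2.trans (le_max_right _ _)))

/-- What the sizes at a level need from its correctors. -/
structure LevelKin (N N' b : ℕ) (hb : b ≤ bExp) (c : ℝ) (hc : 1 ≤ c) (T : ℝ) (V : Set G) (hV : IsOpen V)
    (x : Fam C C2 → Ph × G → Unk) (j : ℕ) : Prop where
  kin : Kin (sizeMag C C2 N N' hb c hc T V hV j)
    (fun t => levData (par N) t.1 (x t) univ j (mapAt N t.1 (x t) j) (restAt N t.1 (x t) j))
    (fun t => cor (par N) t.1 (x t) j (mapAt N t.1 (x t) j) (restAt N t.1 (x t) j)) (N + 1)
  mean0 : ∀ t, ∀ i, ∀ q ∈ (scQ C C2 N' b T V hV).S t,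
    mean (cor (par N) t.1 (x t) j (mapAt N t.1 (x t) j) (restAt N t.1 (x t) j) i q) = 0
  zero : ∀ t, ∀ q ∈ (scQ C C2 N' b T V hV).S t, ∀ r, coefsAt (par N) t.1 (x t) j 0 q r =
    ![ip (d1At N t.1 (x t) j (levE j) q) (d1At N t.1 (x t) j (levE j) q),
      ip (d1At N t.1 (x t) j (levV j) q) (d1At N t.1 (x t) j (levE j) q),
      ip (d1At N t.1 (x t) j (levV j) q) (d1At N t.1 (x t) j (levV j) q) +
        amp (par N) t.1 (x t) j (restAt N t.1 (x t) j) q ^ 2]
  eq : ∀ t, ∀ q ∈ (scQ C C2 N' b T V hV).S t, ∀ n, 1 ≤ n → n ≤ N → ∀ r,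
    coefsAt (par N) t.1 (x t) j n q r = errOf (par N) t.1 (x t) j n q r +
      (mean (coefsAt (par N) t.1 (x t) j n q) - mean (errOf (par N) t.1 (x t) j n q)) +
      if isFree j = true then
        ![(freeData (par N) t.1 (x t) univ j (mapAt N t.1 (x t) j)
          (restAt N t.1 (x t) j)).oscEE N n q r, 0, 0]
      else 0

/-- Tensors from components, as a linear map. -/
def ofCompL (j : ℕ) : (Fin 3 → ℝ) →L[ℝ] Sym2 :=
  LinearMap.toContinuousLinearMap
    { toFun := ofComp j
      map_add' := fun a b => by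
        funext i; fin_cases i <;> simp [ofComp, sqForm] <;> ring
      map_smul' := fun r a => by
        funext i; fin_cases i <;> simp [ofComp, sqForm] <;> ring }

theorem ofCompL_apply (j : ℕ) (c : Fin 3 → ℝ) : ofCompL j c = ofComp j c := rfl

/-- Components, as a linear map. -/
def compL (j : ℕ) : Sym2 →L[ℝ] Fin 3 → ℝ :=
  LinearMap.toContinuousLinearMap
    { toFun := toComp j
      map_add' := fun a b => by
        funext i; fin_cases i <;> simp [toComp, qf] <;> ring
      map_smul' := fun r a => by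
        funext i; fin_cases i <;> simp [toComp, qf] <;> ring }

theorem psi_free (hj : isFree j = true) : psi j = (1, 0) := by
  rcases isFree_iff.1 hj with rfl | rfl <;> simp [psi, levE, levV, pt]

/-- The components of the metric of two derivatives. -/
theorem toComp_metric (j : ℕ) (p q : V4) :
    toComp j ![ip p p, ip p q, ip q q] =
      ![ip (levE j 0 • p + levE j 1 • q) (levE j 0 • p + levE j 1 • q),
        ip (levV j 0 • p + levV j 1 • q) (levE j 0 • p + levE j 1 • q),
        ip (levV j 0 • p + levV j 1 • q) (levV j 0 • p + levV j 1 • q)] := by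
  funext i
  fin_cases i <;> simp [toComp, qf, ip_comm q p] <;> ring

/-- The metric of two derivatives from its components in the frame of a level. -/
theorem metric_frame (N : ℕ) (I : Input) (z : Ph × G → Unk) (i j : ℕ) (q : Ph × G) :
    (![ip (d1At N I z i (pt 1 0) q) (d1At N I z i (pt 1 0) q),
      ip (d1At N I z i (pt 1 0) q) (d1At N I z i (pt 0 1) q),
      ip (d1At N I z i (pt 0 1) q) (d1At N I z i (pt 0 1) q)] : Sym2) =
    ofComp j ![ip (d1At N I z i (levE j) q) (d1At N I z i (levE j) q),
      ip (d1At N I z i (levV j) q) (d1At N I z i (levE j) q),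
      ip (d1At N I z i (levV j) q) (d1At N I z i (levV j) q)] := by
  rw [d1At_comb N I z i (levE j), d1At_comb N I z i (levV j), ← toComp_metric, ofComp_toComp]

/-- The chart vectors in the space of a level. -/
theorem splitL_vec (N : ℕ) (I : Input) {j : ℕ} (hj : j < 12) (a : R2) :
    Lev.splitL G j (vec (par N) I G (j + 1) a) = (vec (par N) I G j a, (par N).k I j * phase j a) := by
  rw [Lev.splitL_apply]
  refine Prod.ext (Prod.ext (Prod.ext rfl (funext fun l => ?_)) rfl) ?_
  · simp only [trunc, vec]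
    split_ifs <;> first | rfl | omega
  · simp [slot, hj, vec]

/-- An admissible prescribed term has no mean. -/
theorem mean_err (hx : Small N' b s T V hV x) {t : Fam C C2} {q : Ph × G}
    (hq : q ∈ (scQ C C2 N' b T V hV).S t) (n : ℕ) :
    mean (errOf (par N) t.1 (x t) j n q) = 0 := by
  obtain ⟨hT, hz, hg⟩ := mem_scQ.1 hq
  by_cases h : j < 11
  · have h0 := (hx.adm t hT q hz hg).2.1 ⟨j, by omega⟩
    have hc : Continuous fun r => (x t (put j r (trunc j q))).1 (⟨j, by omega⟩ : Fin 12) := by
      have hput : Continuous fun r : ℝ => put j r (trunc j q) :=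
        (contDiff_put j).continuous.comp (continuous_const.prodMk continuous_id)
      exact (continuous_apply _).comp (continuous_fst.comp
        ((hx.cost.smooth t).continuousOn.comp_continuous hput fun r =>
          put_mem j r (trunc_mem j hq)))
    have hcomp : mean (fun r => toComp j ((x t (put j r (trunc j q))).1 ⟨j, by omega⟩)) = 0 := by
      have e := (compL j).intervalIntegral_comp_comm
        (hc.intervalIntegrable (μ := MeasureTheory.volume) 0 (2 * π))
      change (∫ r in (0 : ℝ)..(2 * π), toComp j _) = compL j _ at e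
      simp only [mean] at h0 ⊢
      rw [e, ← ContinuousLinearMap.map_smul, h0, map_zero]
    have hsm : ∀ c : ℝ, mean (fun r => c • toComp j ((x t (put j r (trunc j q))).1 ⟨j, by omega⟩)) =
        0 := fun c => by
      simp only [mean] at hcomp ⊢
      rw [intervalIntegral.integral_smul, smul_comm, hcomp, smul_zero]
    have hz : mean (fun _ : ℝ => (0 : Fin 3 → ℝ)) = 0 := mean_const _
    unfold errOf
    simp only [h, dite_true]
    split_ifs <;> first | exact hsm _ | exact hz
  · unfold errOf
    simp only [h, dite_false]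
    exact mean_const _

/-- The order of what is prescribed at a level. -/
def errOrd (j : ℕ) : ℕ := if isFree j = true then 1 else 2

omit [FiniteDimensional ℝ G] in
/-- The prescribed terms add up to the tensor asked for, once the order is large enough. -/
theorem err_sum (N : ℕ) (I : Input) (z : Ph × G → Unk) (hk : (par N).k I j ≠ 0) (q : Ph × G)
    (r : ℝ) : ∑ n ∈ Finset.Icc 1 N, ((par N).k I j)⁻¹ ^ n • errOf (par N) I z j n q r =
      if errOrd j ≤ N then
        (if h : j < 11 then (levA (par N) I j q.1.1 / (par N).k I j ^ 2) •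
          toComp j ((z (put j r (trunc j q))).1 ⟨j, by omega⟩) else 0)
      else 0 := by
  by_cases h : j < 11
  · simp only [errOf, h, dite_true]
    unfold errOrd
    set a := levA (par N) I j q.1.1 / (par N).k I j ^ 2
    set w := toComp j ((z (put j r (trunc j q))).1 ⟨j, by omega⟩)
    have hm : ∀ m, ((par N).k I j)⁻¹ ^ m • (((par N).k I j ^ m * a) • w) = a • w := fun m => by
      rw [smul_smul, ← mul_assoc, ← mul_pow, inv_mul_cancel₀ hk, one_pow, one_mul]
    cases isFree j <;> simp only [Bool.false_eq_true, if_false, if_true, smul_ite, smul_zero,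
      Finset.sum_ite_eq', Finset.mem_Icc, hm]
    · by_cases hN : 2 ≤ N <;> simp [hN]
    · by_cases hN : 1 ≤ N <;> simp [hN]
  · simp [errOf, h]

/-- The frequency of a level in the scale. -/
theorem k_eq (N : ℕ) (t : Fam C C2) (j : ℕ) : (par N).k t.1 j = Kf t ^ eExp j := rfl

theorem k_big (N : ℕ) (t : Fam C C2) (j : ℕ) :
    (Kf t ^ mLev j) ^ 400 ≤ (par N).k t.1 j := by
  rw [k_eq, ← pow_mul]
  exact pow_le_pow_right₀ (one_le_Kf t) (by have := (mExp_grows j).2; unfold mLev; omega)

variable {hb : b ≤ bExp}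

/-- The remainder weight in the exponents of the Specs. -/
theorem weight_le (N : ℕ) (t : Fam C C2) (j b₀ n : ℕ) (hb₀ : b₀ ≤ 1300) :
    (Kf t ^ mLev j) ^ b₀ * ((Kf t ^ mLev j) ^ 400 / (par N).k t.1 j) ^ n ≤
      Kf t ^ (200000 * mExp j) * (Kf t ^ (100000 * mExp j) / Kf t ^ eExp j) ^ n := by
  have hK := one_le_Kf t
  have hK0 := Kf_pos t
  rw [k_eq, ← pow_mul, ← pow_mul]
  refine mul_le_mul (pow_le_pow_right₀ hK (le_trans (Nat.mul_le_mul_left _ hb₀)
    (by unfold mLev; omega))) (pow_le_pow_left₀ (by positivity) ?_ n) (by positivity)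
    (by positivity)
  exact div_le_div_of_nonneg_right (pow_le_pow_right₀ hK (by unfold mLev; omega)) (by positivity)

/-- **The slow tensor, the gain of the metric and the change of the map at one level.** -/
theorem level_size (hj : j < 12) (hb2 : 2 ≤ b) (hx : Small N' b s T V hV x)
    (hM : MapOK N N' b T V hV x j) {c : ℝ} {hc : 1 ≤ c} (H : LevelKin N N' b hb c hc T V hV x j) :
    Cost (scQ C C2 N' b T V hV)
      (fun t q => levA (par N) t.1 j q.1.1 ^ 2 *
        (Kf t ^ (200000 * mExp j) / Kf t ^ eExp j))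
      (fun t => slowAt (par N) t.1 (x t) j) ∧
    Cost (scQ C C2 N' b T V hV)
      (fun t _ => Kf t ^ (200000 * mExp j) * (Kf t ^ (100000 * mExp j) / Kf t ^ eExp j) ^ (N + 1))
      (fun t q => (![ip (d1At N t.1 (x t) (j + 1) (pt 1 0) q)
          (d1At N t.1 (x t) (j + 1) (pt 1 0) q),
        ip (d1At N t.1 (x t) (j + 1) (pt 1 0) q) (d1At N t.1 (x t) (j + 1) (pt 0 1) q),
        ip (d1At N t.1 (x t) (j + 1) (pt 0 1) q) (d1At N t.1 (x t) (j + 1) (pt 0 1) q)] : Sym2)
        - (![ip (d1At N t.1 (x t) j (pt 1 0) (trunc j q))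
            (d1At N t.1 (x t) j (pt 1 0) (trunc j q)),
          ip (d1At N t.1 (x t) j (pt 1 0) (trunc j q))
            (d1At N t.1 (x t) j (pt 0 1) (trunc j q)),
          ip (d1At N t.1 (x t) j (pt 0 1) (trunc j q))
            (d1At N t.1 (x t) j (pt 0 1) (trunc j q))] : Sym2)
        - amp (par N) t.1 (x t) j (restAt N t.1 (x t) j) (trunc j q) ^ 2 •
            sqForm (levCov j).1 (levCov j).2
        - slowAt (par N) t.1 (x t) j q
        - (restAt N t.1 (x t) (j + 1) q - restAt N t.1 (x t) j (trunc j q)) • sqForm 1 0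
        - (if h : j < 11 then (levA (par N) t.1 j q.1.1 / (par N).k t.1 j ^ 2) •
            (x t (put j (slot j q) (trunc j q))).1 ⟨j, by omega⟩ else 0)) ∧
    Cost (scQ C C2 N' b T V hV)
      (fun t q => levA (par N) t.1 j q.1.1 * (Kf t ^ (200000 * mExp j) / Kf t ^ eExp j))
      fun t q => mapAt N t.1 (x t) (j + 1) q - mapAt N t.1 (x t) j (trunc j q) := by
  set σ := scQ C C2 N' b T V hV
  set μ := sizeMag C C2 N N' hb c hc T V hV j
  set W := fun t : Fam C C2 =>
    levData (par N) t.1 (x t) univ j (mapAt N t.1 (x t) j) (restAt N t.1 (x t) j)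
  set Y := fun t : Fam C C2 =>
    cor (par N) t.1 (x t) j (mapAt N t.1 (x t) j) (restAt N t.1 (x t) j)
  set k := fun t : Fam C C2 => max ((par N).k t.1 j) (μ.M t ^ 400)
  have hk : ∀ t, μ.M t ^ 400 ≤ k t := fun t => le_max_right _ _
  have hk0 : ∀ t, k t ≠ 0 := fun t =>
    (lt_max_of_lt_left (pow_pos (Kf_pos t) _ : 0 < (par N).k t.1 j)).ne'
  have hMS : ∀ t, ∀ q ∈ σ.S t, μ.M t = Kf t ^ mLev j := fun t q hq => by
    show (if T ≤ Kf t then (1 : ℝ) else c) * _ = _
    rw [if_pos (mem_scQ.1 hq).1, one_mul]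
  have hkS : ∀ t, ∀ q ∈ σ.S t, k t = (par N).k t.1 j := fun t q hq => by
    show max _ _ = _
    rw [hMS t q hq]
    exact max_eq_left (k_big N t j)
  have hD : 0 < max 1 (C 0) := zero_lt_one.trans_le (le_max_left _ _)
  have hA : ∀ t, ∀ q ∈ σ.S t, 0 ≤ μ.A t q := μ.A_nonneg
  have hlev : ∀ t, ∀ q ∈ σ.S t, 0 ≤ levA (par N) t.1 j q.1.1 :=
    fun t q hq => (share_range N (mem_scQ.1 hq).2.1 j).2.2.2.2.2.1.le
  have hw : ∀ n t, ∀ q ∈ σ.S t,
      0 ≤ Kf t ^ (200000 * mExp j) * (Kf t ^ (100000 * mExp j) / Kf t ^ eExp j) ^ n :=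
    fun n t _ _ => by have := Kf_pos t; positivity
  have hAle : ∀ t, ∀ q ∈ σ.S t, μ.A t q ≤ levA (par N) t.1 j q.1.1 := fun t q hq =>
    div_le_self (hlev t q hq) (le_max_left _ _)
  have hMr : ∀ t n m, 0 ≤ μ.M t ^ n * (μ.M t ^ 400 / k t) ^ m := fun t n m => by
    have h0 : 0 < μ.M t := zero_lt_one.trans_le (μ.one_le_M t)
    have h1 : 0 < k t := (pow_pos h0 400).trans_le (hk t)
    positivity
  have hmap : ∀ t, ∀ q ∈ σ.S t, Lev.splitL G j q + 0 ∈ μ.fast.S t := fun t q hq => by
    rw [add_zero]; exact ⟨trunc_mem j hq, trivial⟩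
  have pull : ∀ {F : Type} [NormedAddCommGroup F] [NormedSpace ℝ F]
      {w : Fam C C2 → (Ph × G) × ℝ → ℝ} {f : Fam C C2 → (Ph × G) × ℝ → F},
      Cost μ.fast.toScale w f →
      Cost σ (fun t q => w t (trunc j q, slot j q)) fun t q => f t (trunc j q, slot j q) :=
    fun hf => by
      have h := hf.comp_affine σ (fun _ => Lev.splitL G j) (fun _ => 0)
        (fun t => mul_le_of_le_one_right (zero_le_one.trans (σ.one_le t)) (Lev.norm_splitL G j)) hmap
      simpa only [add_zero, Lev.splitL_apply] using h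
  have hZ : ∀ t, ContDiffOn ℝ ∞ (W t).Z (μ.S t) := hM.smooth
  have hcs := fun m (hm : 1 ≤ m) => H.kin.coefs_size H.mean0 hm
  refine ⟨?_, ?_, ?_⟩
  · -- slow
    have hS : Cost σ (fun t q => μ.A t q ^ 2 * μ.M t ^ 800 * (μ.M t ^ 400 / k t) ^ 1)
        fun t q => ∑ n ∈ Finset.Icc 1 N, (k t)⁻¹ ^ n • mean (coefsOf W Y n t q) :=
      series (μ := μ) (d := 2) (a := 400) (b := 800) (j₀ := 1) _
        (fun n hn => (Finset.mem_Icc.1 hn).1) (f := fun n t q => mean (coefsOf W Y n t q))
        (fun n hn => ((hcs n (Finset.mem_Icc.1 hn).1).2).le le_rfl (by omega)) k hk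
    have hT := (pull (F := Fin 3 → ℝ) (w := fun t p => μ.A t p.1 ^ 2 * μ.M t ^ 800 *
      (μ.M t ^ 400 / k t) ^ 1) hS.fast).clm (ofCompL j)
    refine (hT.mono zero_le_one (fun t q hq => mul_nonneg (sq_nonneg _)
      (by have := Kf_pos t; positivity)) fun t q hq => ?_).congr fun t q hq => ?_
    · rw [one_mul]
      rw [mul_assoc, hMS t q hq, hkS t q hq]
      refine mul_le_mul (pow_le_pow_left₀ (hA t _ (trunc_mem j hq)) (hAle t _ (trunc_mem j hq)) 2)
        ?_ (by have := Kf_pos t; rw [k_eq]; positivity) (sq_nonneg _)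
      show (Kf t ^ mLev j) ^ 800 * ((Kf t ^ mLev j) ^ 400 / Kf t ^ eExp j) ^ 1 ≤ _
      rw [pow_one, mul_div_assoc', ← pow_add, ← pow_mul]
      exact div_le_div_of_nonneg_right (pow_le_pow_right₀ (one_le_Kf t) (by unfold mLev; omega))
        (pow_nonneg (Kf_pos t).le _)
    · rw [slowAt, ofCompL_apply, hkS t q hq]
      congr 1
      refine sum_congr rfl fun n _ => ?_
      rw [mean_err hx (trunc_mem j hq), sub_zero]
      rfl
  · -- the gain of the metric
    have htail : Cost σ (fun t q => μ.A t (trunc j q) * μ.M t ^ 800 * (μ.M t ^ 400 / k t) ^ (N + 1))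
        fun t q => ∑ n ∈ Finset.Ico (N + 1) (2 * (N + 2)),
          (k t)⁻¹ ^ n • coefsOf W Y n t (trunc j q) (slot j q) := by
      have h := series (μ := μ.fast) (d := 1) (a := 400) (b := 800) (j₀ := N + 1)
        (Finset.Ico (N + 1) (2 * (N + 2))) (fun n hn => (Finset.mem_Ico.1 hn).1)
        (f := fun n t p => coefsOf W Y n t p.1 p.2)
        (fun n hn => ((hcs n (by have := (Finset.mem_Ico.1 hn).1; omega)).1).le le_rfl (by omega))
        k hk
      simp only [pow_one] at h
      exact pull h
    have htail' := (htail.clm (ofCompL j)).mono zero_le_one (hw (N + 1)) fun t q hq => by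
      rw [one_mul, mul_assoc]
      refine (mul_le_of_le_one_left (hMr t 800 (N + 1)) (μ.A_le t _ (trunc_mem j hq))).trans ?_
      rw [hMS t q hq, hkS t q hq]
      exact weight_le N t j 800 (N + 1) (by norm_num)
    have hrest : Cost σ
        (fun t _ => Kf t ^ (200000 * mExp j) * (Kf t ^ (100000 * mExp j) / Kf t ^ eExp j) ^ (N + 1))
        fun t q => if h : j < 11 then (if errOrd j ≤ N then (0 : Sym2) else
          -((levA (par N) t.1 j q.1.1 / k t ^ 2) •
            (x t (put j (slot j q) (trunc j q))).1 ⟨j, by omega⟩)) else 0 := by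
      by_cases h : j < 11
      swap
      · simp only [h, dite_false]; exact Cost.zero (hw _)
      by_cases hN : errOrd j ≤ N
      · simp only [h, hN, dite_true, if_true]; exact Cost.zero (hw _)
      simp only [h, hN, dite_true, if_false]
      have hN1 : N + 1 ≤ 2 := by unfold errOrd at hN; split_ifs at hN <;> omega
      have hl := cost_of_plane (hV := hV) (V := V) ((share_cost (C := C) (C2 := C2) (N := N)
        (N' := N') (T := T) hb2).2.2 j)
      have hxc : Cost σ (fun t _ => (Kf t ^ s)⁻¹)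
          fun t q => (x t (put j (slot j q) (trunc j q))).1 (⟨j, by omega⟩ : Fin 12) := by
        have e : ∀ q : Ph × G, put j (slot j q) (trunc j q) = trunc (j + 1) q := put_slot j
        simp only [e]
        have h1 := hx.cost.comp_affine σ
          (fun _ => Lev.truncL G (j + 1)) (fun _ => 0)
          (fun t => mul_le_of_le_one_right (zero_le_one.trans (σ.one_le t)) (Lev.norm_truncL G _))
          fun t q hq => by rw [add_zero, Lev.truncL_apply]; exact trunc_mem (j + 1) hq
        simp only [add_zero, Lev.truncL_apply] at h1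
        exact (h1.clm (ContinuousLinearMap.fst ℝ (Fin 12 → Sym2) (Fin 3 → ℝ))).clm
          (ContinuousLinearMap.proj (R := ℝ) (φ := fun _ : Fin 12 => Sym2) ⟨j, by omega⟩)
      have h2 := (cost_smul_index (hl.smul hxc) fun t => (k t ^ 2)⁻¹).mono hD.le (hw (N + 1))
        fun t q hq => ?_
      · exact (Cost.neg h2).congr fun t q _ => by rw [smul_smul, div_eq_inv_mul]
      have hK := one_le_Kf t
      have h0 := Kf_pos t
      rw [hkS t q hq]
      obtain ⟨-, -, -, -, -, -, l1, l2, -⟩ := share_range N (mem_scQ.1 hq).2.1 j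
      rw [abs_of_pos (inv_pos.2 (pow_pos (show 0 < (par N).k t.1 j from pow_pos h0 _) 2))]
      calc ((par N).k t.1 j ^ 2)⁻¹ * (levA (par N) t.1 j q.1.1 * (Kf t ^ s)⁻¹)
          ≤ ((par N).k t.1 j ^ 2)⁻¹ * (max 1 (C 0) * 1) := by
            refine mul_le_mul_of_nonneg_left (mul_le_mul (l1.trans (l2.trans (le_max_right _ _)))
              (inv_le_one_of_one_le₀ (one_le_pow_K t s)) (by positivity) hD.le) ?_
            exact inv_nonneg.2 (sq_nonneg _)
        _ ≤ max 1 (C 0) * ((Kf t ^ eExp j)⁻¹) ^ (N + 1) := by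
            rw [mul_one, mul_comm, k_eq, ← inv_pow]
            refine mul_le_mul_of_nonneg_left (pow_le_pow_of_le_one (by positivity)
              (inv_le_one_of_one_le₀ (one_le_pow_K t _)) hN1) hD.le
        _ ≤ _ := by
            refine mul_le_mul_of_nonneg_left ?_ hD.le
            refine le_trans ?_ (le_mul_of_one_le_left (by positivity)
              (one_le_pow_K t (200000 * mExp j)))
            refine pow_le_pow_left₀ (by positivity) ?_ _
            rw [div_eq_mul_inv]
            exact le_mul_of_one_le_left (by positivity) (one_le_pow_K t _)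
    refine (htail'.add hrest).congr fun t q hq => ?_
    have hq' := trunc_mem j hq
    have hkk := hkS t q hq
    have hp : (Lev.splitL G j q).1 ∈ μ.S t := hq'
    obtain ⟨-, -, hmet⟩ := level_exact H.kin hZ (Lev.splitL G j) (hk0 t)
      (e' := vec (par N) t.1 G (j + 1) (levE j)) (v' := vec (par N) t.1 G (j + 1) (levV j))
      (by rw [splitL_vec N t.1 hj, (lev_frame j).1, mul_zero]; rfl)
      (by rw [splitL_vec N t.1 hj, (lev_frame j).2.1, mul_one, hkk]; rfl) (x := q) hp
    rw [metric_frame N t.1 (x t) (j + 1) j q, metric_frame N t.1 (x t) j j (trunc j q)]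
    have hF : mapAt N t.1 (x t) (j + 1) =
        fun y => liftOf (W t) (Y t) (N + 1) (k t) (Lev.splitL G j y) := by
      funext y; rw [Lev.splitL_apply, hkk]; rfl
    have hcomp : (![ip (d1At N t.1 (x t) (j + 1) (levE j) q) (d1At N t.1 (x t) (j + 1) (levE j) q),
        ip (d1At N t.1 (x t) (j + 1) (levV j) q) (d1At N t.1 (x t) (j + 1) (levE j) q),
        ip (d1At N t.1 (x t) (j + 1) (levV j) q) (d1At N t.1 (x t) (j + 1) (levV j) q)] :
        Fin 3 → ℝ) = ∑ m ∈ range (2 * (N + 1 + 1)),
          (k t)⁻¹ ^ m • coefsOf W Y m t (trunc j q) (slot j q) := by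
      rw [Lev.splitL_apply] at hmet
      simp only [d1At, hF]
      exact hmet
    rw [hcomp]
    have hsplit : ∑ m ∈ range (2 * (N + 1 + 1)),
        (k t)⁻¹ ^ m • coefsOf W Y m t (trunc j q) (slot j q) =
        coefsOf W Y 0 t (trunc j q) (slot j q) +
          ∑ m ∈ Finset.Icc 1 N, (k t)⁻¹ ^ m • coefsOf W Y m t (trunc j q) (slot j q) +
          ∑ m ∈ Finset.Ico (N + 1) (2 * (N + 2)),
            (k t)⁻¹ ^ m • coefsOf W Y m t (trunc j q) (slot j q) := by
      rw [show 2 * (N + 1 + 1) = 2 * (N + 2) by rfl,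
        sum_range_eq_add_Ico _ (by omega), pow_zero, one_smul, add_assoc]
      congr 1
      rw [← sum_Ico_consecutive _ (show 1 ≤ N + 1 by omega) (show N + 1 ≤ 2 * (N + 2) by omega)]
      rfl
    rw [hsplit]
    have h0 : coefsOf W Y 0 t (trunc j q) (slot j q) =
        ![ip (d1At N t.1 (x t) j (levE j) (trunc j q)) (d1At N t.1 (x t) j (levE j) (trunc j q)),
          ip (d1At N t.1 (x t) j (levV j) (trunc j q)) (d1At N t.1 (x t) j (levE j) (trunc j q)),
          ip (d1At N t.1 (x t) j (levV j) (trunc j q)) (d1At N t.1 (x t) j (levV j) (trunc j q))] +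
        ![0, 0, amp (par N) t.1 (x t) j (restAt N t.1 (x t) j) (trunc j q) ^ 2] := by
      refine (H.zero t _ hq' _).trans ?_
      funext i; fin_cases i <;> simp
    have hn : ∀ m ∈ Finset.Icc 1 N, (k t)⁻¹ ^ m • coefsOf W Y m t (trunc j q) (slot j q) =
        (k t)⁻¹ ^ m • errOf (par N) t.1 (x t) j m (trunc j q) (slot j q) +
        (k t)⁻¹ ^ m • (mean (coefsAt (par N) t.1 (x t) j m (trunc j q)) -
          mean (errOf (par N) t.1 (x t) j m (trunc j q))) +
        (k t)⁻¹ ^ m • (if isFree j = true then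
          ![(freeData (par N) t.1 (x t) univ j (mapAt N t.1 (x t) j)
            (restAt N t.1 (x t) j)).oscEE N m (trunc j q) (slot j q), 0, 0]
          else 0) := fun m hm => by
      rw [← smul_add, ← smul_add]
      exact congrArg _ (H.eq t _ hq' m (Finset.mem_Icc.1 hm).1 (Finset.mem_Icc.1 hm).2 _)
    rw [h0, sum_congr rfl hn, hkk, sum_add_distrib, sum_add_distrib, err_sum N t.1 (x t) (pow_pos (Kf_pos t) (eExp j)).ne',
      trunc_trunc le_rfl]
    simp only [← ofCompL_apply, map_add]
    have eA : ofCompL j ![0, 0, amp (par N) t.1 (x t) j (restAt N t.1 (x t) j) (trunc j q) ^ 2] =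
        amp (par N) t.1 (x t) j (restAt N t.1 (x t) j) (trunc j q) ^ 2 •
          sqForm (levCov j).1 (levCov j).2 := by
      simp [ofCompL_apply, ofComp]
    have eS : ofCompL j (∑ m ∈ Finset.Icc 1 N, ((par N).k t.1 j)⁻¹ ^ m •
        (mean (coefsAt (par N) t.1 (x t) j m (trunc j q)) -
          mean (errOf (par N) t.1 (x t) j m (trunc j q)))) = slowAt (par N) t.1 (x t) j q := rfl
    have eR : ofCompL j (∑ m ∈ Finset.Icc 1 N, ((par N).k t.1 j)⁻¹ ^ m • (if isFree j = true then
          ![(freeData (par N) t.1 (x t) univ j (mapAt N t.1 (x t) j)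
            (restAt N t.1 (x t) j)).oscEE N m (trunc j q) (slot j q), 0, 0]
          else 0)) =
        (restAt N t.1 (x t) (j + 1) q - restAt N t.1 (x t) j (trunc j q)) • sqForm 1 0 := by
      have er : restAt N t.1 (x t) (j + 1) q - restAt N t.1 (x t) j (trunc j q) =
          if isFree j = true then ∑ m ∈ Finset.Icc 1 N, ((par N).k t.1 j)⁻¹ ^ m *
            (freeData (par N) t.1 (x t) univ j (mapAt N t.1 (x t) j)
              (restAt N t.1 (x t) j)).oscEE N m (trunc j q) (slot j q) else 0 :=
        add_sub_cancel_left _ _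
      rw [er, map_sum]
      by_cases hf : isFree j = true
      · simp only [hf, if_true, map_smul, ofCompL_apply, sum_smul]
        refine sum_congr rfl fun m _ => ?_
        simp [ofComp, psi_free hf, smul_smul]
      · simp [hf]
    rw [eA, eS, eR]
    by_cases h : j < 11
    · by_cases hN : errOrd j ≤ N
      · simp only [h, hN, dite_true, if_true, map_smul]
        rw [show ofCompL j (toComp j ((x t (put j (slot j q) (trunc j q))).1 ⟨j, by omega⟩)) =
          (x t (put j (slot j q) (trunc j q))).1 ⟨j, by omega⟩ from ofComp_toComp j _]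
        simp only [show (trunc j q).1.1 = q.1.1 from rfl]
        abel
      · simp only [h, hN, dite_true, if_false, map_zero]
        abel
    · simp only [h, dite_false, ite_self, map_zero]
      abel
  · -- the change of the map
    have h := pull (liftOf_first H.kin hZ k hk).1
    refine (h.mono zero_le_one (fun t q hq => mul_nonneg (hlev t q hq)
      (by have := Kf_pos t; positivity)) fun t q hq => ?_).congr fun t q hq => by
        rw [hkS t q hq]; rfl
    rw [one_mul, mul_assoc, hMS t q hq, hkS t q hq]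
    refine mul_le_mul (hAle t _ (trunc_mem j hq)) ?_ ?_ (hlev t q hq)
    · rw [pow_zero, one_mul, k_eq]
      refine div_le_div_of_nonneg_right ?_ (pow_nonneg (Kf_pos t).le _)
      show (Kf t ^ mLev j) ^ 400 ≤ _
      rw [← pow_mul]
      exact pow_le_pow_right₀ (one_le_Kf t) (by unfold mLev; omega)
    · exact mul_nonneg (pow_nonneg (pow_nonneg (Kf_pos t).le _) _)
        (div_nonneg (pow_nonneg (pow_nonneg (Kf_pos t).le _) _) (pow_nonneg (Kf_pos t).le _))

end Vale.Agent.P205.Stage
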