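import Vale.Agent.P205.Stage.Eval
import Vale.Agent.P205.Wave.CostKin

/-!
One level in the space with the new fast variable: the new map, its derivatives along
`(e, 0)` and `(v, k)` as finite expansions, its metric and the sizes of the remainders.
-/

noncomputable section

open Set Finset
open scoped ContDiff

namespace Vale.Agent.P205.Stage

open Wave Wave.Data

variable {ι E : Type} [NormedAddCommGroup E] [NormedSpace ℝ E] [FiniteDimensional ℝ E]

theorem hasFDerivAt_slice {G : Type} [NormedAddCommGroup G] [NormedSpace ℝ G] {Ω : Set E}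
    (hΩ : IsOpen Ω) {f : E × ℝ → G} (hf : ContDiffOn ℝ ∞ f (Ω ×ˢ univ)) {p : E × ℝ}
    (hp : p.1 ∈ Ω) (a : E) (c : ℝ) :
    DifferentiableAt ℝ f p ∧
      D (a, c) f p = D a (fun y => f (y, p.2)) p.1 + c • deriv (fun s => f (p.1, s)) p.2 := by
  have hd : HasFDerivAt f _ p := ((hf.differentiableOn (by simp)).differentiableAt
    ((hΩ.prod isOpen_univ).mem_nhds ⟨hp, trivial⟩)).hasFDerivAt
  have h1 : HasFDerivAt (fun y => f (y, p.2)) _ p.1 :=
    hd.comp (f := fun y => (y, p.2)) p.1 (hasFDerivAt_prodMk_left p.1 p.2)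
  have h2 : HasDerivAt (fun s => f (p.1, s)) _ p.2 :=
    hd.comp_hasDerivAt (f := fun u : ℝ => (p.1, u)) p.2
      ((hasDerivAt_const p.2 p.1).prodMk (hasDerivAt_id p.2))
  refine ⟨hd.differentiableAt, ?_⟩
  simp only [D]
  rw [h1.fderiv, h2.deriv]
  simp only [ContinuousLinearMap.comp_apply, ContinuousLinearMap.inl_apply]
  rw [← map_smul, ← map_add]
  simp

theorem D_expansion {G : Type} [NormedAddCommGroup G] [NormedSpace ℝ G] {Ω : Set E}
    (hΩ : IsOpen Ω) (s : Finset ℕ) {g : ℕ → E → ℝ → G}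
    (hg : ∀ i ∈ s, Smooth2 Ω (g i)) (r : ℕ → ℝ) {p : E × ℝ} (hp : p.1 ∈ Ω) (a : E) (c : ℝ) :
    D (a, c) (fun q => ∑ i ∈ s, r i • g i q.1 q.2) p =
      ∑ i ∈ s, r i • (D a (fun y => g i y p.2) p.1 + c • deriv (g i p.1) p.2) := by
  have h := fun i (hi : i ∈ s) => hasFDerivAt_slice hΩ (hg i hi) hp a c
  rw [D, (HasFDerivAt.fun_sum fun i hi => (h i hi).1.hasFDerivAt.fun_const_smul (r i)).fderiv]
  simp only [ContinuousLinearMap.coe_sum', Finset.sum_apply, ContinuousLinearMap.smul_apply]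
  exact sum_congr rfl fun i hi => congrArg _ (h i hi).2

/-- The map after a level, in the space with the new fast variable. -/
def liftOf (W : Wave.Data E) (Y : ℕ → E → ℝ → V4) (n : ℕ) (k : ℝ) (p : E × ℝ) : V4 :=
  W.Z p.1 + ∑ j ∈ range n, k⁻¹ ^ (j + 1) • Y (j + 1) p.1 p.2

variable {μ : Mag ι E} {W : ι → Wave.Data E} {Y : ι → ℕ → E → ℝ → V4} {n : ℕ}
  (hK : Kin μ W Y n)
include hK

theorem D_liftOf (hZ : ∀ t, ContDiffOn ℝ ∞ (W t).Z (μ.S t)) {t : ι} {k : ℝ} (hk : k ≠ 0)
    {p : E × ℝ} (hp : p.1 ∈ μ.S t) :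
    D ((W t).e, (0 : ℝ)) (liftOf (W t) (Y t) n k) p =
        ∑ i ∈ range (n + 1), k⁻¹ ^ i • (W t).de (Y t) i p.1 p.2 ∧
      D ((W t).v, k) (liftOf (W t) (Y t) n k) p =
        ∑ i ∈ range (n + 1), k⁻¹ ^ i • (W t).dv (Y t) i p.1 p.2 := by
  have ho := μ.isOpen t
  have hs : ∀ j ∈ range n, Smooth2 (μ.S t) (Y t (j + 1)) := fun j _ => hK.smooth t (j + 1)
  have hsum : ∀ (a : E) (c : ℝ), D (a, c) (liftOf (W t) (Y t) n k) p = D a (W t).Z p.1 +
      ∑ j ∈ range n, k⁻¹ ^ (j + 1) •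
        (D a (fun y => Y t (j + 1) y p.2) p.1 + c • deriv (Y t (j + 1) p.1) p.2) := fun a c => by
    have h1 := hasFDerivAt_slice ho (f := fun q : E × ℝ => (W t).Z q.1)
      ((hZ t).comp contDiff_fst.contDiffOn fun _ hq => hq.1) hp a c
    have h2 : DifferentiableAt ℝ
        (fun q : E × ℝ => ∑ j ∈ range n, k⁻¹ ^ (j + 1) • Y t (j + 1) q.1 q.2) p :=
      DifferentiableAt.fun_sum fun j hj => (hasFDerivAt_slice ho (hs j hj) hp a c).1.fun_const_smul _
    rw [← D_expansion ho (range n) (g := fun j => Y t (j + 1)) hs _ hp]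
    show fderiv ℝ (fun q : E × ℝ => (W t).Z q.1 + _) p (a, c) = _
    rw [fderiv_fun_add h1.1 h2, ContinuousLinearMap.add_apply]
    exact congrArg₂ (· + ·) (h1.2.trans (by simp)) rfl
  constructor
  · rw [hsum, sum_range_succ' _ n]
    simp only [zero_smul, add_zero, de, Nat.add_one_ne_zero, if_false, if_true, pow_zero,
      one_smul, Ze]
    exact add_comm _ _
  · rw [hsum]
    simp only [smul_add, sum_add_distrib, smul_smul, dv]
    rw [sum_range_succ' (fun i => k⁻¹ ^ i •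
      if i = 0 then (W t).Zv p.1 else D (W t).v (fun y => Y t i y p.2) p.1) n,
      sum_range_succ (fun i => k⁻¹ ^ i • deriv (Y t (i + 1) p.1) p.2) n]
    have e0 : deriv (Y t (n + 1) p.1) p.2 = 0 := by
      have : Y t (n + 1) p.1 = fun _ => 0 :=
        funext fun s => hK.beyond t (n + 1) (by omega) p.1 s
      simp [this]
    have e1 : ∀ j, k⁻¹ ^ (j + 1) * k = k⁻¹ ^ j := fun j => by
      rw [pow_succ, mul_assoc, inv_mul_cancel₀ hk, mul_one]
    simp only [e0, smul_zero, add_zero, e1, Nat.add_one_ne_zero, if_false, if_true, pow_zero,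
      one_smul, Zv]
    abel

/-- The metric of the lifted map is the finite sum of the coefficients, at every fast variable. -/
theorem metric_liftOf (hZ : ∀ t, ContDiffOn ℝ ∞ (W t).Z (μ.S t)) {t : ι} {k : ℝ} (hk : k ≠ 0)
    {p : E × ℝ} (hp : p.1 ∈ μ.S t) :
    let X := liftOf (W t) (Y t) n k
    (![ip (D ((W t).e, (0 : ℝ)) X p) (D ((W t).e, (0 : ℝ)) X p),
        ip (D ((W t).v, k) X p) (D ((W t).e, (0 : ℝ)) X p),
        ip (D ((W t).v, k) X p) (D ((W t).v, k) X p)] : Fin 3 → ℝ) =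
      ∑ m ∈ range (2 * (n + 1)), k⁻¹ ^ m • coefsOf W Y m t p.1 p.2 := by
  intro X
  obtain ⟨h1, h2⟩ := D_liftOf hK hZ hk hp
  have z1 : ∀ i, n + 1 ≤ i → (W t).de (Y t) i p.1 p.2 = 0 := fun i hi => by
    have e : (fun y => Y t i y p.2) = fun _ => 0 := funext fun y => hK.beyond t i (by omega) y p.2
    simp [de, show i ≠ 0 by omega, e, D]
  have z2 : ∀ i, n + 1 ≤ i → (W t).dv (Y t) i p.1 p.2 = 0 := fun i hi => by
    have e : (fun y => Y t i y p.2) = fun _ => 0 := funext fun y => hK.beyond t i (by omega) y p.2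
    have e' : Y t (i + 1) p.1 = fun _ => 0 :=
      funext fun s => hK.beyond t (i + 1) (by omega) p.1 s
    simp [dv, show i ≠ 0 by omega, e, e', D]
  funext j
  fin_cases j <;> simp only [X, h1, h2, Finset.sum_apply, Pi.smul_apply, smul_eq_mul]
  · exact ip_sum_pow _ _ _ _ z1 z1
  · exact ip_sum_pow _ _ _ _ z2 z1
  · exact ip_sum_pow _ _ _ _ z2 z2

/-- The remainder weight `A M ^ b (M ^ 400 / k)`. -/
theorem series_weight (b : ℕ) (k : ι → ℝ) (hk : ∀ t, μ.M t ^ 400 ≤ k t) (s : Finset ℕ)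
    (hs : ∀ j ∈ s, 1 ≤ j) {G : Type} [NormedAddCommGroup G] [NormedSpace ℝ G]
    {f : ℕ → ι → E × ℝ → G} (hf : ∀ j ∈ s, Sz μ.fast 1 (400 * j + b) (f j)) :
    Cost μ.fast.toScale (fun t p => μ.A t p.1 * μ.M t ^ b * (μ.M t ^ 400 / k t))
      fun t p => ∑ j ∈ s, (k t)⁻¹ ^ j • f j t p := by
  have h := series (μ := μ.fast) (d := 1) (a := 400) (b := b) (j₀ := 1) s hs hf k hk
  simp only [pow_one] at h
  exact h

/-- The new map is close to the old one, and its first derivatives are `Z_e` and the velocity. -/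
theorem liftOf_first (hZ : ∀ t, ContDiffOn ℝ ∞ (W t).Z (μ.S t)) (k : ι → ℝ)
    (hk : ∀ t, μ.M t ^ 400 ≤ k t) :
    Cost μ.fast.toScale (fun t p => μ.A t p.1 * μ.M t ^ 0 * (μ.M t ^ 400 / k t))
        (fun t p => liftOf (W t) (Y t) n (k t) p - (W t).Z p.1) ∧
      Cost μ.fast.toScale (fun t p => μ.A t p.1 * μ.M t ^ 2 * (μ.M t ^ 400 / k t))
        (fun t p => D ((W t).e, (0 : ℝ)) (liftOf (W t) (Y t) n (k t)) p - (W t).Ze p.1) ∧
      Cost μ.fast.toScale (fun t p => μ.A t p.1 * μ.M t ^ 2 * (μ.M t ^ 400 / k t))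
        fun t p => D ((W t).v, k t) (liftOf (W t) (Y t) n (k t)) p -
          (W t).dv (Y t) 0 p.1 p.2 := by
  have hk0 : ∀ t, k t ≠ 0 := fun t =>
    (lt_of_lt_of_le (pow_pos (zero_lt_one.trans_le (μ.one_le_M t)) 400) (hk t)).ne'
  have hmem : ∀ j ∈ Finset.Ico 1 (n + 1), 1 ≤ j := fun j hj => (Finset.mem_Ico.1 hj).1
  have hsplit : ∀ (k : ℝ) (g : ℕ → V4), (∑ i ∈ range (n + 1), k⁻¹ ^ i • g i) - g 0 =
      ∑ i ∈ Finset.Ico 1 (n + 1), k⁻¹ ^ i • g i := fun k g => by
    rw [sum_range_eq_add_Ico _ (by omega), pow_zero, one_smul, add_sub_cancel_left]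
  refine ⟨?_, ?_, ?_⟩
  · refine (series_weight hK 0 k hk (Finset.Ico 1 (n + 1)) hmem
      (f := fun j t p => Y t j p.1 p.2) fun j hj =>
        (hK.size j).le le_rfl (expo_le j (hmem j hj))).congr fun t p hp => ?_
    rw [liftOf, add_sub_cancel_left, sum_Ico_eq_sum_range]
    simp [add_comm 1]
  · refine (series_weight hK 2 k hk (Finset.Ico 1 (n + 1)) hmem
      (f := fun j t p => (W t).de (Y t) j p.1 p.2) fun j hj =>
        (hK.de_size (hmem j hj)).le le_rfl (by
          have := hmem j hj; unfold expo; split_ifs <;> omega)).congr fun t p hp => ?_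
    rw [(D_liftOf hK hZ (hk0 t) hp.1).1, ← hsplit]
    simp [de]
  · refine (series_weight hK 2 k hk (Finset.Ico 1 (n + 1)) hmem
      (f := fun j t p => (W t).dv (Y t) j p.1 p.2) fun j hj =>
        (hK.dv_size (hmem j hj)).le le_rfl (by
          have := hmem j hj; unfold expo; split_ifs <;> omega)).congr fun t p hp => ?_
    rw [(D_liftOf hK hZ (hk0 t) hp.1).2, ← hsplit]

/-- Second derivatives: `Z_ee`, the mixed and the fast one, up to small remainders. -/
theorem liftOf_second (hZ : ∀ t, ContDiffOn ℝ ∞ (W t).Z (μ.S t)) (k : ι → ℝ)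
    (hk : ∀ t, μ.M t ^ 400 ≤ k t) :
    let X := fun t => liftOf (W t) (Y t) n (k t)
    let w := fun b t (p : E × ℝ) => μ.A t p.1 * μ.M t ^ b * (μ.M t ^ 400 / k t)
    Cost μ.fast.toScale (w 4) (fun t p =>
        D ((W t).e, (0 : ℝ)) (D ((W t).e, (0 : ℝ)) (X t)) p - (W t).Zee p.1) ∧
      Cost μ.fast.toScale (w 404) (fun t p =>
        D ((W t).v, k t) (D ((W t).e, (0 : ℝ)) (X t)) p -
          (D (W t).v (W t).Ze p.1 + deriv ((W t).de (Y t) 1 p.1) p.2)) ∧
      Cost μ.fast.toScale (w 404) fun t p =>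
        D ((W t).v, k t) (D ((W t).v, k t) (X t)) p -
          (k t • deriv ((W t).dv (Y t) 0 p.1) p.2 +
            (D (W t).v (fun y => (W t).dv (Y t) 0 y p.2) p.1 +
              deriv ((W t).dv (Y t) 1 p.1) p.2)) := by
  intro X w
  have hk0 : ∀ t, k t ≠ 0 := fun t =>
    (lt_of_lt_of_le (pow_pos (zero_lt_one.trans_le (μ.one_le_M t)) 400) (hk t)).ne'
  have hde : ∀ t, ∀ i, Smooth2 (μ.S t) ((W t).de (Y t) i) := fun t i => by
    rcases Nat.eq_zero_or_pos i with rfl | h0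
    · exact ((hK.ze.fast.smooth t) : _).congr fun p _ => by simp [de]
    · exact (hK.de_size h0).smooth t
  have hdv : ∀ t, ∀ i, Smooth2 (μ.S t) ((W t).dv (Y t) i) := fun t i => by
    rcases Nat.eq_zero_or_pos i with rfl | h0
    · exact hK.dv_zero.smooth t
    · exact (hK.dv_size h0).smooth t
  have key : ∀ (t : ι) (p : E × ℝ), p.1 ∈ μ.S t → ∀ (a b : E) (c c' : ℝ) (g : ℕ → E → ℝ → V4),
      (∀ i, Smooth2 (μ.S t) (g i)) → (∀ q : E × ℝ, q.1 ∈ μ.S t →
        D (b, c') (X t) q = ∑ i ∈ range (n + 1), (k t)⁻¹ ^ i • g i q.1 q.2) →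
      D (a, c) (D (b, c') (X t)) p = ∑ i ∈ range (n + 1),
        (k t)⁻¹ ^ i • (D a (fun y => g i y p.2) p.1 + c • deriv (g i p.1) p.2) := by
    intro t p hp a b c c' g hg he
    rw [← D_expansion (μ.isOpen t) _ (fun i _ => hg i) (fun i => (k t)⁻¹ ^ i) hp]
    simp only [D]
    rw [Filter.EventuallyEq.fderiv_eq]
    filter_upwards [(μ.fast.isOpen t).mem_nhds (show p ∈ μ.fast.S t from ⟨hp, trivial⟩)] with q hq
    exact he q hq.1
  have hmem : ∀ j ∈ Finset.Ico 1 (n + 1), 1 ≤ j := fun j hj => (Finset.mem_Ico.1 hj).1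
  have hn := hK.one
  -- the two shifts
  have shift : ∀ (k : ℝ) (_ : k ≠ 0) (A B : ℕ → V4),
      (∀ i, n + 1 ≤ i → B i = 0) →
      ∑ i ∈ range (n + 1), k⁻¹ ^ i • (A i + k • B i) - (k • B 0 + (A 0 + B 1)) =
        ∑ i ∈ Finset.Ico 1 (n + 1), k⁻¹ ^ i • (A i + B (i + 1)) := by
    intro k hk A B hB
    have e1 : ∀ j, k⁻¹ ^ (j + 1) * k = k⁻¹ ^ j := fun j => by
      rw [pow_succ, mul_assoc, inv_mul_cancel₀ hk, mul_one]
    simp only [smul_add, sum_add_distrib, smul_smul]
    rw [sum_range_eq_add_Ico (fun i => k⁻¹ ^ i • A i) (by omega),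
      sum_range_succ' (fun i => (k⁻¹ ^ i * k) • B i) n]
    have e2 : ∑ i ∈ range n, (k⁻¹ ^ (i + 1) * k) • B (i + 1) =
        B 1 + ∑ i ∈ Finset.Ico 1 (n + 1), k⁻¹ ^ i • B (i + 1) := by
      simp only [e1]
      rw [sum_range_eq_add_Ico _ (by omega), pow_zero, one_smul, sum_Ico_succ_top (by omega),
        hB (n + 1) le_rfl, smul_zero, add_zero]
    rw [e2, pow_zero, one_smul, one_mul]
    abel
  refine ⟨?_, ?_, ?_⟩
  · refine (series_weight hK 4 k hk (Finset.Ico 1 (n + 1)) hmem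
      (f := fun j t p => D (W t).e (fun y => (W t).de (Y t) j y p.2) p.1) fun j hj =>
        ((hK.de_size (hmem j hj)).de (h := fun t => (W t).de (Y t) j) (fun t => (W t).e)
          hK.norm_e).le le_rfl (by
          have := hmem j hj; unfold expo; split_ifs <;> omega)).congr fun t p hp => ?_
    rw [key t p hp.1 _ _ 0 0 _ (hde t) fun q hq => (D_liftOf hK hZ (hk0 t) hq).1]
    simp only [zero_smul, add_zero]
    rw [sum_range_eq_add_Ico _ (by omega), pow_zero, one_smul,
      show (fun y => (W t).de (Y t) 0 y p.2) = (W t).Ze from funext fun y => by simp [de]]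
    simp [Zee]
  · refine (series_weight hK 404 k hk (Finset.Ico 1 (n + 1)) hmem
      (f := fun j t p => D (W t).v (fun y => (W t).de (Y t) j y p.2) p.1 +
        deriv ((W t).de (Y t) (j + 1) p.1) p.2) fun j hj =>
        (((hK.de_size (hmem j hj)).de (h := fun t => (W t).de (Y t) j) (fun t => (W t).v)
          hK.norm_v).le le_rfl (by have := hmem j hj; unfold expo; split_ifs <;> omega)).add
        (((hK.de_size (i := j + 1) (by omega)).ds (h := fun t => (W t).de (Y t) (j + 1))).le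
          le_rfl (by have := hmem j hj; unfold expo; split_ifs <;> omega))).congr fun t p hp => ?_
    rw [key t p hp.1 _ _ (k t) 0 _ (hde t) fun q hq => (D_liftOf hK hZ (hk0 t) hq).1,
      ← shift (k t) (hk0 t) _ (fun i => deriv ((W t).de (Y t) i p.1) p.2) fun i hi => by
        have e : (W t).de (Y t) i p.1 = fun _ => 0 := funext fun s => by
          have e' : (fun y => Y t i y s) = fun _ => 0 :=
            funext fun y => hK.beyond t i (by omega) y s
          simp [de, show i ≠ 0 by omega, e', D]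
        simp [e]]
    have e0 : (W t).de (Y t) 0 p.1 = fun _ => (W t).Ze p.1 := funext fun s => by simp [de]
    rw [show (fun y => (W t).de (Y t) 0 y p.2) = (W t).Ze from funext fun y => by simp [de], e0]
    simp
  · refine (series_weight hK 404 k hk (Finset.Ico 1 (n + 1)) hmem
      (f := fun j t p => D (W t).v (fun y => (W t).dv (Y t) j y p.2) p.1 +
        deriv ((W t).dv (Y t) (j + 1) p.1) p.2) fun j hj =>
        (((hK.dv_size (hmem j hj)).de (h := fun t => (W t).dv (Y t) j) (fun t => (W t).v)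
          hK.norm_v).le le_rfl (by have := hmem j hj; unfold expo; split_ifs <;> omega)).add
        (((hK.dv_size (i := j + 1) (by omega)).ds (h := fun t => (W t).dv (Y t) (j + 1))).le
          le_rfl (by have := hmem j hj; unfold expo; split_ifs <;> omega))).congr fun t p hp => ?_
    rw [key t p hp.1 _ _ (k t) (k t) _ (hdv t) fun q hq => (D_liftOf hK hZ (hk0 t) hq).2,
      ← shift (k t) (hk0 t) _ (fun i => deriv ((W t).dv (Y t) i p.1) p.2) fun i hi => by
        have e : (W t).dv (Y t) i p.1 = fun _ => 0 := funext fun s => by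
          have e' : (fun y => Y t i y s) = fun _ => 0 :=
            funext fun y => hK.beyond t i (by omega) y s
          have e2 : Y t (i + 1) p.1 = fun _ => 0 :=
            funext fun r => hK.beyond t (i + 1) (by omega) p.1 r
          simp [dv, show i ≠ 0 by omega, e', e2, D]
        simp [e]]

end Vale.Agent.P205.Stage
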