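import Vale.Agent.P205.Stage.Specs
import Vale.Agent.P205.Stage.Weights
import Vale.Agent.P205.Stage.Telescope

/-!
The operator of a stage gains any fixed power of the scale: what is above a level is the sum of
the slow tensors of the levels above, each a magnitude squared times a power of the scale far
below the inverse of its frequency.
-/

noncomputable section

open Set Finset Real
open scoped ContDiff

namespace Vale.Agent.P205.Stage

open Wave (V4 ip D mean Cost Scale)

theorem mExp_mono : Monotone mExp :=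
  monotone_nat_of_le_succ fun j => by rw [mExp_succ]; have := (mExp_grows j).2; omega

/-- The threshold enters only at the levels above the tiny ones. -/
def pLev (i : ℕ) : ℕ := if i < 9 then 0 else pExp

/-- The frequency of a level dominates its magnitude, the frequencies below, the threshold and
the costs of a stage. -/
theorem gain_exp (i : ℕ) :
    200000 * mExp i + 2 * mExp i + pLev i + (sRun + bExp + 2) ≤ eExp i ∧
      200000 * mExp i + 2 * bExp + (sRun + bExp + 2) ≤ eExp i := by
  have hb := (mExp_grows i).1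
  have hs : sRun = 4 * bExp := rfl
  have h1 : 1 ≤ bExp := Nat.one_le_pow _ _ (by norm_num)
  rcases lt_or_ge i 9 with h | h
  · rw [eExp_tiny h, pLev, if_pos h]; omega
  · rw [eExp_big h, pLev, if_neg (by omega)]; omega

variable {C : ℕ → ℝ} {C2 : ℕ → ℕ → ℝ}

/-- The ratio of magnitudes of two levels, the higher one squared. -/
theorem levA_ratio (N : ℕ) {N' : ℕ} {t : Fam C C2} {z : R2} (hz : z ∈ dom N' t) {i j : ℕ}
    (hji : j ≤ i) :
    levA (par N) t.1 i z ^ 2 / levA (par N) t.1 j z ≤ (C 0 + 1) ^ 2 * Kf t ^ pLev i := by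
  obtain ⟨-, -, -, -, -, hi0, hi1, hC, -, -⟩ := share_range N hz i
  obtain ⟨-, -, -, -, -, hj0, -, -, -, hj⟩ := share_range N hz j
  have hχ := chi_pos hz
  rcases lt_or_ge i 9 with h | h
  · have e : levA (par N) t.1 j z = levA (par N) t.1 i z := by
      simp [levA, h, show j < 9 by omega]
    rw [pLev, if_pos h, pow_zero, mul_one, e, pow_two, mul_div_assoc, div_self hi0.ne', mul_one]
    nlinarith
  · rw [pLev, if_neg (by omega)]
    refine le_trans ?_ hj
    have := hj0.le
    gcongr

/-- A power of the scale with a smaller exponent than a frequency, over that frequency. -/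
theorem pow_div_le (t : Fam C C2) {a b c : ℕ} (h : a + c ≤ b) :
    Kf t ^ a / Kf t ^ b ≤ (Kf t ^ c)⁻¹ := by
  have hK := Kf_pos t
  rw [div_le_iff₀ (pow_pos hK b), inv_mul_eq_div, le_div_iff₀ (pow_pos hK c), ← pow_add]
  exact pow_le_pow_right₀ (one_le_Kf t) h

/-- What the levels from `j` on carry. -/
def carryW (N j : ℕ) (t : Fam C C2) (z : R2) : ℝ :=
  ∑ i ∈ Finset.Ico j 12,
    levA (par N) t.1 i z ^ 2 * (Kf t ^ (200000 * mExp i) / Kf t ^ eExp i)

theorem carryW_nonneg (N j : ℕ) (t : Fam C C2) (z : R2) : 0 ≤ carryW N j t z := by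
  have := Kf_pos t
  exact sum_nonneg fun i _ => by positivity

/-- What is carried below a level, times its factor in the operator. -/
theorem carryW_gain (N : ℕ) {N' : ℕ} {t : Fam C C2} {z : R2} (hz : z ∈ dom N' t) (j : ℕ) :
    (Kf t ^ eExp j) ^ 2 * (levA (par N) t.1 j z)⁻¹ * carryW N (j + 1) t z ≤
      12 * (C 0 + 1) ^ 2 * (Kf t ^ (sRun + bExp + 2))⁻¹ := by
  have hK := Kf_pos t
  calc _ = ∑ i ∈ Finset.Ico (j + 1) 12, levA (par N) t.1 i z ^ 2 / levA (par N) t.1 j z *
        (Kf t ^ (2 * eExp j + 200000 * mExp i) / Kf t ^ eExp i) := by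
        rw [carryW, mul_sum]
        refine sum_congr rfl fun i _ => ?_
        rw [pow_add, pow_mul']
        ring
    _ ≤ ∑ i ∈ Finset.Ico (j + 1) 12, (C 0 + 1) ^ 2 *
        (Kf t ^ (sRun + bExp + 2))⁻¹ := by
        refine sum_le_sum fun i hi => ?_
        have hji : j + 1 ≤ i := (Finset.mem_Ico.1 hi).1
        have he : eExp j + 1 ≤ mExp i := mExp_succ j ▸ mExp_mono hji
        refine (mul_le_mul_of_nonneg_right (levA_ratio N hz (by omega : j ≤ i))
          (by positivity)).trans ?_
        rw [mul_assoc, ← mul_div_assoc, ← pow_add]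
        refine mul_le_mul_of_nonneg_left (pow_div_le t ?_) (sq_nonneg _)
        have := (gain_exp i).1
        omega
    _ ≤ _ := by
        rw [sum_const, nsmul_eq_mul, Nat.card_Ico, ← mul_assoc]
        gcongr
        exact_mod_cast Nat.sub_le 12 (j + 1)

/-- What is carried below all levels, times the factor of the coefficients. -/
theorem carryW_gain0 (N : ℕ) {N' : ℕ} {t : Fam C C2} {z : R2} (hz : z ∈ dom N' t) :
    Kf t ^ (2 * bExp) * carryW N 0 t z * (t.1.χ z * t.1.χ z)⁻¹ ≤
      12 * (Kf t ^ (sRun + bExp + 2))⁻¹ := by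
  have hK := Kf_pos t
  have hχ := chi_pos hz
  calc _ = ∑ i ∈ Finset.Ico 0 12, levA (par N) t.1 i z ^ 2 / t.1.χ z ^ 2 *
        (Kf t ^ (2 * bExp + 200000 * mExp i) / Kf t ^ eExp i) := by
        rw [carryW, mul_sum, sum_mul]
        refine sum_congr rfl fun i _ => ?_
        rw [pow_add, ← pow_two]
        ring
    _ ≤ ∑ _i ∈ Finset.Ico 0 12, 1 * (Kf t ^ (sRun + bExp + 2))⁻¹ := by
        refine sum_le_sum fun i _ => mul_le_mul ?_ (pow_div_le t ?_) (by positivity) zero_le_one
        · obtain ⟨-, -, -, -, -, hi0, hi1, -, -, -⟩ := share_range N hz i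
          rw [div_le_one (by positivity)]
          exact pow_le_pow_left₀ hi0.le hi1 2
        · have := (gain_exp i).2
          omega
    _ = _ := by simp

/-- The components of a tensor in the nominal triple, as a linear map. -/
def nominalInvL : Sym2 →L[ℝ] Fin 3 → ℝ :=
  LinearMap.toContinuousLinearMap
    { toFun := nominalInv
      map_add' := fun a b => by funext i; fin_cases i <;> simp [nominalInv] <;> ring
      map_smul' := fun r a => by funext i; fin_cases i <;> simp [nominalInv] <;> ring }

variable {G : Type} [NormedAddCommGroup G] [NormedSpace ℝ G] [FiniteDimensional ℝ G] {V : Set G}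
  {hV : IsOpen V}

/-- What is above a level, at the slots below it and averaged over its slot, keeps its cost. -/
theorem cost_above_trunc {N' : ℕ} {T : ℝ} {w : Fam C C2 → R2 → ℝ}
    {f : Fam C C2 → Ph × G → Sym2}
    (h : Cost (scQ C C2 N' bExp T V hV) (fun t q => w t q.1.1) f) (j i : ℕ) :
    Cost (scQ C C2 N' bExp T V hV) (fun t q => w t q.1.1) (fun t q => f t (trunc i q)) ∧
      Cost (scQ C C2 N' bExp T V hV) (fun t q => w t q.1.1)
        fun t q => mean fun r => f t (put j r (trunc j q)) := by
  set σ := scQ C C2 N' bExp T V hV with hσ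
  set sl : Fin 12 → (Ph × G) →L[ℝ] ℝ := fun l => (ContinuousLinearMap.proj l).comp
    ((ContinuousLinearMap.snd ℝ R2 (Fin 12 → ℝ)).comp (ContinuousLinearMap.fst ℝ Ph G)) with hsl
  set base : (Ph × G) →L[ℝ] R2 :=
    (ContinuousLinearMap.fst ℝ R2 (Fin 12 → ℝ)).comp (ContinuousLinearMap.fst ℝ Ph G) with hbase
  have hsl1 : ∀ l, ∀ q : Ph × G, ‖sl l q‖ ≤ ‖q‖ := fun l q => by
    simp only [hsl, ContinuousLinearMap.comp_apply, ContinuousLinearMap.proj_apply,
      ContinuousLinearMap.coe_snd', ContinuousLinearMap.coe_fst']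
    exact (norm_le_pi_norm _ l).trans ((norm_snd_le _).trans (norm_fst_le _))
  have hb1 : ∀ q : Ph × G, ‖base q‖ ≤ ‖q‖ := fun q =>
    (norm_fst_le _).trans (norm_fst_le q)
  constructor
  · set L : (Ph × G) →L[ℝ] Ph × G := (base.prod (ContinuousLinearMap.pi fun l : Fin 12 =>
      if (l : ℕ) < i then sl l else 0)).prod (ContinuousLinearMap.snd ℝ Ph G) with hL
    have hLn : ‖L‖ ≤ 1 := ContinuousLinearMap.opNorm_le_bound _ zero_le_one fun q => by
      rw [one_mul, hL]
      refine max_le (max_le (hb1 q) ((pi_norm_le_iff_of_nonneg (norm_nonneg q)).2 fun l => ?_))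
        (norm_snd_le q)
      simp only [ContinuousLinearMap.prod_apply, ContinuousLinearMap.pi_apply]
      split_ifs
      · exact hsl1 l q
      · simp
    have e : ∀ q, L q + 0 = trunc i q := fun q => by
      rw [add_zero]
      refine Prod.ext (Prod.ext rfl (funext fun l => ?_)) rfl
      simp only [hL, ContinuousLinearMap.prod_apply, ContinuousLinearMap.pi_apply, trunc]
      split_ifs <;> rfl
    have key := h.comp_affine σ (fun _ => L) (fun _ => 0)
      (fun t => mul_le_of_le_one_right (zero_le_one.trans (σ.one_le t)) hLn)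
      fun t q hq => by rw [e]; exact ⟨⟨hq.1.1, hq.1.2.1, trivial⟩, hq.2⟩
    simp only [e] at key
    exact key
  · refine Cost.mean (f := fun t q r => f t (put j r (trunc j q))) ?_
    set L : ((Ph × G) × ℝ) →L[ℝ] Ph × G :=
      ((base.comp (ContinuousLinearMap.fst ℝ (Ph × G) ℝ)).prod
        (ContinuousLinearMap.pi fun l : Fin 12 => if (l : ℕ) = j then
          ContinuousLinearMap.snd ℝ (Ph × G) ℝ
        else if (l : ℕ) < j then (sl l).comp (ContinuousLinearMap.fst ℝ (Ph × G) ℝ) else 0)).prod
        ((ContinuousLinearMap.snd ℝ Ph G).comp (ContinuousLinearMap.fst ℝ (Ph × G) ℝ)) with hL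
    have hLn : ‖L‖ ≤ 1 := ContinuousLinearMap.opNorm_le_bound _ zero_le_one fun p => by
      rw [one_mul, hL]
      refine max_le (max_le ((hb1 p.1).trans (norm_fst_le p))
        ((pi_norm_le_iff_of_nonneg (norm_nonneg p)).2 fun l => ?_))
        ((norm_snd_le p.1).trans (norm_fst_le p))
      simp only [ContinuousLinearMap.prod_apply, ContinuousLinearMap.pi_apply]
      split_ifs
      · exact norm_snd_le p
      · exact (hsl1 l p.1).trans (norm_fst_le p)
      · simp
    have e : ∀ p, L p + 0 = put j p.2 (trunc j p.1) := fun p => by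
      rw [add_zero]
      refine Prod.ext (Prod.ext rfl (funext fun l => ?_)) rfl
      simp only [hL, ContinuousLinearMap.prod_apply, ContinuousLinearMap.pi_apply, put, trunc]
      split_ifs <;> rfl
    have key := h.comp_affine σ.fast (fun _ => L) (fun _ => 0)
      (fun t => mul_le_of_le_one_right (zero_le_one.trans (σ.one_le t)) hLn)
      fun t p hp => by rw [e]; exact ⟨⟨hp.1.1.1, hp.1.1.2.1, trivial⟩, hp.1.2⟩
    simp only [e] at key
    exact key

/-- **The operator gains.** For small unknowns with all levels ready, every component of the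
operator is at most `K ^ -(sRun + bExp + 2)`. -/
theorem psi_cost (hSi : SizeStep) (N N' : ℕ) {T : ℝ} {x : Fam C C2 → Ph × G → Unk}
    (hx : Small N' bExp sRun T V hV x) (hok : ∀ j ≤ 11, MapOK N N' bExp T V hV x j) :
    ∃ T', T ≤ T' ∧ Cost (scQ C C2 N' bExp T' V hV)
      (fun t _ => (Kf t ^ (sRun + bExp + 2))⁻¹) fun t => stageOp (par N) t.1 (x t) := by
  have hb : bMin ≤ bExp := by norm_num [bMin, bExp]
  have hs : sMin ≤ sRun := by norm_num [sMin, sRun, bExp]
  choose Tj hTj hsl using fun j : Fin 12 =>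
    hSi C C2 N N' bExp sRun j hb le_rfl hs j.2 G V hV T x hx (hok j (Nat.le_of_lt_succ j.2))
  obtain ⟨T', hT'⟩ := Finset.exists_le (insert T (Finset.univ.image Tj))
  refine ⟨T', hT' T (mem_insert_self _ _), ?_⟩
  set σ := scQ C C2 N' bExp T' V hV with hσ
  have hslow : ∀ j : Fin 12, Cost σ (fun t q => carryW N (j : ℕ) t q.1.1)
      fun t => slowAt (par N) t.1 (x t) j := fun j =>
    (cost_scQ (hsl j).1 le_rfl (hT' _ (mem_insert_of_mem (mem_image_of_mem _ (mem_univ j))))).mono
      zero_le_one (fun t q _ => carryW_nonneg N j t q.1.1) fun t q _ => by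
        rw [one_mul, carryW]
        refine Finset.single_le_sum (f := fun i => levA (par N) t.1 i q.1.1 ^ 2 *
          (Kf t ^ (200000 * mExp i) / Kf t ^ eExp i)) (fun i _ => ?_)
          (Finset.mem_Ico.2 ⟨le_rfl, j.2⟩)
        have := Kf_pos t
        positivity
  -- what is above each level
  have habove : ∀ d j : ℕ, j + d = 12 → Cost σ (fun t q => carryW N j t q.1.1)
      fun t => above' (par N) t.1 (x t) j := by
    intro d
    induction d with
    | zero =>
      intro j hj
      obtain rfl : j = 12 := by omega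
      exact (Cost.zero fun t q _ => carryW_nonneg N 12 t q.1.1).congr fun t q _ => rfl
    | succ d ih =>
      intro j hj
      have hj12 : j < 12 := by omega
      have hm := (cost_above_trunc (ih (j + 1) (by omega)) j 0).2.mono zero_le_one
        (fun t q _ => carryW_nonneg N j t q.1.1) fun t q _ => by
          rw [one_mul]
          refine sum_le_sum_of_subset_of_nonneg (Finset.Ico_subset_Ico (by omega) le_rfl)
            fun i _ _ => ?_
          have := Kf_pos t
          positivity
      exact ((hslow ⟨j, hj12⟩).add hm).congr fun t q _ => above'_eq _ _ _ hj12 q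
  -- the factors
  have hA := (share_cost (C := C) (C2 := C2) N (N' := N') (b := bExp) T'
    (le_trans (by norm_num [bMin]) hb)).2.2
  have hχ := chi_cost (C := C) (C2 := C2) N' (le_trans (by norm_num [bMin]) hb) T'
  have hinvA : ∀ j, Cost σ (fun t q => (levA (par N) t.1 j q.1.1)⁻¹)
      fun t q => (levA (par N) t.1 j q.1.1)⁻¹ := fun j =>
    cost_of_plane ((hA j).rel_inv fun t z hz =>
      (share_range N hz.2 j).2.2.2.2.2.1)
  have hinvχ : Cost σ (fun t q => (t.1.χ q.1.1 * t.1.χ q.1.1)⁻¹)
      fun t q => (t.1.χ q.1.1 * t.1.χ q.1.1)⁻¹ :=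
    cost_of_plane ((hχ.mul hχ).rel_inv fun t z hz =>
      mul_pos (chi_pos hz.2) (chi_pos hz.2))
  have hW0 : ∀ t, ∀ q ∈ σ.S t, (0 : ℝ) ≤ (Kf t ^ (sRun + bExp + 2))⁻¹ := fun t q _ =>
    inv_nonneg.2 (zero_le_one.trans (one_le_pow_K t _))
  have hc1 : ∀ j : Fin 12, Cost σ (fun t _ => (Kf t ^ (sRun + bExp + 2))⁻¹)
      fun t q => (stageOp (par N) t.1 (x t) q).1 j := fun j => by
    have hU := habove (12 - ((j : ℕ) + 1)) ((j : ℕ) + 1) (by omega)
    obtain ⟨h1, h2⟩ := cost_above_trunc hU (j : ℕ) ((j : ℕ) + 1)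
    have hk : Cost σ (fun t _ => (Kf t ^ eExp j) ^ 2) fun t _ => (Kf t ^ eExp j) ^ 2 :=
      cost_index _ fun t => sq_nonneg _
    refine (((hk.mul (hinvA j)).neg.smul (h1.sub h2)).mono
      (c := 12 * (C 0 + 1) ^ 2) (by positivity) hW0
      fun t q hq => carryW_gain N hq.1.2.1 j).congr fun t q _ => ?_
    simp only [stageOp, div_eq_mul_inv]
    rfl
  have hc2 : Cost σ (fun t _ => (Kf t ^ (sRun + bExp + 2))⁻¹)
      fun t q => (stageOp (par N) t.1 (x t) q).2 := by
    have hU := (cost_above_trunc (habove 12 0 rfl) 0 0).1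
    have hk : Cost σ (fun t _ => Kf t ^ (2 * bExp)) fun t _ => Kf t ^ (2 * bExp) :=
      cost_index _ fun t => zero_le_one.trans (one_le_pow_K t _)
    refine ((hinvχ.smul (hk.smul (hU.clm nominalInvL)).neg).mono
      (c := 12) (by norm_num) hW0
      fun t q hq => (mul_comm _ _).trans_le (carryW_gain0 N hq.1.2.1)).congr fun t q _ => ?_
    funext i
    simp [stageOp, par, Kf, nominalInvL, pow_two, div_eq_mul_inv]
    ring
  refine (((Cost.sum Finset.univ hW0 fun j _ =>
      (hc1 j).clm (ContinuousLinearMap.single ℝ (fun _ : Fin 12 => Sym2) j)).clm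
        (ContinuousLinearMap.inl ℝ (Fin 12 → Sym2) (Fin 3 → ℝ))).add
      (hc2.clm (ContinuousLinearMap.inr ℝ (Fin 12 → Sym2) (Fin 3 → ℝ)))).congr fun t q _ => ?_
  refine Prod.ext ?_ ?_
  · simp only [Prod.fst_add, ContinuousLinearMap.inl_apply, ContinuousLinearMap.inr_apply,
      add_zero, ContinuousLinearMap.single_apply]
    exact (Finset.univ_sum_single _).symm
  · simp [Prod.snd_sum]

end Vale.Agent.P205.Stage
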