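import Vale.Agent.P205.Stage.Specs
import Vale.Agent.P205.Stage.Perturb

/-!
The operator of a stage gains on small admissible families: it keeps periods, means and the
independence of switched-off phases, and commutes with affine slices of the parameter; so its
iterates solve the equation of the stage up to any power of the scale.
-/

noncomputable section

open Set Function Real
open scoped ContDiff

namespace Vale.Agent.P205.Stage

open Wave (Scale Cost mean mean_const mean_add mean_sub mean_smul)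

variable {C : ℕ → ℝ} {C2 : ℕ → ℕ → ℝ} {G : Type} [NormedAddCommGroup G] [NormedSpace ℝ G]

/-- The slot `i` moved by `d`. -/
def bump (i : Fin 12) (d : ℝ) (q : Ph × G) : Ph × G :=
  ((q.1.1, update q.1.2 i (q.1.2 i + d)), q.2)

theorem bump_eq_add (i : Fin 12) (d : ℝ) (q : Ph × G) :
    bump i d q = ((q.1.1, q.1.2 + Pi.single i d), q.2) := by
  refine Prod.ext (Prod.ext rfl (funext fun l => ?_)) rfl
  rcases eq_or_ne l i with rfl | h
  · simp [bump]
  · simp [bump, update_of_ne h, Pi.single_eq_of_ne h]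

theorem trunc_bump (m : ℕ) (i : Fin 12) (d : ℝ) (q : Ph × G) :
    trunc m (bump i d q) = trunc m q ∨ trunc m (bump i d q) = bump i d (trunc m q) := by
  rcases lt_or_ge (i : ℕ) m with h | h
  · refine Or.inr (Prod.ext (Prod.ext rfl (funext fun l => ?_)) rfl)
    rcases eq_or_ne l i with rfl | hl
    · simp [bump, trunc, h]
    · simp [bump, trunc, update_of_ne hl]
  · refine Or.inl (Prod.ext (Prod.ext rfl (funext fun l => ?_)) rfl)
    simp only [bump, trunc]
    split_ifs with hl
    · rw [update_of_ne fun e => by rw [e] at hl; omega]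
    · rfl

theorem put_trunc_bump (m : ℕ) (r : ℝ) (i : Fin 12) (d : ℝ) (q : Ph × G) :
    put m r (trunc m (bump i d q)) = put m r (trunc m q) ∨
      put m r (trunc m (bump i d q)) = bump i d (put m r (trunc m q)) := by
  rcases lt_or_ge (i : ℕ) m with h | h
  · refine Or.inr (Prod.ext (Prod.ext rfl (funext fun l => ?_)) rfl)
    rcases eq_or_ne l i with rfl | hl
    · simp [bump, trunc, put, h, h.ne]
    · simp [bump, trunc, put, update_of_ne hl]
  · refine Or.inl (Prod.ext (Prod.ext rfl (funext fun l => ?_)) rfl)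
    simp only [bump, trunc, put]
    split_ifs with h1 h2
    · rfl
    · rw [update_of_ne fun e => by rw [e] at h2; omega]
    · rfl

theorem put_own (i : Fin 12) (r : ℝ) (q : Ph × G) :
    trunc (i + 1) (put i r (trunc i q)) = put i r (trunc i q) ∧
      trunc i (put i r (trunc i q)) = trunc i q := by
  constructor <;> refine Prod.ext (Prod.ext rfl (funext fun l => ?_)) rfl <;>
    simp only [put, trunc] <;> split_ifs <;> first | rfl | omega

section invariance

variable (p : Par) (I : Input) (x : Ph × G → Unk) {P : R2 → Prop} {V : Set G}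

/-- What is carried is invariant with the slow tensors. -/
theorem carried_bump {i : Fin 12} {d : ℝ}
    (h : ∀ l < 12, ∀ q : Ph × G, P q.1.1 → q.2 ∈ V →
      slowAt p I x l (bump i d q) = slowAt p I x l q) :
    ∀ n ≤ 12, ∀ q : Ph × G, P q.1.1 → q.2 ∈ V →
      carried p I x n (bump i d q) = carried p I x n q := by
  intro n
  induction n with
  | zero => intros; rfl
  | succ n ih =>
    intro hn q hq hv
    simp only [carried, h (11 - n) (by omega) q hq hv]
    congr 2
    funext r
    rcases put_trunc_bump (11 - n) r i d q with e | e <;> rw [e]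
    exact ih (by omega) _ hq hv

variable [FiniteDimensional ℝ G]

/-- The operator is invariant with the slow tensors. -/
theorem stageOp_bump {i : Fin 12} {d : ℝ}
    (h : ∀ l < 12, ∀ q : Ph × G, P q.1.1 → q.2 ∈ V →
      slowAt p I x l (bump i d q) = slowAt p I x l q) {q : Ph × G} (hq : P q.1.1) (hv : q.2 ∈ V) :
    stageOp p I x (bump i d q) = stageOp p I x q := by
  have hc := carried_bump p I x h
  have ha : ∀ m, ∀ q : Ph × G, P q.1.1 → q.2 ∈ V →
      above' p I x m (bump i d q) = above' p I x m q := fun m => hc _ (by omega)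
  have ht : ∀ m m', above' p I x m (trunc m' (bump i d q)) = above' p I x m (trunc m' q) :=
    fun m m' => by
      rcases trunc_bump m' i d q with e | e <;> rw [e]
      exact ha _ _ hq hv
  have hp : ∀ (j : Fin 12) (r : ℝ), above' p I x ((j : ℕ) + 1) (put j r (trunc j (bump i d q))) =
      above' p I x ((j : ℕ) + 1) (put j r (trunc j q)) := fun j r => by
    rcases put_trunc_bump j r i d q with e | e <;> rw [e]
    exact ha _ _ hq hv
  refine Prod.ext (funext fun j => ?_) (funext fun j => ?_)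
  · simp only [stageOp, ht, hp]; rfl
  · simp only [stageOp, ht]; rfl

/-- A component of the operator has no mean in its own phase. -/
theorem mean_stageOp (i : Fin 12) (q : Ph × G)
    (hc : Continuous fun r => (stageOp p I x (put i r (trunc i q))).1 i) :
    mean (fun r => (stageOp p I x (put i r (trunc i q))).1 i) = 0 := by
  set c := -(p.k I i ^ 2 / levA p I i q.1.1) with hc'
  set g : ℝ → Sym2 := fun r => above' p I x ((i : ℕ) + 1) (put i r (trunc i q))
  have e : ∀ r, (stageOp p I x (put i r (trunc i q))).1 i = c • (g r - mean g) := fun r => by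
    obtain ⟨e1, e2⟩ := put_own i r q
    simp only [stageOp, e1, e2, g, hc']
    rfl
  simp only [e] at hc ⊢
  rcases eq_or_ne c 0 with h0 | h0
  · simp [h0]
  · have hg : Continuous g := by
      have h1 := (hc.const_smul c⁻¹).add (continuous_const (y := mean g))
      exact h1.congr fun r => by simp [smul_smul, inv_mul_cancel₀ h0]
    rw [mean_smul, mean_sub hg continuous_const, mean_const, sub_self, smul_zero]

end invariance

section natural

variable [FiniteDimensional ℝ G] {V : Set G} {hV : IsOpen V} {N N' : ℕ} {T : ℝ}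
  {x : Fam C C2 → Ph × G → Unk}

/-- Slow tensors are invariant under the allowed moves of one slot which keep the unknowns. -/
theorem slow_bump (hN : NaturalStep) (hx : Small N' bExp sRun T V hV x)
    (hok : ∀ j ≤ 11, MapOK N N' bExp T V hV x j) (i : Fin 12) (U : Fam C C2 → Set R2)
    (hU : ∀ t, IsOpen (U t)) (D : Fam C C2 → Set ℝ)
    (hD : ∀ t, ∀ d ∈ D t, (∃ m : ℤ, d = m * (2 * π)) ∨ ((i : ℕ) < 9 ∧ U t ⊆ offZone i t))
    (hinv : ∀ t, T ≤ Kf t → ∀ d ∈ D t, ∀ q : Ph × G, q.1.1 ∈ dom N' t ∩ U t → q.2 ∈ V →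
      x t (bump i d q) = x t q) :
    ∃ T', T ≤ T' ∧ ∀ t, T' ≤ Kf t → ∀ d ∈ D t, ∀ l < 12, ∀ q : Ph × G,
      q.1.1 ∈ dom N' t ∩ U t → q.2 ∈ V →
        slowAt (par N) t.1 (x t) l (bump i d q) = slowAt (par N) t.1 (x t) l q := by
  classical
  let bad : Fam C C2 → ℝ → Prop := fun t d => d ∈ D t ∧ ∃ l < 12, ∃ q : Ph × G,
    q.1.1 ∈ dom N' t ∩ U t ∧ q.2 ∈ V ∧
      slowAt (par N) t.1 (x t) l (bump i d q) ≠ slowAt (par N) t.1 (x t) l q
  let d₀ : Fam C C2 → ℝ := fun t => if h : ∃ d, bad t d then h.choose else 0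
  have hd₀ : ∀ t, d₀ t = 0 ∨ d₀ t ∈ D t := fun t => by
    by_cases h : ∃ d, bad t d
    · exact Or.inr (by simpa [d₀, h] using h.choose_spec.1)
    · exact Or.inl (by simp [d₀, h])
  obtain ⟨T', hT', he⟩ := hN C C2 N N' bExp sRun 12 (by norm_num [bMin, bExp]) le_rfl
    (by norm_num [sMin, sRun, bExp]) le_rfl G G V hV V hV (ContinuousLinearMap.id ℝ G) (fun _ => 0)
    (fun t => Pi.single i (d₀ t)) T U x x hU (fun t _ g hg => by simpa using hg)
    (fun t l => by
      rcases eq_or_ne l i with rfl | h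
      · rw [Pi.single_eq_same]
        rcases hd₀ t with h0 | h0
        · exact Or.inl ⟨0, by simp [h0]⟩
        · exact hD t _ h0
      · exact Or.inl ⟨0, by simp [Pi.single_eq_of_ne h]⟩)
    hx (fun l hl => hok l (by omega))
    fun t ht p hp g hg => by
      have e := bump_eq_add (G := G) i (d₀ t) (p, g)
      simp only [ContinuousLinearMap.id_apply, add_zero]
      rcases hd₀ t with h0 | h0
      · simp [h0]
      · simp only at e
        rw [← e]
        exact (hinv t ht _ h0 (p, g) hp hg).symm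
  refine ⟨T', hT', fun t ht d hd l hl q hq hv => ?_⟩
  by_contra hne
  have h : ∃ d, bad t d := ⟨d, hd, l, hl, q, hq, hv, hne⟩
  obtain ⟨-, l', hl', q', hq', hv', hne'⟩ := h.choose_spec
  have := (he t ht q'.1 hq' q'.2 hv' l' (by omega)).2.2 hl'
  simp only [ContinuousLinearMap.id_apply, add_zero, Prod.mk.eta] at this
  rw [show h.choose = d₀ t by simp [d₀, h], bump_eq_add] at hne'
  exact hne' this.symm

end natural

/-- The admissible families of the fixed point: also continuous in the slots. -/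
def admC (C : ℕ → ℝ) (C2 : ℕ → ℕ → ℝ) (N' : ℕ) : Adm (Fam C C2) Ph Unk :=
  fun G _ _ _ V T x => admUnk C C2 N' G V T x ∧
    ∀ t : Fam C C2, T ≤ Kf t → ∀ z ∈ dom N' t, ∀ g ∈ V, Continuous fun ph => x t ((z, ph), g)

theorem continuous_slice {x : Ph × G → Unk} (i : Fin 12) (q : Ph × G)
    (h : Continuous fun ph => x ((q.1.1, ph), q.2)) :
    Continuous fun r => (x (put i r (trunc i q))).1 i := by
  have hc : Continuous fun r : ℝ => (put (G := G) i r (trunc i q)).1.2 :=
    continuous_pi fun l => by simp only [put]; split_ifs <;> fun_prop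
  exact (continuous_apply i).comp (continuous_fst.comp (h.comp hc))

/-- The bound on the size of the operator of a stage. -/
def PsiSize : Prop :=
  ∀ (C : ℕ → ℝ) (C2 : ℕ → ℕ → ℝ) (N N' : ℕ) (G : Type) [NormedAddCommGroup G] [NormedSpace ℝ G]
    [FiniteDimensional ℝ G] (V : Set G) (hV : IsOpen V) (T : ℝ)
    (x : Fam C C2 → Ph × G → Unk), Small N' bExp sRun T V hV x →
      (∀ j ≤ 11, MapOK N N' bExp T V hV x j) → ∃ T', T ≤ T' ∧
        Cost (scQ C C2 N' bExp T' V hV) (fun t _ => (Kf t ^ (sRun + bExp + 2))⁻¹)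
          fun t => stageOp (par N) t.1 (x t)

/-- **The operator of a stage gains.** -/
theorem gain_psi (hR : ReadyStep) (hP : PsiSize) (hN : NaturalStep) (N N' : ℕ) :
    Gain (scPh C C2 N' bExp) Kf (fun t _ => (Kf t ^ sRun)⁻¹) (fun t => (Kf t ^ (bExp + 2))⁻¹)
      (admC C C2 N') (Psi (par N) fun t => t.1) where
  adm_zero G _ _ _ V := ⟨fun _ _ _ _ _ => ⟨fun _ => rfl, fun _ => by simp [Wave.mean],
    fun _ _ _ => rfl, fun _ _ _ _ => rfl⟩, fun _ _ _ _ _ _ => continuous_const⟩
  adm_mono G _ _ _ V T T' x h hx :=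
    ⟨fun t ht => hx.1 t (h.trans ht), fun t ht => hx.2 t (h.trans ht)⟩
  adm_comb G G' _ _ _ _ _ _ V V' L c T x x' hmap hx hx' := by
    refine ⟨fun t ht q hq hv => ?_, fun t ht z hz g hg => ?_⟩
    · obtain ⟨a1, a2, a3, a4⟩ := hx.1 t ht (q.1, L q.2) hq (hmap hv)
      obtain ⟨b1, b2, b3, b4⟩ := hx'.1 t ht (q.1, L q.2) hq (hmap hv)
      refine ⟨fun i => ?_, fun i => ?_, fun i hi hz => ?_, fun i hi hz r => ?_⟩
      · exact congrArg₂ (fun a b : Unk => a + c t q.2 • (b - a)) (a1 i) (b1 i)
      · have h1 := continuous_slice i (q.1, L q.2) (hx.2 t ht _ hq _ (hmap hv))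
        have h2 := continuous_slice i (q.1, L q.2) (hx'.2 t ht _ hq _ (hmap hv))
        show mean (fun r => (x t (put i r (trunc i (q.1, L q.2)))).1 i + c t q.2 •
          ((x' t (put i r (trunc i (q.1, L q.2)))).1 i -
            (x t (put i r (trunc i (q.1, L q.2)))).1 i)) = 0
        have h3 : Continuous fun r => c t q.2 • ((x' t (put i r (trunc i (q.1, L q.2)))).1 i -
            (x t (put i r (trunc i (q.1, L q.2)))).1 i) :=
          (continuous_const (y := c t q.2)).smul (h2.sub h1)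
        rw [mean_add h1 h3, mean_smul, mean_sub h2 h1, a2, b2]
        simp
      · show (x t (put i _ (trunc i (q.1, L q.2)))).1 i + c t q.2 •
          ((x' t (put i _ (trunc i (q.1, L q.2)))).1 i -
            (x t (put i _ (trunc i (q.1, L q.2)))).1 i) = 0
        rw [a3 i hi hz, b3 i hi hz]
        simp
      · exact congrArg₂ (fun a b : Unk => a + c t q.2 • (b - a)) (a4 i hi hz r) (b4 i hi hz r)
    · have h1 := hx.2 t ht z hz _ (hmap hg)
      have h3 : Continuous fun ph =>
          c t g • (x' t ((z, ph), L g) - x t ((z, ph), L g)) :=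
        (continuous_const (y := c t g)).smul ((hx'.2 t ht z hz _ (hmap hg)).sub h1)
      exact h1.add h3
  adm_next G _ _ _ V hV T x hx hax := by
    have hsm : Small N' bExp sRun T V hV x := ⟨hx, hax.1⟩
    obtain ⟨T₁, hT₁, hok⟩ := hR C C2 N N' sRun le_rfl G V hV T x hsm
    have hsm₁ : Small N' bExp sRun T₁ V hV x :=
      ⟨cost_scQ hx le_rfl hT₁, fun t ht => hax.1 t (hT₁.trans ht)⟩
    obtain ⟨T₂, hT₂, hcost⟩ := hP C C2 N N' G V hV T₁ x hsm₁ hok
    have per := fun i : Fin 12 => slow_bump hN hsm₁ hok i (fun _ => univ) (fun _ => isOpen_univ)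
      (fun _ => {2 * π}) (fun _ d hd => Or.inl ⟨1, by simpa using hd⟩)
      fun t ht d hd q hq hv => by
        rw [mem_singleton_iff.1 hd]
        exact (hsm₁.adm t ht q hq.1 hv).1 i
    have off := fun i : Fin 12 => slow_bump hN hsm₁ hok i
      (fun t => if (i : ℕ) < 9 then offZone i t else ∅)
      (fun t => by split_ifs <;> [exact isOpen_interior; exact isOpen_empty])
      (fun _ => {d | d = 0 ∨ (i : ℕ) < 9})
      (fun t d hd => by
        rcases hd with rfl | hi
        · exact Or.inl ⟨0, by simp⟩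
        · exact Or.inr ⟨hi, by simp [hi]⟩)
      fun t ht d _ q hq hv => by
        by_cases hi : (i : ℕ) < 9
        · exact (hsm₁.adm t ht q hq.1 hv).2.2.2 i hi (by simpa [hi] using hq.2) _
        · simp [hi] at hq
    choose Tp hTp hper using per
    choose To hTo hoff using off
    obtain ⟨T', hT'⟩ : ∃ T', T' = T₂ + ∑ i, (|Tp i| + |To i|) + |T₂| := ⟨_, rfl⟩
    have hle : ∀ i, Tp i ≤ T' ∧ To i ≤ T' ∧ T₂ ≤ T' := fun i => by
      have h1 := Finset.single_le_sum (s := Finset.univ)
        (f := fun i => |Tp i| + |To i|) (fun j _ => by positivity) (Finset.mem_univ i)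
      have := le_abs_self (Tp i); have := le_abs_self (To i); have := abs_nonneg (Tp i)
      have := abs_nonneg (To i); have := abs_nonneg T₂; have := neg_abs_le T₂
      subst hT'
      exact ⟨by linarith, by linarith, by linarith⟩
    have hb : ∀ t, T' ≤ Kf t → ∀ (i : Fin 12) (q : Ph × G), q.1.1 ∈ dom N' t → q.2 ∈ V →
        stageOp (par N) t.1 (x t) (bump i (2 * π) q) = stageOp (par N) t.1 (x t) q :=
      fun t ht i q hq hv => stageOp_bump _ _ _ (P := fun z => z ∈ dom N' t ∩ univ) (V := V)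
        (hper i t ((hle i).1.trans ht) _ (mem_singleton _)) ⟨hq, trivial⟩ hv
    have hcT : ∀ t, T' ≤ Kf t → ∀ z ∈ dom N' t, ∀ g ∈ V,
        Continuous fun ph => stageOp (par N) t.1 (x t) ((z, ph), g) := fun t ht z hz g hg =>
      (hcost.smooth t).continuousOn.comp_continuous (by fun_prop) fun ph =>
        ⟨⟨(hle 0).2.2.trans ht, hz, trivial⟩, hg⟩
    refine ⟨T', hT₁.trans (hT₂.trans (hle 0).2.2), fun t ht q hq hv => ?_, hcT⟩
    have hm : ∀ i : Fin 12,
        mean (fun r => (stageOp (par N) t.1 (x t) (put i r (trunc i q))).1 i) = 0 := fun i =>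
      mean_stageOp _ _ _ i q (continuous_slice i q (hcT t ht _ hq _ hv))
    have hind : ∀ i : Fin 12, (i : ℕ) < 9 → q.1.1 ∈ offZone i t → ∀ (d : ℝ) (q' : Ph × G),
        q'.1.1 = q.1.1 → q'.2 ∈ V →
          stageOp (par N) t.1 (x t) (bump i d q') = stageOp (par N) t.1 (x t) q' :=
      fun i hi hz d q' hq' hv' => stageOp_bump _ _ _ (V := V)
        (P := fun z => z ∈ dom N' t ∩ if (i : ℕ) < 9 then offZone i t else ∅)
        (hoff i t ((hle i).2.1.trans ht) d (Or.inr hi))
        (by rw [hq', if_pos hi]; exact ⟨hq, hz⟩) hv'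
    refine ⟨fun i => hb t ht i q hq hv, hm, fun i hi hz => ?_, fun i hi hz r => ?_⟩
    · have e : ∀ r, stageOp (par N) t.1 (x t) (put i r (trunc i q)) =
          stageOp (par N) t.1 (x t) (put i (q.1.2 i) (trunc i q)) := fun r => by
        rw [← hind i hi hz (r - q.1.2 i) (put i (q.1.2 i) (trunc i q)) rfl hv]
        congr 1
        refine Prod.ext (Prod.ext rfl (funext fun l => ?_)) rfl
        rcases eq_or_ne l i with rfl | hl
        · simp [bump, put]
        · have : (l : ℕ) ≠ (i : ℕ) := fun e => hl (Fin.ext e)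
          simp [bump, put, update_of_ne hl, this]
      have := hm i
      simp only [e, mean_const] at this
      exact this
    · show stageOp (par N) t.1 (x t) _ = stageOp (par N) t.1 (x t) q
      rw [← hind i hi hz (r - q.1.2 i) q rfl hv]
      congr 1
      simp [bump]
  gain G _ _ _ V hV T x hx hax := by
    obtain ⟨T₁, hT₁, hok⟩ := hR C C2 N N' sRun le_rfl G V hV T x ⟨hx, hax.1⟩
    obtain ⟨T₂, hT₂, hcost⟩ := hP C C2 N N' G V hV T₁ x
      ⟨cost_scQ hx le_rfl hT₁, fun t ht => hax.1 t (hT₁.trans ht)⟩ hok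
    refine ⟨T₂, hT₁.trans hT₂, hcost.mono zero_le_one (fun t q _ => ?_) fun t q _ => ?_⟩
    · have := Kf_pos t; positivity
    · rw [one_mul, ← mul_inv, ← pow_add, Nat.add_comm (bExp + 2), ← Nat.add_assoc]
  slice G G' _ _ _ _ _ _ V hVo V' hV' L c T x x' hmap hx' hax' he := by
    obtain ⟨T₁, hT₁, hok⟩ := hR C C2 N N' sRun le_rfl G' V' hV' T x' ⟨hx', hax'.1⟩
    obtain ⟨T₂, hT₂, hn⟩ := hN C C2 N N' bExp sRun 12 (by norm_num [bMin, bExp]) le_rfl
      (by norm_num [sMin, sRun, bExp]) le_rfl G G' V hVo V' hV' L c (fun _ => 0) T₁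
      (fun _ => univ) x x' (fun _ => isOpen_univ) (fun t ht => hmap t (hT₁.trans ht))
      (fun _ _ => Or.inl ⟨0, by simp⟩)
      ⟨cost_scQ hx' le_rfl hT₁, fun t ht => hax'.1 t (hT₁.trans ht)⟩
      (fun i hi => hok i (by omega))
      fun t ht p hp g hg => by
        simpa using he t p ⟨hT₁.trans ht, hp.1, trivial⟩ g hg
    refine ⟨T₂, hT₁.trans hT₂, fun t p hp g hg => ?_⟩
    have hs : ∀ l < 12, ∀ p : Ph, p.1 ∈ dom N' t → ∀ g ∈ V,
        slowAt (par N) t.1 (x t) l (p, g) = slowAt (par N) t.1 (x' t) l (p, L g + c t) :=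
      fun l hl p hp' g hg => by
        simpa using (hn t hp.1 p ⟨hp', trivial⟩ g hg l hl.le).2.2 hl
    have hc : ∀ n ≤ 12, ∀ p : Ph, p.1 ∈ dom N' t → ∀ g ∈ V,
        carried (par N) t.1 (x t) n (p, g) = carried (par N) t.1 (x' t) n (p, L g + c t) := by
      intro n
      induction n with
      | zero => intros; rfl
      | succ n ih =>
        intro hn p hp' g hg
        simp only [carried, hs (11 - n) (by omega) p hp' g hg]
        congr 2
        funext r
        exact ih (by omega) (put (11 - n) r (trunc (11 - n) (p, g))).1 hp' g hg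
    have ha : ∀ m (q : Ph), q.1 ∈ dom N' t →
        above' (par N) t.1 (x t) m (q, g) = above' (par N) t.1 (x' t) m (q, L g + c t) :=
      fun m q hq => hc _ (by omega) q hq g hg
    have h1 : ∀ m m', above' (par N) t.1 (x t) m (trunc m' (p, g)) =
        above' (par N) t.1 (x' t) m (trunc m' (p, L g + c t)) := fun m m' =>
      ha m (trunc m' (p, g)).1 hp.2.1
    have h2 : ∀ (j : Fin 12) r, above' (par N) t.1 (x t) ((j : ℕ) + 1) (put j r (trunc j (p, g))) =
        above' (par N) t.1 (x' t) ((j : ℕ) + 1) (put j r (trunc j (p, L g + c t))) := fun j r =>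
      ha _ (put j r (trunc j (p, g))).1 hp.2.1
    refine Prod.ext (funext fun j => ?_) (funext fun j => ?_)
    · simp only [Psi, stageOp, h1, h2]
    · simp only [Psi, stageOp, h1]

/-- **The equation of the stage is solved up to any power of the scale.** -/
theorem solveStep_of (hR : ReadyStep) (hP : PsiSize) (hN : NaturalStep) : SolveStep := by
  intro C C2 N N' n
  have hg := gain_psi (C := C) (C2 := C2) hR hP hN N N'
  have hB : ∀ t : Fam C C2, (Kf t ^ (bExp + 2))⁻¹ * Kf t ^ bExp = (Kf t ^ 2)⁻¹ := fun t => by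
    have := pow_ne_zero bExp (Kf_pos t).ne'
    rw [pow_add]; field_simp
  have hw : ∀ t : Fam C C2, ∀ p ∈ (scPh C C2 N' bExp).S t, 0 ≤ (Kf t ^ sRun)⁻¹ :=
    fun t _ _ => inv_nonneg.2 (pow_nonneg (Kf_pos t).le _)
  have hε : ∀ t : Fam C C2, 0 < (Kf t ^ (bExp + 2))⁻¹ := fun t => inv_pos.2 (pow_pos (Kf_pos t) _)
  have hεB : ∀ t : Fam C C2, (Kf t ^ (bExp + 2))⁻¹ * (scPh C C2 N' bExp).B t ≤ 1 := fun t => by
    show (Kf t ^ (bExp + 2))⁻¹ * Kf t ^ bExp ≤ 1
    rw [hB]
    exact inv_le_one_of_one_le₀ (one_le_pow_K t _)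
  obtain ⟨T, hx, hax, -, hd⟩ := hg.iterates hw hε hεB (Fin 0 → ℝ) univ isOpen_univ n
  let x : Fam C C2 → Ph × (Fin 0 → ℝ) → Unk :=
    iter (Psi (par N) fun t : Fam C C2 => t.1) (Fin 0 → ℝ) n
  have hs : Small N' bExp sRun T univ isOpen_univ x := ⟨hx, hax.1⟩
  refine ⟨T, x, hs, ?_⟩
  have hn : ∀ t : Fam C C2, ∀ q ∈ (scQ C C2 N' bExp T (univ : Set (Fin 0 → ℝ)) isOpen_univ).S t,
      0 ≤ (Kf t ^ n)⁻¹ := fun t _ _ => inv_nonneg.2 (pow_nonneg (Kf_pos t).le _)
  refine (hd.neg.mono zero_le_one hn fun t q _ => ?_).congr fun t q _ => ?_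
  · show (Kf t ^ (bExp + 2))⁻¹ * ((Kf t ^ (bExp + 2))⁻¹ * Kf t ^ bExp) ^ n * (Kf t ^ sRun)⁻¹ ≤ _
    rw [hB, one_mul, inv_pow, ← pow_mul]
    calc (Kf t ^ (bExp + 2))⁻¹ * (Kf t ^ (2 * n))⁻¹ * (Kf t ^ sRun)⁻¹
        ≤ 1 * (Kf t ^ n)⁻¹ * 1 := by
          have := Kf_pos t
          gcongr
          · exact inv_le_one_of_one_le₀ (one_le_pow_K t _)
          · exact one_le_Kf t
          · omega
          · exact inv_le_one_of_one_le₀ (one_le_pow_K t _)
      _ = (Kf t ^ n)⁻¹ := by ring
  · simp [x, iter, Psi]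

end Vale.Agent.P205.Stage
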