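import Vale.Agent.P205.Stage.Ready
import Vale.Agent.P205.Stage.Solve
import Vale.Agent.P205.Stage.BaseStep
import Vale.Agent.P205.Stage.Kernel
import Vale.Agent.P205.Stage.NaturalStep
import Vale.Agent.P205.Stage.PsiSize

/-!
The run of a stage from the steps of the levels.
-/

noncomputable section

namespace Vale.Agent.P205.Stage

/-- All levels are ready. -/
theorem readyStep (hTi : TinyStep) (hF : FreeStep) : ReadyStep :=
  readyStep_of baseStep hTi hF kernelStep naturalStep

/-- The bound on the operator of a stage. -/
theorem psiSize (hSi : SizeStep) : PsiSize :=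
  fun _ _ N N' _ _ _ _ _ _ _ _ hx hok => psi_cost hSi N N' hx hok

/-- The equation of a stage is solved. -/
theorem solveStep (hTi : TinyStep) (hF : FreeStep) (hSi : SizeStep) : SolveStep :=
  solveStep_of (readyStep hTi hF) (psiSize hSi) naturalStep

end Vale.Agent.P205.Stage
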