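import Vale.Agent.P205.Stage.Specs
import Vale.Agent.P205.Stage.Weights
import Vale.Agent.P205.Stage.Telescope
import Vale.Agent.P205.Stage.Eval

/-!
The map of a stage at the phases: the chart vectors of the levels as linear maps of the plane, the
size of the change of the map, and the metric up to the defect of the stage equation and the rests
of the levels.
-/

noncomputable section

open Set Finset Filter Real
open scoped ContDiff Topology

namespace Vale.Agent.P205.Stage

open Wave (V4 ip D gram2 Scale Cost)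

/-- No parameter. -/
abbrev G0 := Fin 0 → ℝ

/-- The exponent of the cost of a derivative at the phases. -/
def gammaT : ℕ := eExp 11 + bExp

theorem vec_add (p : Par) (I : Input) (j : ℕ) (a b : R2) :
    vec p I G0 j (a + b) = vec p I G0 j a + vec p I G0 j b := by
  unfold vec
  refine Prod.ext (Prod.ext rfl ?_) (add_zero _).symm
  funext i
  simp only [Prod.fst_add, Prod.snd_add, Pi.add_apply]
  by_cases h : (i : ℕ) < j
  · simp [h, phase]; ring
  · simp [h]

theorem vec_smul (p : Par) (I : Input) (j : ℕ) (r : ℝ) (a : R2) :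
    vec p I G0 j (r • a) = r • vec p I G0 j a := by
  unfold vec
  refine Prod.ext (Prod.ext rfl ?_) (smul_zero r).symm
  funext i
  simp only [Prod.smul_fst, Prod.smul_snd, Pi.smul_apply]
  by_cases h : (i : ℕ) < j
  · simp [h, phase]; ring
  · simp [h]

/-- The chart vectors at the phases of the levels below `j`, as a linear map. -/
def lv (M : ℕ) (I : Input) (j : ℕ) : R2 →L[ℝ] Ph × G0 :=
  LinearMap.toContinuousLinearMap
    { toFun := vec (par M) I G0 j
      map_add' := vec_add _ _ _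
      map_smul' := vec_smul _ _ _ }

theorem lv_apply (M : ℕ) (I : Input) (j : ℕ) (a : R2) : lv M I j a = vec (par M) I G0 j a := rfl

theorem trunc_lv (M : ℕ) (I : Input) {i j : ℕ} (h : i ≤ j) (a : R2) :
    trunc i (lv M I j a) = lv M I i a := by
  refine Prod.ext (Prod.ext rfl (funext fun l => ?_)) rfl
  simp only [trunc, lv_apply, vec]
  split_ifs <;> first | rfl | omega

theorem eExp_le {i : ℕ} (h : i ≤ 11) : eExp i ≤ eExp 11 := by
  refine monotone_nat_of_le_succ (fun j => ?_) h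
  have h1 := mExp_succ j
  have h2 := (mExp_grows (j + 1)).2
  omega

theorem levCov_le (j : ℕ) : |(levCov j).1| ≤ 2 ∧ |(levCov j).2| ≤ 2 := by
  unfold levCov
  split_ifs
  · obtain ⟨h0, h1⟩ := Tiny.turn_range (tripleOf j)
    simp only [Tiny.cov]
    generalize memberOf j = i
    fin_cases i <;> simp [Tiny.base, abs_le] <;> (repeat' constructor) <;> linarith
  all_goals norm_num

variable {C : ℕ → ℝ} {C2 : ℕ → ℕ → ℝ}

theorem norm_lv_le (M : ℕ) (t : Fam C C2) (j : ℕ) : ‖lv M t.1 j‖ ≤ 5 * Kf t ^ eExp 11 := by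
  have hK := one_le_pow_K t (eExp 11)
  refine ContinuousLinearMap.opNorm_le_bound _ (by linarith) fun a => ?_
  have h1 : ‖a‖ ≤ 5 * Kf t ^ eExp 11 * ‖a‖ :=
    le_mul_of_one_le_left (norm_nonneg a) (by linarith)
  rw [lv_apply, vec, Prod.norm_def, Prod.norm_def, norm_zero]
  refine max_le (max_le h1 ?_) ((norm_nonneg a).trans h1)
  refine (pi_norm_le_iff_of_nonneg ((norm_nonneg a).trans h1)).2 fun i => ?_
  show ‖if (i : ℕ) < j then (par M).k t.1 i * phase i a else 0‖ ≤ _
  split_ifs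
  · obtain ⟨c1, c2⟩ := levCov_le i
    have a0 : |a 0| ≤ ‖a‖ := by simpa [Real.norm_eq_abs] using PiLp.norm_apply_le a 0
    have a1 : |a 1| ≤ ‖a‖ := by simpa [Real.norm_eq_abs] using PiLp.norm_apply_le a 1
    have hp : |phase i a| ≤ 4 * ‖a‖ := by
      unfold phase
      refine (abs_add_le _ _).trans ?_
      rw [abs_mul, abs_mul]
      nlinarith [abs_nonneg (a 0), abs_nonneg (a 1)]
    have hk : (par M).k t.1 i ≤ Kf t ^ eExp 11 :=
      pow_le_pow_right₀ (one_le_Kf t) (eExp_le (by omega))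
    have hk0 : 0 ≤ (par M).k t.1 i := pow_nonneg (Kf_pos t).le _
    rw [Real.norm_eq_abs, abs_mul, abs_of_nonneg hk0]
    refine (mul_le_mul hk hp (abs_nonneg _) (zero_le_one.trans hK)).trans ?_
    nlinarith [norm_nonneg a]
  · rw [norm_zero]; exact (norm_nonneg a).trans h1

/-- The charts in the plane where a derivative costs as much as at the phases. -/
def scY (C : ℕ → ℝ) (C2 : ℕ → ℕ → ℝ) (N' : ℕ) (T : ℝ) : Scale (Fam C C2) R2 where
  S := (scZ C C2 N' 1 T).S
  B t := 8 * Kf t ^ gammaT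
  isOpen := (scZ C C2 N' 1 T).isOpen
  one_le t := by
    have := one_le_pow_K t gammaT
    linarith

theorem scY_mem {N' : ℕ} {T : ℝ} {t : Fam C C2} {z : R2} (hT : T ≤ Kf t) (hz : z ∈ dom N' t) :
    z ∈ (scY C C2 N' T).S t :=
  ⟨hT, hz⟩

/-- A family on the plane on the charts of the phases. -/
theorem to_scY {F : Type} [NormedAddCommGroup F] [NormedSpace ℝ F] {N' b : ℕ} {T T' : ℝ}
    {w : Fam C C2 → R2 → ℝ} {f : Fam C C2 → R2 → F} (h : Cost (scZ C C2 N' b T) w f)
    (hb : b ≤ gammaT) (hT : T ≤ T') : Cost (scY C C2 N' T') w f :=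
  h.rescale _ (fun t => (pow_le_pow_right₀ (one_le_Kf t) hb).trans
      (le_mul_of_one_le_left (zero_le_one.trans (one_le_pow_K t gammaT)) (by norm_num)))
    fun _ _ hp => ⟨hT.trans hp.1, hp.2⟩

theorem scY_mono {F : Type} [NormedAddCommGroup F] [NormedSpace ℝ F] {N' : ℕ} {T T' : ℝ}
    {w : Fam C C2 → R2 → ℝ} {f : Fam C C2 → R2 → F} (h : Cost (scY C C2 N' T) w f)
    (hT : T ≤ T') : Cost (scY C C2 N' T') w f :=
  h.rescale _ (fun _ => le_rfl) fun _ _ hp => ⟨hT.trans hp.1, hp.2⟩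

theorem lv_mem {N' b : ℕ} {T : ℝ} (M : ℕ) {t : Fam C C2} (j : ℕ) {z : R2}
    (hz : z ∈ (scY C C2 N' T).S t) :
    lv M t.1 j z ∈ (scQ C C2 N' b T (univ : Set G0) isOpen_univ).S t :=
  ⟨⟨hz.1, hz.2, trivial⟩, trivial⟩

/-- **Evaluation at the phases.** -/
theorem cost_at {F : Type} [NormedAddCommGroup F] [NormedSpace ℝ F] {N' b : ℕ} {T : ℝ}
    {w : Fam C C2 → Ph × G0 → ℝ} {f : Fam C C2 → Ph × G0 → F}
    (h : Cost (scQ C C2 N' b T (univ : Set G0) isOpen_univ) w f) (hb : b ≤ bExp) (M j : ℕ) :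
    Cost (scY C C2 N' T) (fun t z => w t (lv M t.1 j z)) fun t z => f t (lv M t.1 j z) := by
  have key := h.comp_affine (scY C C2 N' T) (fun t => lv M t.1 j) (fun _ => 0)
    (fun t => ?_) fun t z hz => by simpa using lv_mem M j hz
  · simpa using key
  · show Kf t ^ b * ‖lv M t.1 j‖ ≤ 8 * Kf t ^ gammaT
    refine (mul_le_mul_of_nonneg_left (norm_lv_le M t j)
      (zero_le_one.trans (one_le_pow_K t b))).trans ?_
    have h1 : Kf t ^ b * Kf t ^ eExp 11 ≤ Kf t ^ gammaT := by
      rw [← pow_add]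
      exact pow_le_pow_right₀ (one_le_Kf t) (by unfold gammaT; omega)
    have h2 := one_le_pow_K t gammaT
    linarith

theorem D_lv {F : Type} [NormedAddCommGroup F] [NormedSpace ℝ F] {M : ℕ} {I : Input} {j : ℕ}
    {f : Ph × G0 → F} {g : R2 → F} {z : R2} (hd : DifferentiableAt ℝ f (lv M I j z))
    (he : g =ᶠ[𝓝 z] fun y => f (lv M I j y)) (a : R2) :
    D a g z = D (vec (par M) I G0 j a) f (lv M I j z) := by
  have h1 : HasFDerivAt (fun y => f (lv M I j y)) _ z :=
    hd.hasFDerivAt.comp z (lv M I j).hasFDerivAt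
  simp only [D]
  rw [he.fderiv_eq, h1.fderiv]
  rfl

/-- The map before level `j` at the phases. -/
def yAt (M : ℕ) (I : Input) (x : Ph × G0 → Unk) (j : ℕ) (z : R2) : V4 :=
  mapAt M I x j (lv M I j z)

/-- The metric before level `j`. -/
def metAt (M : ℕ) (I : Input) (x : Ph × G0 → Unk) (j : ℕ) (q : Ph × G0) : Sym2 :=
  ![ip (d1At M I x j (pt 1 0) q) (d1At M I x j (pt 1 0) q),
    ip (d1At M I x j (pt 1 0) q) (d1At M I x j (pt 0 1) q),
    ip (d1At M I x j (pt 0 1) q) (d1At M I x j (pt 0 1) q)]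

/-- What level `j` adds beyond its gain. -/
def restErr (M : ℕ) (I : Input) (x : Ph × G0 → Unk) (j : ℕ) (q : Ph × G0) : Sym2 :=
  metAt M I x (j + 1) q - metAt M I x j (trunc j q) -
    amp (par M) I x j (restAt M I x j) (trunc j q) ^ 2 • sqForm (levCov j).1 (levCov j).2 -
    slowAt (par M) I x j q -
    (restAt M I x (j + 1) q - restAt M I x j (trunc j q)) • sqForm 1 0 -
    (if h : j < 11 then (levA (par M) I j q.1.1 / (par M).k I j ^ 2) •
      (x (put j (slot j q) (trunc j q))).1 ⟨j, by omega⟩ else 0)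

theorem D_mapAt_zero (M : ℕ) (I : Input) (x : Ph × G0 → Unk) {z : R2}
    (hd : DifferentiableAt ℝ I.Z z) (a : R2) :
    d1At M I x 0 a (lv M I 0 z) = D a I.Z z := by
  set pr : Ph × G0 →L[ℝ] R2 :=
    (ContinuousLinearMap.fst ℝ R2 (Fin 12 → ℝ)).comp (ContinuousLinearMap.fst ℝ Ph G0) with hpr
  have h1 : HasFDerivAt (fun q => I.Z (pr q)) _ (lv M I 0 z) :=
    (show HasFDerivAt I.Z (fderiv ℝ I.Z z) (pr (lv M I 0 z)) from hd.hasFDerivAt).comp
      (lv M I 0 z) pr.hasFDerivAt
  rw [d1At, show mapAt M I x 0 = fun q => I.Z (pr q) from rfl, D, h1.fderiv]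
  rfl

/-- The exponents of the rests beat any power of the scale. -/
theorem tiny_weight {K : ℝ} (hK : 1 ≤ K) (N m e : ℕ) (hm : 1 ≤ m) (he : 1000000 * m ≤ e) :
    K ^ (200000 * m) * (K ^ (100000 * m) / K ^ e) ^ (N + 3 + 1) ≤ (K ^ N)⁻¹ := by
  have hK0 : 0 < K := zero_lt_one.trans_le hK
  rw [div_pow, mul_div_assoc', div_le_iff₀ (by positivity), ← pow_mul, ← pow_mul, ← pow_add,
    inv_mul_eq_div, le_div_iff₀ (pow_pos hK0 N), ← pow_add]
  refine pow_le_pow_right₀ hK ?_
  have h1 := Nat.mul_le_mul_right (N + 3 + 1) he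
  have h2 : N ≤ m * N := Nat.le_mul_of_pos_left N hm
  nlinarith

section run

variable {N N' : ℕ} {T : ℝ} {x : Fam C C2 → Ph × G0 → Unk}

/-- The sizes of a level at the phases. -/
theorem move_rest (hSi : SizeStep) (hx : Small N' bExp sRun T univ isOpen_univ x) {j : ℕ}
    (hj : j < 12) (hok : MapOK (N + 3) N' bExp T univ isOpen_univ x j) :
    ∃ T', T ≤ T' ∧
      Cost (scY C C2 N' T') (fun t => t.1.χ)
        (fun t z => yAt (N + 3) t.1 (x t) (j + 1) z - yAt (N + 3) t.1 (x t) j z) ∧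
      Cost (scY C C2 N' T') (fun t _ => (Kf t ^ N)⁻¹)
        fun t z => restErr (N + 3) t.1 (x t) j (lv (N + 3) t.1 (j + 1) z) := by
  obtain ⟨T', hT, -, hR, hM⟩ := hSi C C2 (N + 3) N' bExp sRun j (by norm_num [bMin, bExp]) le_rfl
    (by norm_num [sMin, sRun, bExp]) hj G0 univ isOpen_univ T x hx hok
  obtain ⟨hb, he⟩ := mExp_grows j
  have hM1 := cost_at hM le_rfl (N + 3) (j + 1)
  have hR1 := cost_at hR le_rfl (N + 3) (j + 1)
  refine ⟨T', hT, (hM1.mono (w' := fun t => t.1.χ) zero_le_one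
    (fun t z hz => (chi_pos hz.2).le) fun t z hz => ?_).congr fun t z _ => ?_,
    (hR1.mono (w' := fun t _ => (Kf t ^ N)⁻¹) zero_le_one
      (fun t _ _ => inv_nonneg.2 (zero_le_one.trans (one_le_pow_K t N))) fun t z _ => ?_).congr
      fun t z _ => rfl⟩
  · obtain ⟨-, -, -, -, -, hA0, hA, -⟩ := share_range (N + 3) hz.2 j
    rw [one_mul]
    refine le_trans (mul_le_of_le_one_right hA0.le ?_) hA
    exact (div_le_one (pow_pos (Kf_pos t) _)).2
      (pow_le_pow_right₀ (one_le_Kf t) ((Nat.mul_le_mul_right _ (by norm_num)).trans he))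
  · simp only [yAt, trunc_lv (N + 3) t.1 (Nat.le_succ j) z]
  · rw [one_mul]
    exact tiny_weight (one_le_Kf t) N _ _ (le_trans (by norm_num [bExp]) hb) he

/-- **The map at the phases moves by the cut-off**, each derivative costing as much as there. -/
theorem move_all (hm : ∀ j < 12, Cost (scY C C2 N' T) (fun t => t.1.χ)
    (fun t z => yAt (N + 3) t.1 (x t) (j + 1) z - yAt (N + 3) t.1 (x t) j z)) :
    Cost (scY C C2 N' T) (fun t => t.1.χ)
      fun t z => yAt (N + 3) t.1 (x t) 12 z - t.1.Z z :=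
  (Cost.sum (σ := scY C C2 N' T) (w := fun t => t.1.χ) (range 12)
    (fun t z hz => (chi_pos hz.2).le)
    (f := fun j t z => yAt (N + 3) t.1 (x t) (j + 1) z - yAt (N + 3) t.1 (x t) j z)
    fun j hj => hm j (Finset.mem_range.1 hj)).congr fun t z _ => by
      rw [Finset.sum_range_sub (fun j => yAt (N + 3) t.1 (x t) j z)]
      rfl

/-- **The metric at the phases.** -/
theorem met_yAt {t : Fam C C2} {z : R2} (hz : z ∈ (scY C C2 N' T).S t)
    (hsm : ContDiffOn ℝ ∞ (mapAt (N + 3) t.1 (x t) 12)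
      ((scQ C C2 N' bExp T (univ : Set G0) isOpen_univ).S t))
    (hγ : ∀ i, gam (par (N + 3)) t.1 (x t) i (lv (N + 3) t.1 12 z) ∈ Set.Icc (1 / 32 : ℝ) 17)
    (hrest : |restAt (N + 3) t.1 (x t) 11 (lv (N + 3) t.1 11 z)| ≤ t.1.χ z ^ 2 / 64) :
    met (yAt (N + 3) t.1 (x t) 12) z - met t.1.Z z - t.1.χ z ^ 2 • trioForm t.1.β z =
      ∑ j, defectE (par (N + 3)) t.1 (x t) j (lv (N + 3) t.1 12 z) +
        defectG (par (N + 3)) t.1 (x t) (lv (N + 3) t.1 12 z) +
        ∑ j ∈ range 12, restErr (N + 3) t.1 (x t) j (lv (N + 3) t.1 (j + 1) z) := by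
  set M := N + 3
  set q := lv M t.1 12 z
  have hχ := chi_pos hz.2
  have hd : DifferentiableAt ℝ (mapAt M t.1 (x t) 12) q :=
    (hsm.differentiableOn (by simp)).differentiableAt
      (((scQ C C2 N' bExp T (univ : Set G0) isOpen_univ).isOpen t).mem_nhds (lv_mem M 12 hz))
  have e12 : met (yAt M t.1 (x t) 12) z = metAt M t.1 (x t) 12 q := by
    have e := fun a => D_lv (g := yAt M t.1 (x t) 12) hd EventuallyEq.rfl a
    simp only [met, metAt, e]
    rfl
  have e0 : met t.1.Z z = metAt M t.1 (x t) 0 (lv M t.1 0 z) := by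
    simp only [met, metAt, D_mapAt_zero M t.1 (x t)
      ((t.2.1.smoothZ.differentiableOn (by simp)).differentiableAt
        (t.2.1.open_.mem_nhds hz.2.1))]
  have h := telescope (par M) t.1 (x t) q (metAt M t.1 (x t))
    (fun j => restErr M t.1 (x t) j (lv M t.1 (j + 1) z)) hχ (T_pos M t)
    (fun j => pow_ne_zero _ (Kf_pos t).ne') (Kf_pos t).ne'
    (t.2.1.bend z hz.2.1) (fun i => ⟨(hγ i).1, (hγ i).2.trans (by norm_num)⟩) ?_ fun j hj => ?_
  · rw [trunc_lv _ _ le_rfl, trunc_lv _ _ (Nat.zero_le 12)] at h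
    rw [e12, e0, h]
    show _ - _ - t.1.χ z ^ 2 • Tiny.nominal (fun i => t.1.β i q.1.1) = _
    rw [show q.1.1 = z from rfl]
    abel
  · show restAt M t.1 (x t) 11 (trunc 11 q) ≤ t.1.χ z ^ 2 * _
    rw [trunc_lv _ _ (show 11 ≤ 12 by norm_num)]
    refine (le_abs_self _).trans (hrest.trans ?_)
    rw [div_eq_mul_one_div]
    refine mul_le_mul_of_nonneg_left ?_ (sq_nonneg _)
    nlinarith [(hγ 0).1, sq_nonneg (big (par M) t.1 q.1.1)]
  · have e1 : lv M t.1 (j + 1) z = trunc (j + 1) q := (trunc_lv _ _ (by omega) z).symm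
    have e2 : slowAt (par M) t.1 (x t) j (trunc (j + 1) q) = slowAt (par M) t.1 (x t) j q := by
      rw [← slowAt_trunc, trunc_trunc (Nat.le_succ j), slowAt_trunc]
    simp only [restErr, levelGain, e1, e2, trunc_trunc (Nat.le_succ j),
      slot_trunc (Nat.lt_succ_self j), put_slot]
    rw [show (trunc (j + 1) q).1.1 = q.1.1 from rfl]
    simp only [restAt]
    abel

/-- The nominal tensor as a linear map. -/
def nominalL : (Fin 3 → ℝ) →L[ℝ] Sym2 :=
  LinearMap.toContinuousLinearMap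
    { toFun := Tiny.nominal
      map_add' := fun a b => nominal_add a b
      map_smul' := fun r a => nominal_smul r a }

/-- The defects of the stage equation are below any power of the scale. -/
theorem defect_cost (hres : Cost (scQ C C2 N' bExp T (univ : Set G0) isOpen_univ)
    (fun t _ => (Kf t ^ N)⁻¹) fun t q => x t q - stageOp (par (N + 3)) t.1 (x t) q) :
    (∀ j, Cost (scY C C2 N' T) (fun t _ => (Kf t ^ N)⁻¹)
        fun t z => defectE (par (N + 3)) t.1 (x t) j (lv (N + 3) t.1 12 z)) ∧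
      Cost (scY C C2 N' T) (fun t _ => (Kf t ^ N)⁻¹)
        fun t z => defectG (par (N + 3)) t.1 (x t) (lv (N + 3) t.1 12 z) := by
  set M := N + 3
  have hb : bExp ≤ gammaT := Nat.le_add_left _ _
  have hw : ∀ t : Fam C C2, ∀ z ∈ (scY C C2 N' T).S t, 0 ≤ (Kf t ^ N)⁻¹ :=
    fun t _ _ => inv_nonneg.2 (zero_le_one.trans (one_le_pow_K t N))
  have hle : ∀ (t : Fam C C2) {z}, z ∈ dom N' t → t.1.χ z ≤ |C 0| + 1 := fun t z _ =>
    (t.2.1.chi_le z).trans ((le_abs_self _).trans (le_add_of_nonneg_right zero_le_one))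
  have hk : ∀ j, ∀ t : Fam C C2, 0 ≤ (((par M).k t.1 j) ^ 2)⁻¹ ∧
      (((par M).k t.1 j) ^ 2)⁻¹ ≤ 1 := fun j t =>
    ⟨inv_nonneg.2 (sq_nonneg _), inv_le_one_of_one_le₀ (one_le_pow₀ (one_le_pow_K t _))⟩
  refine ⟨fun j => ?_, ?_⟩
  · by_cases hj : (j : ℕ) < 11
    · have hA := to_scY (T' := T) ((share_cost (C := C) (C2 := C2) M (N' := N') (b := bExp) T
        (by norm_num [bExp])).2.2 j) hb le_rfl
      have hr := ((cost_at hres le_rfl M ((j : ℕ) + 1)).clm
        ((ContinuousLinearMap.proj (R := ℝ) (φ := fun _ : Fin 12 => Sym2) j).comp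
          (ContinuousLinearMap.fst ℝ (Fin 12 → Sym2) (Fin 3 → ℝ))))
      refine (((hA.mul (cost_index (fun t => (((par M).k t.1 j) ^ 2)⁻¹) fun t => (hk j t).1)).smul
        hr).mono (c := |C 0| + 1) (by positivity) hw fun t z hz => ?_).congr fun t z _ => ?_
      · obtain ⟨-, -, -, -, -, hA0, hA1, -⟩ := share_range M hz.2 (j : ℕ)
        refine mul_le_mul_of_nonneg_right ?_ (hw t z hz)
        exact (mul_le_of_le_one_right hA0.le (hk j t).2).trans (hA1.trans (hle t hz.2))
      · simp only [defectE, hj, if_true, trunc_lv M t.1 (show (j : ℕ) + 1 ≤ 12 by omega),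
          div_eq_mul_inv]
        rfl
    · exact (Cost.zero hw).congr fun t z _ => by simp [defectE, hj]
  · have hc := to_scY (T' := T) (chi_cost (C := C) (C2 := C2) N' (show 2 ≤ bExp by norm_num [bExp]) T)
      hb le_rfl
    have hL : ∀ t : Fam C C2, 0 ≤ (Kf t ^ (par M).L)⁻¹ ∧ (Kf t ^ (par M).L)⁻¹ ≤ 1 := fun t =>
      ⟨inv_nonneg.2 (zero_le_one.trans (one_le_pow_K t _)),
        inv_le_one_of_one_le₀ (one_le_pow_K t _)⟩
    have hr := ((cost_at hres le_rfl M 0).clm
      (nominalL.comp (ContinuousLinearMap.snd ℝ (Fin 12 → Sym2) (Fin 3 → ℝ))))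
    refine (((hc.mul hc).mul (cost_index (fun t => (Kf t ^ (par M).L)⁻¹) fun t => (hL t).1)).smul
      hr |>.mono (c := (|C 0| + 1) ^ 2) (by positivity) hw fun t z hz => ?_).congr fun t z _ => ?_
    · refine mul_le_mul_of_nonneg_right ?_ (hw t z hz)
      refine (mul_le_of_le_one_right (mul_self_nonneg _) (hL t).2).trans ?_
      rw [pow_two]
      exact mul_self_le_mul_self (chi_pos hz.2).le (hle t hz.2)
    · simp only [defectG, trunc_lv M t.1 (Nat.zero_le 12), smul_smul, pow_two]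
      rfl

end run

end Vale.Agent.P205.Stage
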