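import Vale.Agent.P205.Chart

/-!
The triples of the tiny levels: three slightly turned copies of the nominal triple of covectors,
positive coefficients for every tensor near the nominal cone, and weights depending on the second
form such that each triple is used only where its three kernels bend.
-/

noncomputable section

open Set Finset Real Filter
open scoped ContDiff Topology

namespace Vale.Agent.P205.Tiny

open Wave (V4 ip)

/-- The second coordinate of the nominal covector `i`. -/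
def base (i : Fin 3) : ℝ := ![0, 1, -1] i
/-- The turning of the triple `k`. -/
def turn (k : Fin 3) : ℝ := (k : ℕ) / 1000000
/-- The covector `i` of the triple `k`. -/
def cov (k i : Fin 3) : ℝ × ℝ := (1 - turn k * base i, turn k + base i)
/-- Its kernel. -/
def ker (k i : Fin 3) : R2 := pt (-(cov k i).2) (cov k i).1
/-- A direction on which it is `1`. -/
def dir (k i : Fin 3) : R2 :=
  pt ((cov k i).1 / ((cov k i).1 ^ 2 + (cov k i).2 ^ 2))
    ((cov k i).2 / ((cov k i).1 ^ 2 + (cov k i).2 ^ 2))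

/-- The nominal tensor. -/
def nominal (β : Fin 3 → ℝ) : Sym2 :=
  β 0 • sqForm 1 0 + β 1 • sqForm 1 1 + β 2 • sqForm 1 (-1)

/-- The coefficients of a tensor in the turned triple `k`. -/
def coefT (k i : Fin 3) (T : Sym2) : ℝ :=
  let t := turn k
  let a := (T 0 + 2 * t * T 1 + t ^ 2 * T 2) / (1 + t ^ 2) ^ 2
  let b := (-t * T 0 + (1 - t ^ 2) * T 1 + t * T 2) / (1 + t ^ 2) ^ 2
  let c := (t ^ 2 * T 0 - 2 * t * T 1 + T 2) / (1 + t ^ 2) ^ 2
  ![a - c, (c + b) / 2, (c - b) / 2] i

theorem turn_range (k : Fin 3) : 0 ≤ turn k ∧ turn k ≤ 1 / 500000 := by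
  fin_cases k <;> norm_num [turn]

theorem cov_ne (k i : Fin 3) : 0 < (cov k i).1 := by
  fin_cases i <;> fin_cases k <;> norm_num [cov, base, turn]

/-- The kernel and the direction of a covector. -/
theorem cov_ker (k i : Fin 3) :
    (cov k i).1 * ker k i 0 + (cov k i).2 * ker k i 1 = 0 ∧
      (cov k i).1 * dir k i 0 + (cov k i).2 * dir k i 1 = 1 := by
  have := cov_ne k i
  have h2 : 0 < (cov k i).1 ^ 2 + (cov k i).2 ^ 2 := by positivity
  constructor
  · simp [ker, pt]; ring
  · simp [dir, pt]; field_simp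

/-- **Exact decomposition.** -/
theorem sum_coefT (k : Fin 3) (T : Sym2) :
    ∑ i, coefT k i T • sqForm (cov k i).1 (cov k i).2 = T := by
  have h : (1 + turn k ^ 2) ≠ 0 := by positivity
  funext j
  fin_cases j <;> simp [Fin.sum_univ_three, coefT, sqForm, cov, base] <;> field_simp <;> ring

theorem coefT_add (k i : Fin 3) (T U : Sym2) : coefT k i (T + U) = coefT k i T + coefT k i U := by
  fin_cases i <;> simp [coefT] <;> ring

theorem coefT_smul (k i : Fin 3) (r : ℝ) (T : Sym2) : coefT k i (r • T) = r * coefT k i T := by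
  fin_cases i <;> simp [coefT] <;> ring

theorem contDiff_coefT (k i : Fin 3) : ContDiff ℝ ∞ (coefT k i) := by
  unfold coefT; fin_cases i <;> simp <;> fun_prop

/-- The coefficients of the nominal cone stay away from zero. -/
theorem coefT_nominal (k i : Fin 3) {β : Fin 3 → ℝ} (hβ : ∀ j, β j ∈ Icc (1 / 64 : ℝ) 32) :
    1 / 256 ≤ coefT k i (nominal β) := by
  obtain ⟨h0, h0'⟩ := hβ 0
  obtain ⟨h1, h1'⟩ := hβ 1
  obtain ⟨h2, h2'⟩ := hβ 2
  obtain ⟨t0, t1⟩ := turn_range k
  fin_cases i <;> simp [coefT, nominal, sqForm] <;> field_simp <;>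
    nlinarith [mul_nonneg t0 (by linarith : (0 : ℝ) ≤ 32 - β 0),
      mul_nonneg t0 (by linarith : (0 : ℝ) ≤ 32 - β 1), mul_nonneg t0 (by linarith : (0 : ℝ) ≤ 32 - β 2),
      mul_nonneg t0 (by linarith : (0 : ℝ) ≤ β 0), mul_nonneg t0 (by linarith : (0 : ℝ) ≤ β 1),
      mul_nonneg t0 (by linarith : (0 : ℝ) ≤ β 2),
      mul_nonneg (sq_nonneg (turn k)) (by linarith : (0 : ℝ) ≤ 32 - β 0),
      mul_nonneg (sq_nonneg (turn k)) (by linarith : (0 : ℝ) ≤ 32 - β 1),
      mul_nonneg (sq_nonneg (turn k)) (by linarith : (0 : ℝ) ≤ 32 - β 2),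
      mul_le_mul_of_nonneg_left t1 t0, sq_nonneg (turn k), pow_le_pow_left₀ t0 t1 4]

/-- The second form, given by its components `xx, xy, yy`, on a vector. -/
def evalQ (q : Fin 3 → V4) (e : R2) : V4 :=
  (e 0 * e 0) • q 0 + (2 * (e 0 * e 1)) • q 1 + (e 1 * e 1) • q 2

/-- The squared size of the components. -/
def sizeQ (q : Fin 3 → V4) : ℝ := ip (q 0) (q 0) + ip (q 1) (q 1) + ip (q 2) (q 2)

/-- The product of the bendings of one triple, of degree `0`. -/
def good (k : Fin 3) (q : Fin 3 → V4) : ℝ :=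
  (∏ i, ip (evalQ q (ker k i)) (evalQ q (ker k i))) / sizeQ q ^ 3

theorem sizeQ_eq_zero {q : Fin 3 → V4} (h : sizeQ q = 0) : q = 0 := by
  have hn : ∀ w : V4, 0 ≤ ip w w := fun w => sum_nonneg fun _ _ => mul_self_nonneg _
  have := hn (q 0); have := hn (q 1); have := hn (q 2)
  have hz : ∀ w : V4, ip w w = 0 → w = 0 := fun w hw => funext fun i =>
    mul_self_eq_zero.1 ((sum_eq_zero_iff_of_nonneg fun i _ => mul_self_nonneg _).1 hw i (mem_univ i))
  unfold sizeQ at h
  funext j
  fin_cases j <;> exact hz _ (by simp; linarith)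

theorem sizeQ_pos {q : Fin 3 → V4} (h : q ≠ 0) : 0 < sizeQ q := by
  refine lt_of_le_of_ne ?_ fun e => h (sizeQ_eq_zero e.symm)
  exact add_nonneg (add_nonneg (sum_nonneg fun _ _ => mul_self_nonneg _)
    (sum_nonneg fun _ _ => mul_self_nonneg _)) (sum_nonneg fun _ _ => mul_self_nonneg _)

theorem good_smul (k : Fin 3) {r : ℝ} (hr : r ≠ 0) (q : Fin 3 → V4) :
    good k (r • q) = good k q := by
  have e : ∀ v : R2, evalQ (r • q) v = r • evalQ q v := fun v => by simp [evalQ]; module
  have es : sizeQ (r • q) = r ^ 2 * sizeQ q := by simp [sizeQ]; ring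
  simp only [good, e, Wave.ip_smul_left, Wave.ip_smul_right, es, Fin.prod_univ_three]
  field_simp

theorem good_nonneg (k : Fin 3) (q : Fin 3 → V4) : 0 ≤ good k q :=
  div_nonneg (prod_nonneg fun _ _ => sum_nonneg fun _ _ => mul_self_nonneg _)
    (pow_nonneg (add_nonneg (add_nonneg (sum_nonneg fun _ _ => mul_self_nonneg _)
      (sum_nonneg fun _ _ => mul_self_nonneg _)) (sum_nonneg fun _ _ => mul_self_nonneg _)) 3)

/-- The slope of a kernel. -/
def slope (k i : Fin 3) : ℝ := -(cov k i).2 / (cov k i).1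

theorem slope_ne {k k' : Fin 3} (hk : k ≠ k') (i i' : Fin 3) : slope k i ≠ slope k' i' := by
  fin_cases k <;> fin_cases k' <;> simp at hk <;> fin_cases i <;> fin_cases i' <;>
    norm_num [slope, cov, base, turn]

/-- A nonzero form bends on all three kernels of some triple. -/
theorem exists_good {q : Fin 3 → V4} (hq : q ≠ 0) : ∃ k, 0 < good k q := by
  by_contra hno
  simp only [not_exists, not_lt] at hno
  have hz : ∀ k, ∃ i, ∀ j : Fin 4,
      slope k i ^ 2 * q 0 j + 2 * slope k i * q 1 j + q 2 j = 0 := fun k => by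
    have h := le_antisymm (hno k) (good_nonneg k q)
    obtain ⟨i, -, hi⟩ := prod_eq_zero_iff.1
      ((div_eq_zero_iff.1 h).resolve_right (pow_pos (sizeQ_pos hq) 3).ne')
    refine ⟨i, fun j => ?_⟩
    have hj := mul_self_eq_zero.1
      ((sum_eq_zero_iff_of_nonneg fun l _ => mul_self_nonneg _).1 hi j (mem_univ j))
    simp [evalQ, ker, pt] at hj
    have := (cov_ne k i).ne'
    rw [slope]
    field_simp
    linear_combination hj
  choose i hi using hz
  refine hq (funext fun l => funext fun j => ?_)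
  have d : ∀ k k', k ≠ k' → slope k (i k) - slope k' (i k') ≠ 0 :=
    fun k k' h => sub_ne_zero.2 (slope_ne h _ _)
  set r0 := slope 0 (i 0)
  set r1 := slope 1 (i 1)
  set r2 := slope 2 (i 2)
  have h0 := hi 0 j
  have h1 := hi 1 j
  have h2 := hi 2 j
  have e01 : (r0 + r1) * q 0 j + 2 * q 1 j = 0 :=
    (mul_eq_zero.1 (show (r0 - r1) * ((r0 + r1) * q 0 j + 2 * q 1 j) = 0 by
      linear_combination h0 - h1)).resolve_left (d 0 1 (by decide))
  have e02 : (r0 + r2) * q 0 j + 2 * q 1 j = 0 :=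
    (mul_eq_zero.1 (show (r0 - r2) * ((r0 + r2) * q 0 j + 2 * q 1 j) = 0 by
      linear_combination h0 - h2)).resolve_left (d 0 2 (by decide))
  have a0 : q 0 j = 0 :=
    (mul_eq_zero.1 (show (r1 - r2) * q 0 j = 0 by linear_combination e01 - e02)).resolve_left
      (d 1 2 (by decide))
  have a1 : q 1 j = 0 := by rw [a0, mul_zero, zero_add] at e01; linarith
  have a2 : q 2 j = 0 := by rw [a0, a1] at h0; linarith
  fin_cases l <;> assumption

theorem contDiffOn_good (k : Fin 3) : ContDiffOn ℝ ∞ (good k) {q | q ≠ 0} := by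
  refine ContDiffOn.div ?_ ?_ fun q hq => (pow_pos (sizeQ_pos hq) 3).ne'
  · exact ContDiff.contDiffOn (by unfold evalQ ip; fun_prop)
  · exact ContDiff.contDiffOn (by unfold sizeQ ip; fun_prop)

/-- One triple always bends by a fixed amount. -/
theorem good_low : ∃ m > 0, ∀ q : Fin 3 → V4, q ≠ 0 → ∃ k, m ≤ good k q := by
  have hS : IsCompact (Metric.sphere (0 : Fin 3 → V4) 1) := isCompact_sphere _ _
  have hSne : ∀ q ∈ Metric.sphere (0 : Fin 3 → V4) 1, q ≠ 0 := fun q hq h => by simp [h] at hq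
  set G := fun q : Fin 3 → V4 => good 0 q + good 1 q + good 2 q
  have hG : ContinuousOn G (Metric.sphere 0 1) :=
    (((contDiffOn_good 0).continuousOn.add (contDiffOn_good 1).continuousOn).add
      (contDiffOn_good 2).continuousOn).mono hSne
  obtain ⟨q₀, hq₀, hmin⟩ := hS.exists_isMinOn (NormedSpace.sphere_nonempty.2 zero_le_one) hG
  have hpos : 0 < G q₀ := by
    obtain ⟨k, hk⟩ := exists_good (hSne q₀ hq₀)
    have := good_nonneg 0 q₀; have := good_nonneg 1 q₀; have := good_nonneg 2 q₀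
    fin_cases k <;> simp [G] at hk ⊢ <;> linarith
  refine ⟨G q₀ / 3, by positivity, fun q hq => ?_⟩
  have hn : ‖q‖ ≠ 0 := norm_ne_zero_iff.2 hq
  have h := hmin (show ‖q‖⁻¹ • q ∈ Metric.sphere (0 : Fin 3 → V4) 1 by
    simp [norm_smul, inv_mul_cancel₀ hn])
  simp only [G, Set.mem_ofPred_eq, good_smul _ (inv_ne_zero hn)] at h
  by_contra hk
  simp only [not_exists, not_le] at hk
  have := hk 0; have := hk 1; have := hk 2
  simp only [G] at *
  linarith

/-- The kernels have bounded size. -/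
theorem eval_le (k i : Fin 3) (q : Fin 3 → V4) :
    ip (evalQ q (ker k i)) (evalQ q (ker k i)) ≤ 200 * sizeQ q := by
  have hb : ker k i 0 ^ 2 ≤ 4 ∧ ker k i 1 ^ 2 ≤ 4 := by
    fin_cases i <;> fin_cases k <;> norm_num [ker, pt, cov, base, turn]
  set x := ker k i 0
  set y := ker k i 1
  have h1 : x ^ 2 * x ^ 2 ≤ 16 := by nlinarith [sq_nonneg x]
  have h2 : x ^ 2 * y ^ 2 ≤ 16 := by nlinarith [sq_nonneg x, sq_nonneg y]
  have h3 : y ^ 2 * y ^ 2 ≤ 16 := by nlinarith [sq_nonneg y]
  simp only [sizeQ, ip, evalQ, mul_sum, ← sum_add_distrib]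
  refine sum_le_sum fun j _ => ?_
  simp only [Pi.add_apply, Pi.smul_apply, smul_eq_mul]
  set a := q 0 j
  set b := q 1 j
  set c := q 2 j
  calc (x * x * a + 2 * (x * y) * b + y * y * c) * (x * x * a + 2 * (x * y) * b + y * y * c)
      ≤ 3 * (x ^ 2 * x ^ 2 * a ^ 2 + 4 * (x ^ 2 * y ^ 2) * b ^ 2 + y ^ 2 * y ^ 2 * c ^ 2) := by
        nlinarith [sq_nonneg (x * x * a - 2 * (x * y) * b), sq_nonneg (x * x * a - y * y * c),
          sq_nonneg (2 * (x * y) * b - y * y * c)]
    _ ≤ 3 * (16 * a ^ 2 + 4 * 16 * b ^ 2 + 16 * c ^ 2) := by gcongr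
    _ ≤ 200 * (a * a + b * b + c * c) := by nlinarith [sq_nonneg a, sq_nonneg b, sq_nonneg c]

/-- **Weights of the tiny triples.** Their squares sum to `1`; where a weight is nonzero all three
kernels of the triple bend by a fixed fraction of the form. -/
theorem exists_weights : ∃ c : ℝ, 0 < c ∧ ∃ w : Fin 3 → (Fin 3 → V4) → ℝ,
    (∀ k, ContDiffOn ℝ ∞ (w k) {q | q ≠ 0}) ∧
    (∀ k, ∀ r : ℝ, r ≠ 0 → ∀ q, w k (r • q) = w k q) ∧
    (∀ k q, 0 ≤ w k q ∧ w k q ≤ 1) ∧
    (∀ q, q ≠ 0 → ∑ k, w k q ^ 2 = 1) ∧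
    ∀ k i, ∀ q, w k q ≠ 0 →
      c * sizeQ q ≤ ip (evalQ q (ker k i)) (evalQ q (ker k i)) := by
  obtain ⟨m, hm, hmg⟩ := good_low
  obtain ⟨L, hL, hLe⟩ : ∃ L > 0, ∀ k i, ∀ q,
      ip (evalQ q (ker k i)) (evalQ q (ker k i)) ≤ L * sizeQ q := ⟨200, by norm_num, eval_le⟩
  set hh := fun (k : Fin 3) (q : Fin 3 → V4) => Real.smoothTransition (2 * good k q / m - 1) with hhdef
  have hh0 : ∀ k q, 0 ≤ hh k q := fun k q => Real.smoothTransition.nonneg _
  have hsum : ∀ q, q ≠ 0 → 1 ≤ ∑ k, hh k q ^ 2 := fun q hq => by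
    obtain ⟨k, hk⟩ := hmg q hq
    refine le_trans ?_ (single_le_sum (f := fun k => hh k q ^ 2) (fun j _ => sq_nonneg _)
      (mem_univ k))
    have : hh k q = 1 := Real.smoothTransition.one_of_one_le (by
      rw [le_sub_iff_add_le, le_div_iff₀ hm]; linarith)
    simp [this]
  refine ⟨m / 2 / L ^ 2, by positivity, fun k q => hh k q / Real.sqrt (∑ j, hh j q ^ 2),
    fun k => ?_, fun k r hr q => by simp only [hhdef, good_smul _ hr], fun k q => ⟨?_, ?_⟩,
    fun q hq => ?_, fun k i q hk => ?_⟩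
  · have hc : ∀ j, ContDiffOn ℝ ∞ (hh j) {q | q ≠ 0} := fun j =>
      Real.smoothTransition.contDiff.comp_contDiffOn
        (((contDiffOn_const.mul (contDiffOn_good j)).div_const m).sub contDiffOn_const)
    exact (hc k).div ((ContDiffOn.sum fun j _ => (hc j).pow 2).sqrt fun q hq =>
      (zero_lt_one.trans_le (hsum q hq)).ne') fun q hq =>
      (Real.sqrt_pos.2 (zero_lt_one.trans_le (hsum q hq))).ne'
  · exact div_nonneg (hh0 k q) (Real.sqrt_nonneg _)
  · exact div_le_one_of_le₀ (Real.le_sqrt_of_sq_le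
      (single_le_sum (f := fun j => hh j q ^ 2) (fun j _ => sq_nonneg _) (mem_univ k)))
      (Real.sqrt_nonneg _)
  · simp only [div_pow, ← sum_div]
    rw [Real.sq_sqrt (by linarith [hsum q hq]), div_self (by linarith [hsum q hq])]
  · have hg : m / 2 < good k q := by
      by_contra hle
      refine hk ?_
      show hh k q / _ = 0
      rw [hhdef]
      simp only []
      rw [Real.smoothTransition.zero_of_nonpos, zero_div]
      rw [sub_nonpos, div_le_one hm]
      linarith [not_lt.1 hle]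
    have hq : q ≠ 0 := fun e => by
      simp [e, good, evalQ, sizeQ] at hg
      linarith
    have hp := sizeQ_pos hq
    set P := fun l => ip (evalQ q (ker k l)) (evalQ q (ker k l))
    have hPn : ∀ l, 0 ≤ P l := fun l => sum_nonneg fun j _ => mul_self_nonneg _
    have hprod : m / 2 * sizeQ q ^ 3 ≤ ∏ l, P l := by
      have := (lt_div_iff₀ (pow_pos hp 3)).1 hg
      exact this.le
    have hb : ∏ l, P l ≤ P i * (L * sizeQ q) ^ 2 := by
      rw [← mul_prod_erase _ _ (mem_univ i)]
      refine mul_le_mul_of_nonneg_left ?_ (hPn i)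
      refine (prod_le_prod (fun l _ => hPn l) fun l _ => hLe k l q).trans (le_of_eq ?_)
      simp [prod_const, card_erase_of_mem]
    show m / 2 / L ^ 2 * sizeQ q ≤ P i
    rw [div_mul_eq_mul_div, div_le_iff₀ (by positivity)]
    refine le_of_mul_le_mul_right ?_ (pow_pos hp 2)
    nlinarith

end Vale.Agent.P205.Tiny
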