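import Vale.Agent.P205.Stage.Fix
import Vale.Agent.P205.Stage.Tiny
import Vale.Agent.P205.Free.Profile
import Vale.Agent.P205.Interfaces

/-!
The twelve levels of a trio: nine tiny legal waves in three turned triples, two free waves on
`x + y` and `x - y`, and the legal wave on `x`. All functions live on the chart with one slot for
each phase, and a free parameter. The operator sends the prescribed oscillatory terms and the
relative change of the coefficients to what they have to be.
-/

noncomputable section

open Set Finset Real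
open scoped ContDiff

namespace Vale.Agent.P205.Stage

open Wave (V4 ip D mean)

/-- The chart with one slot for each phase. -/
abbrev Ph := R2 × (Fin 12 → ℝ)
/-- The unknowns, normalised to be small: the prescribed tensor of a level is `A / k ^ 2` times
its component, the coefficients change by `K ^ -L` times theirs. -/
abbrev Unk := (Fin 12 → Sym2) × (Fin 3 → ℝ)

/-- One instance of the hypotheses of a trio. -/
structure Input where
  /-- The scale. -/
  K : ℝ
  /-- The chart domain. -/
  Ω : Set R2
  /-- The support. -/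
  S : Set R2
  /-- The map. -/
  Z : R2 → V4
  /-- The cut-off. -/
  χ : R2 → ℝ
  /-- The coefficients. -/
  β : Fin 3 → R2 → ℝ

/-- The numerical parameters of a stage. -/
structure Par where
  /-- The order of the waves. -/
  N : ℕ
  /-- The exponents of the frequencies. -/
  e : ℕ → ℕ
  /-- The exponent of the threshold between tiny and big amplitudes. -/
  P : ℕ
  /-- The exponent of the unit for changes of the coefficients. -/
  L : ℕ

/-- The frequency of a level. -/
def Par.k (p : Par) (I : Input) (j : ℕ) : ℝ := I.K ^ p.e j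
/-- The threshold. -/
def Par.T (p : Par) (I : Input) : ℝ := (I.K ^ p.P)⁻¹

/-- The levels `< 9` are tiny, `9, 10` free, `11` legal. -/
def isFree (j : ℕ) : Bool := decide (j = 9 ∨ j = 10)
def tripleOf (j : ℕ) : Fin 3 := ⟨j / 3 % 3, Nat.mod_lt _ (by norm_num)⟩
def memberOf (j : ℕ) : Fin 3 := ⟨j % 3, Nat.mod_lt _ (by norm_num)⟩

/-- The covector of a level. -/
def levCov (j : ℕ) : ℝ × ℝ :=
  if j < 9 then Tiny.cov (tripleOf j) (memberOf j)
  else if j = 9 then (1, 1) else if j = 10 then (1, -1) else (1, 0)
/-- The kernel of the covector of a level. -/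
def levE (j : ℕ) : R2 :=
  if j < 9 then Tiny.ker (tripleOf j) (memberOf j)
  else if j = 9 then pt 1 (-1) else if j = 10 then pt 1 1 else pt 0 1
/-- The normalised direction of a level. -/
def levV (j : ℕ) : R2 :=
  if j < 9 then Tiny.dir (tripleOf j) (memberOf j)
  else if j = 9 then pt 0 1 else if j = 10 then pt 0 (-1) else pt 1 0

/-- The covector on a vector. -/
def phase (j : ℕ) (a : R2) : ℝ := (levCov j).1 * a 0 + (levCov j).2 * a 1
/-- The covector which is `1` on the kernel and `0` on the direction. -/
def psi (j : ℕ) : ℝ × ℝ :=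
  let e := levE j
  let v := levV j
  (v 1 / (e 0 * v 1 - e 1 * v 0), -v 0 / (e 0 * v 1 - e 1 * v 0))

/-- Components `ee, ve, vv` of a tensor at a level. -/
def toComp (j : ℕ) (T : Sym2) : Fin 3 → ℝ :=
  ![qf T (levE j) (levE j), qf T (levV j) (levE j), qf T (levV j) (levV j)]
/-- The tensor with given components at a level. -/
def ofComp (j : ℕ) (c : Fin 3 → ℝ) : Sym2 :=
  let f := levCov j
  let g := psi j
  c 0 • sqForm g.1 g.2 + c 1 • ![2 * (f.1 * g.1), f.1 * g.2 + f.2 * g.1, 2 * (f.2 * g.2)] +
    c 2 • sqForm f.1 f.2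

/-- The coefficients of a tensor in the nominal triple. -/
def nominalInv (T : Sym2) : Fin 3 → ℝ := ![T 0 - T 2, (T 1 + T 2) / 2, (T 2 - T 1) / 2]

section space

variable {G : Type} [NormedAddCommGroup G] [NormedSpace ℝ G]

/-- A chart vector at the phases of the levels below `j`. -/
def vec (p : Par) (I : Input) (G : Type) [NormedAddCommGroup G] (j : ℕ) (a : R2) : Ph × G :=
  ((a, fun i => if (i : ℕ) < j then p.k I i * phase i a else 0), 0)

/-- The slots from `j` on set to zero. -/
def trunc (j : ℕ) (q : Ph × G) : Ph × G :=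
  ((q.1.1, fun i => if (i : ℕ) < j then q.1.2 i else 0), q.2)
/-- The slot `j` set to `r`. -/
def put (j : ℕ) (r : ℝ) (q : Ph × G) : Ph × G :=
  ((q.1.1, fun i => if (i : ℕ) = j then r else q.1.2 i), q.2)
/-- The slot `j`. -/
def slot (j : ℕ) (q : Ph × G) : ℝ := if h : j < 12 then q.1.2 ⟨j, h⟩ else 0

variable (p : Par) (I : Input)

/-- The share of the big waves. -/
def big (z : R2) : ℝ := I.χ z / sqrt (I.χ z ^ 2 + p.T I ^ 2)
/-- The share of the tiny waves. -/
def small (z : R2) : ℝ := p.T I / sqrt (I.χ z ^ 2 + p.T I ^ 2)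
/-- The magnitude of the amplitude of a level. -/
def levA (j : ℕ) (z : R2) : ℝ :=
  if j < 9 then small p I z * I.χ z else if j < 11 then big p I z * I.χ z else I.χ z
/-- The second form of the map before the stage. -/
def bend0 (z : R2) : Fin 3 → V4 :=
  ![sff I.Z z (pt 1 0) (pt 1 0), sff I.Z z (pt 1 0) (pt 0 1), sff I.Z z (pt 0 1) (pt 0 1)]

/-- The weights of the triples. -/
def tinyWeight : Fin 3 → (Fin 3 → V4) → ℝ := Tiny.exists_weights.choose_spec.2.choose

variable (x : Ph × G → Unk)

/-- The coefficients with their relative change. -/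
def gam (i : Fin 3) (q : Ph × G) : ℝ := I.β i q.1.1 + (I.K ^ p.L)⁻¹ * (x (trunc 0 q)).2 i

/-- The amplitude of a level; `α` is what the free levels leave to the legal one. -/
def amp (j : ℕ) (α : Ph × G → ℝ) (q : Ph × G) : ℝ :=
  let z := q.1.1
  let γ := fun i => gam p I x i q
  if j < 9 then tinyWeight (tripleOf j) (bend0 I z) * small p I z * I.χ z *
      sqrt (Tiny.coefT (tripleOf j) (memberOf j) (Tiny.nominal ![γ 0 / 2, γ 1, γ 2]))
  else if j = 9 then big p I z * I.χ z * sqrt (γ 1)
  else if j = 10 then big p I z * I.χ z * sqrt (γ 2)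
  else sqrt (I.χ z ^ 2 * (γ 0 * ((1 + big p I z ^ 2) / 2)) - α q)

/-- The prescribed terms of a level. -/
def errOf (j : ℕ) (n : ℕ) (q : Ph × G) (r : ℝ) : Fin 3 → ℝ :=
  if h : j < 11 then
    let E := fun m => (p.k I j ^ m * (levA p I j q.1.1 / p.k I j ^ 2)) •
      toComp j ((x (put j r (trunc j q))).1 ⟨j, by omega⟩)
    if isFree j = true then (if n = 1 then E 1 else 0) else (if n = 2 then E 2 else 0)
  else 0

/-- The data of a level on the domain `Ω`. -/
def levData (Ω : Set (Ph × G)) (j : ℕ) (X : Ph × G → V4) (α : Ph × G → ℝ) : Wave.Data (Ph × G) where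
  Ω := Ω
  v := vec p I G j (levV j)
  e := vec p I G j (levE j)
  Z := X
  rho := amp p I x j α
  Err := errOf p I x j

variable [FiniteDimensional ℝ G]

/-- The unit vector of `II(v,v)` at the phases of the levels below `j`. -/
def bendDir (j : ℕ) (X : Ph × G → V4) (q : Ph × G) : V4 :=
  let u := perp2 (D (vec p I G j (pt 1 0)) X q) (D (vec p I G j (pt 0 1)) X q)
    (D (vec p I G j (pt 0 1)) (D (vec p I G j (pt 0 1)) X) q)
  (sqrt (ip u u))⁻¹ • u

/-- The free wave of a level. -/
def freeData (Ω : Set (Ph × G)) (j : ℕ) (X : Ph × G → V4) (α : Ph × G → ℝ) :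
    Free.Data (Ph × G) :=
  (Free.Prof.ofNormal (levData p I x Ω j X α) (bendDir p I j X) (1 / 2)).data

/-- The correctors of a level. -/
def cor (j : ℕ) (X : Ph × G → V4) (α : Ph × G → ℝ) : ℕ → Ph × G → ℝ → V4 :=
  if isFree j = true then (freeData p I x univ j X α).upTo (p.N + 1)
  else (levData p I x univ j X α).upTo (p.N + 1)

/-- One level: the map and what the free levels leave to the legal one. -/
def next (j : ℕ) (s : (Ph × G → V4) × (Ph × G → ℝ)) : (Ph × G → V4) × (Ph × G → ℝ) :=
  (fun q => s.1 (trunc j q) + ∑ n ∈ range (p.N + 1), (p.k I j)⁻¹ ^ (n + 1) •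
      cor p I x j s.1 s.2 (n + 1) (trunc j q) (slot j q),
    fun q => s.2 (trunc j q) + if isFree j = true then ∑ n ∈ Finset.Icc 1 p.N, (p.k I j)⁻¹ ^ n *
      (freeData p I x univ j s.1 s.2).oscEE p.N n (trunc j q) (slot j q) else 0)

/-- The maps of the levels. -/
def levels : ℕ → (Ph × G → V4) × (Ph × G → ℝ)
  | 0 => (fun q => I.Z q.1.1, fun _ => 0)
  | j + 1 => next p I x j (levels j)

/-- The coefficients of a level. -/
def coefsAt (j n : ℕ) (q : Ph × G) (r : ℝ) : Fin 3 → ℝ :=
  let W := levData p I x univ j (levels p I x j).1 (levels p I x j).2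
  let Y := cor p I x j (levels p I x j).1 (levels p I x j).2
  ![W.coefEE Y n q r, W.coefVE Y n q r, W.coefVV Y n q r]

/-- The tensor left by a level, free of its phase. -/
def slowAt (j : ℕ) (q : Ph × G) : Sym2 :=
  ofComp j (∑ n ∈ Finset.Icc 1 p.N, (p.k I j)⁻¹ ^ n •
    (mean (coefsAt p I x j n (trunc j q)) - mean (errOf p I x j n (trunc j q))))

/-- The terms collected from the top down to a level: `carried 0` is at the top. -/
def carried : ℕ → Ph × G → Sym2
  | 0 => fun _ => 0
  | i + 1 => fun q => slowAt p I x (11 - i) q +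
      mean fun r => carried i (put (11 - i) r (trunc (11 - i) q))

/-- The terms above level `j`. -/
def above' (j : ℕ) : Ph × G → Sym2 := carried p I x (12 - j)

/-- The operator of the stage on one instance. -/
def stageOp (q : Ph × G) : Unk :=
  (fun j => -(p.k I j ^ 2 / levA p I j q.1.1) • (above' p I x (j + 1) (trunc (j + 1) q) -
      mean fun r => above' p I x (j + 1) (put j r (trunc j q))),
    fun i => -(I.K ^ p.L * nominalInv (above' p I x 0 (trunc 0 q)) i) / I.χ q.1.1 ^ 2)

end space

/-- The map of the stage at the phases. -/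
def atPhases (p : Par) (I : Input) {G : Type} [Zero G] (X : Ph × G → V4) (z : R2) : V4 :=
  X ((z, fun i => p.k I i * phase i z), 0)

/-- The operator on families. -/
def Psi {ι : Type} (p : Par) (inp : ι → Input) : Op ι Ph Unk :=
  fun _ _ _ _ x t => stageOp p (inp t) (x t)

end Vale.Agent.P205.Stage
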