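import Vale.Agent.P205.Stage.Pipe
import Vale.Agent.P205.Stage.Flat

/-!
The family of all instances, the exponents of a stage and its charts: the points where the cut-off
exceeds a negative power of the scale, times the slots and the parameters.
-/

noncomputable section

open Set Real
open scoped ContDiff

namespace Vale.Agent.P205.Stage

open Wave

/-- All instances with given constants. -/
abbrev Fam (C : ℕ → ℝ) (C2 : ℕ → ℕ → ℝ) : Type :=
  {I : Input // TrioData C C2 I.K I.Ω I.S I.Z I.χ I.β ∧ 1 ≤ I.K}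

/-- The exponent of the cost of one derivative at fixed phases. -/
def bExp : ℕ := 10 ^ 11

/-- The exponents of the magnitudes of the tiny levels. -/
def tinyM : ℕ → ℕ
  | 0 => bExp
  | j + 1 => 1000000 * tinyM j + 1

/-- The exponent of the threshold. -/
def pExp : ℕ := 1000000 * tinyM 9

/-- The exponents of the magnitudes of the big levels. -/
def bigM : ℕ → ℕ
  | 0 => tinyM 9
  | i + 1 => 1000000 * bigM i + 3 * pExp + 1

/-- The exponent of the magnitude of a level: it dominates the frequencies below. -/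
def mExp (j : ℕ) : ℕ := if j ≤ 9 then tinyM j else bigM (j - 9)

/-- The exponent of the frequency of a level. -/
def eExp (j : ℕ) : ℕ := mExp (j + 1) - 1

/-- The parameters of a stage of order `N`. -/
def par (N : ℕ) : Par := ⟨N, eExp, pExp, 2 * bExp⟩

theorem bExp_le_tinyM (j : ℕ) : bExp ≤ tinyM j := by
  induction j with
  | zero => rfl
  | succ j ih => simp only [tinyM]; omega

theorem eExp_tiny {j : ℕ} (hj : j < 9) : eExp j = 1000000 * mExp j := by
  simp [eExp, mExp, show j + 1 ≤ 9 by omega, show j ≤ 9 by omega, tinyM]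

theorem eExp_big {j : ℕ} (hj : 9 ≤ j) : eExp j = 1000000 * mExp j + 3 * pExp := by
  obtain ⟨i, rfl⟩ := Nat.exists_eq_add_of_le hj
  have h : mExp (9 + i) = bigM i := by
    unfold mExp
    split_ifs with h
    · obtain rfl : i = 0 := by omega
      rfl
    · congr 1; omega
  rw [h, eExp, mExp, if_neg (by omega), show 9 + i + 1 - 9 = i + 1 by omega, bigM]
  omega

theorem mExp_succ (j : ℕ) : mExp (j + 1) = eExp j + 1 := by
  rcases lt_or_ge j 9 with h | h
  · rw [eExp_tiny h]; simp [mExp, show j + 1 ≤ 9 by omega, show j ≤ 9 by omega, tinyM]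
  · have h1 : 1 ≤ mExp (j + 1) := by
      obtain ⟨i, rfl⟩ := Nat.exists_eq_add_of_le h
      rw [mExp, if_neg (by omega), show 9 + i + 1 - 9 = i + 1 by omega, bigM]
      omega
    rw [eExp]; omega

/-- Every magnitude dominates the cost and grows by more than a factor `10 ^ 6`. -/
theorem mExp_grows (j : ℕ) : bExp ≤ mExp j ∧ 1000000 * mExp j ≤ eExp j := by
  have h : ∀ j, 1000000 * mExp j ≤ eExp j := fun j => by
    rcases lt_or_ge j 9 with h | h
    · rw [eExp_tiny h]
    · rw [eExp_big h]; omega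
  refine ⟨?_, h j⟩
  induction j with
  | zero => simp [mExp, tinyM]
  | succ j ih => rw [mExp_succ]; have := h j; omega

/-- Above the threshold exponent are all tiny frequencies; below are all big ones. -/
theorem pExp_sep : pExp = 1000000 * mExp 9 ∧ (∀ j, j < 9 → eExp j < mExp 9) ∧
    ∀ j, 9 ≤ j → 3 * pExp ≤ eExp j := by
  refine ⟨by simp [pExp, mExp], fun j hj => ?_, fun j hj => by rw [eExp_big hj]; omega⟩
  have mono : ∀ i i', i ≤ i' → mExp i ≤ mExp i' := fun i i' h => by
    induction h with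
    | refl => exact le_rfl
    | step _ ih => refine ih.trans ?_; rename_i m _; rw [mExp_succ]; have := (mExp_grows m).2; omega
  have := mono (j + 1) 9 hj
  rw [mExp_succ] at this
  omega

variable {C : ℕ → ℝ} {C2 : ℕ → ℕ → ℝ}

/-- The scale of an instance. -/
def Kf (t : Fam C C2) : ℝ := t.1.K

theorem one_le_Kf (t : Fam C C2) : 1 ≤ Kf t := t.2.2
theorem one_le_pow_K (t : Fam C C2) (b : ℕ) : 1 ≤ Kf t ^ b := one_le_pow₀ (one_le_Kf t)
theorem Kf_pos (t : Fam C C2) : 0 < Kf t := zero_lt_one.trans_le (one_le_Kf t)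

/-- A power of the scale eventually absorbs a constant and a smaller power. -/
theorem eventually_pow (c : ℝ) {a b : ℕ} (h : a < b) :
    ∃ T, ∀ t : Fam C C2, T ≤ Kf t → c * Kf t ^ a ≤ Kf t ^ b := by
  refine ⟨c, fun t ht => ?_⟩
  calc c * Kf t ^ a ≤ Kf t * Kf t ^ a :=
        mul_le_mul_of_nonneg_right ht (zero_le_one.trans (one_le_pow_K t a))
    _ ≤ Kf t ^ b := by rw [← pow_succ']; exact pow_le_pow_right₀ (one_le_Kf t) h

/-- Where the stage lives: the cut-off exceeds `K ^ -N'`. -/
def dom (N' : ℕ) (t : Fam C C2) : Set R2 := {z ∈ t.1.Ω | (Kf t ^ N')⁻¹ < t.1.χ z}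

theorem isOpen_dom (N' : ℕ) (t : Fam C C2) : IsOpen (dom N' t) :=
  t.2.1.open_.inter (isOpen_lt continuous_const t.2.1.smoothChi.continuous)

theorem chi_pos {N' : ℕ} {t : Fam C C2} {z : R2} (hz : z ∈ dom N' t) : 0 < t.1.χ z :=
  (inv_pos.2 (pow_pos (Kf_pos t) N')).trans hz.2

theorem dom_subset (N' : ℕ) (t : Fam C C2) : dom N' t ⊆ t.1.S := fun z hz => by
  by_contra h
  have := chi_pos hz
  rw [t.2.1.supp z h] at this
  exact lt_irrefl 0 this

/-- The charts in the plane with the cost `K ^ b`. -/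
def sc (C : ℕ → ℝ) (C2 : ℕ → ℕ → ℝ) (N' b : ℕ) : Scale (Fam C C2) R2 where
  S := dom N'
  B t := Kf t ^ b
  isOpen := isOpen_dom N'
  one_le t := one_le_pow_K t b

/-- The charts with the slots. -/
def scPh (C : ℕ → ℝ) (C2 : ℕ → ℕ → ℝ) (N' b : ℕ) : Scale (Fam C C2) Ph where
  S t := dom N' t ×ˢ univ
  B t := Kf t ^ b
  isOpen t := (isOpen_dom N' t).prod isOpen_univ
  one_le t := one_le_pow_K t b

/-- The charts of a family with a parameter, above a threshold of the scale. -/
def scQ (C : ℕ → ℝ) (C2 : ℕ → ℕ → ℝ) (N' b : ℕ) (T : ℝ) {G : Type} [NormedAddCommGroup G]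
    [NormedSpace ℝ G] (V : Set G) (hV : IsOpen V) : Scale (Fam C C2) (Ph × G) :=
  withParam (above (scPh C C2 N' b) Kf T) V hV

/-- The set where the weight of the triple of a tiny level vanishes nearby. -/
def offZone (j : ℕ) (t : Fam C C2) : Set R2 :=
  interior {z | tinyWeight (tripleOf j) (bend0 t.1 z) = 0}

/-- The admissible families: periodic in every phase, no mean in their own phase, and, where the
weight of the triple of a tiny level vanishes, without its terms and independent of its phase. -/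
def admUnk (C : ℕ → ℝ) (C2 : ℕ → ℕ → ℝ) (N' : ℕ) : Adm (Fam C C2) Ph Unk :=
  fun G _ _ _ V T x => ∀ t : Fam C C2, T ≤ Kf t → ∀ q : Ph × G, q.1.1 ∈ dom N' t → q.2 ∈ V →
    (∀ i : Fin 12, x t ((q.1.1, Function.update q.1.2 i (q.1.2 i + 2 * π)), q.2) = x t q) ∧
    (∀ i : Fin 12, mean (fun r => (x t (put i r (trunc i q))).1 i) = 0) ∧
    (∀ i : Fin 12, (i : ℕ) < 9 → q.1.1 ∈ offZone i t →
      (x t (put i (q.1.2 i) (trunc i q))).1 i = 0) ∧
    ∀ i : Fin 12, (i : ℕ) < 9 → q.1.1 ∈ offZone i t →
      ∀ r, x t ((q.1.1, Function.update q.1.2 i r), q.2) = x t q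

end Vale.Agent.P205.Stage
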